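import Crest.Agent.R169.FrobScale

/-! # task R169/Split -/

set_option autoImplicit false
set_option linter.unusedSectionVars false
open Filter Module IntermediateField

namespace Crest.Agent.R169

section aux
variable {k 𝕂 : Type} [Field k] [Field 𝕂] [Algebra k 𝕂]
  {E : Type} [AddCommGroup E] [Module k E] [Module 𝕂 E] [IsScalarTower k 𝕂 E]
  {E₁ : Type} [AddCommGroup E₁] [Module k E₁] [Module 𝕂 E₁] [IsScalarTower k 𝕂 E₁]
  {E₂ : Type} [AddCommGroup E₂] [Module k E₂] [Module 𝕂 E₂] [IsScalarTower k 𝕂 E₂]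

theorem split_maps {r : ℕ} (F : Submodule 𝕂 (Fin r → 𝕂)) :
    ∃ (a b : ℕ) (i : (Fin a → 𝕂) →ₗ[𝕂] (Fin r → 𝕂)) (π : (Fin r → 𝕂) →ₗ[𝕂] (Fin b → 𝕂)),
      a = finrank 𝕂 F ∧ a + b = r ∧ Function.Injective i ∧ LinearMap.range i = F ∧
      Function.Surjective π ∧ LinearMap.ker π = F := by
  refine ⟨finrank 𝕂 F, finrank 𝕂 ((Fin r → 𝕂) ⧸ F),
    F.subtype ∘ₗ (Module.finBasis 𝕂 F).equivFun.symm.toLinearMap,
    (Module.finBasis 𝕂 ((Fin r → 𝕂) ⧸ F)).equivFun.toLinearMap ∘ₗ F.mkQ, rfl, ?_, ?_, ?_, ?_, ?_⟩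
  · rw [add_comm, Submodule.finrank_quotient_add_finrank]; simp
  · exact F.injective_subtype.comp (LinearEquiv.injective _)
  · rw [LinearMap.range_comp, LinearEquiv.range, Submodule.map_top, Submodule.range_subtype]
  · exact (Module.finBasis 𝕂 ((Fin r → 𝕂) ⧸ F)).equivFun.surjective.comp F.mkQ_surjective
  · rw [LinearEquiv.ker_comp, Submodule.ker_mkQ]

theorem split_spanF_mapF (φ : E →ₗ[𝕂] E₁) (V : Fam k E) :
    spanF 𝕂 (mapF φ V) = (spanF 𝕂 V).map φ := by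
  rw [spanF, spanF, Submodule.map_span, Set.image_iUnion]
  rfl

theorem split_mapF_comapF (φ : E₁ →ₗ[𝕂] E) (V : Fam k E) :
    mapF φ (comapF φ V) = cut V (LinearMap.range φ) := by
  funext m
  ext w
  rw [mem_mapF, mem_cut]
  constructor
  · rintro ⟨v, hv, rfl⟩
    exact ⟨hv, v, rfl⟩
  · rintro ⟨hw, v, rfl⟩
    exact ⟨v, hw, rfl⟩

theorem split_congr (S : PreSurf k 𝕂) {U : Fam k E} {V : Fam k E₁}
    (e : ∀ᶠ m in atTop, hf U m = hf V m) : rk U = rk V ∧ S.DD U = S.DD V := by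
  obtain ⟨h1, h2, -⟩ := inv_congr e
  exact ⟨h1, by simp only [PreSurf.DD, h1, h2]⟩

theorem split_add (S : PreSurf k 𝕂) {U : Fam k E₁} {V : Fam k E₂} {W : Fam k E} (hU : Good U)
    (hV : Good V) (e : ∀ᶠ m in atTop, hf W m = hf U m + hf V m) :
    rk W = rk U + rk V ∧ S.DD W = S.DD U + S.DD V ∧ S.SS W = S.SS U + S.SS V := by
  obtain ⟨h1, h2, h3⟩ := inv_add hU hV e
  refine ⟨h1, ?_, ?_⟩
  · simp only [PreSurf.DD, h1, h2]; ring
  · simp only [PreSurf.SS, HP, h1, h2, h3]; ring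

theorem split_abstract {S : PreSurf k 𝕂} {W : Fam k E} {W₁ : Fam k E₁} (hW : S.Lat W)
    (hW₁ : S.Lat W₁) (i : E₁ →ₗ[𝕂] E) (π : E →ₗ[𝕂] E₂) (hi : Function.Injective i)
    (hr : LinearMap.range i = LinearMap.ker π)
    (h : ∀ᶠ j in atTop, mapF i W₁ j = cut W (LinearMap.ker π) j) :
    (rk W = rk W₁ + rk (mapF π W) ∧ S.DD W = S.DD W₁ + S.DD (mapF π W) ∧
      S.SS W = S.SS W₁ + S.SS (mapF π W)) ∧
    (∀ F₁ : Submodule 𝕂 E₁, ∃ F' : Submodule 𝕂 E,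
      rk (cut W₁ F₁) = rk (cut W F') ∧ S.DD (cut W₁ F₁) = S.DD (cut W F')) ∧
    (∀ F₂ : Submodule 𝕂 E₂, ∃ F' : Submodule 𝕂 E,
      rk (cut (mapF π W) F₂) = rk (cut W F') - rk W₁ ∧
      S.DD (cut (mapF π W) F₂) = S.DD (cut W F') - S.DD W₁) := by
  have hinj : ∀ (U : Fam k E₁) (j : ℤ), hf (mapF i U) j = hf U j := fun U j =>
    hf_mapF_of_injOn i U j fun v _ hv => hi (by rw [hv, map_zero])
  have h1 : ∀ᶠ j in atTop, hf (cut W (LinearMap.ker π)) j = hf W₁ j := h.mono fun j hj => by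
    rw [← hinj W₁ j]; unfold hf; rw [hj]
  refine ⟨split_add S hW₁.good (hW.mapF π).good (h1.mono fun j hj => ?_), fun F₁ => ?_,
    fun F₂ => ?_⟩
  · have := hW.good.fd j
    rw [hf_mapF_add_cut π W j, hj, add_comm]
  · refine ⟨F₁.map i, split_congr S (h.mono fun j hj => ?_)⟩
    have : mapF i (cut W₁ F₁) j = cut W (F₁.map i) j := by
      ext w
      rw [mem_mapF, mem_cut]
      constructor
      · rintro ⟨v, hv, rfl⟩
        have : i v ∈ cut W (LinearMap.ker π) j := hj ▸ mem_mapF.2 ⟨v, hv.1, rfl⟩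
        exact ⟨this.1, v, hv.2, rfl⟩
      · rintro ⟨hw, v, hv, rfl⟩
        have : i v ∈ mapF i W₁ j := hj ▸ mem_cut.2 ⟨hw, hr ▸ LinearMap.mem_range_self i v⟩
        obtain ⟨v', hv', e⟩ := mem_mapF.1 this
        rw [hi e] at hv'
        exact ⟨v, ⟨hv', hv⟩, rfl⟩
    rw [← hinj (cut W₁ F₁) j]; unfold hf; rw [this]
  · refine ⟨F₂.comap π, ?_⟩
    have e1 : mapF π (cut W (F₂.comap π)) = cut (mapF π W) F₂ := by
      funext j
      ext w
      rw [mem_mapF, mem_cut, mem_mapF]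
      constructor
      · rintro ⟨v, hv, rfl⟩
        exact ⟨⟨v, hv.1, rfl⟩, hv.2⟩
      · rintro ⟨⟨v, hv, rfl⟩, hw⟩
        exact ⟨v, ⟨hv, hw⟩, rfl⟩
    have e2 : cut (cut W (F₂.comap π)) (LinearMap.ker π) = cut W (LinearMap.ker π) := by
      funext j
      ext w
      simp only [mem_cut]
      refine ⟨fun h => ⟨h.1.1, h.2⟩, fun h => ⟨⟨h.1, ?_⟩, h.2⟩⟩
      rw [Submodule.mem_comap, LinearMap.mem_ker.1 h.2]
      exact zero_mem _
    obtain ⟨a1, a2, -⟩ := split_add S (W := cut W (F₂.comap π)) hW₁.good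
      ((hW.mapF π).cut F₂).good (h1.mono fun j hj => by
        have := (hW.cut (F₂.comap π)).good.fd j
        rw [hf_mapF_add_cut π _ j, e1, e2, hj, add_comm])
    exact ⟨by linarith, by linarith⟩

end aux

variable {k 𝕂 : Type} [Field k] [Field 𝕂] [Algebra k 𝕂] [IsAlgClosed k] {S : Surf k 𝕂}
  {p : ℕ} [Fact p.Prime] [CharP 𝕂 p] {r : ℕ}

/-- Sub- and quotient lattice along a subspace, in coordinates, with all Frobenius pull-backs. -/
theorem exists_split (Pd : PData k S.Γ p) {V : Fam k (Fin r → 𝕂)} (hV : S.Lat V) (hF : Full 𝕂 V)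
    (F : Submodule 𝕂 (Fin r → 𝕂)) :
    ∃ (a b : ℕ) (V₁ : Fam k (Fin a → 𝕂)) (V₂ : Fam k (Fin b → 𝕂)), a = finrank 𝕂 F ∧ a + b = r ∧
      S.Lat V₁ ∧ Full 𝕂 V₁ ∧ S.Lat V₂ ∧ Full 𝕂 V₂ ∧
      rk V₁ = rk (cut V F) ∧ S.DD V₁ = S.DD (cut V F) ∧
      ∀ m : ℕ,
        (rk (S.fr p m V) = rk (S.fr p m V₁) + rk (S.fr p m V₂) ∧
          S.DD (S.fr p m V) = S.DD (S.fr p m V₁) + S.DD (S.fr p m V₂) ∧
          S.SS (S.fr p m V) = S.SS (S.fr p m V₁) + S.SS (S.fr p m V₂)) ∧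
        (∀ F₁ : Submodule 𝕂 (Fin a → 𝕂), ∃ F' : Submodule 𝕂 (Fin r → 𝕂),
          rk (cut (S.fr p m V₁) F₁) = rk (cut (S.fr p m V) F') ∧
          S.DD (cut (S.fr p m V₁) F₁) = S.DD (cut (S.fr p m V) F')) ∧
        (∀ F₂ : Submodule 𝕂 (Fin b → 𝕂), ∃ F' : Submodule 𝕂 (Fin r → 𝕂),
          rk (cut (S.fr p m V₂) F₂) = rk (cut (S.fr p m V) F') - rk (S.fr p m V₁) ∧
          S.DD (cut (S.fr p m V₂) F₂) = S.DD (cut (S.fr p m V) F') - S.DD (S.fr p m V₁)) := by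
  obtain ⟨a, b, i, π, ha, hab, hi, hri, hπ, hkπ⟩ := split_maps F
  have hV₁ : S.Lat (comapF i V) := hV.comapF i hi
  have hc := split_congr S.toPreSurf (U := comapF i V) (V := cut V F)
    (Eventually.of_forall fun j => by rw [hf_comapF i hi, hri])
  refine ⟨a, b, comapF i V, mapF π V, ha, hab, hV₁, ?_, hV.mapF π, ?_, hc.1, hc.2, fun m => ?_⟩
  · refine Submodule.map_injective_of_injective hi ?_
    rw [← split_spanF_mapF, split_mapF_comapF, S.spanF_cut hV.stab, hF, Submodule.map_top,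
      top_inf_eq]
  · rw [Full, split_spanF_mapF, hF, Submodule.map_top, LinearMap.range_eq_top.2 hπ]
  · obtain ⟨i', hi1, hi2, hi3⟩ := exists_twist (p := p) m i
    obtain ⟨π', hπ1, hπ2, -⟩ := exists_twist (p := p) m π
    have hi' : Function.Injective i' := by
      rw [← LinearMap.ker_eq_bot, hi2, LinearMap.ker_eq_bot.2 hi, frS]
      simp
    have e2 : S.fr p m (mapF π V) = mapF π' (S.fr p m V) :=
      frobF_mapF _ _ _ π π' hπ1 V
    have e1 : S.fr p m (cut V F) = mapF i' (S.fr p m (comapF i V)) := by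
      rw [← hri, ← split_mapF_comapF]
      exact frobF_mapF _ _ _ i i' hi1 _
    rw [e2]
    refine split_abstract (hV.fr m) (hV₁.fr m) i' π' hi' (by rw [hi3, hπ2, hri, hkπ]) ?_
    rw [← e1, hπ2, hkπ]
    exact PreSurf.fr_cut Pd hV m F

end Crest.Agent.R169
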