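import Crest.Agent.R169.BGBase
import Crest.Agent.R169.Split

/-! # task R169/BG -/

set_option autoImplicit false
set_option linter.unusedSectionVars false
open Filter Module IntermediateField

namespace Crest.Agent.R169

theorem BG_identity {N₁ N₂ D₁ D₂ a b q S₁ S₂ : ℝ} (h₁ : 0 < N₁) (h₂ : 0 < N₂) :
    S₁ + S₂ - (q * (D₁ + D₂)) ^ 2 / (2 * (N₁ + N₂)) =
      (S₁ - (q * D₁) ^ 2 / (2 * N₁)) + (S₂ - (q * D₂) ^ 2 / (2 * N₂)) +
      q ^ 2 * ((N₁ + N₂) / 2 * (b - (D₁ + D₂) / (N₁ + N₂)) * ((D₁ + D₂) / (N₁ + N₂) - a) -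
        N₁ / 2 * (b - D₁ / N₁) * (D₁ / N₁ - a) - N₂ / 2 * (b - D₂ / N₂) * (D₂ / N₂ - a)) := by
  have : N₁ + N₂ ≠ 0 := by positivity
  field_simp
  ring

theorem BG_eta (N r c δ ε : ℝ) (hδ : 0 < δ) (hε : 0 < ε) :
    ∃ η : ℝ, 0 < η ∧ η < δ ∧ N / 2 * (η * r * c + (η * r) ^ 2) ≤ ε := by
  have h1 : Tendsto (fun η : ℝ => N / 2 * (η * r * c + (η * r) ^ 2)) (nhds 0) (nhds 0) := by
    have : Continuous fun η : ℝ => N / 2 * (η * r * c + (η * r) ^ 2) := by fun_prop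
    simpa using this.tendsto 0
  have h2 : ∀ᶠ η : ℝ in nhds 0, N / 2 * (η * r * c + (η * r) ^ 2) ≤ ε :=
    h1.eventually (ge_mem_nhds hε)
  have h3 : ∀ᶠ η : ℝ in nhds 0, η < δ := gt_mem_nhds hδ
  obtain ⟨η, hη⟩ := (((h2.and h3).filter_mono nhdsWithin_le_nhds).and
    (self_mem_nhdsWithin (a := (0 : ℝ)) (s := Set.Ioi 0))).exists
  exact ⟨η, hη.2, hη.1.2, hη.1.1⟩

variable {k 𝕂 : Type} [Field k] [Field 𝕂] [Algebra k 𝕂] [IsAlgClosed k] {S : Surf k 𝕂}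
  {p : ℕ} [Fact p.Prime] [CharP 𝕂 p]

theorem BG_cut_bot {r : ℕ} (W : Fam k (Fin r → 𝕂)) :
    rk (cut W (⊥ : Submodule 𝕂 (Fin r → 𝕂))) = 0 ∧
      S.DD (cut W (⊥ : Submodule 𝕂 (Fin r → 𝕂))) = 0 := by
  rw [cut_bot]
  obtain ⟨h1, h2, -⟩ := inv_bot (k := k) (E := Fin r → 𝕂)
  exact ⟨h1, by simp [PreSurf.DD, h1, h2]⟩

theorem BG_e_le {r : ℕ} {W : Fam k (Fin r → 𝕂)} (hW : S.Lat W) (hF : Full 𝕂 W)
    {F : Submodule 𝕂 (Fin r → 𝕂)} (h : F ≠ ⊥) : S.e ≤ rk (cut W F) := by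
  rw [S.rk_cut hW hF]
  have h1 : 1 ≤ finrank 𝕂 F := Nat.one_le_iff_ne_zero.2 fun h0 => h (Submodule.finrank_eq_zero.1 h0)
  exact le_mul_of_one_le_right S.e_pos.le (by exact_mod_cast h1)

theorem BG_e_le' {r : ℕ} {W : Fam k (Fin r → 𝕂)} (hW : S.Lat W) (hF : Full 𝕂 W)
    {F : Submodule 𝕂 (Fin r → 𝕂)} (h : F ≠ ⊤) : S.e ≤ rk W - rk (cut W F) := by
  rw [S.rk_cut hW hF, S.rk_full hW hF]
  have h1 : finrank 𝕂 F + 1 ≤ Fintype.card (Fin r) := by
    have := Submodule.finrank_lt h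
    rw [Module.finrank_fintype_fun_eq_card] at this
    exact this
  have h2 : (finrank 𝕂 F : ℝ) + 1 ≤ Fintype.card (Fin r) := by exact_mod_cast h1
  nlinarith [S.e_pos]

theorem BG_rk_le {r : ℕ} {W : Fam k (Fin r → 𝕂)} (hW : S.Lat W) (hF : Full 𝕂 W)
    (F : Submodule 𝕂 (Fin r → 𝕂)) : rk (cut W F) ≤ rk W := by
  by_cases h : F = ⊤
  · rw [h, cut_top]
  · linarith [BG_e_le' hW hF h, S.e_pos]

/-- Bogomolov–Gieseker–Langer inequality. -/
theorem bg (D : Dua S.toPreSurf) (Pd : PData k S.Γ p) (r : ℕ) {V : Fam k (Fin r → 𝕂)}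
    (hV : S.Lat V) (hF : Full 𝕂 V) {α β : ℝ} (h : S.AWin p V α β) {ε : ℝ} (hε : 0 < ε) :
    ∀ᶠ m : ℕ in atTop, S.Δ (S.fr p m V) ≤ ((p : ℝ) ^ m) ^ 2 *
      (rk V / 2 * (β - S.DD V / rk V) * (S.DD V / rk V - α) + ε) := by
  induction r using Nat.strong_induction_on generalizing α β ε with
  | _ r ih =>
  have hp : (0 : ℝ) < p := by exact_mod_cast (Fact.out : p.Prime).pos
  have hq : ∀ m : ℕ, (0 : ℝ) < (p : ℝ) ^ m := fun m => pow_pos hp m
  have he := S.e_pos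
  set ν : ℝ := S.DD V / rk V with hν
  have hN0 := rk_nonneg V
  have hD : S.DD V = ν * rk V := by
    rcases hN0.eq_or_lt with h0 | h0
    · have hb := S.eq_bot_of_rk_eq_zero hV h0.symm
      obtain ⟨h1, h2, -⟩ := inv_bot (k := k) (E := Fin r → 𝕂)
      rw [← h0, hb]
      simp [PreSurf.DD, h1, h2]
    · rw [hν, div_mul_cancel₀ _ h0.ne']
  have hinv := fun m => hV.inv_fr Pd m
  have hβ : S.DD V ≤ β * rk V := by
    have := (h 0 ⊤).1
    rwa [cut_top, (hinv 0).1, (hinv 0).2, pow_zero, one_mul, one_mul] at this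
  have hα : α * rk V ≤ S.DD V := by
    have := (h 0 ⊥).2
    rwa [(BG_cut_bot (S := S) _).1, (BG_cut_bot _).2, (hinv 0).1, (hinv 0).2, pow_zero, one_mul,
      one_mul, sub_zero, sub_zero] at this
  by_cases hA : ∀ (m : ℕ) (F : Submodule 𝕂 (Fin r → 𝕂)),
      S.DD (cut (S.fr p m V) F) ≤ (p : ℝ) ^ m * ν * rk (cut (S.fr p m V) F)
  · have hw : S.AWin p V ν ν := fun m F => ⟨hA m F, by
      have := hA m F
      rw [(hinv m).1, (hinv m).2, hD]
      linarith⟩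
    have hnn : 0 ≤ rk V / 2 * (β - ν) * (ν - α) := by
      rcases hN0.eq_or_lt with h0 | h0
      · rw [← h0]; simp
      · rw [hD] at hα hβ
        have h1 : ν ≤ β := le_of_mul_le_mul_right hβ h0
        have h2 : α ≤ ν := le_of_mul_le_mul_right hα h0
        exact mul_nonneg (mul_nonneg (by linarith) (by linarith)) (by linarith)
    exact (bg_base D Pd hV hF hw hε).mono fun m hm =>
      hm.trans (mul_le_mul_of_nonneg_left (by linarith) (sq_nonneg _))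
  push Not at hA
  have hW := fun m => hV.fr (p := p) m
  have hWF := fun m => PreSurf.full_fr (S := S.toPreSurf) (p := p) hF m
  set 𝒮 : Set ℝ := {x | ∃ (m : ℕ) (F : Submodule 𝕂 (Fin r → 𝕂)), F ≠ ⊥ ∧
    x = S.DD (cut (S.fr p m V) F) / ((p : ℝ) ^ m * rk (cut (S.fr p m V) F))} with h𝒮
  have hpos : ∀ (m : ℕ) (F : Submodule 𝕂 (Fin r → 𝕂)), F ≠ ⊥ →
      0 < (p : ℝ) ^ m * rk (cut (S.fr p m V) F) := fun m F hFb =>
    mul_pos (hq m) (he.trans_le (BG_e_le (hW m) (hWF m) hFb))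
  have hub : β ∈ upperBounds 𝒮 := by
    rintro _ ⟨m, F, hFb, rfl⟩
    rw [div_le_iff₀ (hpos m F hFb)]
    have := (h m F).1
    linarith
  have hbdd : BddAbove 𝒮 := ⟨β, hub⟩
  obtain ⟨m₁, F₁, h₁⟩ := hA
  have hF₁ : F₁ ≠ ⊥ := by
    rintro rfl
    rw [(BG_cut_bot (S := S) _).1, (BG_cut_bot _).2] at h₁
    simp at h₁
  have hne : 𝒮.Nonempty := ⟨_, m₁, F₁, hF₁, rfl⟩
  set L : ℝ := sSup 𝒮 with hL
  have hLβ : L ≤ β := csSup_le hne hub
  have hνL : ν < L := by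
    refine lt_of_lt_of_le ?_ (le_csSup hbdd ⟨m₁, F₁, hF₁, rfl⟩)
    rw [lt_div_iff₀ (hpos m₁ F₁ hF₁)]
    linarith
  have hLub : ∀ (m : ℕ) (F : Submodule 𝕂 (Fin r → 𝕂)),
      S.DD (cut (S.fr p m V) F) ≤ (p : ℝ) ^ m * L * rk (cut (S.fr p m V) F) := fun m F => by
    by_cases hFb : F = ⊥
    · rw [hFb, (BG_cut_bot (S := S) _).1, (BG_cut_bot _).2]; simp
    · have := le_csSup hbdd ⟨m, F, hFb, rfl⟩
      rw [div_le_iff₀ (hpos m F hFb)] at this
      linarith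
  have hN : 0 < rk V := by
    have := BG_rk_le (hW m₁) (hWF m₁) F₁
    rw [(hinv m₁).1] at this
    exact he.trans_le ((BG_e_le (hW m₁) (hWF m₁) hF₁).trans this)
  have hαν : α ≤ ν := by
    rw [hD] at hα
    exact le_of_mul_le_mul_right hα hN
  obtain ⟨η, hη, hηL, hηε⟩ := BG_eta (rk V) r (β - α) (L - ν) (ε / 2) (by linarith) (by linarith)
  obtain ⟨_, ⟨m₀, F, hFb, rfl⟩, hx⟩ := exists_lt_of_lt_csSup hne (by linarith : L - η < L)
  rw [lt_div_iff₀ (hpos m₀ F hFb)] at hx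
  have hFt : F ≠ ⊤ := by
    rintro rfl
    rw [cut_top, (hinv m₀).1, (hinv m₀).2, hD] at hx
    have := mul_pos (mul_pos (hq m₀) hN) (by linarith : 0 < L - η - ν)
    linarith only [this, hx]
  obtain ⟨a, b, V₁, V₂, ha, hab, hV₁, hF₁', hV₂, hF₂', hr₁, hD₁, hsp⟩ :=
    exists_split Pd (hW m₀) (hWF m₀) F
  have ha0 : 0 < a := by
    rw [ha]; exact Nat.pos_of_ne_zero fun h0 => hFb (Submodule.finrank_eq_zero.1 h0)
  have har : a < r := by
    have := Submodule.finrank_lt hFt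
    rwa [Module.finrank_fintype_fun_eq_card, Fintype.card_fin, ← ha] at this
  have hN₁ : rk V₁ = S.e * a := by rw [S.rk_full hV₁ hF₁', Fintype.card_fin]
  have hN₂ : rk V₂ = S.e * b := by rw [S.rk_full hV₂ hF₂', Fintype.card_fin]
  have hN₁p : 0 < rk V₁ := by rw [hN₁]; positivity
  have hN₂p : 0 < rk V₂ := by
    have : 0 < b := by omega
    rw [hN₂]; positivity
  have hN₁r : rk V₁ ≤ r * S.e := by
    have : (a : ℝ) ≤ r := by exact_mod_cast har.le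
    rw [hN₁]; nlinarith only [this, he]
  have hr0 : (0 : ℝ) ≤ r := Nat.cast_nonneg r
  have hηr : 0 ≤ η * r := by positivity
  have hinv₁ := fun m => hV₁.inv_fr Pd m
  have hinv₂ := fun m => hV₂.inv_fr Pd m
  set q₀ : ℝ := (p : ℝ) ^ m₀ with hq₀
  have hq₀p : 0 < q₀ := hq m₀
  rw [← hr₁, ← hD₁] at hx
  simp only [PreSurf.fr_fr] at hsp
  have hw₁ : S.AWin p V₁ (q₀ * (α - η * r)) (q₀ * (β + η * r)) := fun m G => by
    obtain ⟨F', e1, e2⟩ := (hsp m).2.1 G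
    have h1 := hLub (m + m₀) F'
    rw [← e1, ← e2, pow_add] at h1
    have hk := rk_nonneg (cut (S.fr p m V₁) G)
    have hqq := mul_pos (hq m) hq₀p
    constructor
    · have := mul_nonneg (mul_nonneg hqq.le (by linarith : 0 ≤ β + η * r - L)) hk
      linarith only [this, h1]
    · by_cases hG : G = ⊤
      · rw [hG, cut_top]; simp
      · have h2 := BG_e_le' (hV₁.fr (p := p) m) (PreSurf.full_fr hF₁' m) hG
        rw [(hinv₁ m).1] at h2 ⊢
        rw [(hinv₁ m).2]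
        have h3 := mul_le_mul_of_nonneg_left hx.le (hq m).le
        have h4 : rk V₁ ≤ r * (rk V₁ - rk (cut (S.fr p m V₁) G)) :=
          hN₁r.trans (mul_le_mul_of_nonneg_left h2 hr0)
        have h5 := mul_le_mul_of_nonneg_left h4 (mul_pos hqq hη).le
        have h6 := mul_nonneg (mul_nonneg hqq.le (by linarith : 0 ≤ L - α))
          (by linarith : 0 ≤ rk V₁ - rk (cut (S.fr p m V₁) G))
        linarith only [h1, h3, h5, h6]
  have hw₂ : S.AWin p V₂ (q₀ * (α - η * r)) (q₀ * (β + η * r)) := fun m G => by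
    obtain ⟨F', e1, e2⟩ := (hsp m).2.2 G
    obtain ⟨s1, s2, -⟩ := (hsp m).1
    have hqq := mul_pos (hq m) hq₀p
    constructor
    · by_cases hG : G = ⊥
      · rw [hG, (BG_cut_bot (S := S) _).1, (BG_cut_bot _).2]; simp
      · have h1 := hLub (m + m₀) F'
        have h2 := BG_e_le (hV₂.fr (p := p) m) (PreSurf.full_fr hF₂' m) hG
        rw [(hinv₁ m).1] at e1
        rw [(hinv₁ m).2] at e2
        have e1' : rk (cut (S.fr p (m + m₀) V) F') = rk (cut (S.fr p m V₂) G) + rk V₁ := by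
          linarith
        rw [e1', pow_add] at h1
        rw [e2]
        have h3 := mul_le_mul_of_nonneg_left hx.le (hq m).le
        have h4 : rk V₁ ≤ r * rk (cut (S.fr p m V₂) G) :=
          hN₁r.trans (mul_le_mul_of_nonneg_left h2 hr0)
        have h5 := mul_le_mul_of_nonneg_left h4 (mul_pos hqq hη).le
        have h6 := mul_nonneg (mul_nonneg hqq.le (by linarith : 0 ≤ β - L))
          (by linarith : 0 ≤ rk (cut (S.fr p m V₂) G))
        linarith only [h1, h3, h5, h6]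
    · have h1 := (h (m + m₀) F').2
      have h2 := BG_rk_le (hV₂.fr (p := p) m) (PreSurf.full_fr hF₂' m) G
      have e1' : rk (S.fr p (m + m₀) V) - rk (cut (S.fr p (m + m₀) V) F') =
          rk (S.fr p m V₂) - rk (cut (S.fr p m V₂) G) := by linarith
      have e2' : S.DD (S.fr p (m + m₀) V) - S.DD (cut (S.fr p (m + m₀) V) F') =
          S.DD (S.fr p m V₂) - S.DD (cut (S.fr p m V₂) G) := by linarith
      rw [e1', e2', pow_add] at h1
      have h6 := mul_nonneg (mul_nonneg hqq.le hηr) (sub_nonneg.2 h2)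
      linarith only [h1, h6]
  have hε' : 0 < ε * q₀ ^ 2 / 4 := by positivity
  have i₁ := ih a har hV₁ hF₁' hw₁ hε'
  have i₂ := ih b (by omega) hV₂ hF₂' hw₂ hε'
  have hNs : rk V = rk V₁ + rk V₂ := by
    have := (hsp 0).1.1
    rwa [(hinv _).1, (hinv₁ 0).1, (hinv₂ 0).1] at this
  have hDs : S.DD V₁ + S.DD V₂ = q₀ * ν * (rk V₁ + rk V₂) := by
    have := (hsp 0).1.2.1
    rw [(hinv _).2, (hinv₁ 0).2, (hinv₂ 0).2, zero_add, pow_zero, one_mul, one_mul, hD,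
      hNs] at this
    rw [← this]; ring
  obtain ⟨M, hM⟩ := eventually_atTop.1 (i₁.and i₂)
  refine eventually_atTop.2 ⟨M + m₀, fun n hn => ?_⟩
  obtain ⟨m, rfl⟩ : ∃ m, n = m + m₀ := ⟨n - m₀, by omega⟩
  obtain ⟨j₁, j₂⟩ := hM m (by omega)
  obtain ⟨s1, s2, s3⟩ := (hsp m).1
  simp only [PreSurf.Δ] at j₁ j₂ ⊢
  rw [(hinv₁ m).1, (hinv₁ m).2] at j₁
  rw [(hinv₂ m).1, (hinv₂ m).2] at j₂
  rw [s1, s2, s3, (hinv₁ m).1, (hinv₁ m).2, (hinv₂ m).1, (hinv₂ m).2, ← mul_add,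
    BG_identity (a := q₀ * (α - η * r)) (b := q₀ * (β + η * r)) hN₁p hN₂p, pow_add]
  have hsl : (S.DD V₁ + S.DD V₂) / (rk V₁ + rk V₂) = q₀ * ν := by
    rw [hDs, mul_div_cancel_right₀ _ (by positivity)]
  rw [hsl, ← hNs]
  have h7 := mul_le_mul_of_nonneg_left hηε (sq_nonneg ((p : ℝ) ^ m * q₀))
  rw [← hq₀]
  linarith only [j₁, j₂, h7]

end Crest.Agent.R169
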