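import Crest.Agent.R169.DualChiAux

/-! # `χ ≤ h⁰ + h²` (task R169/DualChi) -/

set_option autoImplicit false
open Filter Module

namespace Crest.Agent.R169

section aux
variable {k : Type} [Field k] {K : Type} [Field K] [Algebra k K] {y z : K}

theorem DualChi_hasHP_Apol (hind : AlgebraicIndependent k ![y, z]) (a : ℤ) :
    HasHP (fun m => hf (Apol k y z) (m - a)) 1 (3 / 2 - a) ((1 - (a : ℝ)) * (2 - a) / 2) := by
  filter_upwards [eventually_ge_atTop a] with m hm
  rw [hf_Apol hind, if_pos (by omega)]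
  push_cast
  ring

theorem DualChi_serre (hind : AlgebraicIndependent k ![y, z]) (u : ℤ) :
    ((u : ℝ) + 1) * (u + 2) / 2 = hf (Apol k y z) u + hf (Apol k y z) (-u - 3) := by
  rw [hf_Apol hind, hf_Apol hind]
  by_cases h : 0 ≤ u
  · rw [if_pos h, if_neg (by omega), add_zero]
  · rw [if_neg h, zero_add]
    by_cases h' : 0 ≤ -u - 3
    · rw [if_pos h']; push_cast; ring
    · rw [if_neg h']
      have : u = -1 ∨ u = -2 := by omega
      rcases this with rfl | rfl <;> norm_num

theorem DualChi_mem_free {n : ℕ} (a : Fin n → ℤ) (m : ℤ) (r : Fin n → K) :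
    r ∈ (⨆ i, cyc (Apol k y z) (Pi.basisFun K (Fin n) i) (a i)) m ↔
      ∀ i, r i ∈ Apol k y z (m - a i) := by
  rw [mem_iSup_cyc]
  have e : ∀ s : Fin n → K, ∑ i, s i • Pi.basisFun K (Fin n) i = s := fun s => by
    simpa using (Pi.basisFun K (Fin n)).sum_repr s
  constructor
  · rintro ⟨s, hs, rfl⟩
    rwa [e]
  · intro h
    exact ⟨r, h, (e r).symm⟩

end aux

variable {k : Type} [Field k] {K : Type} [Field K] [Algebra k K] {y z : K}
  {E : Type} [AddCommGroup E] [Module k E] [Module K E] [IsScalarTower k K E]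
  {E' : Type} [AddCommGroup E'] [Module k E'] [Module K E'] [IsScalarTower k K E']
  (B : E' →ₗ[K] E →ₗ[K] K) [B.IsPerfPair] [FiniteDimensional K E] {V : Fam k E}

/-- For a full lattice on which `x, y` is a regular sequence. -/
theorem HP_le_of_S2 (hK : RatFn k y z) (hV : IsLat y z V) (hF : Full K V)
    (hS2 : ∀ m v, v ∈ V (m + 1) → y • v ∈ V (m + 1) → v ∈ V m) (m : ℤ) :
    HP V m ≤ hf V m + hf (dualF y z B V) (-m) := by
  classical
  obtain ⟨n, v, a, hv, hVe⟩ := hV.fg'
  set F0 : Fam k (Fin n → K) := ⨆ i, cyc (Apol k y z) (Pi.basisFun K (Fin n) i) (a i) with hF0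
  have hmem : ∀ m r, r ∈ F0 m ↔ ∀ i, r i ∈ Apol k y z (m - a i) := DualChi_mem_free a
  set π : (Fin n → K) →ₗ[K] E := Fintype.linearCombination K v with hπ
  have hπa : ∀ r, π r = ∑ i, r i • v i := fun r => Fintype.linearCombination_apply K v r
  have hmap : mapF π F0 = V := by
    funext l
    ext w
    rw [mem_mapF]
    conv_rhs => rw [hVe, mem_iSup_cyc]
    constructor
    · rintro ⟨r, hr, rfl⟩
      exact ⟨r, (hmem l r).1 hr, hπa r⟩
    · rintro ⟨r, hr, rfl⟩
      exact ⟨r, (hmem l r).2 hr, hπa r⟩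
  have hF0lat : IsLat y z F0 :=
    ⟨Stab.iSup fun i => stab_cyc stab_Apol _ _, bdd_of_le_iSup _ a le_rfl⟩
  set W : Fam k (Fin n → K) := cut F0 (LinearMap.ker π) with hW
  have hWlat : IsLat y z W := hF0lat.cut _
  have hF0st := stab_Apol_iff.1 hF0lat.stab
  have hπmem : ∀ l r, r ∈ F0 l → π r ∈ V l := fun l r hr => by
    rw [← hmap]; exact ⟨r, hr, rfl⟩
  have hπsurj : ∀ l w, w ∈ V l → ∃ r ∈ F0 l, π r = w := fun l w hw => by
    rw [← hmap] at hw; exact hw
  have h1 : ∀ l w, w ∈ W (l + 1) → y • w ∈ W (l + 1) → w ∈ W l := by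
    intro l w hw hyw
    refine ⟨(hmem _ _).2 fun i => DualChi_Apol_y hK.ind ?_ ?_, hw.2⟩
    · have := (hmem _ _).1 hw.1 i
      rwa [show l + 1 - a i = l - a i + 1 by ring] at this
    · have := (hmem _ _).1 hyw.1 i
      rwa [show l + 1 - a i = l - a i + 1 by ring] at this
  have h2 : ∀ l w p q, w ∈ LinearMap.ker π → p ∈ F0 l → q ∈ F0 l → w = p + y • q →
      ∃ a' ∈ W l, ∃ b' ∈ W l, w = a' + y • b' := by
    intro l w p q hw hp hq e
    have e1 : y • π q = -π p := by
      rw [LinearMap.mem_ker, e, map_add, map_smul] at hw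
      exact eq_neg_of_add_eq_zero_right hw
    have hl : l = l - 1 + 1 := by ring
    have hq' : π q ∈ V (l - 1) := by
      refine hS2 _ _ (hl ▸ hπmem l q hq) ?_
      rw [e1, ← hl]
      exact Submodule.neg_mem _ (hπmem l p hp)
    obtain ⟨q', hq'F, hq'e⟩ := hπsurj _ _ hq'
    have hq'l : q' ∈ F0 l := hl ▸ hF0st.1 _ _ hq'F
    have hyq' : y • q' ∈ F0 l := hl ▸ hF0st.2.1 _ _ hq'F
    refine ⟨p + y • q', ⟨Submodule.add_mem _ hp hyq', ?_⟩, q - q',
      ⟨Submodule.sub_mem _ hq hq'l, ?_⟩, ?_⟩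
    · change π (p + y • q') = 0
      rw [map_add, map_smul, hq'e, e1, add_neg_cancel]
    · change π (q - q') = 0
      rw [map_sub, hq'e, sub_self]
    · rw [e, smul_sub]; abel
  have h3 : ∀ l w p q, w ∈ W (l + 1) → p ∈ W (l + 1) → q ∈ W (l + 1) → z • w = p + y • q →
      ∃ a' ∈ W l, ∃ b' ∈ W l, w = a' + y • b' := by
    intro l w p q hw hp hq e
    have hc : ∀ i, ∃ a' ∈ Apol k y z (l - a i), ∃ b' ∈ Apol k y z (l - a i),
        w i = a' + y * b' := by
      intro i
      have e1 : l + 1 - a i = l - a i + 1 := by ring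
      refine DualChi_Apol_z hK.ind (a := p i) (b := q i) (e1 ▸ (hmem _ _).1 hw.1 i)
        (e1 ▸ (hmem _ _).1 hp.1 i) (e1 ▸ (hmem _ _).1 hq.1 i) ?_
      simpa using congrFun e i
    choose p' hp' q' hq' e' using hc
    exact h2 l w p' q' hw.2 ((hmem _ _).2 hp') ((hmem _ _).2 hq') (funext fun i => by
      simpa using e' i)
  obtain ⟨ι, _, w, c, hw, hli, hWe⟩ := DualChi_free hK hWlat h1 h3
  -- the Hilbert function of `V`
  have hfV : ∀ l, hf V l = ∑ i, hf (Apol k y z) (l - a i) - ∑ j, hf (Apol k y z) (l - c j) := by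
    intro l
    have := hF0lat.bdd.fd l
    have e1 := hf_mapF_add_cut π F0 l
    rw [hmap, ← hW, hWe, hf_iSup_cyc _ fd_Apol hli, hF0,
      hf_iSup_cyc _ fd_Apol (Pi.basisFun K (Fin n)).linearIndependent] at e1
    linarith
  have hHP : HP V m = ∑ i, ((m - a i : ℤ) + 1 : ℝ) * ((m - a i : ℤ) + 2) / 2 -
      ∑ j, ((m - c j : ℤ) + 1 : ℝ) * ((m - c j : ℤ) + 2) / 2 := by
    have H := ((HasHP.sum Finset.univ fun i _ => DualChi_hasHP_Apol hK.ind (a i)).sub
      (HasHP.sum Finset.univ fun j _ => DualChi_hasHP_Apol hK.ind (c j))).congr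
        (h' := hf V) (Eventually.of_forall fun l => (hfV l).symm)
    obtain ⟨e1, e2, e3⟩ := H.eq_inv
    have e4 : ∀ {κ : Type} [Fintype κ] (b : κ → ℤ),
        ∑ i, ((m - b i : ℤ) + 1 : ℝ) * ((m - b i : ℤ) + 2) / 2 =
          (∑ _i : κ, (1 : ℝ)) * (m : ℝ) ^ 2 / 2 + (∑ i, (3 / 2 - (b i : ℝ))) * m +
            ∑ i, (1 - (b i : ℝ)) * (2 - b i) / 2 := by
      intro κ _ b
      rw [Finset.sum_mul, Finset.sum_div, Finset.sum_mul, ← Finset.sum_add_distrib,
        ← Finset.sum_add_distrib]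
      refine Finset.sum_congr rfl fun i _ => ?_
      push_cast
      ring
    rw [e4, e4, HP, e1, e2, e3]
    ring
  simp only [DualChi_serre hK.ind, Finset.sum_add_distrib] at hHP
  -- the dual
  have hD := IsLat.dualF B hK hV hF
  have hDfd := hD.1.bdd.fd (-m)
  let Φ : (∀ i, Apol k y z (-(m - a i) - 3)) →ₗ[k] (∀ j, Apol k y z (-(m - c j) - 3)) :=
    { toFun := fun φ j => ⟨∑ i, w j i * φ i, Submodule.sum_mem _ fun i _ => by
        have := mul_mem_Apol ((hmem _ _).1 (hw j).1 i) (φ i).2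
        rwa [show c j - a i + (-(m - a i) - 3) = -(m - c j) - 3 by ring] at this⟩
      map_add' := fun φ ψ => by
        funext j; ext; simp [mul_add, Finset.sum_add_distrib]
      map_smul' := fun t φ => by
        funext j; ext; simp [Finset.smul_sum] }
  let Ψ : dualF y z B V (-m) →ₗ[k] (∀ i, Apol k y z (-(m - a i) - 3)) :=
    { toFun := fun φ i => ⟨B φ (v i), by
        have := mem_dualF.1 φ.2 (a i) (v i) (hv i)
        rwa [show -m + a i - 3 = -(m - a i) - 3 by ring] at this⟩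
      map_add' := fun φ ψ => by
        funext i; ext; simp
      map_smul' := fun t φ => by
        funext i; ext
        change B (t • (φ : E')) (v i) = t • B φ (v i)
        rw [← algebraMap_smul K t (φ : E'), map_smul, LinearMap.smul_apply, algebraMap_smul] }
  have hsurj : Function.Surjective π := by
    rw [← LinearMap.range_eq_top, eq_top_iff, ← hF, ← hmap, spanF_mapF]
    exact LinearMap.map_le_range
  have hF0full : spanF K F0 = ⊤ := by
    rw [eq_top_iff, ← (Pi.basisFun K (Fin n)).span_eq, Submodule.span_le]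
    rintro _ ⟨i, rfl⟩
    exact mem_spanF (m := a i) (le_iSup (fun i => cyc (Apol k y z) (Pi.basisFun K (Fin n) i) (a i))
      i (a i) (mem_cyc_self (one_mem_Apol le_rfl) _ _))
  have hker : LinearMap.ker Φ ≤ LinearMap.range Ψ := by
    intro φ hφ
    let L : (Fin n → K) →ₗ[K] K := Fintype.linearCombination K fun i => (φ i : K)
    have hLa : ∀ r, L r = ∑ i, r i * φ i := fun r => Fintype.linearCombination_apply K _ r
    have hLw : ∀ j, L (w j) = 0 := fun j => by
      rw [hLa]
      exact congrArg Subtype.val (congrFun (LinearMap.mem_ker.1 hφ) j)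
    have hkL : LinearMap.ker π ≤ LinearMap.ker L := by
      have e1 : spanF K W = LinearMap.ker π := by
        rw [hW, hK.spanF_cut hF0lat.stab, hF0full, top_inf_eq]
      rw [← e1, spanF, Submodule.span_le]
      intro r hr
      obtain ⟨l, hl⟩ := Set.mem_iUnion.1 hr
      rw [hWe] at hl
      obtain ⟨s, -, rfl⟩ := (mem_iSup_cyc _ _ _ _ _).1 hl
      change L _ = 0
      simp [map_sum, hLw]
    obtain ⟨σ, hσ⟩ := π.exists_rightInverse_of_surjective (LinearMap.range_eq_top.2 hsurj)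
    obtain ⟨φ', hφ'⟩ := (LinearMap.IsPerfPair.bijective_left B).2 (L ∘ₗ σ)
    have hval : ∀ i, B φ' (v i) = φ i := by
      intro i
      have e1 : π (Pi.single i 1) = v i := by
        rw [hπa, Finset.sum_eq_single i]
        · simp
        · intro j _ hj; simp [Pi.single_eq_of_ne hj]
        · simp
      have e2 : σ (v i) - Pi.single i 1 ∈ LinearMap.ker π := by
        rw [LinearMap.mem_ker, map_sub, e1, ← LinearMap.comp_apply, hσ]
        simp
      have e3 := LinearMap.mem_ker.1 (hkL e2)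
      rw [map_sub, sub_eq_zero] at e3
      rw [hφ', LinearMap.comp_apply, e3, hLa, Finset.sum_eq_single i]
      · simp
      · intro j _ hj; simp [Pi.single_eq_of_ne hj]
      · simp
    have hmemD : φ' ∈ dualF y z B V (-m) := by
      rw [hVe, mem_dualF_iSup_cyc]
      intro i
      rw [hval, show -m + a i - 3 = -(m - a i) - 3 by ring]
      exact (φ i).2
    exact ⟨⟨φ', hmemD⟩, funext fun i => Subtype.ext (hval i)⟩
  have hrn := LinearMap.finrank_range_add_finrank_ker Φ
  have hr1 : finrank k (LinearMap.range Φ) ≤ finrank k (∀ j, Apol k y z (-(m - c j) - 3)) :=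
    Submodule.finrank_le _
  have hr2 : finrank k (LinearMap.ker Φ) ≤ finrank k (dualF y z B V (-m)) :=
    (Submodule.finrank_mono hker).trans (LinearMap.finrank_range_le Ψ)
  rw [Module.finrank_pi_fintype] at hrn hr1
  have hfin : ∑ i, hf (Apol k y z) (-(m - a i) - 3) ≤
      ∑ j, hf (Apol k y z) (-(m - c j) - 3) + hf (dualF y z B V) (-m) := by
    simp only [hf]
    exact_mod_cast (by omega)
  rw [hHP, hfV]
  linarith

omit [IsScalarTower k K E] [B.IsPerfPair] [FiniteDimensional K E] in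
/-- Dual lattices satisfy the `S₂` condition. -/
theorem DualChi_S2_dualF (hK : RatFn k y z) (V : Fam k E) (m : ℤ) (φ : E')
    (h : φ ∈ dualF y z B V (m + 1)) (hy : y • φ ∈ dualF y z B V (m + 1)) :
    φ ∈ dualF y z B V m := by
  rw [mem_dualF] at h hy ⊢
  intro l v hv
  have e : m + 1 + l - 3 = m + l - 3 + 1 := by ring
  refine DualChi_Apol_y hK.ind (e ▸ h l v hv) ?_
  have := hy l v hv
  rwa [e, map_smul, LinearMap.smul_apply, smul_eq_mul] at this

include B in
theorem DualChi_fd : FiniteDimensional K E' :=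
  B.toPerfPair.symm.finiteDimensional

theorem DualChi_inv_dual_dual (hK : RatFn k y z) (hV : IsLat y z V) (hF : Full K V) :
    rk (dualF y z B.flip (dualF y z B V)) = rk V ∧ dg (dualF y z B.flip (dualF y z B V)) = dg V := by
  have := DualChi_fd B
  have hD := IsLat.dualF B hK hV hF
  rw [rk_dualF B.flip hK hD.1 hD.2, rk_dualF B hK hV hF, dg_dualF B.flip hK hD.1 hD.2,
    dg_dualF B hK hV hF, neg_neg]
  exact ⟨rfl, rfl⟩

theorem HP_le_dual (hK : RatFn k y z) (hV : IsLat y z V) (hF : Full K V) (m : ℤ) :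
    HP V m ≤ hf (dualF y z B.flip (dualF y z B V)) m + hf (dualF y z B V) (-m) := by
  have := DualChi_fd B
  have hD := IsLat.dualF B hK hV hF
  have hDD := IsLat.dualF B.flip hK hD.1 hD.2
  have h1 := HP_le_of_S2 B hK hDD.1 hDD.2 (DualChi_S2_dualF B.flip hK _) m
  rw [dualF_dualF_dualF] at h1
  obtain ⟨e1, e2⟩ := DualChi_inv_dual_dual B hK hV hF
  have h2 := ((inv_mono hV.good hDD.1.good (le_dualF_dualF B V)).2 e1.symm).2 e2.symm
  refine le_trans ?_ h1
  rw [HP, HP, e1, e2]
  linarith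

theorem ch_le_ch_dualF (hK : RatFn k y z) (hV : IsLat y z V) (hF : Full K V) :
    ch V ≤ ch (dualF y z B V) := by
  have := DualChi_fd B
  have hD := IsLat.dualF B hK hV hF
  have hDD := IsLat.dualF B.flip hK hD.1 hD.2
  obtain ⟨m0, hm0⟩ := hDD.1.bdd.exists_bot
  obtain ⟨m, hm, hm'⟩ := (hD.1.good.hf_eq.and (eventually_gt_atTop (-m0))).exists
  have h1 := HP_le_dual B hK hV hF (-m)
  have h2 : hf (dualF y z B.flip (dualF y z B V)) (-m) = 0 := by
    rw [hf, hm0 _ (by omega)]; simp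
  rw [h2, neg_neg, hm, HP, HP, rk_dualF B hK hV hF, dg_dualF B hK hV hF] at h1
  push_cast at h1
  linarith

end Crest.Agent.R169
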