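import Crest.Agent.R169.RRank
import Crest.Agent.R169.DualChi

/-! # task R169/RDual -/

set_option autoImplicit false
open Filter Module IntermediateField

namespace Crest.Agent.R169

variable {k 𝕂 : Type} [Field k] [Field 𝕂] [Algebra k 𝕂] {S : Surf k 𝕂} (D : Dua S.toPreSurf)
  {ι : Type} [Fintype ι] {U V W : Fam k (ι → 𝕂)}

namespace Dua

variable (ι) in
/-- The pairing `(φ, v) ↦ λ (φ ⬝ v)` over `k(y, z)`. -/
noncomputable def RDual_B :
    (ι → 𝕂) →ₗ[k⟮D.y, D.z⟯] (ι → 𝕂) →ₗ[k⟮D.y, D.z⟯] k⟮D.y, D.z⟯ :=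
  LinearMap.mk₂ k⟮D.y, D.z⟯ (fun φ v => D.lam (φ ⬝ᵥ v))
    (fun a b v => by rw [add_dotProduct, map_add])
    (fun c a v => by rw [smul_dotProduct, map_smul])
    (fun a b v => by rw [dotProduct_add, map_add])
    (fun c a v => by rw [dotProduct_smul, map_smul])

theorem RDual_B_apply (φ v : ι → 𝕂) : D.RDual_B ι φ v = D.lam (φ ⬝ᵥ v) := rfl

theorem RDual_B_flip : (D.RDual_B ι).flip = D.RDual_B ι := by
  refine LinearMap.ext fun φ => LinearMap.ext fun v => ?_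
  rw [LinearMap.flip_apply, RDual_B_apply, RDual_B_apply, dotProduct_comm]

theorem RDual_eq_zero {a : 𝕂} (h : ∀ c : 𝕂, D.lam (c * a) = 0) : a = 0 := by
  by_contra ha
  refine D.lam_ne (LinearMap.ext fun c => ?_)
  have := h (c * a⁻¹)
  rwa [inv_mul_cancel_right₀ ha] at this

theorem RDual_B_inj : Function.Injective (D.RDual_B ι) := by
  classical
  rw [injective_iff_map_eq_zero]
  intro φ hφ
  funext i
  refine D.RDual_eq_zero fun c => ?_
  have := LinearMap.congr_fun hφ (Pi.single i c)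
  rwa [RDual_B_apply, dotProduct_single, mul_comm] at this

instance RDual_fd : FiniteDimensional k⟮D.y, D.z⟯ (ι → 𝕂) :=
  haveI := S.finiteDimensional_dua D
  inferInstance

instance RDual_perf : (D.RDual_B ι).IsPerfPair :=
  LinearMap.IsPerfPair.of_injective D.RDual_B_inj (by rw [RDual_B_flip]; exact D.RDual_B_inj)

theorem RDual_vero (V : Fam k (ι → 𝕂)) : vero (D.rdual V) D.n 0 =
    dualF (yK k D.y D.z) (zK k D.y D.z) (D.RDual_B ι) (vero V D.n 0) := by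
  funext m
  ext φ
  change φ ∈ D.rdual V (D.n * m + 0) ↔ _
  rw [mem_rdual, mem_dualF]
  constructor
  · intro h l v hv
    rw [mem_Apol_adjoin, RDual_B_apply]
    exact h (D.n * l + 0) (m + l) v hv (by ring)
  · intro h l j v hv e
    have hv' : v ∈ vero V D.n 0 (j - m) := by
      change v ∈ V (D.n * (j - m) + 0)
      rwa [show (D.n : ℤ) * (j - m) + 0 = l by linarith]
    have := h (j - m) v hv'
    rw [mem_Apol_adjoin, RDual_B_apply] at this
    rwa [show m + (j - m) - 3 = j - 3 by ring] at this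

theorem RDual_perp (F : Submodule 𝕂 (ι → 𝕂)) :
    perp (D.RDual_B ι) (F.restrictScalars k⟮D.y, D.z⟯) = (dperp F).restrictScalars k⟮D.y, D.z⟯ := by
  ext v
  rw [mem_perp, Submodule.restrictScalars_mem, mem_dperp]
  constructor
  · intro h φ hφ
    refine D.RDual_eq_zero fun c => ?_
    have := h (c • φ) (F.smul_mem c hφ)
    rwa [RDual_B_apply, smul_dotProduct, smul_eq_mul] at this
  · intro h φ hφ
    rw [RDual_B_apply, h φ hφ, map_zero]

omit [Fintype ι] in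
theorem RDual_lat (hV : S.Lat V) : IsLat (yK k D.y D.z) (zK k D.y D.z) (vero V D.n 0) :=
  isLat_adjoin_iff.2 (S.isLat_vero D hV 0)

theorem RDual_inv {E : Type} [AddCommGroup E] [Module k E] {V : Fam k E} (h : Good V) :
    rk (vero V D.n 0) = (D.n : ℝ) ^ 2 * rk V ∧ dg (vero V D.n 0) = D.n * dg V ∧
      ch (vero V D.n 0) = ch V := by
  obtain ⟨h1, h2, h3⟩ := inv_vero h D.n_pos 0
  refine ⟨h1, ?_, ?_⟩
  · rw [h2]; simp
  · rw [h3]; simp [HP]

theorem RDual_n_pos : (0 : ℝ) < D.n := by exact_mod_cast D.n_pos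

theorem stab_rdual (hV : Stab S.R V) : Stab S.R (D.rdual V) := by
  intro i m r φ hr hφ
  rw [mem_rdual] at hφ ⊢
  intro l j v hv e
  have := hφ (i + l) j (r • v) (hV i l r v hr hv) (by linarith)
  rwa [dotProduct_smul, ← smul_dotProduct] at this

theorem rdual_anti (h : U ≤ V) : D.rdual V ≤ D.rdual U := by
  intro m φ hφ
  rw [mem_rdual] at hφ ⊢
  exact fun l j v hv e => hφ l j v (h l hv) e

theorem le_rdual_rdual (V : Fam k (ι → 𝕂)) : V ≤ D.rdual (D.rdual V) := by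
  intro m v hv
  rw [mem_rdual]
  intro l j φ hφ e
  rw [dotProduct_comm]
  exact D.mem_rdual.1 hφ m j v hv (by linarith)

theorem lat_rdual (hV : S.Lat V) (hF : Full 𝕂 V) : S.Lat (D.rdual V) ∧ Full 𝕂 (D.rdual V) := by
  obtain ⟨h1, h2⟩ := IsLat.dualF (D.RDual_B ι) (ratFn_adjoin D.ind) (D.RDual_lat hV)
    (S.full_vero D hV.stab hF 0)
  rw [← RDual_vero] at h1 h2
  refine ⟨S.lat_of_vero D (D.stab_rdual hV.stab) (bdd_adjoin_iff.1 h1.bdd), ?_⟩
  unfold Full at h2 ⊢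
  rw [eq_top_iff]
  intro v _
  have hv : v ∈ spanF k⟮D.y, D.z⟯ (vero (D.rdual V) D.n 0) := by rw [h2]; trivial
  have hle : spanF k⟮D.y, D.z⟯ (vero (D.rdual V) D.n 0) ≤
      (spanF 𝕂 (D.rdual V)).restrictScalars k⟮D.y, D.z⟯ :=
    Submodule.span_le.2 (Set.iUnion_subset fun m w hw => mem_spanF (𝕃 := 𝕂) hw)
  exact hle hv

theorem inv_rdual (hV : S.Lat V) (hF : Full 𝕂 V) :
    rk (D.rdual V) = rk V ∧ dg (D.rdual V) = -dg V ∧ ch V ≤ ch (D.rdual V) := by
  have hK := ratFn_adjoin D.ind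
  have hL := D.RDual_lat hV
  have hF' := S.full_vero D hV.stab hF 0
  have h1 := rk_dualF (D.RDual_B ι) hK hL hF'
  have h2 := dg_dualF (D.RDual_B ι) hK hL hF'
  have h3 := ch_le_ch_dualF (D.RDual_B ι) hK hL hF'
  rw [← RDual_vero] at h1 h2 h3
  obtain ⟨a1, a2, a3⟩ := D.RDual_inv hV.good
  obtain ⟨b1, b2, b3⟩ := D.RDual_inv (D.lat_rdual hV hF).1.good
  have hn := D.RDual_n_pos
  rw [a1, b1] at h1
  rw [a2, b2] at h2
  rw [a3, b3] at h3
  refine ⟨mul_left_cancel₀ (pow_pos hn 2).ne' h1, mul_left_cancel₀ hn.ne' ?_, h3⟩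
  rw [h2]; ring

theorem inv_cut_rdual (hV : S.Lat V) (hF : Full 𝕂 V) (F : Submodule 𝕂 (ι → 𝕂)) :
    rk (cut (D.rdual V) F) = rk V - rk (cut V (dperp F)) ∧
      dg (cut (D.rdual V) F) = -(dg V - dg (cut V (dperp F))) := by
  obtain ⟨h1, h2⟩ := inv_cut_dualF (D.RDual_B ι) (ratFn_adjoin D.ind) (D.RDual_lat hV)
    (S.full_vero D hV.stab hF 0) (F.restrictScalars k⟮D.y, D.z⟯)
  rw [← RDual_vero, RDual_perp, cut_restrictScalars, cut_restrictScalars] at h1 h2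
  have e : ∀ (X : Fam k (ι → 𝕂)) (G : Submodule 𝕂 (ι → 𝕂)),
      cut (vero X D.n 0) G = vero (cut X G) D.n 0 := fun _ _ => rfl
  rw [e, e] at h1 h2
  obtain ⟨a1, a2, -⟩ := D.RDual_inv hV.good
  obtain ⟨b1, b2, -⟩ := D.RDual_inv ((D.lat_rdual hV hF).1.cut F).good
  obtain ⟨c1, c2, -⟩ := D.RDual_inv (hV.cut (dperp F)).good
  have hn := D.RDual_n_pos
  rw [a1, b1, c1] at h1
  rw [a2, b2, c2] at h2
  refine ⟨mul_left_cancel₀ (pow_pos hn 2).ne' ?_, mul_left_cancel₀ hn.ne' ?_⟩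
  · rw [h1]; ring
  · rw [h2]; ring

theorem window_rdual (hV : S.Lat V) (hF : Full 𝕂 V) {α β : ℝ} (h : Window 𝕂 V α β) :
    Window 𝕂 (D.rdual V) (-β) (-α) := by
  intro F
  obtain ⟨h1, h2⟩ := D.inv_cut_rdual hV hF F
  obtain ⟨h3, h4, -⟩ := D.inv_rdual hV hF
  obtain ⟨h5, h6⟩ := h (dperp F)
  rw [h1, h2, h3, h4]
  constructor <;> nlinarith

theorem HP_le (hV : S.Lat V) (hF : Full 𝕂 V) (j : ℤ) :
    HP V ((D.n * j : ℤ) : ℝ) ≤
      hf (D.rdual (D.rdual V)) (D.n * j) + hf (D.rdual V) (-(D.n * j)) := by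
  have h := HP_le_dual (D.RDual_B ι) (ratFn_adjoin D.ind) (D.RDual_lat hV)
    (S.full_vero D hV.stab hF 0) j
  rw [RDual_B_flip, ← RDual_vero, ← RDual_vero] at h
  obtain ⟨a1, a2, a3⟩ := D.RDual_inv hV.good
  have e1 : HP (vero V D.n 0) j = HP V ((D.n * j : ℤ) : ℝ) := by
    simp only [HP, a1, a2, a3]; push_cast; ring
  have e2 : ∀ (X : Fam k (ι → 𝕂)) (m : ℤ), hf (vero X D.n 0) m = hf X (D.n * m) := fun X m => by
    change hf X (D.n * m + 0) = _
    rw [add_zero]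
  rwa [e1, e2, e2, mul_neg] at h

theorem hf_rdual_growth [Infinite k] (hU : S.Lat U) (hW : S.Lat W) (hF : Full 𝕂 U) (h : U ≤ W)
    (j : ℤ) : hf (D.rdual W) (D.n * j + D.n) - hf (D.rdual W) (D.n * j) ≤
      hf (D.rdual U) (D.n * j + D.n) - hf (D.rdual U) (D.n * j) := by
  have h1 := hf_dualF_growth (D.RDual_B ι) (ratFn_adjoin D.ind) (D.RDual_lat hU) (D.RDual_lat hW)
    (S.full_vero D hU.stab hF 0) (fun m => h _) j
  rw [← RDual_vero, ← RDual_vero] at h1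
  have e2 : ∀ (X : Fam k (ι → 𝕂)) (m : ℤ), hf (vero X D.n 0) m = hf X (D.n * m) := fun X m => by
    change hf X (D.n * m + 0) = _
    rw [add_zero]
  rwa [e2, e2, e2, e2, mul_add, mul_one] at h1

theorem RDual_mem_cyc {c : 𝕂} (hc : c ≠ 0) (X : Fam k 𝕂) (l m : ℤ) (w : 𝕂) :
    w ∈ cyc X c⁻¹ (-l) m ↔ w * c ∈ X (m + l) := by
  rw [mem_cyc, sub_neg_eq_add]
  constructor
  · rintro ⟨r, hr, rfl⟩
    rwa [smul_eq_mul, inv_mul_cancel_right₀ hc]
  · intro h
    exact ⟨_, h, by rw [smul_eq_mul, mul_inv_cancel_right₀ hc]⟩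

theorem RDual_piF_cyc {c : 𝕂} (hc : c ≠ 0) (l : ℤ) :
    D.rdual (piF ι (cyc S.R c l)) = piF ι (cyc D.om c⁻¹ (-l)) := by
  classical
  funext m
  ext φ
  rw [mem_rdual, mem_piF]
  simp only [RDual_mem_cyc hc, mem_om]
  constructor
  · intro h i l' j r hr e
    have := h (l' + l) j (Pi.single i (r * c)) (mem_piF.2 fun t => ?_) (by linarith)
    · rwa [dotProduct_single, mul_comm r c, ← mul_assoc] at this
    · rcases eq_or_ne t i with rfl | ht
      · rw [Pi.single_eq_same]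
        exact mem_cyc.2 ⟨r, by rwa [add_sub_cancel_right], rfl⟩
      · rw [Pi.single_eq_of_ne ht]
        exact zero_mem _
  · intro h l' j v hv e
    rw [dotProduct, map_sum, AddSubmonoidClass.coe_finsetSum]
    refine Submodule.sum_mem _ fun i _ => ?_
    obtain ⟨r, hr, e'⟩ := mem_cyc.1 (mem_piF.1 hv i)
    have := h i (l' - l) j r hr (by linarith)
    rwa [← e', smul_eq_mul, mul_comm r c, ← mul_assoc]

theorem RDual_cyc_one (X : Fam k 𝕂) : cyc X (1 : 𝕂) 0 = X := by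
  funext m
  ext w
  rw [mem_cyc, sub_zero]
  constructor
  · rintro ⟨r, hr, rfl⟩
    rwa [smul_eq_mul, mul_one]
  · intro h
    exact ⟨w, h, by rw [smul_eq_mul, mul_one]⟩

theorem RDual_piF_R : D.rdual (piF Unit S.R) = piF Unit D.om := by
  have := D.RDual_piF_cyc (ι := Unit) one_ne_zero 0
  rwa [inv_one, neg_zero, RDual_cyc_one, RDual_cyc_one] at this

theorem RDual_full_R : Full 𝕂 (piF Unit S.R) := by
  have := S.full_piF (ι := Unit) one_ne_zero 0
  rwa [RDual_cyc_one] at this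

theorem lat_om : S.Lat D.om := by
  have h := (D.lat_rdual (S.lat_R.piF Unit) RDual_full_R).1
  rw [RDual_piF_R] at h
  have e : mapF (LinearMap.proj () : (Unit → 𝕂) →ₗ[𝕂] 𝕂) (piF Unit D.om) = D.om := by
    funext m
    ext w
    rw [mem_mapF]
    constructor
    · rintro ⟨v, hv, rfl⟩
      exact mem_piF.1 hv ()
    · intro hw
      exact ⟨fun _ => w, mem_piF.2 fun _ => hw, rfl⟩
  rw [← e]
  exact h.mapF _

theorem inv_om : rk D.om = S.e ∧ dg D.om = -dg S.R := by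
  obtain ⟨h1, h2, -⟩ := D.inv_rdual (S.lat_R.piF Unit) RDual_full_R
  rw [RDual_piF_R] at h1 h2
  obtain ⟨a1, a2, -⟩ := inv_piF Unit D.lat_om.good
  obtain ⟨b1, b2, -⟩ := inv_piF Unit S.lat_R.good
  rw [a1, b1] at h1
  rw [a2, b2] at h2
  simp only [Fintype.card_unit, Nat.cast_one, one_mul] at h1 h2
  exact ⟨h1, h2⟩

theorem cyc_le_om : cyc S.R (1 : 𝕂) (-D.a) ≤ D.om := by
  intro m w hw
  obtain ⟨r, hr, rfl⟩ := mem_cyc.1 hw
  rw [mem_om]
  intro l j r' hr' e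
  refine D.lam_R j _ ?_
  rw [smul_eq_mul, mul_one, show (D.n : ℤ) * j + D.a = m - -D.a + l by linarith]
  exact mul_mem_Rg hr hr'

theorem rdual_piF_cyc {c : 𝕂} (hc : c ≠ 0) (l : ℤ) :
    D.rdual (piF ι (cyc S.R c l)) = piF ι (cyc D.om c⁻¹ (-l)) :=
  D.RDual_piF_cyc hc l

/-- An element of the dual maps the lattice into `ω`. -/
theorem dot_mem_om (hV : Stab S.R V) {m l : ℤ} {φ v : ι → 𝕂} (hφ : φ ∈ D.rdual V m)
    (hv : v ∈ V l) : φ ⬝ᵥ v ∈ D.om (l + m) := by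
  rw [mem_om]
  intro l' j r hr e
  have := D.mem_rdual.1 hφ (l' + l) j (r • v) (hV l' l r v hr hv) (by linarith)
  rwa [dotProduct_smul, smul_eq_mul, mul_comm] at this

end Dua

end Crest.Agent.R169
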