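import Crest.Agent.R169.FrobScale
import Crest.Agent.R169.RDual

/-! # task R169/BGBase -/

set_option autoImplicit false
open Filter Module IntermediateField

namespace Crest.Agent.R169

variable {k 𝕂 : Type} [Field k] [Field 𝕂] [Algebra k 𝕂] [IsAlgClosed k] {S : Surf k 𝕂}
  {p : ℕ} [Fact p.Prime] [CharP 𝕂 p] {ι : Type} [Fintype ι]

section aux
variable {E : Type} [AddCommGroup E] [Module k E] [Module 𝕂 E] [IsScalarTower k 𝕂 E]
  {E' : Type} [AddCommGroup E'] [Module k E'] [Module 𝕂 E'] [IsScalarTower k 𝕂 E']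

omit [IsAlgClosed k] in
theorem BGBase_inv_mapF {V : Fam k E} (hV : S.Lat V) (φ : E →ₗ[𝕂] E') :
    rk V = rk (mapF φ V) + rk (cut V (LinearMap.ker φ)) ∧
      dg V = dg (mapF φ V) + dg (cut V (LinearMap.ker φ)) := by
  have := inv_add (W := V) (hV.mapF φ).good (hV.cut (LinearMap.ker φ)).good
    (Eventually.of_forall fun m => by
      have := hV.good.fd m
      exact hf_mapF_add_cut φ V m)
  exact ⟨this.1, this.2.1⟩

omit [IsAlgClosed k] in
theorem BGBase_dg_cut_le {U V : Fam k E} (hU : S.Lat U) (hV : S.Lat V) (hF : Full 𝕂 U)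
    (h : U ≤ V) (hrk : rk U = rk V) (hdg : dg U = dg V) (F : Submodule 𝕂 E) :
    dg (cut V F) ≤ dg (cut U F) := by
  obtain ⟨a1, a2⟩ := BGBase_inv_mapF hU F.mkQ
  obtain ⟨b1, b2⟩ := BGBase_inv_mapF hV F.mkQ
  rw [Submodule.ker_mkQ] at a1 a2 b1 b2
  have c1 := S.rk_cut hU hF F
  have c2 := S.rk_cut hV (hF.mono h) F
  have := ((inv_mono (hU.mapF F.mkQ).good (hV.mapF F.mkQ).good (mapF_mono _ h)).2
    (by linarith)).1
  linarith

end aux

omit [IsAlgClosed k] in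
/-- No sections of the double dual below the maximal slope. -/
theorem rdual_rdual_eq_bot (D : Dua S.toPreSurf) {W : Fam k (ι → 𝕂)} (hW : S.Lat W)
    (hF : Full 𝕂 W) {α β : ℝ} (h : S.DWin W α β) {m : ℤ} (hm : (m : ℝ) < -β) :
    D.rdual (D.rdual W) m = ⊥ := by
  rw [Submodule.eq_bot_iff]
  intro w hw
  by_contra hne
  obtain ⟨l1, f1⟩ := D.lat_rdual hW hF
  obtain ⟨l2, f2⟩ := D.lat_rdual l1 f1
  obtain ⟨r1, d1, -⟩ := D.inv_rdual hW hF
  obtain ⟨r2, d2, -⟩ := D.inv_rdual l1 f1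
  have h1 := BGBase_dg_cut_le hW l2 hF (D.le_rdual_rdual W) (by linarith) (by linarith)
    (𝕂 ∙ w)
  have c1 := S.rk_cut hW hF (𝕂 ∙ w)
  have c2 := S.rk_cut l2 f2 (𝕂 ∙ w)
  rw [finrank_span_singleton hne, Nat.cast_one, mul_one] at c1 c2
  obtain ⟨e1, e2, -⟩ := S.inv_cyc hne m
  have h2 := ((inv_mono (PreSurf.lat_cyc w m).good (l2.cut (𝕂 ∙ w)).good
    ((l2.cut (𝕂 ∙ w)).stab.cyc_le ⟨hw, Submodule.mem_span_singleton_self w⟩)).2
    (e1.trans c2.symm)).1
  have h3 := (h (𝕂 ∙ w)).1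
  unfold PreSurf.DD at e2 h3
  rw [c1] at h3
  rw [e1] at e2
  have he := S.e_pos
  nlinarith

omit [IsAlgClosed k] in
/-- No sections of the dual below minus the minimal slope. -/
theorem rdual_eq_bot (D : Dua S.toPreSurf) {W : Fam k (ι → 𝕂)} (hW : S.Lat W)
    (hF : Full 𝕂 W) {α β : ℝ} (h : S.DWin W α β) {m : ℤ} (hm : (m : ℝ) < α - D.a) :
    D.rdual W m = ⊥ := by
  classical
  rw [Submodule.eq_bot_iff]
  intro φ hφ
  by_contra hne
  let ψ : (ι → 𝕂) →ₗ[𝕂] 𝕂 :=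
    { toFun := fun v => φ ⬝ᵥ v
      map_add' := fun a b => dotProduct_add φ a b
      map_smul' := fun c a => dotProduct_smul c φ a }
  have hsurj : LinearMap.range ψ = ⊤ := by
    obtain ⟨i, hi⟩ := Function.ne_iff.1 hne
    rw [eq_top_iff]
    intro c _
    refine ⟨Pi.single i (c / φ i), ?_⟩
    change φ ⬝ᵥ _ = c
    rw [dotProduct_single, mul_div_cancel₀ _ hi]
  have hle : mapF ψ W ≤ shift D.om m := by
    rintro l _ ⟨v, hv, rfl⟩
    exact D.dot_mem_om hW.stab hφ hv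
  have r1 : rk (mapF ψ W) = S.e := by
    rw [S.rk_eq (hW.mapF ψ), spanF_mapF, (hF : spanF 𝕂 W = ⊤), Submodule.map_top, hsurj,
      finrank_top, finrank_self, Nat.cast_one, mul_one]
  obtain ⟨o1, o2⟩ := D.inv_om
  obtain ⟨s1, s2, -⟩ := inv_shift D.lat_om.good m
  have h2 := ((inv_mono (hW.mapF ψ).good (D.lat_om.shift m).good hle).2 (by linarith)).1
  obtain ⟨a1, a2⟩ := BGBase_inv_mapF hW ψ
  have h3 := (h (LinearMap.ker ψ)).2
  have he := S.e_pos
  have hc : S.ctr * S.e = -dg S.R := by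
    unfold PreSurf.ctr
    field_simp
  have ha := D.a_eq
  unfold PreSurf.DD at h3
  rw [a1, a2, r1] at h3
  rw [s2, o1, o2] at h2
  have : α * S.e ≤ (D.a + m) * S.e := by rw [ha]; nlinarith
  nlinarith

theorem BGBase_tele {f : ℤ → ℝ} {j : ℤ} {K : ℝ} (s : ℕ) (h0 : f j ≤ 0)
    (h : ∀ i : ℕ, i < s → f (j + i + 1) - f (j + i) ≤ K) : f (j + s) ≤ s * K := by
  induction s with
  | zero => simpa using h0
  | succ s ih =>
    have h1 := ih fun i hi => h i (by omega)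
    have h2 := h s (by omega)
    push_cast
    rw [← add_assoc]
    linarith

omit [IsAlgClosed k] in
/-- A linear bound for the minimum of the Hilbert polynomial of a semistable lattice. -/
theorem BGBase_bound [Infinite k] (D : Dua S.toPreSurf) :
    ∃ A : ℝ, 0 ≤ A ∧ ∀ (W : Fam k (ι → 𝕂)) (c : 𝕂) (l : ℤ) (ν : ℝ), S.Lat W → c ≠ 0 →
      piF ι (cyc S.R c l) ≤ W → S.DWin W ν ν → 0 < rk W → cc W ≤ A * (|ν| + |(l : ℝ)| + 1) := by
  obtain ⟨C, hC⟩ := D.lat_om.good.exists_diff_bound D.lat_om.bdd.exists_bot D.n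
  set s : ℕ := D.a.natAbs + 2 with hs
  have hn : (1 : ℝ) ≤ D.n := by exact_mod_cast D.n_pos
  refine ⟨s * (Fintype.card ι * (|C| * (D.n + D.n * s + 1))), by positivity, ?_⟩
  intro W c l ν hW hc hle hwin hrk
  have hFU : Full 𝕂 (piF ι (cyc S.R c l)) := S.full_piF hc l
  have hU : S.Lat (piF ι (cyc S.R c l)) := (PreSurf.lat_cyc c l).piF ι
  have hF : Full 𝕂 W := hFU.mono hle
  set j : ℤ := ⌈-ν / D.n⌉ - 1 with hj
  have hj1 : (D.n : ℝ) * j < -ν := by
    have := Int.ceil_lt_add_one (-ν / D.n)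
    rw [hj, mul_comm, ← lt_div_iff₀ (by linarith)]
    push_cast
    linarith
  have hj2 : -ν ≤ (D.n : ℝ) * j + D.n := by
    have := Int.le_ceil (-ν / D.n)
    rw [div_le_iff₀ (by linarith)] at this
    rw [hj]
    push_cast
    linarith
  have h1 := D.HP_le hW hF j
  rw [hf, rdual_rdual_eq_bot D hW hF hwin (by push_cast; exact hj1), finrank_bot,
    Nat.cast_zero, zero_add] at h1
  have hs' : |(D.a : ℝ)| + 2 = s := by
    rw [hs]
    push_cast
    rw [Nat.cast_natAbs, Int.cast_abs]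
  have h2 := BGBase_tele (f := fun t => hf (D.rdual W) (D.n * t)) (j := -j - s)
    (K := Fintype.card ι * (|C| * ((|ν| + |(l : ℝ)|) + D.n + D.n * s + 1))) s ?_ ?_
  · refine (cc_le_HP hrk _).trans (h1.trans ?_)
    rw [sub_add_cancel, mul_neg] at h2
    refine h2.trans ?_
    rw [mul_assoc, mul_assoc, mul_assoc]
    gcongr
    have : 0 ≤ |ν| + |(l : ℝ)| := by positivity
    have : (0 : ℝ) ≤ D.n + D.n * s := by positivity
    nlinarith
  · simp only [hf]
    rw [rdual_eq_bot D hW hF hwin, finrank_bot, Nat.cast_zero]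
    push_cast
    have := le_abs_self (D.a : ℝ)
    have := abs_nonneg (D.a : ℝ)
    rw [← hs']
    nlinarith
  · intro i hi
    have h3 := D.hf_rdual_growth hU hW hFU hle (-j - s + i)
    simp only [mul_add (D.n : ℤ) _ 1, mul_one]
    refine h3.trans ?_
    have hfd := (D.lat_om.bdd.cyc c⁻¹ (-l)).fd
    rw [D.rdual_piF_cyc hc, hf_piF, hf_piF, hf_cyc _ (inv_ne_zero hc), hf_cyc _ (inv_ne_zero hc),
      ← mul_sub, add_sub_right_comm]
    gcongr
    refine (hC _).trans ?_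
    have hi' : (i : ℝ) ≤ s := by exact_mod_cast hi.le
    have hi0 : (0 : ℝ) ≤ i := Nat.cast_nonneg i
    have hs0 : (0 : ℝ) ≤ s := Nat.cast_nonneg s
    have habs : |(((D.n : ℤ) * (-j - s + i) - -l : ℤ) : ℝ)| ≤ |ν| + |(l : ℝ)| + D.n + D.n * s := by
      push_cast
      have := le_abs_self ν
      have := neg_abs_le ν
      have := le_abs_self (l : ℝ)
      have := neg_abs_le (l : ℝ)
      rw [abs_le]
      constructor <;> nlinarith
    gcongr
    exact le_abs_self C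

/-- Bogomolov–Gieseker for strongly semistable lattices. -/
theorem bg_base (D : Dua S.toPreSurf) (Pd : PData k S.Γ p) {V : Fam k (ι → 𝕂)} (hV : S.Lat V)
    (hF : Full 𝕂 V) {ν : ℝ} (h : S.AWin p V ν ν) {ε : ℝ} (hε : 0 < ε) :
    ∀ᶠ m : ℕ in atTop, S.Δ (S.fr p m V) ≤ ((p : ℝ) ^ m) ^ 2 * ε := by
  have hrk : ∀ m, rk (S.fr p m V) = rk V := fun m => (hV.inv_fr Pd m).1
  rcases (rk_nonneg V).eq_or_lt with h0 | h0
  · refine Eventually.of_forall fun m => ?_
    rw [S.eq_bot_of_rk_eq_zero (hV.fr m) ((hrk m).trans h0.symm)]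
    obtain ⟨b1, b2, b3⟩ := inv_bot (k := k) (E := ι → 𝕂)
    simp only [PreSurf.Δ, PreSurf.SS, HP, b1, b2, b3]
    have : 0 ≤ ((p : ℝ) ^ m) ^ 2 * ε := by positivity
    simpa using this
  · obtain ⟨A, hA, hb⟩ := BGBase_bound (ι := ι) D
    obtain ⟨c, l, hc, hle⟩ := S.exists_piF_le hV hF
    have hp : (1 : ℝ) < p := by exact_mod_cast (Fact.out : p.Prime).one_lt
    have ht := (tendsto_pow_atTop_atTop_of_one_lt hp).eventually_ge_atTop
      ((A * (|ν| + |(l : ℝ)| + 1) + |S.κ * rk V|) / ε)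
    filter_upwards [ht] with m hm
    have hq : (1 : ℝ) ≤ (p : ℝ) ^ m := one_le_pow₀ hp.le
    have h1 := hb (S.fr p m V) (c ^ p ^ m) ((p ^ m : ℕ) * l) _ (hV.fr m) (pow_ne_zero _ hc)
      (by rw [← PreSurf.fr_piF_cyc]; exact frobF_mono _ _ hle) (h m) (by rw [hrk]; exact h0)
    rw [PreSurf.Δ_eq (by rw [hrk]; exact h0.ne'), hrk]
    push_cast at h1
    rw [abs_mul, abs_mul, abs_of_pos (by linarith : (0 : ℝ) < (p : ℝ) ^ m)] at h1
    rw [div_le_iff₀ hε] at hm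
    generalize (p : ℝ) ^ m = q at h1 hm hq ⊢
    have h2 := le_abs_self (S.κ * rk V)
    have h3 := abs_nonneg (S.κ * rk V)
    have h4 : A * (q * |ν| + q * |(l : ℝ)| + 1) ≤ q * (A * (|ν| + |(l : ℝ)| + 1)) := by nlinarith
    have h5 : |S.κ * rk V| ≤ q * |S.κ * rk V| := by nlinarith
    have h6 := mul_le_mul_of_nonneg_left hm (by linarith : 0 ≤ q)
    nlinarith

end Crest.Agent.R169
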