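import Crest.Agent.R169.SatAux

/-! # Saturation, algebraic independence from growth, boundedness from integrality
(task R169/Sat) -/

set_option autoImplicit false
open Filter Module

namespace Crest.Agent.R169

variable {k : Type} [Field k] {𝕃 : Type} [Field 𝕃] [Algebra k 𝕃] {y z : 𝕃}
  {E : Type} [AddCommGroup E] [Module k E] [Module 𝕃 E] [IsScalarTower k 𝕃 E] {V : Fam k E}

/-- A lattice agrees with its saturation in large degrees. -/
theorem IsLat.sat (hind : AlgebraicIndependent k ![y, z]) (hV : IsLat y z V) :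
    ∀ᶠ m : ℤ in atTop, ∀ w : E, (∃ M : ℕ, ∀ r ∈ Apol k y z M, r • w ∈ V (m + M)) → w ∈ V m := by
  have h := sat_ratFn (ratFn_adjoin hind) (isLat_adjoin_iff.2 hV)
  filter_upwards [h] with m hm w ⟨M, hM⟩
  exact hm w ⟨M, fun r hr => hM (r : 𝕃) (mem_Apol_adjoin.1 hr)⟩

/-- Superlinear growth of a bounded family forces algebraic independence. -/
theorem algInd_of_growth (hV : Bdd y z V)
    (h : ∀ C : ℝ, ∃ m : ℕ, C * (m + 1) < hf V m) : AlgebraicIndependent k ![y, z] := by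
  by_contra hdep
  obtain ⟨D, hD⟩ := sat_finrank_Apol_le hdep
  obtain ⟨s, c, hle⟩ := hV
  obtain ⟨m, hm⟩ := h (s.card * (D * (c.natAbs + 1)))
  have hA : finrank k (Apol k y z (m - c)) ≤ D * (m + c.natAbs + 1) := by
    have h1 : Apol k y z (m - c) ≤ Apol k y z ((m + c.natAbs : ℕ) : ℤ) :=
      Apol_mono (by push_cast; have := neg_abs_le c; omega)
    exact (Submodule.finrank_mono h1).trans (hD _)
  have hfd : ∀ v : E, FiniteDimensional k (cyc (Apol k y z) v c m) := fun v => by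
    unfold cyc; infer_instance
  have hc : ∀ v : E, finrank k (cyc (Apol k y z) v c m) ≤ D * (m + c.natAbs + 1) := fun v =>
    (Submodule.finrank_map_le _ _).trans hA
  have h2 : V m ≤ ⨆ v ∈ s, cyc (Apol k y z) v c m := by
    have := hle m
    simpa only [iSup_apply] using this
  have h3 := sat_finrank_biSup_le s (fun v => cyc (Apol k y z) v c m) _ hfd hc
  have : FiniteDimensional k (⨆ v ∈ s, cyc (Apol k y z) v c m : Submodule k E) := by
    rw [← Finset.sup_eq_iSup]; infer_instance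
  have h4 : finrank k (V m) ≤ s.card * (D * (m + c.natAbs + 1)) :=
    (Submodule.finrank_mono h2).trans h3
  have h5 : s.card * (D * (m + c.natAbs + 1)) ≤ s.card * (D * (c.natAbs + 1)) * (m + 1) := by
    rw [mul_assoc, mul_assoc]
    gcongr
    nlinarith [Nat.zero_le (m * c.natAbs)]
  have h6 : (finrank k (V m) : ℝ) ≤ (s.card * (D * (c.natAbs + 1)) * (m + 1) : ℕ) := by
    exact_mod_cast h4.trans h5
  unfold hf at hm
  push_cast at h6 hm
  linarith

/-- If all generators satisfy homogeneous integral equations then `Rg` is bounded. -/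
theorem bdd_Rg_of_integral {Γ : Finset 𝕃} (D : ℕ)
    (h : ∀ γ ∈ Γ, ∃ c : Fin D → 𝕃, (∀ i : Fin D, c i ∈ Apol k y z (D - i : ℕ)) ∧
      γ ^ D = ∑ i, c i * γ ^ (i : ℕ)) : Bdd y z (Rg k Γ) := by
  classical
  have hD : ∀ γ ∈ Γ, 0 < D := by
    intro γ hγ
    obtain ⟨c, -, e⟩ := h γ hγ
    rcases Nat.eq_zero_or_pos D with rfl | hD
    · simp at e
    · exact hD
  set mon : (Γ → Fin D) → 𝕃 := fun β => ∏ γ : Γ, (γ : 𝕃) ^ (β γ : ℕ) with hmon
  set dd : (Γ → Fin D) → ℤ := fun β => ∑ γ : Γ, ((β γ : ℕ) : ℤ) with hdd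
  set W : Fam k 𝕃 := ⨆ β, cyc (Apol k y z) (mon β) (dd β) with hW
  have hWs : Stab (Apol k y z) W := Stab.iSup fun β => stab_cyc stab_Apol _ _
  have hmem : ∀ β, mon β ∈ W (dd β) := fun β =>
    (le_iSup (fun β => cyc (Apol k y z) (mon β) (dd β)) β) _
      (mem_cyc_self (one_mem_Apol le_rfl) _ _)
  have hstep : ∀ (γ : Γ) β, (γ : 𝕃) * mon β ∈ W (dd β + 1) := by
    intro γ β
    set R : 𝕃 := ∏ δ ∈ Finset.univ.erase γ, (δ : 𝕃) ^ (β δ : ℕ) with hR
    set t : ℤ := ∑ δ ∈ Finset.univ.erase γ, ((β δ : ℕ) : ℤ) with ht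
    have h1 : ∀ i : Fin D, (γ : 𝕃) ^ (i : ℕ) * R ∈ W ((i : ℕ) + t) := by
      intro i
      have e1 : mon (Function.update β γ i) = (γ : 𝕃) ^ (i : ℕ) * R := by
        simp only [hmon]
        rw [← Finset.mul_prod_erase _ _ (Finset.mem_univ γ), Function.update_self]
        congr 1
        refine Finset.prod_congr rfl fun δ hδ => ?_
        rw [Function.update_of_ne (Finset.ne_of_mem_erase hδ)]
      have e2 : dd (Function.update β γ i) = (i : ℕ) + t := by
        simp only [hdd]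
        rw [← Finset.add_sum_erase _ _ (Finset.mem_univ γ), Function.update_self]
        congr 1
        refine Finset.sum_congr rfl fun δ hδ => ?_
        rw [Function.update_of_ne (Finset.ne_of_mem_erase hδ)]
      rw [← e1, ← e2]
      exact hmem _
    have h2 : (γ : 𝕃) ^ D * R ∈ W (D + t) := by
      obtain ⟨c, hc, e⟩ := h γ γ.2
      rw [e, Finset.sum_mul]
      refine Submodule.sum_mem _ fun i _ => ?_
      have := hWs _ _ _ _ (hc i) (h1 i)
      rw [smul_eq_mul, ← mul_assoc] at this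
      have e3 : ((D - i : ℕ) : ℤ) + ((i : ℕ) + t) = D + t := by
        rw [Nat.cast_sub i.2.le]; ring
      rwa [e3] at this
    have e4 : (γ : 𝕃) * mon β = (γ : 𝕃) ^ ((β γ : ℕ) + 1) * R := by
      simp only [hmon]
      rw [← Finset.mul_prod_erase _ _ (Finset.mem_univ γ), pow_succ]
      ring
    have e5 : dd β + 1 = (((β γ : ℕ) + 1 : ℕ) : ℤ) + t := by
      simp only [hdd]
      rw [← Finset.add_sum_erase _ _ (Finset.mem_univ γ)]
      push_cast
      ring
    rw [e4, e5]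
    rcases (Nat.succ_le_of_lt (β γ).2).lt_or_eq with hlt | heq
    · exact h1 ⟨_, hlt⟩
    · rw [show (β γ : ℕ) + 1 = D from heq]
      exact h2
  have hWR : Stab (Rg k Γ) W := by
    refine stab_Rg_iff.2 fun γ hγ m v hv => ?_
    obtain ⟨r, hr, rfl⟩ := (mem_iSup_cyc _ _ _ _ _).1 hv
    rw [Finset.smul_sum]
    refine Submodule.sum_mem _ fun β _ => ?_
    have := hWs _ _ _ _ (hr β) (hstep ⟨γ, hγ⟩ β)
    have e : m - dd β + (dd β + 1) = m + 1 := by ring
    rw [e] at this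
    convert this using 1
    simp only [smul_eq_mul]
    ring
  have hone : (1 : 𝕃) ∈ W 0 := by
    have := hmem fun γ => ⟨0, hD γ γ.2⟩
    simpa [hmon, hdd] using this
  refine bdd_of_le_iSup mon dd fun m w hw => ?_
  have := hWR _ _ _ _ hw hone
  rwa [smul_eq_mul, mul_one, add_zero] at this

/-- Veronese pieces are bounded over a polynomial ring over which the `n`-th powers of the
generators generate a bounded ring. -/
theorem bdd_vero_Rg {Γ Γ' : Finset 𝕃} {n : ℕ} (hn : 0 < n) (h1 : (1 : 𝕃) ∈ Γ')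
    (h : ∀ γ ∈ Γ, γ ^ n ∈ Γ') (hB : Bdd y z (Rg k Γ')) (i : ℤ) : Bdd y z (vero (Rg k Γ) n i) := by
  classical
  set mon : (Γ → Fin n) → 𝕃 := fun β => ∏ γ : Γ, (γ : 𝕃) ^ (β γ : ℕ) with hmon
  refine (Bdd.iSup fun β : Γ → Fin n => hB.cyc (mon β) (-|i|)).of_le fun j => ?_
  change Rg k Γ (n * j + i) ≤ _
  rcases lt_or_ge ((n : ℤ) * j + i) 0 with hneg | hpos
  · rw [Rg_neg hneg]; exact bot_le
  obtain ⟨t, ht⟩ := Int.eq_ofNat_of_zero_le hpos
  rw [ht, Rg_eq_span, Submodule.span_le]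
  rintro _ ⟨c, hc, rfl⟩
  set β : Γ → Fin n := fun γ => ⟨c γ % n, Nat.mod_lt _ hn⟩ with hβ
  refine (le_iSup (fun β : Γ → Fin n => cyc (Rg k Γ') (mon β) (-|i|)) β) j ?_
  refine mem_cyc.2 ⟨∏ γ ∈ Γ, (γ ^ n) ^ (c γ / n), ?_, ?_⟩
  · have h2 := sat_prod_mem_Rg (k := k) (Γ := Γ') Γ (fun γ => (γ ^ n) ^ (c γ / n))
      (fun γ => ((c γ / n : ℕ) : ℤ) * 1) fun γ hγ => pow_mem_Rg (mem_Rg_one (h γ hγ)) _
    refine Rg_mono h1 ?_ h2
    have h3 : n * ∑ γ ∈ Γ, c γ / n ≤ t := by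
      rw [← hc, Finset.mul_sum]
      exact Finset.sum_le_sum fun γ _ => Nat.mul_div_le _ _
    have h4 : (n : ℤ) * ((∑ γ ∈ Γ, c γ / n : ℕ) : ℤ) ≤ n * j + i := by
      rw [ht]; exact_mod_cast h3
    have h5 : (∑ γ ∈ Γ, ((c γ / n : ℕ) : ℤ) * 1) = ((∑ γ ∈ Γ, c γ / n : ℕ) : ℤ) := by
      simp only [mul_one, Nat.cast_sum]
    rw [h5]
    have hn' : (1 : ℤ) ≤ n := by exact_mod_cast hn
    have h6 : i ≤ n * |i| := (le_abs_self i).trans (le_mul_of_one_le_left (abs_nonneg i) hn')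
    refine le_of_mul_le_mul_left (a := (n : ℤ)) ?_ (by omega)
    nlinarith
  · simp only [hmon, hβ, smul_eq_mul]
    rw [Finset.prod_coe_sort Γ fun γ => γ ^ (c γ % n), ← Finset.prod_mul_distrib]
    refine Finset.prod_congr rfl fun γ _ => ?_
    rw [← pow_mul, ← pow_add, Nat.div_add_mod]

end Crest.Agent.R169
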