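import Crest.Agent.R169.ModelBasic
import Crest.Agent.R169.Sat

/-! # task R169/BRing -/

set_option autoImplicit false
open Filter Module IntermediateField

namespace Crest.Agent.R169

/-- The 22 two-factors (multiplicities of `02, 03, 12, 13, 23`) and their coefficients with respect
to `1, Y 0, …, Y 4`. -/
def BRing_tab : List ((ℕ × ℕ × ℕ × ℕ × ℕ) × ℕ × ℕ × ℕ × ℕ × ℕ × ℕ) :=
  [((0, 0, 0, 0, 1), 0, 0, 0, 0, 1, 0), ((0, 0, 0, 0, 2), 0, 1, 0, 0, 0, 0),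
   ((0, 0, 0, 1, 1), 1, 1, 0, 0, 0, 0), ((0, 0, 1, 0, 1), 1, 0, 0, 0, 0, 0),
   ((0, 0, 1, 1, 1), 0, 0, 0, 1, 0, 0), ((0, 1, 0, 0, 1), 1, 1, 0, 0, 1, 0),
   ((0, 1, 0, 1, 0), 2, 1, 1, 0, 1, 0), ((0, 1, 1, 0, 0), 1, 0, 1, 0, 0, 0),
   ((0, 1, 1, 0, 1), 1, 0, 0, 1, 0, 0), ((0, 1, 1, 1, 0), 1, 0, 0, 1, 0, 1),
   ((0, 1, 2, 0, 0), 0, 0, 0, 0, 0, 1), ((0, 2, 1, 0, 0), 2, 0, 1, 1, 0, 1),
   ((1, 0, 0, 0, 1), 1, 0, 0, 0, 1, 0), ((1, 0, 0, 1, 0), 1, 0, 1, 0, 1, 0),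
   ((1, 0, 0, 1, 1), 1, 1, 0, 1, 0, 0), ((1, 0, 0, 2, 0), 2, 1, 0, 1, 0, 1),
   ((1, 0, 1, 0, 0), 0, 0, 1, 0, 0, 0), ((1, 0, 1, 1, 0), 1, 0, 0, 0, 0, 1),
   ((1, 1, 0, 0, 1), 2, 1, 0, 1, 1, 0), ((1, 1, 0, 1, 0), 3, 1, 1, 1, 1, 1),
   ((1, 1, 1, 0, 0), 1, 0, 1, 0, 0, 1), ((2, 0, 0, 1, 0), 2, 0, 1, 0, 1, 1)]

theorem BRing_classify (b01 b02 b03 b12 b13 b23 : ℕ) (h : b01 + b02 + b03 + b12 + b13 + b23 = 3)
    (h0 : b01 + b02 + b03 ≤ 2) (h1 : b01 + b12 + b13 ≤ 2) (h2 : b02 + b12 + b23 ≤ 2)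
    (h3 : b03 + b13 + b23 ≤ 2) : ∃ r ∈ BRing_tab, r.1 = (b02, b03, b12, b13, b23) := by
  have key : ∀ b : Fin 6 → Fin 3, (((b 0).1 + b 1 + b 2 + b 3 + b 4 + b 5 = 3 ∧
      (b 0).1 + b 1 + b 2 ≤ 2) ∧ ((b 0).1 + b 3 + b 4 ≤ 2 ∧ (b 1).1 + b 3 + b 5 ≤ 2 ∧
      (b 2).1 + b 4 + b 5 ≤ 2)) →
      ((b 1).1, (b 2).1, (b 3).1, (b 4).1, (b 5).1) ∈ BRing_tab.map Prod.fst := by
    decide +kernel
  exact List.mem_map.1 (key ![⟨b01, by omega⟩, ⟨b02, by omega⟩, ⟨b03, by omega⟩, ⟨b12, by omega⟩,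
    ⟨b13, by omega⟩, ⟨b23, by omega⟩] ⟨⟨h, h0⟩, h1, h2, h3⟩)

theorem BRing_ident {C : Type} [CommRing C] (u s : C) : ∀ r ∈ BRing_tab,
    (1 + u) ^ r.1.1 * (1 + u + s) ^ r.1.2.1 * u ^ r.1.2.2.1 * (u + s) ^ r.1.2.2.2.1 *
      s ^ r.1.2.2.2.2 = r.2.1 * (u * s) + r.2.2.1 * s ^ 2 + r.2.2.2.1 * (u * (1 + u)) +
        r.2.2.2.2.1 * (u * s * (u + s)) + r.2.2.2.2.2.1 * s + r.2.2.2.2.2.2 * ((1 + u + s) * u ^ 2) := by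
  simp only [BRing_tab, List.forall_mem_cons, List.not_mem_nil, IsEmpty.forall_iff, implies_true,
    and_true]
  refine ⟨?_, ?_, ?_, ?_, ?_, ?_, ?_, ?_, ?_, ?_, ?_, ?_, ?_, ?_, ?_, ?_, ?_, ?_, ?_, ?_, ?_, ?_⟩ <;>
  · push_cast
    ring

theorem BRing_mon {C : Type} [CommRing C] (t : Fin 4 → C) (e : Ed → ℕ) : mon (pp t) e =
    (t 0 - t 1) ^ e s(0, 1) * (t 0 - t 2) ^ e s(0, 2) * (t 0 - t 3) ^ e s(0, 3) *
      (t 1 - t 2) ^ e s(1, 2) * (t 1 - t 3) ^ e s(1, 3) * (t 2 - t 3) ^ e s(2, 3) := by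
  rw [mon, prod_Ed]
  simp [pp]

namespace Model
variable {k 𝕂 : Type} [Field k] [Field 𝕂] [Algebra k 𝕂] {n : ℕ} (M : Model k 𝕂 n)

theorem Y_mem (i : Fin 5) : M.Y i ∈ M.ΓB := by
  have h : ∀ i : Fin 5, Reg (ofList [s(i - 1, i), s(i, i + 1), s(i - 1, i + 1), s(i + 2, i + 3),
      s(i + 2, i + 3)]) 1 := fun i => ⟨by revert i; decide, by revert i; decide⟩
  refine mem_Gam.2 ⟨⟨_, h i⟩, ?_⟩
  simp [mon_ofList, Y, mul_assoc, sq]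

/-- Explicit coordinates. -/
theorem BRing_coord : ∃ u s : 𝕂, u ≠ 0 ∧ s ≠ 0 ∧ M.x ^ n = u * s ∧
    (∀ e, mon (pp M.t) e = (1 + u) ^ e s(0, 2) * (1 + u + s) ^ e s(0, 3) * u ^ e s(1, 2) *
      (u + s) ^ e s(1, 3) * s ^ e s(2, 3)) ∧
    M.Y 0 = s / u ∧ M.Y 1 = (1 + u) / s ∧ M.Y 2 = u + s ∧ M.Y 3 = 1 / u ∧
      M.Y 4 = (1 + u + s) * u / s := by
  have hu : M.t 1 - M.t 2 ≠ 0 := by simpa [pp] using M.pp_ne s(1, 2)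
  have hs : M.t 2 - M.t 3 ≠ 0 := by simpa [pp] using M.pp_ne s(2, 3)
  obtain ⟨u, hu'⟩ : ∃ u, u = M.t 1 - M.t 2 := ⟨_, rfl⟩
  obtain ⟨s, hs'⟩ : ∃ s, s = M.t 2 - M.t 3 := ⟨_, rfl⟩
  have h2 : M.t 2 = -1 - u := by rw [hu', M.t1]; ring
  have h3 : M.t 3 = -1 - u - s := by rw [hs', h2]; ring
  rw [← hu'] at hu
  rw [← hs'] at hs
  have hm : ∀ e, mon (pp M.t) e = (1 + u) ^ e s(0, 2) * (1 + u + s) ^ e s(0, 3) * u ^ e s(1, 2) *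
      (u + s) ^ e s(1, 3) * s ^ e s(2, 3) := fun e => by
    rw [BRing_mon, ← hu', ← hs', M.t0, M.t1, h2, h3, show (0 : 𝕂) - -1 = 1 by ring,
      show 0 - (-1 - u) = 1 + u by ring, show 0 - (-1 - u - s) = 1 + u + s by ring,
      show -1 - (-1 - u - s) = u + s by ring, one_pow, one_mul]
  have hx : M.x ^ n = u * s := by
    rw [M.x_pow, hm, show γ0.1 s(0, 2) = 0 by decide, show γ0.1 s(0, 3) = 0 by decide,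
      show γ0.1 s(1, 2) = 1 by decide, show γ0.1 s(1, 3) = 0 by decide,
      show γ0.1 s(2, 3) = 1 by decide]
    ring
  refine ⟨u, s, hu, hs, hx, hm, ?_, ?_, ?_, ?_, ?_⟩
  all_goals
    simp [Y, pp, hx, M.t0, M.t1, h2, h3, show (-1 : Fin 5) = 4 from rfl]
    field_simp
    try ring

theorem Y_rel (i : Fin 5) : M.Y i * M.Y (i + 1) = 1 + M.Y (i + 3) := by
  obtain ⟨u, s, hu, hs, -, -, h0, h1, h2, h3, h4⟩ := M.BRing_coord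
  have e0 : M.Y 0 * M.Y 1 = 1 + M.Y 3 := by rw [h0, h1, h3]; field_simp; ring
  have e1 : M.Y 1 * M.Y 2 = 1 + M.Y 4 := by rw [h1, h2, h4]; field_simp; ring
  have e2 : M.Y 2 * M.Y 3 = 1 + M.Y 0 := by rw [h2, h3, h0]; field_simp
  have e3 : M.Y 3 * M.Y 4 = 1 + M.Y 1 := by rw [h3, h4, h1]; field_simp; ring
  have e4 : M.Y 4 * M.Y 0 = 1 + M.Y 2 := by rw [h4, h0, h2]; field_simp; ring
  fin_cases i
  exacts [e0, e1, e2, e3, e4]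

theorem yB_mem : M.yB ∈ Rg k M.ΓB 1 :=
  Submodule.sub_mem _ (Submodule.add_mem _ (mem_Rg_one (M.Y_mem 0)) (mem_Rg_one (M.Y_mem 2)))
    (mem_Rg_one (M.Y_mem 1))

theorem zB_mem : M.zB ∈ Rg k M.ΓB 1 :=
  Submodule.sub_mem _ (Submodule.add_mem _ (mem_Rg_one (M.Y_mem 2)) (mem_Rg_one (M.Y_mem 4)))
    (mem_Rg_one (M.Y_mem 3))

/-- Every generator of `B` is an integral combination of `1` and the `Y i`. -/
theorem mem_span_Y {a : 𝕂} (h : a ∈ M.ΓB) :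
    a ∈ Submodule.span k {1, M.Y 0, M.Y 1, M.Y 2, M.Y 3, M.Y 4} := by
  obtain ⟨u, s, hu, hs, hx, hm, h0, h1, h2, h3, h4⟩ := M.BRing_coord
  obtain ⟨⟨γ, hγ⟩, rfl⟩ := mem_Gam.1 h
  obtain ⟨d0, d1, d2, d3, d4⟩ := deg_expand γ
  rw [hγ.deg, hγ.diag] at d0 d1 d2 d3 d4
  obtain ⟨r, hr, hr'⟩ := BRing_classify (γ s(0, 1)) (γ s(0, 2)) (γ s(0, 3)) (γ s(1, 2))
    (γ s(1, 3)) (γ s(2, 3)) (by omega) (by omega) (by omega) (by omega) (by omega)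
  have h5 := BRing_ident u s r hr
  simp only [hr'] at h5
  have h6 : mon (pp M.t) γ / M.x ^ n = r.2.1 • (1 : 𝕂) + r.2.2.1 • M.Y 0 + r.2.2.2.1 • M.Y 1 +
      r.2.2.2.2.1 • M.Y 2 + r.2.2.2.2.2.1 • M.Y 3 + r.2.2.2.2.2.2 • M.Y 4 := by
    rw [hm, h5, hx, h0, h1, h2, h3, h4]
    simp only [nsmul_eq_mul]
    field_simp
  rw [h6]
  refine add_mem (add_mem (add_mem (add_mem (add_mem ?_ ?_) ?_) ?_) ?_) ?_ <;>
    exact nsmul_mem (Submodule.subset_span (by simp)) _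

/-- The generators of `B` over the polynomial ring. -/
def BRing_v : Fin 5 → 𝕂 := ![1, M.Y 0, M.Y 2, M.Y 4, M.Y 0 * M.Y 2]

/-- The degrees of the generators. -/
def BRing_a : Fin 5 → ℤ := ![0, 1, 1, 1, 2]

theorem BRing_table :
    M.Y 0 * M.Y 0 = 1 - M.zB * 1 + M.yB * M.Y 0 + M.Y 2 + M.Y 4 - M.Y 0 * M.Y 2 ∧
    M.Y 0 * M.Y 4 = 1 + M.Y 2 ∧
    M.Y 2 * M.Y 2 = 1 + M.yB * M.Y 2 + M.Y 4 - M.Y 0 * M.Y 2 ∧
    M.Y 2 * M.Y 4 = M.Y 0 - M.yB * M.Y 2 + M.zB * M.Y 2 - M.Y 4 + M.Y 0 * M.Y 2 ∧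
    M.Y 4 * M.Y 4 = 1 - M.yB * 1 + M.Y 2 + M.yB * M.Y 2 - M.zB * M.Y 2 + M.Y 4 + M.zB * M.Y 4 -
      M.Y 0 * M.Y 2 ∧
    M.Y 0 * (M.Y 0 * M.Y 2) = 1 + M.zB * 1 - M.yB * M.Y 0 + M.Y 2 + M.yB * M.Y 2 +
      M.yB * (M.Y 0 * M.Y 2) - M.zB * (M.Y 0 * M.Y 2) ∧
    M.Y 2 * (M.Y 0 * M.Y 2) = M.Y 0 - M.zB * 1 + M.yB * M.Y 0 - M.yB * M.Y 2 +
      M.zB * (M.Y 0 * M.Y 2) ∧
    M.Y 4 * (M.Y 0 * M.Y 2) = 1 + M.Y 2 + M.yB * M.Y 2 + M.Y 4 - M.Y 0 * M.Y 2 := by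
  obtain ⟨u, s, hu, hs, -, -, h0, h1, h2, h3, h4⟩ := M.BRing_coord
  rw [yB, zB, h0, h1, h2, h3, h4]
  refine ⟨?_, ?_, ?_, ?_, ?_, ?_, ?_, ?_⟩ <;>
  · field_simp
    ring

theorem BRing_le : Rg k M.ΓB ≤ ⨆ i, cyc (Apol k M.yB M.zB) (M.BRing_v i) (BRing_a i) := by
  set G : Fam k 𝕂 := ⨆ i, cyc (Apol k M.yB M.zB) (M.BRing_v i) (BRing_a i) with hG
  have hst : Stab (Apol k M.yB M.zB) G := Stab.iSup fun i => stab_cyc stab_Apol _ _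
  have hv : ∀ i, M.BRing_v i ∈ G (BRing_a i) := fun i =>
    le_iSup (fun i => cyc (Apol k M.yB M.zB) (M.BRing_v i) (BRing_a i)) i _
      (mem_cyc_self (one_mem_Apol le_rfl) _ _)
  obtain ⟨s1, sy, sz⟩ := stab_Apol_iff.1 hst
  simp only [smul_eq_mul] at sy sz
  have key : ∀ γ : 𝕂, (∀ i, γ * M.BRing_v i ∈ G (BRing_a i + 1)) →
      ∀ m, ∀ v ∈ G m, γ * v ∈ G (m + 1) := by
    intro γ hγ m v hv
    obtain ⟨r, hr, rfl⟩ := (mem_iSup_cyc _ _ _ _ _).1 hv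
    rw [Finset.mul_sum]
    refine Submodule.sum_mem _ fun i _ => ?_
    have := hst _ _ _ _ (hr i) (hγ i)
    rwa [← add_assoc, sub_add_cancel, smul_eq_mul, mul_left_comm] at this
  have a0 : (1 : 𝕂) ∈ G 0 := hv 0
  have b1 : M.Y 0 ∈ G 1 := hv 1
  have c1 : M.Y 2 ∈ G 1 := hv 2
  have d1 : M.Y 4 ∈ G 1 := hv 3
  have e2 : M.Y 0 * M.Y 2 ∈ G (1 + 1) := hv 4
  have a1 : (1 : 𝕂) ∈ G 1 := s1 0 _ a0
  have a2 := s1 _ _ a1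
  have b2 := s1 _ _ b1
  have c2 := s1 _ _ c1
  have d2 := s1 _ _ d1
  obtain ⟨t1, t2, t3, t4, t5, t6, t7, t8⟩ := M.BRing_table
  have p1 : M.Y 0 * M.Y 0 ∈ G (1 + 1) := t1 ▸
    sub_mem (add_mem (add_mem (add_mem (sub_mem a2 (sz _ _ a1)) (sy _ _ b1)) c2) d2) e2
  have p2 : M.Y 0 * M.Y 4 ∈ G (1 + 1) := t2 ▸ add_mem a2 c2
  have p3 : M.Y 2 * M.Y 2 ∈ G (1 + 1) := t3 ▸ sub_mem (add_mem (add_mem a2 (sy _ _ c1)) d2) e2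
  have p4 : M.Y 2 * M.Y 4 ∈ G (1 + 1) := t4 ▸
    add_mem (sub_mem (add_mem (sub_mem b2 (sy _ _ c1)) (sz _ _ c1)) d2) e2
  have p5 : M.Y 4 * M.Y 4 ∈ G (1 + 1) := t5 ▸
    sub_mem (add_mem (add_mem (sub_mem (add_mem (add_mem (sub_mem a2 (sy _ _ a1)) c2) (sy _ _ c1))
      (sz _ _ c1)) d2) (sz _ _ d1)) e2
  have p6 : M.Y 0 * (M.Y 0 * M.Y 2) ∈ G (1 + 1 + 1) := t6 ▸
    sub_mem (add_mem (add_mem (add_mem (sub_mem (add_mem (s1 _ _ a2) (sz _ _ a2)) (sy _ _ b2))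
      (s1 _ _ c2)) (sy _ _ c2)) (sy _ _ e2)) (sz _ _ e2)
  have p7 : M.Y 2 * (M.Y 0 * M.Y 2) ∈ G (1 + 1 + 1) := t7 ▸
    add_mem (sub_mem (add_mem (sub_mem (s1 _ _ b2) (sz _ _ a2)) (sy _ _ b2)) (sy _ _ c2))
      (sz _ _ e2)
  have p8 : M.Y 4 * (M.Y 0 * M.Y 2) ∈ G (1 + 1 + 1) := t8 ▸
    sub_mem (add_mem (add_mem (add_mem (s1 _ _ a2) (s1 _ _ c2)) (sy _ _ c2)) (s1 _ _ d2))
      (s1 _ _ e2)
  have k0 := key (M.Y 0) fun i => by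
    fin_cases i
    exacts [(mul_one (M.Y 0)).symm ▸ b1, p1, e2, p2, p6]
  have k2 := key (M.Y 2) fun i => by
    fin_cases i
    exacts [(mul_one (M.Y 2)).symm ▸ c1, mul_comm (M.Y 0) (M.Y 2) ▸ e2, p3, p4, p7]
  have k4 := key (M.Y 4) fun i => by
    fin_cases i
    exacts [(mul_one (M.Y 4)).symm ▸ d1, mul_comm (M.Y 0) (M.Y 4) ▸ p2,
      mul_comm (M.Y 2) (M.Y 4) ▸ p4, p5, p8]
  have hR : Stab (Rg k M.ΓB) G := by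
    refine stab_Rg_iff.2 fun γ hγ m v hv => ?_
    have h1 := M.mem_span_Y hγ
    rw [smul_eq_mul]
    clear hγ
    induction h1 using Submodule.span_induction with
    | mem x hx =>
      simp only [Set.mem_insert_iff, Set.mem_singleton_iff] at hx
      rcases hx with rfl | rfl | rfl | rfl | rfl | rfl
      · rw [one_mul]; exact s1 _ _ hv
      · exact k0 _ _ hv
      · rw [show M.Y 1 * v = M.Y 0 * v + M.Y 2 * v - M.yB * v by rw [yB]; ring]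
        exact sub_mem (add_mem (k0 _ _ hv) (k2 _ _ hv)) (sy _ _ hv)
      · exact k2 _ _ hv
      · rw [show M.Y 3 * v = M.Y 2 * v + M.Y 4 * v - M.zB * v by rw [zB]; ring]
        exact sub_mem (add_mem (k2 _ _ hv) (k4 _ _ hv)) (sz _ _ hv)
      · exact k4 _ _ hv
    | zero => rw [zero_mul]; exact zero_mem _
    | add x y _ _ hx hy => rw [add_mul]; exact add_mem hx hy
    | smul c x _ hx => rw [smul_mul_assoc]; exact Submodule.smul_mem _ _ hx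
  intro j b hb
  simpa using hR j 0 b 1 hb a0

/-- `B` is generated over `k[x', y', z']` by `1, Y 0, Y 2, Y 4, Y 0 * Y 2`. -/
theorem RgB_le_gens (j : ℤ) {b : 𝕂} (hb : b ∈ Rg k M.ΓB j) :
    ∃ c0 ∈ Apol k M.yB M.zB j, ∃ c1 ∈ Apol k M.yB M.zB (j - 1), ∃ c2 ∈ Apol k M.yB M.zB (j - 1),
      ∃ c3 ∈ Apol k M.yB M.zB (j - 1), ∃ c4 ∈ Apol k M.yB M.zB (j - 2),
        b = c0 + c1 * M.Y 0 + c2 * M.Y 2 + c3 * M.Y 4 + c4 * (M.Y 0 * M.Y 2) := by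
  obtain ⟨r, hr, rfl⟩ := (mem_iSup_cyc _ _ _ _ _).1 (M.BRing_le j hb)
  refine ⟨r 0, sub_zero j ▸ hr 0, r 1, hr 1, r 2, hr 2, r 3, hr 3, r 4, hr 4, ?_⟩
  simp [Fin.sum_univ_five, BRing_v]

theorem bddB : Bdd M.yB M.zB (Rg k M.ΓB) := bdd_of_le_iSup _ _ M.BRing_le

theorem indB : AlgebraicIndependent k ![M.yB, M.zB] := algInd_of_growth M.bddB M.growthB'

/-- The del Pezzo ring. -/
noncomputable def preSurfB : PreSurf k 𝕂 where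
  Γ := M.ΓB
  y := M.yB
  z := M.zB
  one_mem := M.one_memB
  y_mem := M.yB_mem
  z_mem := M.zB_mem
  ind := M.indB
  bdd := M.bddB

/-- The surface attached to a linear system of parameters. -/
noncomputable def surfOf (y z : MvPolynomial Gen ℤ) (hy : y.IsHomogeneous 1)
    (hz : z.IsHomogeneous 1) (Di : ℕ)
    (hint : ∀ γ, ∃ c : Fin Di → 𝕂, (∀ i : Fin Di, c i ∈
      Apol k (MvPolynomial.aeval M.g y) (MvPolynomial.aeval M.g z) (Di - i : ℕ)) ∧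
        M.g γ ^ Di = ∑ i, c i * M.g γ ^ (i : ℕ)) : Surf k 𝕂 :=
  have hb : Bdd (MvPolynomial.aeval M.g y) (MvPolynomial.aeval M.g z) (Rg k M.Γ) :=
    bdd_Rg_of_integral Di fun a ha => by
      obtain ⟨γ, rfl⟩ := M.mem_Γ.1 ha
      exact hint γ
  { Γ := M.Γ
    y := MvPolynomial.aeval M.g y
    z := MvPolynomial.aeval M.g z
    one_mem := M.one_mem
    y_mem := M.aeval_mem_Rg hy
    z_mem := M.aeval_mem_Rg hz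
    ind := algInd_of_growth hb M.growth
    bdd := hb
    gen := M.gen_Γ }

end Model

end Crest.Agent.R169
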