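import Crest.Agent.R169.DualChi

/-! # A uniform upper bound for the minimum of the Hilbert polynomial (task R169/C0) -/

set_option autoImplicit false
open Filter Module

namespace Crest.Agent.R169

variable {k : Type} [Field k] {K : Type} [Field K] [Algebra k K] {y z : K}
  {E : Type} [AddCommGroup E] [Module k E] [Module K E] [IsScalarTower k K E] {V : Fam k E}

/-- A full lattice spanned by its degree `b` part and of slope at most `3/2` vanishes below
`-(N-1) b`. -/
theorem C0_eq_bot [FiniteDimensional K E] (hK : RatFn k y z) {X : Fam k E} (hX : IsLat y z X)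
    (b N : ℕ) (hb : Submodule.span K (X b : Set E) = ⊤) (hrk : rk X = N)
    (hdg : dg X ≤ 3 / 2 * N) {m : ℤ} (hm : (m : ℝ) < -(((N : ℝ) - 1) * b)) : X m = ⊥ := by
  rw [eq_bot_iff]
  intro w hw
  rw [Submodule.mem_bot]
  by_contra h0
  set F : Submodule K E := Submodule.span K {w} with hF
  have hfull : spanF K X = ⊤ := by
    rw [eq_top_iff, ← hb]
    exact Submodule.span_le.2 fun v hv => mem_spanF hv
  have hC : IsLat y z (cut X F) := hX.cut F
  have hQ : IsLat y z (mapF F.mkQ X) := hX.mapF _
  have hadd := inv_add (W := X) hQ.good hC.good (Eventually.of_forall fun l => by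
    have := hX.bdd.fd l
    have e := hf_mapF_add_cut F.mkQ X l
    rwa [Submodule.ker_mkQ] at e)
  have hrC : rk (cut X F) = 1 := by
    rw [hC.rk_eq hK, hK.spanF_cut hX.stab, hfull, top_inf_eq, hF, finrank_span_singleton h0]
    simp
  have hli : LinearIndependent K fun _ : Unit => w := linearIndependent_unique_iff.2 h0
  have hfree := inv_free hK.ind hli m
  simp only [iSup_const, Fintype.card_unit, Nat.cast_one, one_mul] at hfree
  have hle : cyc (Apol k y z) w m ≤ cut X F :=
    hC.stab.cyc_le ⟨hw, Submodule.mem_span_singleton_self w⟩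
  have h1 := ((inv_mono (isLat_cyc w m).good hC.good hle).2 (by rw [hfree.1, hrC])).1
  have h2 : rk (mapF F.mkQ X) * (3 / 2 - ((b : ℤ) : ℝ)) ≤ dg (mapF F.mkQ X) := by
    refine hQ.le_dg_of_span hK ?_
    have : Submodule.span K (mapF F.mkQ X b : Set (E ⧸ F)) =
        (Submodule.span K (X b : Set E)).map F.mkQ := by
      rw [Submodule.map_span]
      rfl
    rw [this, hb, Submodule.map_top, Submodule.range_mkQ]
    exact le_top
  have h3 : rk (mapF F.mkQ X) = N - 1 := by linarith [hadd.1]
  rw [h3] at h2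
  push_cast at h2
  rw [hfree.2] at h1
  nlinarith [hadd.2.1]

theorem C0_full [FiniteDimensional K E] (hK : RatFn k y z) (hV : IsLat y z V) (b N : ℕ)
    (hN : 0 < N) (hb : Submodule.span K (V b : Set E) = ⊤) (hrk : rk V = N)
    (hdg : dg V ≤ 3 / 2 * N) : cc V ≤ N * ((N : ℝ) * b + 1) ^ 2 := by
  classical
  have hF : Full K V := by
    rw [Full, eq_top_iff, ← hb]
    exact Submodule.span_le.2 fun v hv => mem_spanF hv
  let B : Module.Dual K E →ₗ[K] E →ₗ[K] K := LinearMap.id
  have : B.IsPerfPair := LinearMap.IsPerfPair.id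
  have hD := IsLat.dualF B hK hV hF
  have hDD := IsLat.dualF B.flip hK hD.1 hD.2
  obtain ⟨e1, e2⟩ := DualChi_inv_dual_dual B hK hV hF
  set m : ℤ := -(((N : ℤ) - 1) * b) - 1 with hm
  have hbot : dualF y z B.flip (dualF y z B V) m = ⊥ := by
    refine C0_eq_bot hK hDD.1 b N ?_ (e1.trans hrk) (e2 ▸ hdg) ?_
    · rw [eq_top_iff, ← hb]
      exact Submodule.span_mono (le_dualF_dualF B V b)
    · rw [hm]; push_cast; linarith
  have h1 := HP_le_dual B hK hV hF m
  have h2 : hf (dualF y z B.flip (dualF y z B V)) m = 0 := by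
    rw [hf, hbot]; simp
  obtain ⟨s, hs, hspan, hli⟩ := exists_linearIndependent K (V b : Set E)
  let bs : Basis s K E := Basis.mk hli (by
    rw [Subtype.range_coe_subtype, Set.ofPred_mem_eq, hspan, hb])
  have : Finite s := Module.Finite.finite_basis bs
  have : Fintype s := Fintype.ofFinite s
  have hcard : (Fintype.card s : ℝ) = N := by
    rw [← hrk, hV.rk_eq hK, hF, finrank_top, Module.finrank_eq_card_basis bs]
  obtain ⟨b', -, -, hb'⟩ := dualF_free (k := k) (y := y) (z := z) B bs
  have hU : (⨆ i, cyc (Apol k y z) (bs i) (b : ℤ)) ≤ V :=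
    iSup_le fun i => hV.stab.cyc_le (by
      rw [Basis.mk_apply]; exact hs i.2)
  have h3 := dualF_anti (y := y) (z := z) B hU
  rw [hb' fun _ => (b : ℤ)] at h3
  have hfd := (bdd_of_le_iSup (y := y) (z := z) b' (fun _ => 3 - (b : ℤ)) le_rfl
    (V := ⨆ i, cyc (Apol k y z) (b' i) (3 - (b : ℤ)))).fd (-m)
  have h4 := hf_mono (h3 (-m))
  rw [hf_iSup_cyc _ fd_Apol b'.linearIndependent, Finset.sum_const, Finset.card_univ,
    nsmul_eq_mul, hcard] at h4
  have h5 : hf (Apol k y z) (-m - (3 - b)) ≤ ((N : ℝ) * b + 1) ^ 2 := by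
    rw [hf_Apol hK.ind]
    split_ifs
    · rw [hm]; push_cast
      have : (0 : ℝ) ≤ N * b := by positivity
      nlinarith
    · positivity
  have hN' : (0 : ℝ) < N := by exact_mod_cast hN
  have h6 := cc_le_HP (V := V) (by rw [hrk]; exact hN') m
  have h7 := mul_le_mul_of_nonneg_left h5 hN'.le
  linarith

theorem cc_le_of_span (hK : RatFn k y z) (hV : IsLat y z V) (b N : ℕ) (hN : 0 < N)
    (hb : spanF K V ≤ Submodule.span K (V b : Set E)) (hrk : rk V = N) (hdg : dg V ≤ 3 / 2 * N) :
    cc V ≤ N * ((N : ℝ) * b + 1) ^ 2 := by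
  have := hV.bdd.fd_spanF
  set E0 := spanF K V with hE0
  have hinj : Function.Injective E0.subtype := Subtype.val_injective
  have hV0 : IsLat y z (comapF E0.subtype V) := hV.comapF _ hinj
  have hcut : cut V (LinearMap.range E0.subtype) = V := by
    funext l
    rw [Submodule.range_subtype]
    exact inf_eq_left.2 fun v hv => mem_spanF hv
  obtain ⟨e1, e2, e3⟩ := inv_congr (U := comapF E0.subtype V) (V := V)
    (Eventually.of_forall fun l => by rw [hf_comapF _ hinj, hcut])
  have hb0 : Submodule.span K (comapF E0.subtype V b : Set E0) = ⊤ := by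
    apply Submodule.map_injective_of_injective hinj
    rw [Submodule.map_span, Submodule.map_top, Submodule.range_subtype]
    have : E0.subtype '' (comapF E0.subtype V b : Set E0) = V b := by
      ext v
      constructor
      · rintro ⟨u, hu, rfl⟩
        exact hu
      · intro hv
        exact ⟨⟨v, mem_spanF hv⟩, hv, rfl⟩
    rw [this]
    exact le_antisymm (Submodule.span_le.2 fun v hv => mem_spanF hv) hb
  have := C0_full hK hV0 b N hN hb0 (e1.trans hrk) (e2 ▸ hdg)
  rwa [cc, e1, e2, e3] at this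

end Crest.Agent.R169
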