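import Crest.Agent.R169.Lat

/-! # task R169/FinLocal -/

set_option autoImplicit false
set_option linter.unusedSectionVars false
open Filter Module IntermediateField

namespace Crest.Agent.R169

open IsLocalRing

/-- a finite module over a precomplete ring is precomplete -/
theorem finLocal_isPrecomplete {A M : Type} [CommRing A] (I : Ideal A) [IsPrecomplete I A]
    [AddCommGroup M] [Module A M] [Module.Finite A M] : IsPrecomplete I M := by
  rw [← AdicCompletion.of_surjective_iff]
  intro y
  obtain ⟨t, rfl⟩ := AdicCompletion.ofTensorProduct_surjective_of_finite I M y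
  induction t using TensorProduct.induction_on with
  | zero => exact ⟨0, by simp⟩
  | tmul r x =>
    obtain ⟨a, rfl⟩ := AdicCompletion.of_surjective I A r
    refine ⟨a • x, ?_⟩
    rw [AdicCompletion.ofTensorProduct_tmul, map_smul]
    exact (algebraMap_smul (AdicCompletion I A) a _).symm
  | add s t hs ht =>
    obtain ⟨a, ha⟩ := hs
    obtain ⟨b, hb⟩ := ht
    exact ⟨a + b, by rw [map_add, map_add, ha, hb]⟩

/-- precompleteness only depends on the topology -/
theorem finLocal_isPrecomplete_of_le {O : Type} [CommRing O] {I J : Ideal O} (hIJ : I ≤ J) {t : ℕ}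
    (ht : J ^ t ≤ I) [h : IsPrecomplete I O] : IsPrecomplete J O := by
  refine ⟨fun f hf => ?_⟩
  have h1 : ∀ n : ℕ, (J ^ ((t + 1) * n) • ⊤ : Submodule O O) ≤ I ^ n • ⊤ := fun n => by
    refine Submodule.smul_mono_left ?_
    rw [pow_mul]
    exact Ideal.pow_right_mono ((Ideal.pow_le_pow_right (Nat.le_succ t)).trans ht) n
  obtain ⟨L, hL⟩ := h.prec (f := fun n => f ((t + 1) * n)) fun {m n} hmn =>
    (hf (Nat.mul_le_mul_left _ hmn)).mono (h1 m)
  refine ⟨L, fun n => (hf (Nat.le_mul_of_pos_left n t.succ_pos)).trans ?_⟩
  exact (hL n).mono (Submodule.smul_mono_left (Ideal.pow_right_mono hIJ n))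

/-- in an Artinian ring some power of an element generates the same ideal as an idempotent -/
theorem finLocal_exists_idem {B : Type} [CommRing B] [IsArtinianRing B] (x : B) :
    ∃ (n : ℕ) (y : B), 0 < n ∧ x ^ n * (x ^ n * y) = x ^ n := by
  obtain ⟨n, y, hy⟩ := IsArtinian.exists_pow_succ_smul_dvd x (1 : B)
  simp only [smul_eq_mul, mul_one, Nat.succ_eq_add_one] at hy
  have key : ∀ k : ℕ, x ^ n * (x ^ k * y ^ k) = x ^ n := by
    intro k
    induction k with
    | zero => simp
    | succ k ih => linear_combination (x ^ k * y ^ k) * hy + ih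
  exact ⟨n + 1, y ^ (n + 1), n.succ_pos, by linear_combination x * key (n + 1)⟩

theorem finLocal_isUnit_of_sub_mem {O : Type} [CommRing O] {I : Ideal O}
    (hI : I ≤ Ideal.jacobson ⊥) {u : O} (h : u - 1 ∈ I) : IsUnit u := by
  simpa using Ideal.mem_jacobson_bot.1 (hI h) 1

open Polynomial in
/-- a domain that is Henselian along an ideal with Artinian quotient is local -/
theorem finLocal_isLocalRing {O : Type} [CommRing O] [IsDomain O] (I : Ideal O)
    [H : HenselianRing O I] [IsArtinianRing (O ⧸ I)] : IsLocalRing O := by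
  refine IsLocalRing.of_isUnit_or_isUnit_one_sub_self fun x => ?_
  obtain ⟨n, y, hn, hy⟩ := finLocal_exists_idem (Ideal.Quotient.mk I x)
  obtain ⟨y, rfl⟩ := Ideal.Quotient.mk_surjective y
  have hy' : x ^ n * (x ^ n * y) - x ^ n ∈ I := by
    rw [← Ideal.Quotient.eq]; simpa using hy
  have he : (x ^ n * y) ^ 2 - x ^ n * y ∈ I := by
    have := I.mul_mem_right y hy'
    convert this using 1
    ring
  obtain ⟨e, he1, he2⟩ := H.is_henselian (X ^ 2 - X)
    (by monicity!) (x ^ n * y) (by simpa using he) (by
      refine IsUnit.of_mul_eq_one (Ideal.Quotient.mk I (2 * (x ^ n * y) - 1)) ?_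
      rw [← map_mul, ← map_one (Ideal.Quotient.mk I), Ideal.Quotient.eq]
      have := I.mul_mem_left 4 he
      convert this using 1
      simp only [derivative_sub, derivative_X_pow, derivative_X, eval_sub, eval_mul, eval_C,
        eval_pow, eval_X, eval_one]
      push_cast
      ring)
  have he3 : e * (e - 1) = 0 := by
    have : e ^ 2 - e = 0 := by simpa using he1
    linear_combination this
  rcases mul_eq_zero.1 he3 with h0 | h1
  · right
    have hx : x ^ n ∈ I := by
      have h2 := I.sub_mem (I.mul_mem_left (-x ^ n) he2) hy'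
      rw [h0] at h2
      convert h2 using 1
      ring
    have h3 : IsUnit (1 - x ^ n) := finLocal_isUnit_of_sub_mem H.jac (by simpa using hx)
    exact isUnit_of_dvd_unit (one_sub_dvd_one_sub_pow x n) h3
  · left
    have h3 : IsUnit (x ^ n * y) := finLocal_isUnit_of_sub_mem H.jac (by
      have h2 := I.neg_mem he2
      rw [sub_eq_zero.1 h1] at h2
      simpa using h2)
    exact (isUnit_pow_iff hn.ne').1 (isUnit_of_mul_isUnit_left h3)

variable (A O : Type) [CommRing A] [IsLocalRing A] [IsNoetherianRing A]
  [IsAdicComplete (maximalIdeal A) A] [CommRing O] [IsDomain O] [Algebra A O] [Module.Finite A O]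

theorem finLocal_isAdicComplete_map :
    IsAdicComplete ((maximalIdeal A).map (algebraMap A O)) O := by
  rw [IsAdicComplete.map_algebraMap_iff]
  have := finLocal_isPrecomplete (M := O) (maximalIdeal A)
  exact {}

include A in
/-- A finite domain over a complete local ring is local. -/
theorem isLocalRing_of_finite : IsLocalRing O := by
  have := finLocal_isAdicComplete_map A O
  let : Field (A ⧸ maximalIdeal A) := Ideal.Quotient.field _
  have : Module.Finite (A ⧸ maximalIdeal A) (O ⧸ (maximalIdeal A).map (algebraMap A O)) :=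
    Module.Finite.of_restrictScalars_finite A _ _
  have : IsArtinianRing (O ⧸ (maximalIdeal A).map (algebraMap A O)) :=
    IsArtinianRing.of_finite (A ⧸ maximalIdeal A) _
  exact finLocal_isLocalRing ((maximalIdeal A).map (algebraMap A O))

theorem maximalIdeal_le_radical [IsLocalRing O] :
    (maximalIdeal A).map (algebraMap A O) ≤ maximalIdeal O ∧
      maximalIdeal O ≤ ((maximalIdeal A).map (algebraMap A O)).radical := by
  constructor
  · rw [Ideal.map_le_iff_le_comap]
    exact (eq_maximalIdeal (Ideal.isMaximal_comap_of_isIntegral_of_isMaximal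
      (R := A) (maximalIdeal O))).ge
  · rw [Ideal.radical_eq_sInf]
    refine le_sInf ?_
    rintro P ⟨hP, hP'⟩
    rw [Ideal.map_le_iff_le_comap] at hP
    have h1 : P.comap (algebraMap A O) = maximalIdeal A :=
      ((maximalIdeal.isMaximal A).eq_of_le (Ideal.comap_isPrime _ P).ne_top hP).symm
    have h2 : P.IsMaximal := Ideal.isMaximal_of_isIntegral_of_isMaximal_comap (R := A) P
      (h1 ▸ maximalIdeal.isMaximal A)
    exact (eq_maximalIdeal h2).ge

include A in
theorem isAdicComplete_of_finite [IsLocalRing O] : IsAdicComplete (maximalIdeal O) O := by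
  have := finLocal_isAdicComplete_map A O
  have : IsNoetherianRing O := IsNoetherianRing.of_finite A O
  obtain ⟨h1, h2⟩ := maximalIdeal_le_radical A O
  obtain ⟨t, ht⟩ := Ideal.exists_pow_le_of_le_radical_of_fg h2 (IsNoetherian.noetherian _)
  have := finLocal_isPrecomplete_of_le h1 ht
  exact {}

theorem residue_bijective [IsLocalRing O] [Algebra ℂ A] [Algebra ℂ O] [IsScalarTower ℂ A O]
    (h : Function.Bijective (algebraMap ℂ (ResidueField A))) :
    Function.Bijective (algebraMap ℂ (ResidueField O)) := by
  have : IsLocalHom (algebraMap A O) := by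
    refine ((local_hom_TFAE (algebraMap A O)).out 0 2).2 (maximalIdeal_le_radical A O).1
  have : Module.Finite ℂ (ResidueField A) :=
    Module.Finite.of_surjective (Algebra.linearMap ℂ (ResidueField A)) h.2
  have : Module.Finite ℂ (ResidueField O) := Module.Finite.trans (ResidueField A) _
  exact IsAlgClosed.algebraMap_bijective_of_isIntegral

end Crest.Agent.R169
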