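import Crest.Agent.R169.PSNormal
import Crest.Agent.R169.FinLocal
import Crest.Agent.R278.AbsLemmas

/-! # task R169/Complete -/

set_option autoImplicit false
open Filter Module IntermediateField

namespace Crest.Agent.R169

/-- a finite extension of `A` embeds into the normalisation of an overring `B` of `A` in a finite
field extension -/
theorem complete_lift {A T B : Type} [CommRing A] [IsDomain A] [CommRing T] [IsDomain T]
    [CommRing B] [IsDomain B] (ι : A →+* T) (hι : Function.Injective ι) (hfin : ι.Finite)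
    (j : A →+* B) (hj : Function.Injective j) (K Ω : Type) [Field K] [Algebra B K]
    [IsFractionRing B K] [Field Ω] [Algebra K Ω] [Algebra B Ω] [IsScalarTower B K Ω]
    [IsAlgClosed Ω] :
    ∃ L : IntermediateField K Ω, FiniteDimensional K L ∧
      ∃ φ : T →+* integralClosure B L, ∀ a, φ (ι a) = algebraMap B _ (j a) := by
  let := ι.toAlgebra
  let : Algebra A Ω := ((algebraMap B Ω).comp j).toAlgebra
  have : Module.Finite A T := hfin
  have hBΩ : Function.Injective (algebraMap B Ω) := by
    rw [IsScalarTower.algebraMap_eq B K Ω]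
    exact (algebraMap K Ω).injective.comp (IsFractionRing.injective B K)
  have : FaithfulSMul A T := (faithfulSMul_iff_algebraMap_injective A T).2 hι
  have : FaithfulSMul A Ω := (faithfulSMul_iff_algebraMap_injective A Ω).2 (hBΩ.comp hj)
  let f : T →ₐ[A] Ω := IsAlgClosed.lift
  have hf : ∀ a, f (ι a) = algebraMap B Ω (j a) := f.commutes
  have hint : ∀ t, IsIntegral B (f t) := fun t => by
    obtain ⟨p, hp, hp'⟩ := (Algebra.IsIntegral.isIntegral (R := A) t).map f
    exact ⟨p.map j, hp.map j, by rw [Polynomial.eval₂_map]; exact hp'⟩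
  obtain ⟨s, hs⟩ := Module.Finite.fg_top (R := A) (M := T)
  have : Finite (f '' (s : Set T)) := (s.finite_toSet.image f).to_subtype
  refine ⟨adjoin K (f '' (s : Set T)), finiteDimensional_adjoin ?_, ?_⟩
  · rintro _ ⟨t, -, rfl⟩
    exact (hint t).tower_top
  have hmem : ∀ t, f t ∈ adjoin K (f '' (s : Set T)) := fun t => by
    have ht : t ∈ Submodule.span A (s : Set T) := hs ▸ Submodule.mem_top
    induction ht using Submodule.span_induction with
    | mem t ht => exact subset_adjoin K _ ⟨t, ht, rfl⟩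
    | zero => rw [map_zero]; exact zero_mem _
    | add a b _ _ ha hb => rw [map_add]; exact add_mem ha hb
    | smul a t _ ht =>
      rw [Algebra.smul_def, map_mul]
      refine mul_mem ?_ ht
      rw [show algebraMap A T a = ι a from rfl, hf, IsScalarTower.algebraMap_apply B K Ω]
      exact IntermediateField.algebraMap_mem _ _
  let g : T →+* adjoin K (f '' (s : Set T)) := (f : T →+* Ω).codRestrict _ hmem
  have hg : ∀ t, g t ∈ integralClosure B (adjoin K (f '' (s : Set T))) := fun t =>
    (isIntegral_algHom_iff ((adjoin K (f '' (s : Set T))).val.restrictScalars B)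
      Subtype.val_injective).1 (hint t)
  exact ⟨g.codRestrict _ hg, fun a => Subtype.ext (Subtype.ext (hf a))⟩

open IsLocalRing in
theorem complete_of_finite (T : Type) [CommRing T] [Algebra ℂ T] (x : Fin 3 → T)
    (R : Type) [CommRing R] [IsDomain R] [Algebra (MvPowerSeries (Fin 3) ℂ) R]
    [Module.Finite (MvPowerSeries (Fin 3) ℂ) R] [FaithfulSMul (MvPowerSeries (Fin 3) ℂ) R]
    [hR : IsIntegrallyClosed R] (φ : T →+* R)
    (hφ : ∀ a : MvPolynomial (Fin 3) ℂ,
      φ (MvPolynomial.aeval x a) = algebraMap (MvPowerSeries (Fin 3) ℂ) R a) :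
    ∃ (R : Type) (_ : CommRing R) (_ : IsLocalRing R) (_ : Algebra ℂ R),
      IsDomain R ∧ IsNoetherianRing R ∧ IsIntegrallyClosed R ∧
      IsAdicComplete (maximalIdeal R) R ∧ ringKrullDim R = 3 ∧
      Function.Bijective (algebraMap ℂ (ResidueField R)) ∧
      ∃ ψ : T →ₐ[ℂ] R, (∀ i, ψ (x i) ∈ maximalIdeal R) ∧
        maximalIdeal R ≤ (Ideal.span (Set.range fun i => ψ (x i))).radical := by
  have := isAdicComplete_mvPowerSeries
  have hloc := isLocalRing_of_finite (MvPowerSeries (Fin 3) ℂ) R
  let alg : Algebra ℂ R := ((algebraMap (MvPowerSeries (Fin 3) ℂ) R).comp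
    (algebraMap ℂ (MvPowerSeries (Fin 3) ℂ))).toAlgebra
  have : IsScalarTower ℂ (MvPowerSeries (Fin 3) ℂ) R := IsScalarTower.of_algebraMap_eq' rfl
  let ψ : T →ₐ[ℂ] R :=
    { φ with
      commutes' := fun c => by
        have h := hφ (MvPolynomial.C c)
        rw [MvPolynomial.aeval_C, MvPolynomial.coe_C] at h
        exact h }
  have hψ : ∀ i, ψ (x i) = algebraMap (MvPowerSeries (Fin 3) ℂ) R (MvPowerSeries.X i) := by
    intro i
    have h := hφ (MvPolynomial.X i)
    rw [MvPolynomial.aeval_X, MvPolynomial.coe_X] at h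
    exact h
  have hspan : (maximalIdeal (MvPowerSeries (Fin 3) ℂ)).map
      (algebraMap (MvPowerSeries (Fin 3) ℂ) R) = Ideal.span (Set.range fun i => ψ (x i)) := by
    rw [maximalIdeal_mvPowerSeries, Ideal.map_span, ← Set.range_comp]
    simp only [hψ]
    rfl
  obtain ⟨h1, h2⟩ := maximalIdeal_le_radical (MvPowerSeries (Fin 3) ℂ) R
  rw [hspan] at h1 h2
  exact ⟨R, inferInstance, hloc, alg, inferInstance,
    IsNoetherianRing.of_finite (MvPowerSeries (Fin 3) ℂ) R, hR,
    isAdicComplete_of_finite (MvPowerSeries (Fin 3) ℂ) R,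
    (R278.ringKrullDim_eq_of_isIntegral (MvPowerSeries (Fin 3) ℂ) R).trans
      ringKrullDim_mvPowerSeries,
    residue_bijective (MvPowerSeries (Fin 3) ℂ) R residue_mvPowerSeries,
    ψ, fun i => h1 (Ideal.subset_span ⟨i, rfl⟩), h2⟩

open IsLocalRing in
/-- The normalisation of `ℂ⟦x,y,z⟧` in a finite extension containing `T`. -/
theorem exists_complete (T : Type) [CommRing T] [IsDomain T] [Algebra ℂ T] (x : Fin 3 → T)
    (hfin : (MvPolynomial.aeval (R := ℂ) x).toRingHom.Finite)
    (hinj : Function.Injective (MvPolynomial.aeval (R := ℂ) x)) :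
    ∃ (R : Type) (_ : CommRing R) (_ : IsLocalRing R) (_ : Algebra ℂ R),
      IsDomain R ∧ IsNoetherianRing R ∧ IsIntegrallyClosed R ∧
      IsAdicComplete (maximalIdeal R) R ∧ ringKrullDim R = 3 ∧
      Function.Bijective (algebraMap ℂ (ResidueField R)) ∧
      ∃ ψ : T →ₐ[ℂ] R, (∀ i, ψ (x i) ∈ maximalIdeal R) ∧
        maximalIdeal R ≤ (Ideal.span (Set.range fun i => ψ (x i))).radical := by
  have := psNormal_isDomain 3
  have := isIntegrallyClosed_mvPowerSeries
  obtain ⟨L, hL, φ, hφ⟩ := complete_lift (MvPolynomial.aeval (R := ℂ) x).toRingHom hinj hfin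
    (MvPolynomial.coeToMvPowerSeries.ringHom (σ := Fin 3) (R := ℂ))
    (MvPolynomial.coe_injective _ _) (FractionRing (MvPowerSeries (Fin 3) ℂ))
    (AlgebraicClosure (FractionRing (MvPowerSeries (Fin 3) ℂ)))
  have : CharZero (MvPowerSeries (Fin 3) ℂ) := algebraRat.charZero _
  have : Module.Finite (MvPowerSeries (Fin 3) ℂ) (integralClosure (MvPowerSeries (Fin 3) ℂ) L) :=
    IsIntegralClosure.finite (MvPowerSeries (Fin 3) ℂ) (FractionRing (MvPowerSeries (Fin 3) ℂ)) L _
  have : IsIntegrallyClosed (integralClosure (MvPowerSeries (Fin 3) ℂ) L) :=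
    integralClosure.isIntegrallyClosedOfFiniteExtension (FractionRing (MvPowerSeries (Fin 3) ℂ))
  have : FaithfulSMul (MvPowerSeries (Fin 3) ℂ) (integralClosure (MvPowerSeries (Fin 3) ℂ) L) := by
    rw [faithfulSMul_iff_algebraMap_injective]
    refine Function.Injective.of_comp (f := algebraMap _ L) ?_
    rw [← RingHom.coe_comp, ← IsScalarTower.algebraMap_eq, IsScalarTower.algebraMap_eq
      (MvPowerSeries (Fin 3) ℂ) (FractionRing (MvPowerSeries (Fin 3) ℂ)) L]
    exact (algebraMap (FractionRing (MvPowerSeries (Fin 3) ℂ)) L).injective.comp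
      (IsFractionRing.injective (MvPowerSeries (Fin 3) ℂ) (FractionRing (MvPowerSeries (Fin 3) ℂ)))
  exact complete_of_finite T x (integralClosure (MvPowerSeries (Fin 3) ℂ) L) φ hφ

end Crest.Agent.R169
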