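import Crest.Agent.R169.Petersen

/-! # task R169/CoverC -/

set_option autoImplicit false
open Filter Module IntermediateField

namespace Crest.Agent.R169

variable {k : Type} [Field k] {𝕃 : Type} [Field 𝕃] [Algebra k 𝕃] {n : ℕ} {w : Ed → 𝕃} {x : 𝕃}

namespace CoverC

theorem deg_add (e f : Ed → ℕ) (i : Fin 5) : deg (e + f) i = deg e i + deg f i := by
  simp [deg, Finset.sum_add_distrib]

theorem deg_nsmul (m : ℕ) (e : Ed → ℕ) (i : Fin 5) : deg (m • e) i = m * deg e i := by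
  simp [deg, Finset.mul_sum]

theorem mon_nsmul {C : Type} [CommMonoid C] (w : Ed → C) (m : ℕ) (e : Ed → ℕ) :
    mon w (m • e) = mon w e ^ m := by
  simp [mon, ← Finset.prod_pow, ← pow_mul, mul_comm]

theorem reg_add {e f : Ed → ℕ} {i j : ℕ} (he : Reg e i) (hf : Reg f j) : Reg (e + f) (i + j) :=
  ⟨fun a => by simp [he.diag, hf.diag], fun a => by rw [deg_add, he.deg, hf.deg, mul_add]⟩

theorem ofList_cons (a : Ed) (l : List Ed) : ofList (a :: l) = ofList [a] + ofList l := by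
  funext b
  simp [ofList, List.count_cons, add_comm]

theorem deg_nil (i : Fin 5) : deg (ofList []) i = 0 := by simp [deg, ofList]

theorem deg_cons {a b : Fin 5} (h : a ≠ b) (l : List Ed) (i : Fin 5) :
    deg (ofList (s(a, b) :: l)) i =
      (if i = a then 1 else 0) + (if i = b then 1 else 0) + deg (ofList l) i := by
  rw [ofList_cons, deg_add]
  congr 1
  revert a b i
  decide

theorem two_factor {g : Ed → ℕ} (hg : Reg g 1) (π : Equiv.Perm (Fin 5)) (h1 : g s(π 0, π 1) = 0)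
    (h2 : g s(π 0, π 2) = 0) : 0 < g s(π 1, π 2) ∧ (0 < g s(π 0, π 3) ∨ 0 < g s(π 0, π 4)) := by
  have h (i : Fin 5) : ∑ j, g s(π i, π j) = 2 * 1 :=
    (Equiv.sum_comp π fun j => g s(π i, j)).trans (hg.deg (π i))
  have h0 := h 0
  have h1' := h 1
  have h2' := h 2
  have h3 := h 3
  have h4 := h 4
  simp only [Fin.sum_univ_five, hg.diag, Sym2.eq_swap (a := π 1) (b := π 0),
    Sym2.eq_swap (a := π 2) (b := π 0), Sym2.eq_swap (a := π 3) (b := π 0),
    Sym2.eq_swap (a := π 4) (b := π 0), Sym2.eq_swap (a := π 2) (b := π 1),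
    Sym2.eq_swap (a := π 3) (b := π 1), Sym2.eq_swap (a := π 4) (b := π 1),
    Sym2.eq_swap (a := π 3) (b := π 2), Sym2.eq_swap (a := π 4) (b := π 2),
    Sym2.eq_swap (a := π 4) (b := π 3)] at h0 h1' h2' h3 h4
  omega

theorem exists_perm {a b c : Fin 5} (h1 : a ≠ b) (h2 : a ≠ c) (h3 : b ≠ c) :
    ∃ π : Equiv.Perm (Fin 5), π 0 = a ∧ π 1 = b ∧ π 2 = c := by
  obtain ⟨π, h⟩ := Equiv.Perm.exists_extending_pair (f := ![(0 : Fin 5), 1, 2]) (g := ![a, b, c])
    (by decide) (by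
      intro i j
      fin_cases i <;> fin_cases j <;> simp [h1, h2, h3, h1.symm, h2.symm, h3.symm])
  exact ⟨π, h 0, h 1, h 2⟩

/-- A matching is contained in `{π 0 π 1, π 2 π 3}` for some `π`. -/
theorem matching {S : Ed → Prop}
    (hS : ∀ π : Equiv.Perm (Fin 5), S s(π 0, π 1) ∨ S s(π 0, π 2)) :
    ∃ π : Equiv.Perm (Fin 5), ∀ i j, i ≠ j → s(i, j) ≠ s(0, 1) → s(i, j) ≠ s(2, 3) →
      S s(π i, π j) := by
  have h : ∀ a b c, a ≠ b → a ≠ c → b ≠ c → ¬ S s(a, b) → S s(a, c) := fun a b c h1 h2 h3 h4 => by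
    obtain ⟨π, rfl, rfl, rfl⟩ := exists_perm h1 h2 h3
    exact (hS π).resolve_left h4
  have h' : ∀ (π : Equiv.Perm (Fin 5)) a b, a ≠ b → ¬ S s(π a, π b) → ∀ i j, i ≠ j →
      s(i, j) ≠ s(a, b) → (i = a ∨ i = b ∨ j = a ∨ j = b) → S s(π i, π j) := by
    intro π a b hab hn i j hij hne hor
    have hn' : ¬ S s(π b, π a) := by rwa [Sym2.eq_swap]
    rcases hor with rfl | rfl | rfl | rfl
    · exact h _ _ _ (π.injective.ne hab) (π.injective.ne hij)
        (π.injective.ne fun e => hne (by rw [e])) hn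
    · exact h _ _ _ (π.injective.ne hab.symm) (π.injective.ne hij)
        (π.injective.ne fun e => hne (by rw [e, Sym2.eq_swap])) hn'
    · rw [Sym2.eq_swap]
      exact h _ _ _ (π.injective.ne hab) (π.injective.ne hij.symm)
        (π.injective.ne fun e => hne (by rw [e, Sym2.eq_swap])) hn
    · rw [Sym2.eq_swap]
      exact h _ _ _ (π.injective.ne hab.symm) (π.injective.ne hij.symm)
        (π.injective.ne fun e => hne (by rw [e])) hn'
  by_cases c1 : ∃ π : Equiv.Perm (Fin 5), ¬ S s(π 0, π 1) ∧ ¬ S s(π 2, π 3)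
  · obtain ⟨π, c1, c2⟩ := c1
    refine ⟨π, fun i j hij e1 e2 => ?_⟩
    have : (i = 0 ∨ i = 1 ∨ j = 0 ∨ j = 1) ∨ (i = 2 ∨ i = 3 ∨ j = 2 ∨ j = 3) := by
      revert i j
      decide
    exact this.elim (h' π 0 1 (by decide) c1 i j hij e1) (h' π 2 3 (by decide) c2 i j hij e2)
  by_cases c2 : ∃ π : Equiv.Perm (Fin 5), ¬ S s(π 0, π 1)
  · obtain ⟨π, c2⟩ := c2
    refine ⟨π, fun i j hij e1 e2 => ?_⟩
    have : (i = 0 ∨ i = 1 ∨ j = 0 ∨ j = 1) ∨ ∃ σ ∈ [Equiv.swap (3 : Fin 5) 4, Equiv.swap 2 4],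
        σ 0 = 0 ∧ σ 1 = 1 ∧ s(i, j) = s(σ 2, σ 3) := by
      revert i j
      decide
    refine this.elim (h' π 0 1 (by decide) c2 i j hij e1) fun ⟨σ, _, s0, s1, s2⟩ => ?_
    by_contra c3
    refine c1 ⟨π * σ, by simpa [s0, s1] using c2, ?_⟩
    rwa [show s((π * σ) 2, (π * σ) 3) = s(π i, π j) from (congrArg (Sym2.map π) s2).symm]
  refine ⟨1, fun i j hij _ _ => ?_⟩
  obtain ⟨c, c3, c4⟩ : ∃ c, i ≠ c ∧ j ≠ c := by
    revert i j
    decide
  obtain ⟨π, rfl, rfl, -⟩ := exists_perm hij c3 c4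
  exact not_not.1 fun c5 => c2 ⟨π, c5⟩

section val
variable {Γ₀ : Type} [LinearOrderedCommGroupWithZero Γ₀] (v : Valuation 𝕃 Γ₀) (w : Ed → 𝕃) (G : Γ₀)

/-- `f` is contained in a regular graph of maximal valuation. -/
def Ext (f : Ed → ℕ) : Prop := ∃ r j, Reg (f + r) j ∧ G ^ j ≤ v (mon w (f + r))

variable {v w G}

theorem Ext.add {f g : Ed → ℕ} (hf : Ext v w G f) (hg : Ext v w G g) : Ext v w G (f + g) := by
  obtain ⟨r, i, h1, h2⟩ := hf
  obtain ⟨s, j, h3, h4⟩ := hg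
  refine ⟨r + s, i + j, ?_⟩
  rw [add_add_add_comm, mon_add, map_mul, pow_add]
  exact ⟨reg_add h1 h3, mul_le_mul' h2 h4⟩

theorem Ext.mono {f g : Ed → ℕ} (hf : Ext v w G g) (h : f ≤ g) : Ext v w G f := by
  obtain ⟨r, i, h1⟩ := hf
  obtain ⟨s, rfl⟩ := exists_add_of_le h
  exact ⟨s + r, i, by rwa [← add_assoc]⟩

theorem ext_zero : Ext v w G 0 :=
  ⟨0, 0, ⟨fun _ => rfl, fun _ => by simp [deg]⟩, by simp [mon]⟩

theorem Ext.nsmul {f : Ed → ℕ} (hf : Ext v w G f) (m : ℕ) : Ext v w G (m • f) := by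
  induction m with
  | zero => simpa using ext_zero
  | succ m ih => rw [succ_nsmul]; exact ih.add hf

theorem ext_list {l : List Ed} (h : ∀ a ∈ l, Ext v w G (ofList [a])) : Ext v w G (ofList l) := by
  induction l with
  | nil => exact ext_zero
  | cons a l ih =>
    rw [ofList_cons]
    exact (h a (by simp)).add (ih fun b hb => h b (by simp [hb]))

theorem Ext.edge {g : Ed → ℕ} (hg : Ext v w G g) {a : Ed} (ha : 0 < g a) :
    Ext v w G (ofList [a]) := hg.mono fun b => by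
  by_cases h : a = b
  · subst h
    simpa [ofList, Nat.one_le_iff_ne_zero] using ha.ne'
  · simp [ofList, h]

theorem Ext.le (hG : G ≠ 0) (hb : ∀ e j, Reg e j → v (mon w e) ≤ G ^ j) {f : Ed → ℕ} {i : ℕ}
    (hf : Ext v w G f) (hi : Reg f i) : G ^ i ≤ v (mon w f) := by
  obtain ⟨r, j, h1, h2⟩ := hf
  have h3 (a : Fin 5) : 2 * i + deg r a = 2 * j := by rw [← hi.deg a, ← deg_add, h1.deg]
  obtain ⟨m, rfl⟩ : ∃ m, j = i + m := ⟨j - i, by have := h3 0; omega⟩
  have h4 : Reg r m := ⟨fun a => by simpa [hi.diag] using h1.diag a, fun a => by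
    have := h3 a
    omega⟩
  rw [mon_add, map_mul, pow_add] at h2
  exact le_of_mul_le_mul_right (h2.trans (mul_le_mul_right (hb r m h4) _))
    (zero_lt_iff.2 (pow_ne_zero _ hG))

theorem Ext.swap (h : SymFam k n w) (hn : 0 < n) (hk : ∀ c : k, v (algebraMap k 𝕃 c) ≤ 1)
    {a b c d : Fin 5} (h1 : a ≠ b) (h2 : a ≠ c) (h3 : a ≠ d) (h4 : b ≠ c) (h5 : b ≠ d) (h6 : c ≠ d)
    (e1 : Ext v w G (ofList [s(a, b)])) (e2 : Ext v w G (ofList [s(c, d)])) :
    Ext v w G (ofList [s(a, c)]) ∨ Ext v w G (ofList [s(a, d)]) := by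
  obtain ⟨ε₁, ε₂, hp⟩ := h.pl a b c d h1 h2 h3 h4 h5 h6
  obtain ⟨r, j, r1, r2⟩ := (e1.add e2).nsmul n
  rw [← ofList_cons] at r1 r2
  have key : ∀ b' c' d' : Fin 5, a ≠ b' → c' ≠ d' →
      (∀ i, deg (ofList [s(a, b'), s(c', d')]) i = deg (ofList [s(a, b), s(c, d)]) i) → ∀ ε : k,
      G ^ j ≤ v (ε • (w s(a, b') * w s(c', d')) ^ n * mon w r) → Ext v w G (ofList [s(a, b')]) := by
    intro b' c' d' g1 g2 g3 ε g4
    have g5 : Ext v w G (n • ofList [s(a, b'), s(c', d')]) := by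
      refine ⟨r, j, ⟨fun i => ?_, fun i => ?_⟩, g4.trans ?_⟩
      · have g6 : r s(i, i) = 0 := (Nat.add_eq_zero_iff.1 (r1.diag i)).2
        have g7 : s(a, b') ≠ s(i, i) := by
          simp only [ne_eq, Sym2.eq_iff, or_self]
          rintro ⟨rfl, rfl⟩
          exact g1 rfl
        have g8 : s(c', d') ≠ s(i, i) := by
          simp only [ne_eq, Sym2.eq_iff, or_self]
          rintro ⟨rfl, rfl⟩
          exact g2 rfl
        simp [ofList, g6, g7, g8]
      · rw [← r1.deg i, deg_add, deg_add, deg_nsmul, deg_nsmul, g3]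
      · rw [mon_add, mon_nsmul, mon_ofList, Algebra.smul_def, mul_assoc, map_mul]
        simpa using mul_le_of_le_one_left' (hk ε)
    exact g5.edge (by simp [ofList, hn])
  rw [mon_add, mon_nsmul, mon_ofList] at r2
  simp only [List.map_cons, List.map_nil, List.prod_cons, List.prod_nil, mul_one] at r2
  rw [hp, add_mul] at r2
  refine (le_max_iff.1 (r2.trans (v.map_add _ _))).imp (key c b d h2 h5 (fun i => ?_) ε₁)
    (key d b c h3 h4 (fun i => ?_) ε₂)
  · rw [deg_cons h2, deg_cons h5, deg_cons h1, deg_cons h6]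
    ring
  · rw [deg_cons h3, deg_cons h4, deg_cons h1, deg_cons h6]
    ring

/-- The tropical statement: some chart contains the centre of the valuation. -/
theorem exists_chart (h : SymFam k n w) (hn : 0 < n) (hk : ∀ c : k, v (algebraMap k 𝕃 c) ≤ 1)
    {g : Ed → ℕ} (hg : Reg g 1) (hG : G ≠ 0) (hg' : G = v (mon w g))
    (hb : ∀ e j, Reg e j → v (mon w e) ≤ G ^ j) :
    ∃ π, G ^ 2 ≤ v (cu w 1 π * cu' w 1 π) := by
  have e0 : Ext v w G g := ⟨0, 1, by simpa using hg, by simp [hg']⟩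
  obtain ⟨π, hπ⟩ := matching (S := fun a => Ext v w G (ofList [a])) fun π => by
    by_contra hc
    obtain ⟨c1, c2⟩ := not_or.1 hc
    obtain ⟨c3, c4⟩ := two_factor hg π (Nat.eq_zero_of_not_pos fun c => c1 (e0.edge c))
      (Nat.eq_zero_of_not_pos fun c => c2 (e0.edge c))
    refine hc (c4.elim (fun c => ?_) fun c => ?_) <;>
      refine Ext.swap h hn hk ?_ ?_ ?_ ?_ ?_ ?_ (e0.edge c) (e0.edge c3) <;>
      exact π.injective.ne (by decide)
  have e1 : Ext v w G (ofList [s(π 4, π 0), s(π 0, π 2), s(π 2, π 1), s(π 1, π 3), s(π 3, π 4),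
      s(π 4, π 1), s(π 1, π 3), s(π 3, π 0), s(π 0, π 2), s(π 2, π 4)]) := ext_list (by
    simp only [List.mem_cons, List.not_mem_nil, or_false, forall_eq_or_imp, forall_eq]
    refine ⟨?_, ?_, ?_, ?_, ?_, ?_, ?_, ?_, ?_, ?_⟩ <;>
      exact hπ _ _ (by decide) (by decide) (by decide))
  refine ⟨π, (e1.le hG hb ⟨fun i => ?_, fun i => ?_⟩).trans_eq ?_⟩
  · obtain ⟨i, rfl⟩ := π.surjective i
    fin_cases i <;> simp [ofList]
  · obtain ⟨i, rfl⟩ := π.surjective i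
    iterate 10 rw [deg_cons (π.injective.ne (by decide))]
    fin_cases i <;> simp [deg_nil]
  · simp [mon_ofList, cu, cu', mul_assoc]

end val

/-- The coordinate ring of the chart `γ ≠ 0`. -/
def chartRing (Γ : Finset 𝕃) {γ : 𝕃} (hγ : γ ∈ Γ) : Subring 𝕃 where
  carrier := {a | ∃ K : ℕ, a * γ ^ K ∈ Rg k Γ K}
  mul_mem' := fun ⟨i, hi⟩ ⟨j, hj⟩ => ⟨i + j, by
    rw [pow_add, mul_mul_mul_comm, Nat.cast_add]
    exact mul_mem_Rg hi hj⟩
  one_mem' := ⟨0, by simpa using one_mem_Rg_zero⟩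
  add_mem' := fun ⟨i, hi⟩ ⟨j, hj⟩ => ⟨i + j, by
    have h1 := mul_mem_Rg hi (pow_mem_Rg (mem_Rg_one (k := k) hγ) j)
    have h2 := mul_mem_Rg (pow_mem_Rg (mem_Rg_one (k := k) hγ) i) hj
    rw [mul_one] at h1 h2
    rw [Nat.cast_add]
    convert add_mem h1 h2 using 1
    ring⟩
  zero_mem' := ⟨0, by simp⟩
  neg_mem' := fun ⟨i, hi⟩ => ⟨i, by simpa using hi⟩

end CoverC

open CoverC in
theorem SymFam.cover (h : SymFam k n w) (hn : 0 < n) (hx : x ≠ 0) :
    ∀ γ ∈ Gam w x, ∀ M : ℕ, ∃ (K : ℕ) (r : Equiv.Perm (Fin 5) → 𝕃),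
      (∀ c, r c ∈ Rg k (Gam w x) ((K : ℤ) - 2 * M)) ∧
        γ ^ K = ∑ c, r c * (cu w x c * cu' w x c) ^ M := by
  intro γ hγ M
  obtain ⟨⟨g, hg⟩, e⟩ := mem_Gam.1 hγ
  have hm : mon w g ≠ 0 := Finset.prod_ne_zero_iff.2 fun a _ => pow_ne_zero _ (h.ne a)
  have h0 : γ ≠ 0 := e ▸ div_ne_zero hm hx
  let O := chartRing (k := k) (Gam w x) hγ
  let t : Equiv.Perm (Fin 5) → O := fun c => ⟨cu w x c * cu' w x c / γ ^ 2, 2, by
    rw [div_mul_cancel₀ _ (pow_ne_zero _ h0)]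
    exact mul_mem_Rg (mem_Rg_one (cu_mem c)) (mem_Rg_one (cu'_mem c))⟩
  by_cases hI : Ideal.span (Set.range fun c => t c ^ M) = ⊤
  · obtain ⟨r, hr⟩ := Ideal.mem_span_range_iff_exists_fun.1 ((Ideal.eq_top_iff_one _).1 hI)
    choose K hK using fun c => (r c).2
    refine ⟨∑ c, K c + 2 * M, fun c => r c * γ ^ (∑ c, K c), fun c => ?_, ?_⟩
    · obtain ⟨m, hm⟩ := exists_add_of_le
        (Finset.single_le_sum (f := K) (fun _ _ => Nat.zero_le _) (Finset.mem_univ c))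
      have h1 := mul_mem_Rg (hK c) (pow_mem_Rg (mem_Rg_one (k := k) hγ) m)
      rw [mul_assoc, ← pow_add, mul_one, ← Nat.cast_add, ← hm] at h1
      generalize ∑ c, K c = N at h1 ⊢
      rwa [Nat.cast_add, Nat.cast_mul, Nat.cast_ofNat, add_sub_cancel_right]
    · have h1 : ∑ c, (r c : 𝕃) * (cu w x c * cu' w x c / γ ^ 2) ^ M = 1 := by
        simpa [t] using congrArg O.subtype hr
      rw [← one_mul (γ ^ _), ← h1, Finset.sum_mul]
      refine Finset.sum_congr rfl fun c _ => ?_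
      rw [div_pow, ← pow_mul]
      field_simp
      ring
  exfalso
  obtain ⟨B, hB, hB'⟩ := Ideal.image_subset_nonunits_valuationSubring _ hI
  have hO : ∀ a ∈ O, B.valuation a ≤ 1 := fun a ha => (B.valuation_le_one_iff a).2 (hB ha)
  have hG : B.valuation (mon w g) ≠ 0 := by simpa using hm
  obtain ⟨π, hπ⟩ := exists_chart (v := B.valuation) h hn (fun c => hO _ ⟨0, by
    simpa [Algebra.algebraMap_eq_smul_one] using
      Submodule.smul_mem _ c one_mem_Rg_zero⟩) hg hG rfl fun f j hf => by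
    have h1 := hO (mon w f / mon w g ^ j) ⟨j, by
      convert mon_div_mem_Rg (k := k) (w := w) (x := x) hf using 1
      rw [← e, div_pow]
      field_simp⟩
    rwa [map_div₀, map_pow, div_le_one₀ (zero_lt_iff.2 (pow_ne_zero _ hG))] at h1
  have h2 : B.valuation (t π ^ M : O) < 1 := hB' ⟨_, Ideal.subset_span ⟨π, rfl⟩, rfl⟩
  have h3 : (t π : 𝕃) = cu w 1 π * cu' w 1 π / mon w g ^ 2 := by
    simp only [t, ← e, cu, cu']
    field_simp
  rw [SubmonoidClass.coe_pow, map_pow, h3, map_div₀, map_pow] at h2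
  exact h2.not_ge (one_le_pow_of_one_le'
    ((one_le_div₀ (zero_lt_iff.2 (pow_ne_zero _ hG))).2 hπ) _)

/-- The cover by the charts around the fifteen double points of the configuration. -/
def SymFam.toCover (h : SymFam k n w) (hn : 0 < n) (hx : x ≠ 0) : Cover k (Gam w x) where
  ι := Equiv.Perm (Fin 5)
  u := cu w x
  u' := cu' w x
  u_mem := cu_mem
  u'_mem := cu'_mem
  u_ne := h.cu_ne hx
  u'_ne := h.cu'_ne hx
  cover := h.cover hn hx

end Crest.Agent.R169
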