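import Crest.Agent.R169.Lat

/-! # task R169/Depth -/

set_option autoImplicit false
open Filter Module IntermediateField

namespace Crest.Agent.R169

open IsLocalRing RingTheory.Sequence CategoryTheory Abelian in
/-- Dividing by a regular element of the maximal ideal lowers the depth by at most one. -/
theorem depth_drop {O : Type} [CommRing O] [IsLocalRing O] [IsNoetherianRing O]
    (M : Type) [AddCommGroup M] [Module O M] [Module.Finite O M] [Nontrivial M] (n : ℕ)
    (rs : List O) (hl : rs.length = n + 1) (hm : ∀ r ∈ rs, r ∈ maximalIdeal O)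
    (hreg : IsRegular M rs) {a : O} (ha : a ∈ maximalIdeal O) (hra : IsSMulRegular M a) :
    ∃ rs' : List O, rs'.length = n ∧ (∀ r ∈ rs', r ∈ maximalIdeal O) ∧
      IsRegular (QuotSMulTop a M) rs' := by
  have hlt : ∀ (L : Type) [AddCommGroup L] [Module O L] [Module.Finite O L] [Nontrivial L],
      maximalIdeal O • (⊤ : Submodule O L) < ⊤ := fun L _ _ _ _ =>
    (Submodule.top_ne_ideal_smul_of_le_jacobson_annihilator
      (maximalIdeal_le_jacobson _)).symm.lt_top
  have suppQ : Module.support O (O ⧸ maximalIdeal O) = PrimeSpectrum.zeroLocus (maximalIdeal O) := by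
    rw [Module.support_eq_zeroLocus, Ideal.annihilator_quotient]
  have h_ext := ModuleCat.subsingleton_ext_of_exists_isRegular (maximalIdeal O)
    (ModuleCat.of O (O ⧸ maximalIdeal O)) suppQ.subset (ModuleCat.of O M) (hlt M) rs hm hreg
  have := nontrivial_quotSMulTop_of_mem_maximalIdeal M ha
  refine ModuleCat.exists_isRegular_of_exists_subsingleton_ext (maximalIdeal O) n
    (ModuleCat.of O (QuotSMulTop a M)) (hlt _) (ModuleCat.of O (O ⧸ maximalIdeal O)) suppQ ?_
  intro i hi
  have zero1 := AddCommGrpCat.isZero_of_iff_subsingleton.mpr (h_ext i (by omega))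
  have zero2 := AddCommGrpCat.isZero_of_iff_subsingleton.mpr (h_ext (i + 1) (by omega))
  exact AddCommGrpCat.subsingleton_of_isZero <| ShortComplex.Exact.isZero_of_both_zeros
    ((Ext.covariant_sequence_exact₃' (ModuleCat.of O (O ⧸ maximalIdeal O))
      (IsSMulRegular.smulShortComplex_shortExact (M := ModuleCat.of O M) hra)) i (i + 1) rfl)
    (zero1.eq_zero_of_src _) (zero2.eq_zero_of_tgt _)

open IsLocalRing in
/-- On a module of positive depth some linear combination of the parameters is regular. -/
theorem depth_exists_regular_comb (k : Type) [Field k] [Infinite k] {O : Type} [CommRing O]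
    [IsLocalRing O] [IsNoetherianRing O] [Algebra k O] (x : Fin 3 → O)
    (hrad : maximalIdeal O ≤ (Ideal.span (Set.range x)).radical)
    (M : Type) [AddCommGroup M] [Module O M] [Module.Finite O M]
    {r : O} (hr : r ∈ maximalIdeal O) (hreg : IsSMulRegular M r) :
    ∃ c : Fin 3 → k, IsSMulRegular M (∑ j, c j • x j) := by
  have : Finite (associatedPrimes O M) := (associatedPrimes.finite O M).to_subtype
  let φ : (Fin 3 → k) →ₗ[k] O := Fintype.linearCombination k x
  have hne : ∀ p : associatedPrimes O M, (p.1.restrictScalars k).comap φ ≠ ⊤ := by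
    rintro ⟨p, hp⟩ htop
    have hx : ∀ j, x j ∈ p := by
      intro j
      have : Pi.single j (1 : k) ∈ (p.restrictScalars k).comap φ := htop ▸ Submodule.mem_top
      simpa [φ] using this
    have hle : Ideal.span (Set.range x) ≤ p := Ideal.span_le.2 (Set.range_subset_iff.2 hx)
    have hrp : r ∈ p := (hp.isPrime.radical_le_iff.2 hle) (hrad hr)
    have : r ∈ ⋃ p ∈ associatedPrimes O M, (p : Set O) := Set.mem_biUnion hp hrp
    rw [biUnion_associatedPrimes_eq_compl_regular] at this
    exact this hreg
  obtain ⟨c, hc⟩ := Submodule.exists_forall_notMem_of_forall_ne_top _ hne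
  refine ⟨c, ?_⟩
  by_contra hn
  have : (∑ j, c j • x j) ∈ ⋃ p ∈ associatedPrimes O M, (p : Set O) := by
    rw [biUnion_associatedPrimes_eq_compl_regular]
    exact hn
  obtain ⟨p, hp, hmem⟩ := Set.mem_iUnion₂.1 this
  exact hc ⟨p, hp⟩ (by simpa [φ, Fintype.linearCombination_apply] using hmem)

theorem depth_smul_quot_self {O : Type} [CommRing O] {M : Type} [AddCommGroup M] [Module O M]
    (a : O) (n : QuotSMulTop a M) : a • n = 0 := by
  obtain ⟨m, rfl⟩ := Submodule.Quotient.mk_surjective _ n
  rw [← Submodule.Quotient.mk_smul, Submodule.Quotient.mk_eq_zero]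
  exact Submodule.smul_mem_pointwise_smul m a ⊤ Submodule.mem_top

theorem depth_smul_quot_of {O : Type} [CommRing O] {M : Type} [AddCommGroup M] [Module O M]
    {a : O} (h : ∀ m : M, a • m = 0) (b : O) (n : QuotSMulTop b M) : a • n = 0 := by
  obtain ⟨m, rfl⟩ := Submodule.Quotient.mk_surjective _ n
  rw [← Submodule.Quotient.mk_smul, h, Submodule.Quotient.mk_zero]

theorem depth_not_regular_of_kills {O : Type} [CommRing O] {M : Type} [AddCommGroup M]
    [Module O M] [Nontrivial M] {a : O} (h : ∀ m : M, a • m = 0) : ¬ IsSMulRegular M a := by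
  intro ha
  obtain ⟨m, hm⟩ := exists_ne (0 : M)
  exact hm (ha (by simpa using h m))

theorem depth_indep (k : Type) [Field k] {O : Type} [CommRing O] [Algebra k O] {M : Type}
    [AddCommGroup M] [Module O M] {a0 a1 a2 : O} [Nontrivial M] [Nontrivial (QuotSMulTop a0 M)]
    [Nontrivial (QuotSMulTop a1 (QuotSMulTop a0 M))] (h0 : IsSMulRegular M a0)
    (h1 : IsSMulRegular (QuotSMulTop a0 M) a1)
    (h2 : IsSMulRegular (QuotSMulTop a1 (QuotSMulTop a0 M)) a2) (v : Fin 3 → k)
    (hrel : v 0 • a0 + v 1 • a1 + v 2 • a2 = 0) : v = 0 := by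
  simp only [Algebra.smul_def] at hrel
  have hu : ∀ t : k, t ≠ 0 → IsUnit (algebraMap k O t) := fun t ht =>
    (isUnit_iff_ne_zero.2 ht).map _
  have h2v : v 2 = 0 := by
    by_contra h2v
    refine depth_not_regular_of_kills (fun m => ?_) h2
    have e : (algebraMap k O (v 0) * a0 + algebraMap k O (v 1) * a1
        + algebraMap k O (v 2) * a2) • m = 0 := by
      rw [hrel, zero_smul]
    have e0 : a0 • m = 0 := depth_smul_quot_of (depth_smul_quot_self a0) a1 m
    have e1 : a1 • m = 0 := depth_smul_quot_self a1 m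
    rw [add_smul, add_smul, mul_smul, mul_smul, mul_smul, e0, e1, smul_zero, smul_zero, zero_add,
      zero_add] at e
    exact (hu _ h2v).smul_eq_zero.1 e
  rw [h2v, map_zero, zero_mul, add_zero] at hrel
  have h1v : v 1 = 0 := by
    by_contra h1v
    refine depth_not_regular_of_kills (fun m => ?_) h1
    have e : (algebraMap k O (v 0) * a0 + algebraMap k O (v 1) * a1) • m = 0 := by
      rw [hrel, zero_smul]
    have e0 : a0 • m = 0 := depth_smul_quot_self a0 m
    rw [add_smul, mul_smul, mul_smul, e0, smul_zero, zero_add] at e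
    exact (hu _ h1v).smul_eq_zero.1 e
  rw [h1v, map_zero, zero_mul, add_zero] at hrel
  have h0v : v 0 = 0 := by
    by_contra h0v
    have : a0 = 0 := (hu _ h0v).mul_right_eq_zero.1 hrel
    exact depth_not_regular_of_kills (fun m => by rw [this, zero_smul]) h0
  funext i
  fin_cases i
  · exact h0v
  · exact h1v
  · exact h2v

open IsLocalRing RingTheory.Sequence in
/-- On a module of depth three, three general linear combinations of a system of parameters form
a regular sequence. -/
theorem exists_regular_basis (k : Type) [Field k] [Infinite k] {O : Type} [CommRing O]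
    [IsLocalRing O] [IsNoetherianRing O] [Algebra k O] (x : Fin 3 → O)
    (hx : ∀ i, x i ∈ maximalIdeal O)
    (hrad : maximalIdeal O ≤ (Ideal.span (Set.range x)).radical)
    (M : Type) [AddCommGroup M] [Module O M] [Module.Finite O M] [Nontrivial M]
    (rs : List O) (hl : rs.length = 3) (hm : ∀ r ∈ rs, r ∈ maximalIdeal O) (hreg : IsRegular M rs) :
    ∃ c : Matrix (Fin 3) (Fin 3) k, IsUnit c.det ∧
      IsWeaklyRegular M [∑ j, c 0 j • x j, ∑ j, c 1 j • x j, ∑ j, c 2 j • x j] := by
  have hmem : ∀ c : Fin 3 → k, (∑ j, c j • x j) ∈ maximalIdeal O := fun c =>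
    Ideal.sum_mem _ fun j _ => by
      rw [Algebra.smul_def]; exact Ideal.mul_mem_left _ _ (hx j)
  have step : ∀ (L : Type) [AddCommGroup L] [Module O L] [Module.Finite O L] [Nontrivial L]
      (n : ℕ) (l : List O), l.length = n + 1 → (∀ r ∈ l, r ∈ maximalIdeal O) → IsRegular L l →
      ∃ c : Fin 3 → k, IsSMulRegular L (∑ j, c j • x j) ∧ ∃ l' : List O, l'.length = n ∧
        (∀ r ∈ l', r ∈ maximalIdeal O) ∧ IsRegular (QuotSMulTop (∑ j, c j • x j) L) l' := by
    intro L _ _ _ _ n l hl hm hreg
    cases l with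
    | nil => simp at hl
    | cons r l =>
      obtain ⟨c, hc⟩ := depth_exists_regular_comb k x hrad L (hm r List.mem_cons_self)
        ((isRegular_cons_iff L r l).1 hreg).1
      exact ⟨c, hc, depth_drop L n (r :: l) hl hm hreg (hmem c) hc⟩
  obtain ⟨c0, h0, l1, hl1, hm1, hr1⟩ := step M 2 rs hl hm hreg
  have := hr1.nontrivial
  obtain ⟨c1, h1, l2, hl2, hm2, hr2⟩ := step _ 1 l1 hl1 hm1 hr1
  have := hr2.nontrivial
  obtain ⟨c2, h2, -⟩ := step _ 0 l2 hl2 hm2 hr2
  refine ⟨Matrix.of ![c0, c1, c2], ?_, ?_⟩
  · rw [isUnit_iff_ne_zero]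
    intro hdet
    obtain ⟨v, hv, hv0⟩ := Matrix.exists_vecMul_eq_zero_iff.2 hdet
    refine hv (depth_indep k h0 h1 h2 v ?_)
    have hj : ∀ j, v 0 * c0 j + v 1 * c1 j + v 2 * c2 j = 0 := by
      intro j
      have := congrFun hv0 j
      simpa [Matrix.vecMul, dotProduct, Fin.sum_univ_three] using this
    rw [Finset.smul_sum, Finset.smul_sum, Finset.smul_sum,
      ← Finset.sum_add_distrib, ← Finset.sum_add_distrib]
    refine Finset.sum_eq_zero fun j _ => ?_
    rw [smul_smul, smul_smul, smul_smul, ← add_smul, ← add_smul, hj, zero_smul]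
  · simp only [Matrix.of_apply, Matrix.cons_val_zero, Matrix.cons_val_one, Matrix.cons_val]
    exact IsWeaklyRegular.cons h0 (IsWeaklyRegular.cons h1 (IsWeaklyRegular.cons h2
      (IsWeaklyRegular.nil _ _)))

end Crest.Agent.R169
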