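import Crest.Agent.R169.Rank

/-! # Dual lattices: basics (task R169/Dual) -/

set_option autoImplicit false
open Filter Module

namespace Crest.Agent.R169

variable {k : Type} [Field k] {K : Type} [Field K] [Algebra k K] {y z : K}
  {E : Type} [AddCommGroup E] [Module k E] [Module K E] [IsScalarTower k K E]
  {E' : Type} [AddCommGroup E'] [Module k E'] [Module K E'] [IsScalarTower k K E']
  (B : E' →ₗ[K] E →ₗ[K] K) {U V W : Fam k E}

omit [IsScalarTower k K E] in
theorem stab_dualF (V : Fam k E) : Stab (Apol k y z) (dualF y z B V) := by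
  intro i j r φ hr hφ
  rw [mem_dualF] at hφ ⊢
  intro l v hv
  have h := mul_mem_Apol hr (hφ l v hv)
  rw [map_smul, LinearMap.smul_apply, smul_eq_mul]
  convert h using 2
  ring

omit [IsScalarTower k K E] in
theorem dualF_anti (h : U ≤ V) : dualF y z B V ≤ dualF y z B U := by
  intro m φ hφ
  rw [mem_dualF] at hφ ⊢
  exact fun l v hv => hφ l v (h l hv)

theorem le_dualF_dualF (V : Fam k E) : V ≤ dualF y z B.flip (dualF y z B V) := by
  intro m v hv
  rw [mem_dualF]
  intro l φ hφ
  have h := mem_dualF.1 hφ m v hv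
  rw [LinearMap.flip_apply]
  convert h using 2
  ring

theorem dualF_dualF_dualF (V : Fam k E) :
    dualF y z B (dualF y z B.flip (dualF y z B V)) = dualF y z B V :=
  le_antisymm (dualF_anti B (le_dualF_dualF B V)) (le_dualF_dualF B.flip (dualF y z B V))

/-- Membership in the dual of a finitely generated family is tested on generators. -/
theorem mem_dualF_iSup_cyc {ι : Type} (v : ι → E) (a : ι → ℤ) (m : ℤ) (φ : E') :
    φ ∈ dualF y z B (⨆ i, cyc (Apol k y z) (v i) (a i)) m ↔
      ∀ i, B φ (v i) ∈ Apol k y z (m + a i - 3) := by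
  rw [mem_dualF]
  constructor
  · intro h i
    refine h (a i) (v i) ?_
    exact (le_iSup (fun i => cyc (Apol k y z) (v i) (a i)) i) (a i)
      (mem_cyc_self (one_mem_Apol le_rfl) (v i) (a i))
  · intro h l w hw
    rw [iSup_apply] at hw
    induction hw using Submodule.iSup_induction' with
    | mem i x hx =>
      obtain ⟨r, hr, rfl⟩ := mem_cyc.1 hx
      have h' := mul_mem_Apol hr (h i)
      rw [map_smul, smul_eq_mul]
      convert h' using 2
      ring
    | zero => rw [map_zero]; exact Submodule.zero_mem _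
    | add x x' _ _ hx hx' => rw [map_add]; exact Submodule.add_mem _ hx hx'

variable [B.IsPerfPair] [FiniteDimensional K E]

omit [FiniteDimensional K E] in
/-- The dual of a free lattice on a basis is free on the dual basis. -/
theorem dualF_free {ι : Type} [Fintype ι] (b : Basis ι K E) :
    ∃ b' : Basis ι K E', (∀ i j, i ≠ j → B (b' i) (b j) = 0) ∧ (∀ i, B (b' i) (b i) = 1) ∧
      ∀ a : ι → ℤ, dualF y z B (⨆ i, cyc (Apol k y z) (b i) (a i)) =
        ⨆ i, cyc (Apol k y z) (b' i) (3 - a i) := by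
  classical
  let b' : Basis ι K E' := b.dualBasis.map B.toPerfPair.symm
  have hb' : ∀ i, B (b' i) = b.coord i := by
    intro i
    have h1 : B.toPerfPair (b' i) = b.dualBasis i := by simp [b']
    rw [← Basis.coe_dualBasis, ← h1]; rfl
  have hoff : ∀ i j, i ≠ j → B (b' i) (b j) = 0 := by
    intro i j hij
    rw [hb']; simp [Ne.symm hij]
  have hdiag : ∀ i, B (b' i) (b i) = 1 := by
    intro i
    rw [hb']; simp
  have hsum : ∀ (r : ι → K) (i : ι), B (∑ j, r j • b' j) (b i) = r i := by
    intro r i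
    rw [map_sum, LinearMap.sum_apply, Finset.sum_eq_single i]
    · rw [map_smul, LinearMap.smul_apply, hdiag, smul_eq_mul, mul_one]
    · intro j _ hj
      rw [map_smul, LinearMap.smul_apply, hoff j i hj, smul_zero]
    · intro hi; exact absurd (Finset.mem_univ i) hi
  refine ⟨b', hoff, hdiag, fun a => ?_⟩
  funext m
  ext φ
  rw [mem_dualF_iSup_cyc, mem_iSup_cyc]
  constructor
  · intro h
    refine ⟨fun i => B φ (b i), fun i => ?_, ?_⟩
    · convert h i using 2
      ring
    · apply (LinearMap.IsPerfPair.bijective_left B).1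
      refine b.ext fun i => ?_
      rw [hsum]
  · rintro ⟨r, hr, rfl⟩ i
    rw [hsum]
    convert hr i using 2
    ring

omit [FiniteDimensional K E] in
theorem Dual_full_iSup_cyc {ι : Type} (b : Basis ι K E) (a : ι → ℤ) :
    Full K (⨆ i, cyc (Apol k y z) (b i) (a i)) := by
  unfold Full
  rw [eq_top_iff, ← b.span_eq, Submodule.span_le]
  rintro _ ⟨i, rfl⟩
  exact mem_spanF (m := a i) ((le_iSup (fun i => cyc (Apol k y z) (b i) (a i)) i) (a i)
      (mem_cyc_self (one_mem_Apol le_rfl) (b i) (a i)))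

omit [FiniteDimensional K E] in
theorem Dual_spanF_iSup_cyc_le {ι : Type} [Fintype ι] (v : ι → E) (a : ι → ℤ) :
    spanF K (⨆ i, cyc (Apol k y z) (v i) (a i)) ≤ Submodule.span K (Set.range v) := by
  unfold spanF
  rw [Submodule.span_le]
  intro w hw
  obtain ⟨m, hm⟩ := Set.mem_iUnion.1 hw
  obtain ⟨r, -, rfl⟩ := (mem_iSup_cyc _ v a m w).1 hm
  exact Submodule.sum_mem _ fun i _ =>
    Submodule.smul_mem _ _ (Submodule.subset_span ⟨i, rfl⟩)

omit [FiniteDimensional K E] in
theorem IsLat.dualF (hK : RatFn k y z) (hV : IsLat y z V) (hF : Full K V) :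
    IsLat y z (dualF y z B V) ∧ Full K (dualF y z B V) := by
  obtain ⟨r, v, l, c, g, hv, hg, hvl, hle⟩ := hV.exists_free hK
  have hsp2 : ⊤ ≤ Submodule.span K (Set.range fun i => g • v i) := by
    rw [← (hF : spanF K V = ⊤)]
    exact (spanF_mono hle).trans (Dual_spanF_iSup_cyc_le _ _)
  have hsp1 : ⊤ ≤ Submodule.span K (Set.range v) := by
    refine hsp2.trans (Submodule.span_le.2 ?_)
    rintro _ ⟨i, rfl⟩
    exact Submodule.smul_mem _ _ (Submodule.subset_span ⟨i, rfl⟩)
  have hv2 : LinearIndependent K fun i => g • v i :=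
    hv.units_smul fun _ => Units.mk0 g hg
  obtain ⟨b1, -, -, h1⟩ := dualF_free (k := k) (y := y) (z := z) B (Basis.mk hv hsp1)
  obtain ⟨b2, -, -, h2⟩ := dualF_free (k := k) (y := y) (z := z) B (Basis.mk hv2 hsp2)
  simp only [Basis.coe_mk] at h1 h2
  refine ⟨⟨stab_dualF B V, bdd_of_le_iSup b1 (fun _ => 3 - l) ?_⟩, ?_⟩
  · rw [← h1 fun _ => l]
    exact dualF_anti B (iSup_le fun i => hV.stab.cyc_le (hvl i))
  · refine Full.mono (Dual_full_iSup_cyc (k := k) (y := y) (z := z) b2 fun _ => 3 - c) ?_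
    rw [← h2 fun _ => c]
    exact dualF_anti B hle

theorem rk_dualF (hK : RatFn k y z) (hV : IsLat y z V) (hF : Full K V) :
    rk (dualF y z B V) = rk V := by
  obtain ⟨h1, h2⟩ := hV.dualF B hK hF
  rw [h1.rk_eq hK, hV.rk_eq hK, (h2 : spanF K _ = ⊤), (hF : spanF K V = ⊤), finrank_top,
    finrank_top, B.toPerfPair.finrank_eq, Subspace.dual_finrank_eq]

/-- Substitution of the constant `τ` for the second variable. -/
noncomputable def Dual_ev (τ : k) : MvPolynomial (Fin 2) k →ₐ[k] MvPolynomial (Fin 2) k :=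
  MvPolynomial.aeval ![MvPolynomial.X 0, MvPolynomial.C τ]

theorem Dual_dvd_sub_ev (τ : k) (P : MvPolynomial (Fin 2) k) :
    (MvPolynomial.X 1 - MvPolynomial.C τ) ∣ P - Dual_ev τ P := by
  induction P using MvPolynomial.induction_on with
  | C a => simp [Dual_ev]
  | add p q hp hq =>
    have : p + q - Dual_ev τ (p + q) = (p - Dual_ev τ p) + (q - Dual_ev τ q) := by
      rw [map_add]; ring
    rw [this]; exact dvd_add hp hq
  | mul_X p i hp =>
    have : p * MvPolynomial.X i - Dual_ev τ (p * MvPolynomial.X i) =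
        (p - Dual_ev τ p) * MvPolynomial.X i +
          Dual_ev τ p * (MvPolynomial.X i - Dual_ev τ (MvPolynomial.X i)) := by
      rw [map_mul]; ring
    rw [this]
    refine dvd_add (hp.mul_right _) (Dvd.dvd.mul_left ?_ _)
    fin_cases i <;> simp [Dual_ev]

theorem Dual_eval_ev (x : Fin 2 → k) (P : MvPolynomial (Fin 2) k) :
    MvPolynomial.eval x (Dual_ev (x 1) P) = MvPolynomial.eval x P := by
  induction P using MvPolynomial.induction_on with
  | C a => simp [Dual_ev]
  | add p q hp hq => rw [map_add, map_add, map_add, hp, hq]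
  | mul_X p i hp =>
    rw [map_mul, map_mul, map_mul, hp]
    congr 1
    fin_cases i <;> simp [Dual_ev]

theorem Dual_totalDegree_X_sub_C (τ : k) :
    (MvPolynomial.X 1 - MvPolynomial.C τ : MvPolynomial (Fin 2) k).totalDegree = 1 := by
  rw [sub_eq_add_neg, ← MvPolynomial.C_neg,
    MvPolynomial.totalDegree_add_eq_left_of_totalDegree_lt, MvPolynomial.totalDegree_X]
  rw [MvPolynomial.totalDegree_C, MvPolynomial.totalDegree_X]
  exact zero_lt_one

theorem Dual_X_sub_C_ne_zero (τ : k) :
    (MvPolynomial.X 1 - MvPolynomial.C τ : MvPolynomial (Fin 2) k) ≠ 0 := by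
  intro h
  have := Dual_totalDegree_X_sub_C τ
  rw [h, MvPolynomial.totalDegree_zero] at this
  exact zero_ne_one this

theorem Dual_zeta_ne_zero (hK : RatFn k y z) (τ : k) : z - algebraMap k K τ ≠ 0 := by
  intro h
  apply Dual_X_sub_C_ne_zero τ
  apply algebraicIndependent_iff_injective_aeval.1 hK.ind
  simpa using h

theorem Dual_zeta_mem (τ : k) : z - algebraMap k K τ ∈ Apol k y z 1 := by
  refine Submodule.sub_mem _ z_mem_Apol ?_
  rw [Algebra.algebraMap_eq_smul_one]
  exact Submodule.smul_mem _ _ (one_mem_Apol zero_le_one)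

/-- Division by `z - τ`. -/
theorem Dual_div (hK : RatFn k y z) {τ : k} {G : MvPolynomial (Fin 2) k} (hG : Dual_ev τ G ≠ 0)
    {f : K} {j j' : ℤ} (h1 : (z - algebraMap k K τ) * f ∈ Apol k y z (j + 1))
    (h2 : MvPolynomial.aeval ![y, z] G * f ∈ Apol k y z j') : f ∈ Apol k y z j := by
  have hinj := algebraicIndependent_iff_injective_aeval.1 hK.ind
  obtain ⟨P, hP, eP⟩ := mem_Apol_iff.1 h1
  obtain ⟨Q, -, eQ⟩ := mem_Apol_iff.1 h2
  have hZ : MvPolynomial.aeval ![y, z]
      (MvPolynomial.X 1 - MvPolynomial.C τ : MvPolynomial (Fin 2) k) = z - algebraMap k K τ := by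
    simp
  have hGP : G * P = (MvPolynomial.X 1 - MvPolynomial.C τ) * Q := by
    apply hinj
    rw [map_mul, map_mul, eP, eQ, hZ]; ring
  have hevP : Dual_ev τ P = 0 := by
    have := congrArg (Dual_ev τ) hGP
    rw [map_mul, map_mul] at this
    have h0 : Dual_ev τ (MvPolynomial.X 1 - MvPolynomial.C τ) = 0 := by simp [Dual_ev]
    rw [h0, zero_mul] at this
    exact (mul_eq_zero.1 this).resolve_left hG
  have hdvd := Dual_dvd_sub_ev τ P
  rw [hevP, sub_zero] at hdvd
  obtain ⟨P', rfl⟩ := hdvd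
  rw [map_mul, hZ] at eP
  have hf : MvPolynomial.aeval ![y, z] P' = f := mul_left_cancel₀ (Dual_zeta_ne_zero hK τ) eP
  refine mem_Apol_iff.2 ⟨P', ?_, hf⟩
  by_cases h0 : P' = 0
  · exact Or.inl h0
  right
  rcases hP with hP | hP
  · exact absurd hP (mul_ne_zero (Dual_X_sub_C_ne_zero τ) h0)
  · rw [MvPolynomial.totalDegree_mul_of_isDomain (Dual_X_sub_C_ne_zero τ) h0,
      Dual_totalDegree_X_sub_C] at hP
    push_cast at hP
    omega

omit [FiniteDimensional K E] in
/-- The increments of the Hilbert function of a dual lattice decrease when the lattice grows. -/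
theorem hf_dualF_growth [Infinite k] (hK : RatFn k y z) (hU : IsLat y z U) (hW : IsLat y z W)
    (hF : Full K U) (h : U ≤ W) (m : ℤ) :
    hf (dualF y z B W) (m + 1) - hf (dualF y z B W) m ≤
      hf (dualF y z B U) (m + 1) - hf (dualF y z B U) m := by
  classical
  have hDU := (hU.dualF B hK hF).1
  have hDW := (hW.dualF B hK (hF.mono h)).1
  have hle : dualF y z B W ≤ dualF y z B U := dualF_anti B h
  obtain ⟨n, v, a, hva, hWeq⟩ := hW.fg'
  have hex : ∀ i, ∃ (l : ℤ) (G : MvPolynomial (Fin 2) k), G ≠ 0 ∧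
      (MvPolynomial.aeval ![y, z] G : K) • v i ∈ U l := by
    intro i
    obtain ⟨j, l, g, hg0, hg, hgv⟩ := hK.exists_smul_mem hU.stab
      (v := v i) (by rw [(hF : spanF K U = ⊤)]; exact Submodule.mem_top)
    obtain ⟨G, -, rfl⟩ := mem_Apol_iff.1 hg
    exact ⟨l, G, fun h0 => hg0 (by rw [h0, map_zero]), hgv⟩
  choose l G hG0 hGv using hex
  have hprod : (∏ i, G i) ≠ 0 := Finset.prod_ne_zero_iff.2 fun i _ => hG0 i
  obtain ⟨x, hx⟩ : ∃ x : Fin 2 → k, MvPolynomial.eval x (∏ i, G i) ≠ 0 := by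
    by_contra hcon
    push Not at hcon
    exact hprod (MvPolynomial.funext fun x => by rw [hcon x, map_zero])
  have hev : ∀ i, Dual_ev (x 1) (G i) ≠ 0 := by
    intro i h0
    rw [map_prod, Finset.prod_ne_zero_iff] at hx
    apply hx i (Finset.mem_univ i)
    rw [← Dual_eval_ev, h0, map_zero]
  set ζ : K := z - algebraMap k K (x 1) with hζ
  have hζ0 : ζ ≠ 0 := Dual_zeta_ne_zero hK (x 1)
  let Z : E' →ₗ[k] E' := (LinearMap.lsmul K E' ζ).restrictScalars k
  have hZ : ∀ φ, Z φ = ζ • φ := fun _ => rfl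
  have hZinj : Function.Injective Z := fun φ ψ e => smul_right_injective E' hζ0 e
  have := hDU.bdd.fd m
  have := hDU.bdd.fd (m + 1)
  have := hDW.bdd.fd m
  have := hDW.bdd.fd (m + 1)
  have hsup : (dualF y z B U m).map Z ⊔ dualF y z B W (m + 1) ≤ dualF y z B U (m + 1) := by
    refine sup_le ?_ (hle (m + 1))
    rintro _ ⟨φ, hφ, rfl⟩
    have := hDU.stab 1 m ζ φ (Dual_zeta_mem (x 1)) hφ
    rwa [add_comm] at this
  have hinf : (dualF y z B U m).map Z ⊓ dualF y z B W (m + 1) ≤ (dualF y z B W m).map Z := by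
    rintro _ ⟨⟨φ, hφ, rfl⟩, hφ'⟩
    refine ⟨φ, ?_, rfl⟩
    change φ ∈ dualF y z B W m
    rw [hWeq, mem_dualF_iSup_cyc]
    intro i
    have e1 := mem_dualF.1 hφ' (a i) (v i) (hva i)
    have e2 := mem_dualF.1 hφ (l i) _ (hGv i)
    rw [hZ, map_smul, LinearMap.smul_apply, smul_eq_mul] at e1
    rw [map_smul, smul_eq_mul] at e2
    refine Dual_div hK (hev i) ?_ e2
    convert e1 using 2
    ring
  have e0 := Submodule.finrank_sup_add_finrank_inf_eq ((dualF y z B U m).map Z)
    (dualF y z B W (m + 1))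
  have e1 := Submodule.finrank_mono hsup
  have e2 := (Submodule.finrank_mono hinf).trans (Submodule.finrank_map_le Z _)
  have e3 : finrank k ((dualF y z B U m).map Z) = finrank k (dualF y z B U m) :=
    (Submodule.equivMapOfInjective Z hZinj _).finrank_eq.symm
  have e4 : finrank k (dualF y z B W (m + 1)) + finrank k (dualF y z B U m) ≤
      finrank k (dualF y z B U (m + 1)) + finrank k (dualF y z B W m) := by omega
  have e5 : (finrank k (dualF y z B W (m + 1)) : ℝ) + finrank k (dualF y z B U m) ≤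
      finrank k (dualF y z B U (m + 1)) + finrank k (dualF y z B W m) := by exact_mod_cast e4
  unfold hf
  linarith

end Crest.Agent.R169
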