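import Crest.Agent.R169.DualDeg

/-! # Freeness of lattices on which `x, y, z` is a regular sequence (auxiliary for DualChi) -/

set_option autoImplicit false
open Filter Module

namespace Crest.Agent.R169

section ring
variable {k : Type} [Field k] {K : Type} [Field K] [Algebra k K] {y z : K}

/-- `y` is regular on `A / x A`. -/
theorem DualChi_Apol_y (hind : AlgebraicIndependent k ![y, z]) {j : ℤ} {r : K}
    (hr : r ∈ Apol k y z (j + 1)) (hy : y * r ∈ Apol k y z (j + 1)) : r ∈ Apol k y z j := by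
  obtain ⟨f, hf, rfl⟩ := mem_Apol_iff.1 hr
  obtain ⟨g, hg, e⟩ := mem_Apol_iff.1 hy
  have e' : g = MvPolynomial.X 0 * f := by
    apply hind
    rw [e, map_mul, MvPolynomial.aeval_X]
    rfl
  by_cases h0 : f = 0
  · exact mem_Apol_iff.2 ⟨f, Or.inl h0, rfl⟩
  · refine mem_Apol_iff.2 ⟨f, Or.inr ?_, rfl⟩
    have hX : (MvPolynomial.X 0 : MvPolynomial (Fin 2) k) ≠ 0 := MvPolynomial.X_ne_zero 0
    have hd := MvPolynomial.totalDegree_mul_of_isDomain hX h0
    rw [MvPolynomial.totalDegree_X, ← e'] at hd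
    rcases hg with hg | hg
    · exact absurd (e' ▸ hg) (mul_ne_zero hX h0)
    · rw [hd] at hg; push_cast at hg; omega

/-- The pure power of `z` is not in `(x, y)`. -/
theorem DualChi_zpow (hind : AlgebraicIndependent k ![y, z]) {j : ℕ} {c : k} {a b : K}
    (ha : a ∈ Apol k y z j) (hb : b ∈ Apol k y z j) (e : c • z ^ (j + 1) = a + y * b) : c = 0 := by
  classical
  obtain ⟨f, hf, rfl⟩ := mem_Apol_iff.1 ha
  obtain ⟨g, -, rfl⟩ := mem_Apol_iff.1 hb
  have e' : MvPolynomial.C c * MvPolynomial.X 1 ^ (j + 1) = f + MvPolynomial.X 0 * g := by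
    apply hind
    simp only [map_mul, map_add, map_pow, MvPolynomial.aeval_X, MvPolynomial.aeval_C]
    rw [← Algebra.smul_def]
    exact e
  have h1 := congrArg (MvPolynomial.coeff (Finsupp.single (1 : Fin 2) (j + 1))) e'
  rw [MvPolynomial.coeff_C_mul, MvPolynomial.coeff_X_pow, if_pos rfl, mul_one,
    MvPolynomial.coeff_add, MvPolynomial.coeff_X_mul', if_neg (by simp)] at h1
  rw [h1, add_zero]
  rcases hf with rfl | hf
  · simp
  · apply MvPolynomial.coeff_eq_zero_of_totalDegree_lt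
    rw [Finsupp.support_single _ (Nat.succ_ne_zero j)]
    simp only [Finset.sum_singleton, Finsupp.single_eq_same]
    omega

/-- Decomposition along the pure power of `z`. -/
theorem DualChi_decomp {j : ℕ} {r : K} (hr : r ∈ Apol k y z j) :
    ∃ c : k, ∃ a ∈ Apol k y z (j - 1), ∃ b ∈ Apol k y z (j - 1), r = c • z ^ j + a + y * b := by
  refine Submodule.span_induction (p := fun r _ =>
    ∃ c : k, ∃ a ∈ Apol k y z (j - 1), ∃ b ∈ Apol k y z (j - 1), r = c • z ^ j + a + y * b)
    ?_ ?_ ?_ ?_ hr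
  · rintro _ ⟨a, b, hab, rfl⟩
    rcases Nat.eq_zero_or_pos a with rfl | ha
    · rcases eq_or_lt_of_le hab with h | h
      · have : b = j := by push_cast at h; omega
        subst this
        exact ⟨1, 0, Submodule.zero_mem _, 0, Submodule.zero_mem _, by simp⟩
      · exact ⟨0, y ^ 0 * z ^ b, mon_mem_Apol (by omega), 0, Submodule.zero_mem _, by simp⟩
    · obtain ⟨a, rfl⟩ : ∃ a', a = a' + 1 := ⟨a - 1, by omega⟩
      refine ⟨0, 0, Submodule.zero_mem _, y ^ a * z ^ b, mon_mem_Apol ?_, by simp; ring⟩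
      push_cast at hab ⊢; omega
  · exact ⟨0, 0, Submodule.zero_mem _, 0, Submodule.zero_mem _, by simp⟩
  · rintro _ _ _ _ ⟨c, a, ha, b, hb, rfl⟩ ⟨c', a', ha', b', hb', rfl⟩
    exact ⟨c + c', a + a', Submodule.add_mem _ ha ha', b + b', Submodule.add_mem _ hb hb', by
      rw [add_smul]; ring⟩
  · rintro d _ _ ⟨c, a, ha, b, hb, rfl⟩
    exact ⟨d * c, d • a, Submodule.smul_mem _ d ha, d • b, Submodule.smul_mem _ d hb, by
      rw [smul_add, smul_add, mul_smul, mul_smul_comm]⟩

/-- `z` is regular on `A / (x, y) A`. -/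
theorem DualChi_Apol_z (hind : AlgebraicIndependent k ![y, z]) {j : ℤ} {r a b : K}
    (hr : r ∈ Apol k y z (j + 1)) (ha : a ∈ Apol k y z (j + 1)) (hb : b ∈ Apol k y z (j + 1))
    (e : z * r = a + y * b) : ∃ a' ∈ Apol k y z j, ∃ b' ∈ Apol k y z j, r = a' + y * b' := by
  by_cases hj : j + 1 < 0
  · rw [Apol_neg hj, Submodule.mem_bot] at hr
    exact ⟨0, Submodule.zero_mem _, 0, Submodule.zero_mem _, by simp [hr]⟩
  obtain ⟨n, hn⟩ : ∃ n : ℕ, j + 1 = n := ⟨(j + 1).toNat, by omega⟩
  rw [hn] at hr ha hb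
  obtain ⟨c, a', ha', b', hb', rfl⟩ := DualChi_decomp hr
  have hj' : (n : ℤ) - 1 = j := by omega
  have hza : z * a' ∈ Apol k y z n := by
    have := mul_mem_Apol z_mem_Apol ha'
    rwa [show (1 : ℤ) + (n - 1) = n by ring] at this
  have hzb : z * b' ∈ Apol k y z n := by
    have := mul_mem_Apol z_mem_Apol hb'
    rwa [show (1 : ℤ) + (n - 1) = n by ring] at this
  have hc : c = 0 := by
    refine DualChi_zpow hind (Submodule.sub_mem _ ha hza) (Submodule.sub_mem _ hb hzb) ?_
    have : c • z ^ (n + 1) = z * (c • z ^ n) := by rw [mul_smul_comm, pow_succ']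
    rw [this]
    linear_combination e
  rw [hj'] at ha' hb'
  exact ⟨a', ha', b', hb', by simp [hc]⟩

/-- Decomposition into a constant and an element of the irrelevant ideal. -/
theorem DualChi_decomp3 {j : ℤ} {r : K} (hr : r ∈ Apol k y z (j + 1)) :
    ∃ c : k, (j + 1 ≠ 0 → c = 0) ∧ ∃ a ∈ Apol k y z j, ∃ b ∈ Apol k y z j, ∃ d ∈ Apol k y z j,
      r = algebraMap k K c + a + y * b + z * d := by
  rcases lt_trichotomy (j + 1) 0 with h | h | h
  · rw [Apol_neg h, Submodule.mem_bot] at hr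
    exact ⟨0, fun _ => rfl, 0, Submodule.zero_mem _, 0, Submodule.zero_mem _, 0,
      Submodule.zero_mem _, by simp [hr]⟩
  · rw [h] at hr
    obtain ⟨c, a, ha, b, hb, rfl⟩ := DualChi_decomp (j := 0) (by simpa using hr)
    rw [Apol_neg (by norm_num), Submodule.mem_bot] at ha hb
    exact ⟨c, fun h' => absurd h h', 0, Submodule.zero_mem _, 0, Submodule.zero_mem _, 0,
      Submodule.zero_mem _, by simp [ha, hb, Algebra.smul_def]⟩
  · obtain ⟨a, ha, b, hb, d, hd, rfl⟩ := (Apol_succ (by omega)).1 hr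
    exact ⟨0, fun _ => rfl, a, ha, b, hb, d, hd, by simp⟩

end ring

section free
variable {k : Type} [Field k] {K : Type} [Field K] [Algebra k K] {y z : K}
  {E : Type} [AddCommGroup E] [Module k E] [Module K E] [IsScalarTower k K E] {W : Fam k E}

/-- Induction over the integers for a property which holds in very negative degree. -/
theorem DualChi_int_ind {P : ℤ → Prop} (m0 : ℤ) (h0 : ∀ m < m0, P m)
    (hs : ∀ m, P m → P (m + 1)) (m : ℤ) : P m := by
  by_cases h : m < m0
  · exact h0 m h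
  · have : m0 - 1 ≤ m := by omega
    induction m, this using Int.leInduction with
    | base => exact h0 _ (by omega)
    | succ n hn ih =>
      by_cases h' : n < m0
      · exact hs n (h0 n h')
      · exact hs n (ih h')

/-- A minimal generating family is independent modulo the irrelevant ideal. -/
theorem DualChi_min_gen (hW : IsLat y z W) :
    ∃ (ι : Type) (_ : Fintype ι) (w : ι → E) (c : ι → ℤ), (∀ j, w j ∈ W (c j)) ∧
      W = (⨆ j, cyc (Apol k y z) (w j) (c j)) ∧
      ∀ (m : ℤ) (l : ι → k), (∀ j, c j ≠ m + 1 → l j = 0) → ∀ a ∈ W m, ∀ b ∈ W m, ∀ d ∈ W m,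
        ∑ j, l j • w j = a + y • b + z • d → ∀ j, l j = 0 := by
  classical
  let 𝒮 : Set (Finset (E × ℤ)) := {s | (∀ p ∈ s, p.1 ∈ W p.2) ∧
    W ≤ ⨆ p ∈ s, cyc (Apol k y z) p.1 p.2}
  have hne : 𝒮.Nonempty := hW.fg
  obtain ⟨s, hs, hmin⟩ := (wellFounded_lt (α := Finset (E × ℤ))).has_min 𝒮 hne
  have hWs : W = ⨆ j : s, cyc (Apol k y z) j.1.1 j.1.2 := by
    apply le_antisymm
    · have h2 := hs.2
      rw [iSup_subtype'] at h2
      exact h2
    · exact iSup_le fun j => hW.stab.cyc_le (hs.1 j.1 j.2)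
  refine ⟨s, inferInstance, fun j => j.1.1, fun j => j.1.2, fun j => hs.1 j.1 j.2, hWs, ?_⟩
  intro m l hl a ha b hb d hd e j0
  by_contra hne0
  have hc0 : j0.1.2 = m + 1 := by
    by_contra h
    exact hne0 (hl j0 h)
  set W' : Fam k E := ⨆ p ∈ s.erase j0.1, cyc (Apol k y z) p.1 p.2 with hW'
  have hstab : Stab (Apol k y z) W' :=
    Stab.iSup fun p => Stab.iSup fun _ => stab_cyc stab_Apol _ _
  have hgen : ∀ j : s, j ≠ j0 → cyc (Apol k y z) j.1.1 j.1.2 ≤ W' := fun j hj =>
    le_iSup₂_of_le (f := fun (p : E × ℤ) (_ : p ∈ s.erase j0.1) => cyc (Apol k y z) p.1 p.2) j.1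
      (Finset.mem_erase.2 ⟨fun h => hj (Subtype.ext h), j.2⟩) le_rfl
  have hlow : W m ≤ W' m := by
    intro v hv
    rw [hWs, mem_iSup_cyc] at hv
    obtain ⟨r, hr, rfl⟩ := hv
    refine Submodule.sum_mem _ fun j _ => ?_
    by_cases hj : j = j0
    · subst hj
      have := hr j
      rw [Apol_neg (by omega), Submodule.mem_bot] at this
      rw [this, zero_smul]
      exact Submodule.zero_mem _
    · exact hgen j hj m (mem_cyc.2 ⟨r j, hr j, rfl⟩)
  have hst := stab_Apol_iff.1 hstab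
  have hrhs : a + y • b + z • d ∈ W' (m + 1) :=
    Submodule.add_mem _ (Submodule.add_mem _ (hst.1 m a (hlow ha)) (hst.2.1 m b (hlow hb)))
      (hst.2.2 m d (hlow hd))
  have hrest : ∑ j ∈ Finset.univ.erase j0, l j • j.1.1 ∈ W' (m + 1) := by
    refine Submodule.sum_mem _ fun j hj => ?_
    by_cases hc : j.1.2 = m + 1
    · refine Submodule.smul_mem _ _ ?_
      have := hgen j (Finset.ne_of_mem_erase hj) j.1.2
        (mem_cyc_self (one_mem_Apol le_rfl) j.1.1 j.1.2)
      rwa [hc] at this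
    · rw [hl j hc, zero_smul]
      exact Submodule.zero_mem _
  have hw0 : j0.1.1 ∈ W' j0.1.2 := by
    rw [hc0]
    have e1 : l j0 • j0.1.1 = (a + y • b + z • d) - ∑ j ∈ Finset.univ.erase j0, l j • j.1.1 := by
      rw [← e, ← Finset.add_sum_erase _ _ (Finset.mem_univ j0)]
      abel
    have := Submodule.sub_mem _ hrhs hrest
    rw [← e1] at this
    exact (Submodule.smul_mem_iff _ hne0).1 this
  refine hmin (s.erase j0.1) ⟨fun p hp => hs.1 p (Finset.mem_of_mem_erase hp), ?_⟩
    (Finset.erase_ssubset j0.2)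
  rw [hWs]
  refine iSup_le fun j => ?_
  by_cases hj : j = j0
  · subst hj
    exact hstab.cyc_le hw0
  · exact hgen j hj

/-- A lattice on which `x, y, z` is a regular sequence is free. -/
theorem DualChi_free (hK : RatFn k y z) (hW : IsLat y z W)
    (h1 : ∀ m w, w ∈ W (m + 1) → y • w ∈ W (m + 1) → w ∈ W m)
    (h3 : ∀ m w a b, w ∈ W (m + 1) → a ∈ W (m + 1) → b ∈ W (m + 1) → z • w = a + y • b →
      ∃ a' ∈ W m, ∃ b' ∈ W m, w = a' + y • b') :
    ∃ (ι : Type) (_ : Fintype ι) (w : ι → E) (c : ι → ℤ), (∀ j, w j ∈ W (c j)) ∧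
      LinearIndependent K w ∧ W = ⨆ j, cyc (Apol k y z) (w j) (c j) := by
  classical
  obtain ⟨ι, _, w, c, hw, hWe, hind⟩ := DualChi_min_gen hW
  refine ⟨ι, inferInstance, w, c, hw, ?_, hWe⟩
  have hσ : ∀ m (r : ι → K), (∀ j, r j ∈ Apol k y z (m - c j)) → ∑ j, r j • w j ∈ W m := by
    intro m r hr
    rw [hWe, mem_iSup_cyc]
    exact ⟨r, hr, rfl⟩
  obtain ⟨m0, hm0⟩ : ∃ m0 : ℤ, ∀ j, m0 ≤ c j := by
    obtain ⟨m0, hm0⟩ := (Set.finite_range c).bddBelow
    exact ⟨m0, fun j => hm0 ⟨j, rfl⟩⟩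
  have hzero : ∀ m < m0, ∀ r : ι → K, (∀ j, r j ∈ Apol k y z (m - c j)) → ∀ j, r j = 0 := by
    intro m hm r hr j
    have := hr j
    have h2 := hm0 j
    rwa [Apol_neg (by omega), Submodule.mem_bot] at this
  -- step `z`
  have hZ : ∀ m, ∀ r : ι → K, (∀ j, r j ∈ Apol k y z (m + 1 - c j)) → ∀ a ∈ W m, ∀ b ∈ W m,
      ∑ j, r j • w j = a + y • b → ∀ j, ∃ a' ∈ Apol k y z (m - c j), ∃ b' ∈ Apol k y z (m - c j),
        r j = a' + y * b' := by
    refine DualChi_int_ind (m0 - 1) ?_ ?_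
    · intro m hm r hr a _ b _ _ j
      exact ⟨0, Submodule.zero_mem _, 0, Submodule.zero_mem _, by
        simp [hzero (m + 1) (by omega) r hr j]⟩
    · intro m ih r hr a ha b hb e
      have hdec : ∀ j, ∃ l : k, (m + 1 - c j + 1 ≠ 0 → l = 0) ∧
          ∃ a ∈ Apol k y z (m + 1 - c j), ∃ b ∈ Apol k y z (m + 1 - c j),
          ∃ d ∈ Apol k y z (m + 1 - c j), r j = algebraMap k K l + a + y * b + z * d := by
        intro j
        apply DualChi_decomp3
        have := hr j
        rwa [show m + 1 + 1 - c j = m + 1 - c j + 1 by ring] at this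
      choose l hl p hp q hq d hd hre using hdec
      have esum : ∑ j, r j • w j = ∑ j, l j • w j + ∑ j, p j • w j + y • ∑ j, q j • w j +
          z • ∑ j, d j • w j := by
        simp only [hre, add_smul, mul_smul, Finset.sum_add_distrib, Finset.smul_sum,
          algebraMap_smul]
      have hl0 : ∀ j, l j = 0 := by
        refine hind (m + 1) l (fun j hj => hl j (by omega)) (a - ∑ j, p j • w j)
          (Submodule.sub_mem _ ha (hσ _ p hp)) (b - ∑ j, q j • w j)
          (Submodule.sub_mem _ hb (hσ _ q hq)) (-∑ j, d j • w j)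
          (Submodule.neg_mem _ (hσ _ d hd)) ?_
        rw [esum] at e
        linear_combination (norm := module) e
      have ez : z • ∑ j, d j • w j = (a - ∑ j, p j • w j) + y • (b - ∑ j, q j • w j) := by
        rw [esum] at e
        simp only [hl0, zero_smul, Finset.sum_const_zero, zero_add] at e
        linear_combination (norm := module) e
      obtain ⟨a', ha', b', hb', e'⟩ := h3 m _ _ _ (hσ _ d hd)
        (Submodule.sub_mem _ ha (hσ _ p hp)) (Submodule.sub_mem _ hb (hσ _ q hq)) ez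
      intro j
      obtain ⟨p', hp', q', hq', ed⟩ := ih d hd a' ha' b' hb' e' j
      have hz : ∀ t ∈ Apol k y z (m - c j), z * t ∈ Apol k y z (m + 1 - c j) := fun t ht => by
        have := mul_mem_Apol z_mem_Apol ht
        rwa [show 1 + (m - c j) = m + 1 - c j by ring] at this
      refine ⟨p j + z * p', Submodule.add_mem _ (hp j) (hz _ hp'), q j + z * q',
        Submodule.add_mem _ (hq j) (hz _ hq'), ?_⟩
      rw [hre j, hl0 j, ed, map_zero]
      ring
  -- step `y`
  have hY : ∀ m, ∀ r : ι → K, (∀ j, r j ∈ Apol k y z (m + 1 - c j)) →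
      ∑ j, r j • w j ∈ W m → ∀ j, r j ∈ Apol k y z (m - c j) := by
    refine DualChi_int_ind (m0 - 1) ?_ ?_
    · intro m hm r hr _ j
      rw [hzero (m + 1) (by omega) r hr j]
      exact Submodule.zero_mem _
    · intro m ih r hr hs
      choose p hp q hq hre using hZ (m + 1) r hr _ hs 0 (Submodule.zero_mem _) (by simp)
      have esum : y • ∑ j, q j • w j = ∑ j, r j • w j - ∑ j, p j • w j := by
        simp only [hre, add_smul, mul_smul, Finset.sum_add_distrib, Finset.smul_sum]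
        abel
      have hq' := ih q hq (h1 m _ (hσ _ q hq) (by
        rw [esum]; exact Submodule.sub_mem _ hs (hσ _ p hp)))
      intro j
      rw [hre j]
      refine Submodule.add_mem _ (hp j) ?_
      have := mul_mem_Apol y_mem_Apol (hq' j)
      rwa [show 1 + (m - c j) = m + 1 - c j by ring] at this
  -- step `x`
  have hX : ∀ m, ∀ r : ι → K, (∀ j, r j ∈ Apol k y z (m - c j)) →
      ∑ j, r j • w j = 0 → ∀ j, r j = 0 := by
    refine DualChi_int_ind m0 ?_ ?_
    · intro m hm r hr _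
      exact hzero m hm r hr
    · intro m ih r hr hs
      exact ih r (hY m r hr (by rw [hs]; exact Submodule.zero_mem _)) hs
  rw [Fintype.linearIndependent_iff]
  intro r hr j
  obtain ⟨n, g, hg, -, hgr⟩ := hK.exists_denom r
  obtain ⟨m1, hm1⟩ : ∃ m1 : ℤ, ∀ j, c j ≤ m1 := by
    obtain ⟨m1, hm1⟩ := (Set.finite_range c).bddAbove
    exact ⟨m1, fun j => hm1 ⟨j, rfl⟩⟩
  have := hX (n + m1) (fun j => g * r j)
    (fun j => Apol_mono (by have := hm1 j; omega) (hgr j))
    (by simp only [mul_smul]; rw [← Finset.smul_sum, hr, smul_zero]) j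
  exact (mul_eq_zero.1 this).resolve_left hg

end free

end Crest.Agent.R169
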