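import Crest.Agent.R169.Dual

/-! # Degree duality (task R169/DualDeg) -/

set_option autoImplicit false
open Filter Module

namespace Crest.Agent.R169

variable {k : Type} [Field k] {K : Type} [Field K] [Algebra k K] {y z : K}
  {E : Type} [AddCommGroup E] [Module k E] [Module K E] [IsScalarTower k K E]
  {E' : Type} [AddCommGroup E'] [Module k E'] [Module K E'] [IsScalarTower k K E']
  (B : E' →ₗ[K] E →ₗ[K] K) [B.IsPerfPair] [FiniteDimensional K E] {U V : Fam k E}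

theorem DualDeg_mem (hK : RatFn k y z) {j : ℤ} {p : MvPolynomial (Fin 2) k} :
    MvPolynomial.aeval ![y, z] p ∈ Apol k y z j ↔ p = 0 ∨ (p.totalDegree : ℤ) ≤ j := by
  refine ⟨fun h => ?_, fun h => mem_Apol_iff.2 ⟨p, h, rfl⟩⟩
  obtain ⟨f, hf, e⟩ := mem_Apol_iff.1 h
  rwa [← hK.ind e]

/-- The gcd lemma: for a nonzero graded ideal `I` of `A`, with `g` the homogeneous gcd of `I`
(of degree `c`), `I ⊆ g A(-c)` and `Hom(I, A) ⊆ g⁻¹ A(c)`. -/
theorem exists_gcd (hK : RatFn k y z) {I : Fam k K} (hI : Stab (Apol k y z) I)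
    (hle : I ≤ Apol k y z) (hne : I ≠ ⊥) :
    ∃ (g : K) (c : ℕ), g ≠ 0 ∧ g ∈ Apol k y z c ∧ I ≤ cyc (Apol k y z) g c ∧
      ∀ (m : ℤ) (f : K), (∀ j, ∀ a ∈ I j, a * f ∈ Apol k y z (j + m)) →
        g * f ∈ Apol k y z (m + c) := by
  classical
  obtain ⟨inst⟩ : Nonempty (NormalizedGCDMonoid (MvPolynomial (Fin 2) k)) := inferInstance
  have hinj : Function.Injective (MvPolynomial.aeval ![y, z] : MvPolynomial (Fin 2) k →ₐ[k] K) :=
    hK.ind
  set ι := (MvPolynomial.aeval ![y, z] : MvPolynomial (Fin 2) k →ₐ[k] K) with hι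
  have hdeg := fun {f g : MvPolynomial (Fin 2) k} (hf : f ≠ 0) (hg : g ≠ 0) =>
    MvPolynomial.totalDegree_mul_of_isDomain hf hg
  let J : Ideal (MvPolynomial (Fin 2) k) :=
    { carrier := {p | ∃ j, ι p ∈ I j}
      add_mem' := fun {a b} ⟨i, hi⟩ ⟨j, hj⟩ => ⟨max i j, by
        rw [map_add]
        exact add_mem (hI.mono_deg (le_max_left _ _) hi) (hI.mono_deg (le_max_right _ _) hj)⟩
      zero_mem' := ⟨0, by rw [map_zero]; exact zero_mem _⟩
      smul_mem' := fun r a ⟨j, hj⟩ => ⟨r.totalDegree + j, by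
        rw [smul_eq_mul, map_mul]
        exact hI _ _ _ _ ((DualDeg_mem hK).2 (Or.inr le_rfl)) hj⟩ }
  obtain ⟨s, hs⟩ := IsNoetherian.noetherian J
  have hsJ : ∀ p ∈ s, p ∈ J := fun p hp => hs ▸ Submodule.subset_span hp
  have hdvd : ∀ p ∈ J, s.gcd id ∣ p := fun p hp => Ideal.mem_span_singleton.1
    ((hs.ge.trans (Submodule.span_le.2 fun q hq =>
      Ideal.mem_span_singleton.2 (Finset.gcd_dvd hq))) hp)
  have hP : ∀ j, ∀ p ≠ 0, ι p ∈ I j → ∃ n : ℕ, j = p.totalDegree + n := fun j p hp h =>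
    Int.le.dest (((DualDeg_mem hK).1 (hle j h)).resolve_left hp) |>.imp fun _ h => h.symm
  have hex : ∃ n : ℕ, ∃ p ≠ 0, ι p ∈ I (p.totalDegree + n) := by
    obtain ⟨j, hj⟩ := Function.ne_iff.1 hne
    obtain ⟨w, hw, h0⟩ := (Submodule.ne_bot_iff _).1 hj
    obtain ⟨p, -, rfl⟩ := mem_Apol_iff.1 (hle j hw)
    have hp : p ≠ 0 := fun h => h0 (by rw [h, map_zero])
    obtain ⟨n, rfl⟩ := hP j p hp hw
    exact ⟨n, p, hp, hw⟩
  obtain ⟨p₀, hp₀, hI₀⟩ := Nat.find_spec hex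
  obtain ⟨q₀, hq₀⟩ := hdvd p₀ ⟨_, hI₀⟩
  obtain ⟨hg, hq⟩ := mul_ne_zero_iff.1 (hq₀ ▸ hp₀)
  refine ⟨ι (s.gcd id), (s.gcd id).totalDegree + Nat.find hex,
    (map_ne_zero_iff _ hinj).2 hg, (DualDeg_mem hK).2 (Or.inr (by omega)), fun j w hw => ?_,
    fun m f h => ?_⟩
  · obtain ⟨p, -, rfl⟩ := mem_Apol_iff.1 (hle j hw)
    obtain ⟨q, hpq⟩ := hdvd p ⟨_, hw⟩
    refine mem_cyc.2 ⟨ι q, (DualDeg_mem hK).2 (or_iff_not_imp_left.2 fun hq => ?_), ?_⟩
    · obtain ⟨n, rfl⟩ := hP j p (hpq ▸ mul_ne_zero hg hq) hw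
      have h1 := Nat.find_min' hex ⟨p, hpq ▸ mul_ne_zero hg hq, hw⟩
      have h2 := hdeg hg hq
      rw [← hpq] at h2
      omega
    · rw [smul_eq_mul, ← map_mul, mul_comm, ← hpq]
  · obtain ⟨j, b, hb0, hb, ha⟩ := hK.exists_div f
    obtain ⟨b, -, rfl⟩ := mem_Apol_iff.1 hb
    obtain ⟨a, -, ha⟩ := mem_Apol_iff.1 ha
    have h1 : b ∣ s.gcd id * a := by
      refine (Finset.dvd_gcd fun p hp => ?_).trans (Finset.gcd_mul_right' s id a).dvd
      obtain ⟨i, hi⟩ := hsJ p hp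
      obtain ⟨r, -, hr⟩ := mem_Apol_iff.1 (h i _ hi)
      refine ⟨r, hinj ?_⟩
      rw [map_mul, map_mul, ha, hr, id]
      ring
    obtain ⟨u, hu⟩ := h1
    have h2 : ι (s.gcd id) * f = ι u := by
      refine mul_left_cancel₀ hb0 ?_
      rw [← map_mul, ← hu, map_mul, ha]
      ring
    have h3 := h _ _ hI₀
    rw [hq₀, map_mul, mul_right_comm, h2, ← map_mul, ← hq₀] at h3
    rw [h2]
    refine (DualDeg_mem hK).2 (or_iff_not_imp_left.2 fun hu0 => ?_)
    have h4 := ((DualDeg_mem hK).1 h3).resolve_left (mul_ne_zero hu0 hq)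
    have h5 := hdeg hg hq
    rw [hdeg hu0 hq] at h4
    rw [← hq₀] at h5
    omega

omit [FiniteDimensional K E] in
theorem DualDeg_rk (hK : RatFn k y z) (hV : IsLat y z V) (hF : Full K V) :
    rk V = finrank K E := by
  rw [hV.rk_eq hK, hF, finrank_top]

theorem DualDeg_step (hK : RatFn k y z) (hU : IsLat y z U) (hF : Full K U) (v : E) (l : ℤ) :
    dg (dualF y z B U) - dg (dualF y z B (U ⊔ cyc (Apol k y z) v l)) ≤
      dg (U ⊔ cyc (Apol k y z) v l) - dg U := by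
  rcases eq_or_ne v 0 with rfl | hv
  · rw [sup_eq_left.2 (hU.stab.cyc_le (zero_mem _)), sub_self, sub_self]
  have hV := hU.sup (isLat_cyc (y := y) (z := z) v l)
  have hFV : Full K (U ⊔ cyc (Apol k y z) v l) := hF.mono le_sup_left
  set V := U ⊔ cyc (Apol k y z) v l with hVdef
  let I : Fam k K := Apol k y z ⊓ comapF (LinearMap.toSpanSingleton K E v) (shift U l)
  have hI : ∀ j r, r ∈ I j ↔ r ∈ Apol k y z j ∧ r • v ∈ U (j + l) := fun _ _ => Iff.rfl
  obtain ⟨g, c, hg, hgc, hIc, hHom⟩ := exists_gcd hK (I := I)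
    (stab_Apol.inf ((hU.stab.shift l).comapF _)) inf_le_left (by
      obtain ⟨j, l', g, hg, h1, h2⟩ := hK.exists_smul_mem hU.stab (v := v) (by rw [hF]; trivial)
      refine Function.ne_iff.2 ⟨max (j : ℤ) (l' - l), (Submodule.ne_bot_iff _).2 ⟨g, (hI _ _).2
        ⟨Apol_mono (le_max_left _ _) h1, hU.stab.mono_deg ?_ h2⟩, hg⟩⟩
      omega)
  have hA := (isLat_Apol (k := k) (y := y) (z := z)).good.hasHP
  rw [(inv_Apol hK.ind).1, (inv_Apol hK.ind).2.1] at hA
  have hDU := (hU.dualF B hK hF).1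
  have hDV := (hV.dualF B hK hFV).1
  have h1 : ∀ m, hf U m + hf (Apol k y z) (m + -l) ≤
      hf V m + hf (Apol k y z) (m + -(l + c)) := fun m => by
    have := hU.bdd.fd m
    have := (isLat_cyc (k := k) (y := y) (z := z) v l).bdd.fd m
    have := (isLat_cyc (k := k) (y := y) (z := z) (g • v) (l + c)).bdd.fd m
    rw [← sub_eq_add_neg, ← sub_eq_add_neg, ← hf_cyc _ hv, ← hf_cyc _ (smul_ne_zero hg hv),
      ← hf_sup_add_inf]
    refine add_le_add_right (hf_mono fun w hw => ?_) _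
    obtain ⟨r, hr, rfl⟩ := mem_cyc.1 hw.2
    obtain ⟨r', hr', rfl⟩ := mem_cyc.1 (hIc _ ((hI _ _).2 ⟨hr, by simpa using hw.1⟩))
    exact mem_cyc.2 ⟨r', by rwa [← sub_sub], by rw [smul_smul, smul_eq_mul]⟩
  have h2 : ∀ m, hf (dualF y z B U) m + hf (Apol k y z) (m + (l - 3)) ≤
      hf (dualF y z B V) m + hf (Apol k y z) (m + (l - 3 + c)) := fun m => by
    let ψ : E' →ₗ[K] K := g • B.flip v
    have hψ : ∀ φ, ψ φ = g * B φ v := fun _ => rfl
    have key : ∀ φ ∈ dualF y z B U m, B φ v ∈ Apol k y z (m + l - 3) → φ ∈ dualF y z B V m := by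
      intro φ h1 h2 l' w hw
      obtain ⟨u, hu, w', hw', rfl⟩ := Submodule.mem_sup.1 hw
      obtain ⟨r, hr, rfl⟩ := mem_cyc.1 hw'
      rw [map_add, map_smul, smul_eq_mul]
      exact add_mem (h1 l' u hu) (Apol_mono (by omega) (mul_mem_Apol hr h2))
    have := hDU.bdd.fd m
    have := hDV.bdd.fd m
    have := (hDU.mapF ψ).bdd.fd m
    have := (hDV.mapF ψ).bdd.fd m
    have := (hDV.cut (LinearMap.ker ψ)).bdd.fd m
    have := (isLat_cyc (k := k) (y := y) (z := z) g (3 - l)).bdd.fd m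
    have : FiniteDimensional k (shift (Apol k y z) (l - 3 + c) m) := fd_Apol _
    have e1 := hf_sup_add_inf (mapF ψ (dualF y z B U)) (cyc (Apol k y z) g (3 - l)) m
    have e2 : hf (cut (dualF y z B U) (LinearMap.ker ψ)) m ≤
        hf (cut (dualF y z B V) (LinearMap.ker ψ)) m := hf_mono fun φ hφ => ⟨key φ hφ.1 (by
      rw [(mul_eq_zero.1 ((hψ φ).symm.trans hφ.2)).resolve_left hg]
      exact zero_mem _), hφ.2⟩
    have e3 : hf (mapF ψ (dualF y z B U) ⊓ cyc (Apol k y z) g (3 - l)) m ≤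
        hf (mapF ψ (dualF y z B V)) m := hf_mono fun w hw => by
      obtain ⟨φ, hφ, rfl⟩ := mem_mapF.1 hw.1
      obtain ⟨r, hr, e⟩ := mem_cyc.1 hw.2
      rw [hψ, smul_eq_mul, mul_comm, mul_right_inj' hg] at e
      exact mem_mapF.2 ⟨φ, key φ hφ (e ▸ Apol_mono (by omega) hr), rfl⟩
    have e4 : hf (mapF ψ (dualF y z B U) ⊔ cyc (Apol k y z) g (3 - l)) m ≤
        hf (shift (Apol k y z) (l - 3 + c)) m := hf_mono (sup_le (fun w hw => by
      obtain ⟨φ, hφ, rfl⟩ := mem_mapF.1 hw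
      refine Apol_mono (by omega) (hHom (m + l - 3) (B φ v) fun j a ha => ?_)
      rw [← smul_eq_mul, ← map_smul]
      exact Apol_mono (by omega) (hφ _ _ ((hI _ _).1 ha).2)) fun w hw => by
      obtain ⟨r, hr, rfl⟩ := mem_cyc.1 hw
      exact Apol_mono (by omega) (mul_mem_Apol hr hgc))
    rw [hf_cyc _ hg, show m - (3 - l) = m + (l - 3) by ring] at e1
    rw [hf_mapF_add_cut ψ (dualF y z B U), hf_mapF_add_cut ψ (dualF y z B V)]
    change _ ≤ hf (Apol k y z) (m + (l - 3 + c)) at e4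
    linarith
  have r1 := DualDeg_rk hK hU hF
  have r2 := DualDeg_rk hK hV hFV
  have h3 := (((hU.good.hasHP.add (hA.shift _)).le (hV.good.hasHP.add (hA.shift _))
    (Eventually.of_forall h1)).2 (by rw [r1, r2])).1
  have h4 := (((hDU.good.hasHP.add (hA.shift _)).le (hDV.good.hasHP.add (hA.shift _))
    (Eventually.of_forall h2)).2 (by rw [rk_dualF B hK hU hF, rk_dualF B hK hV hFV, r1, r2])).1
  push_cast at h3 h4
  linarith

theorem dg_dualF_sub_le (hK : RatFn k y z) (hU : IsLat y z U) (hV : IsLat y z V) (hF : Full K U)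
    (h : U ≤ V) : dg (dualF y z B U) - dg (dualF y z B V) ≤ dg V - dg U := by
  classical
  obtain ⟨s, hs, hle⟩ := hV.fg
  rw [← le_antisymm (sup_le h (iSup₂_le fun p hp => hV.stab.cyc_le (hs p hp)))
    (hle.trans le_sup_right)]
  clear hs hle h
  induction s using Finset.induction_on generalizing U with
  | empty => simp
  | insert p s _ ih =>
    rw [Finset.iSup_insert, ← sup_assoc]
    linarith [DualDeg_step B hK hU hF p.1 p.2,
      ih (hU.sup (isLat_cyc p.1 p.2)) (hF.mono le_sup_left)]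

theorem DualDeg_free (hK : RatFn k y z) {r : ℕ} (b : Basis (Fin r) K E) (c : ℤ) :
    IsLat y z (⨆ i, cyc (Apol k y z) (b i) c) ∧ Full K (⨆ i, cyc (Apol k y z) (b i) c) ∧
      dg (dualF y z B (⨆ i, cyc (Apol k y z) (b i) c)) = -dg (⨆ i, cyc (Apol k y z) (b i) c) := by
  refine ⟨⟨Stab.iSup fun i => stab_cyc stab_Apol _ _, bdd_of_le_iSup _ _ le_rfl⟩,
    top_le_iff.1 (b.span_eq.ge.trans (Submodule.span_le.2 ?_)), ?_⟩
  · rintro _ ⟨i, rfl⟩
    exact mem_spanF (le_iSup (fun i => cyc (Apol k y z) (b i) c) i c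
      (mem_cyc_self (one_mem_Apol le_rfl) _ _))
  · obtain ⟨b', -, -, h⟩ := dualF_free (k := k) (y := y) (z := z) B b
    rw [h fun _ => c, (inv_free hK.ind b'.linearIndependent _).2,
      (inv_free hK.ind b.linearIndependent _).2]
    push_cast
    ring

theorem dg_dualF (hK : RatFn k y z) (hV : IsLat y z V) (hF : Full K V) :
    dg (dualF y z B V) = -dg V := by
  obtain ⟨r, v, l, c, g, hv, hg, h1, h2⟩ := hV.exists_free hK
  have hsp : ⊤ ≤ Submodule.span K (Set.range v) := by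
    refine hF.ge.trans (Submodule.span_le.2 (Set.iUnion_subset fun m w hw => ?_))
    obtain ⟨t, -, rfl⟩ := (mem_iSup_cyc _ _ (fun _ => c) m w).1 (h2 m hw)
    exact Submodule.sum_mem _ fun i _ => Submodule.smul_mem _ _
      (Submodule.smul_mem _ _ (Submodule.subset_span ⟨i, rfl⟩))
  obtain ⟨a1, a2, a3⟩ := DualDeg_free B hK (Basis.mk hv hsp) l
  obtain ⟨b1, -, b3⟩ := DualDeg_free B hK ((Basis.mk hv hsp).unitsSMul fun _ => Units.mk0 g hg) c
  have e1 := dg_dualF_sub_le B hK a1 hV a2 (iSup_le fun i => hV.stab.cyc_le (by simpa using h1 i))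
  have e2 := dg_dualF_sub_le B hK hV b1 hF (by simpa [Basis.unitsSMul_apply] using h2)
  linarith

/-- Degree duality for subspaces of the dual. -/
theorem inv_cut_dualF (hK : RatFn k y z) (hV : IsLat y z V) (hF : Full K V) (F : Submodule K E') :
    rk (cut (dualF y z B V) F) = rk V - rk (cut V (perp B F)) ∧
      dg (cut (dualF y z B V) F) = -(dg V - dg (cut V (perp B F))) := by
  let B' : F →ₗ[K] (E ⧸ perp B F) →ₗ[K] K :=
    ((perp B F).liftQ (B.domRestrict F).flip fun v hv => LinearMap.ext fun φ => hv φ φ.2).flip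
  have hB : ∀ φ v, B' φ ((perp B F).mkQ v) = B φ v := fun _ _ => rfl
  have : B'.IsPerfPair := by
    refine LinearMap.IsPerfPair.of_injective' ((injective_iff_map_eq_zero _).2 fun φ hφ => ?_)
      ((injective_iff_map_eq_zero _).2 fun v hv => ?_)
    · refine Subtype.ext ((LinearMap.IsPerfPair.bijective_left B).1 (LinearMap.ext fun v => ?_))
      rw [← hB, hφ]
      simp
    · obtain ⟨v, rfl⟩ := (perp B F).mkQ_surjective v
      exact (Submodule.Quotient.mk_eq_zero _).2 fun φ hφ => LinearMap.congr_fun hv ⟨φ, hφ⟩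
  have hV' := hV.mapF (perp B F).mkQ
  have hF' : Full K (mapF (perp B F).mkQ V) := by
    rw [Full, spanF_mapF, hF, Submodule.map_top, Submodule.range_mkQ]
  have e : dualF y z B' (mapF (perp B F).mkQ V) = comapF F.subtype (dualF y z B V) := by
    funext m
    ext φ
    refine ⟨fun h l v hv => h l _ ⟨v, hv, rfl⟩, fun h l w hw => ?_⟩
    obtain ⟨v, hv, rfl⟩ := mem_mapF.1 hw
    exact h l v hv
  have h1 := inv_congr (U := comapF F.subtype (dualF y z B V)) (V := cut (dualF y z B V) F)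
    (Eventually.of_forall fun m => by rw [hf_comapF _ F.injective_subtype, F.range_subtype])
  have h2 := inv_add (W := V) hV'.good (hV.cut (perp B F)).good (Eventually.of_forall fun m => by
    have := hV.bdd.fd m
    rw [hf_mapF_add_cut (perp B F).mkQ V, Submodule.ker_mkQ])
  rw [← h1.1, ← h1.2.1, ← e, rk_dualF B' hK hV' hF', dg_dualF B' hK hV' hF', h2.1, h2.2.1]
  constructor <;> ring

end Crest.Agent.R169
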