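import Crest.Agent.R169.Depth

/-! # task R169/FreeMat -/

set_option autoImplicit false
open Filter Module IntermediateField

namespace Crest.Agent.R169

namespace FreeMat

section Abstract
variable {A : Type} [CommRing A] {M : Type} [AddCommGroup M] [Module A M]

/-- `y` is regular on `M / I M`. -/
def Reg (M : Type) [AddCommGroup M] [Module A M] (I : Ideal A) (y : A) : Prop :=
  ∀ u : M, y • u ∈ (I • ⊤ : Submodule A M) → u ∈ (I • ⊤ : Submodule A M)

lemma mem_sup_iff (I : Ideal A) (y : A) (u : M) :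
    u ∈ ((I ⊔ Ideal.span {y}) • ⊤ : Submodule A M) ↔
      ∃ v : M, u - y • v ∈ (I • ⊤ : Submodule A M) := by
  rw [Submodule.sup_smul, Submodule.ideal_span_singleton_smul, Submodule.mem_sup]
  constructor
  · rintro ⟨a, ha, b, hb, rfl⟩
    obtain ⟨v, -, rfl⟩ := (Submodule.mem_smul_pointwise_iff_exists _ _ _).1 hb
    exact ⟨v, by simpa using ha⟩
  · rintro ⟨v, hv⟩
    exact ⟨u - y • v, hv, y • v, Submodule.smul_mem_pointwise_smul _ _ _ trivial, by simp⟩

lemma Reg.pow {I : Ideal A} {y : A} (h : Reg M I y) (n : ℕ) : Reg M I (y ^ n) := by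
  induction n with
  | zero => intro u hu; simpa using hu
  | succ n ih =>
    intro u hu
    apply h
    apply ih
    rwa [pow_succ, mul_smul] at hu

lemma Reg.swap {I : Ideal A} {y z : A} (h : Reg M I y) (h' : Reg M (I ⊔ Ideal.span {y}) z) :
    Reg M (I ⊔ Ideal.span {z}) y := by
  intro u hu
  obtain ⟨v, hv⟩ := (mem_sup_iff _ _ _).1 hu
  have h1 : z • v ∈ ((I ⊔ Ideal.span {y}) • ⊤ : Submodule A M) := by
    refine (mem_sup_iff _ _ _).2 ⟨u, ?_⟩
    have := Submodule.neg_mem _ hv
    simpa using this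
  obtain ⟨w, hw⟩ := (mem_sup_iff _ _ _).1 (h' v h1)
  refine (mem_sup_iff _ _ _).2 ⟨w, h _ ?_⟩
  have := Submodule.add_mem _ hv (Submodule.smul_mem _ z hw)
  convert this using 1
  simp only [smul_sub, smul_smul, mul_comm y z]
  abel

lemma Reg.pow_ideal {I : Ideal A} {y z : A} (h : Reg M I y) (h' : Reg M (I ⊔ Ideal.span {y}) z)
    (b : ℕ) : Reg M (I ⊔ Ideal.span {y ^ b}) z := by
  induction b with
  | zero => intro u _; simp
  | succ b ih =>
    intro u hu
    obtain ⟨v, hv⟩ := (mem_sup_iff _ _ _).1 hu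
    have h1 : z • u ∈ ((I ⊔ Ideal.span {y ^ b}) • ⊤ : Submodule A M) :=
      (mem_sup_iff _ _ _).2 ⟨y • v, by rwa [smul_smul, ← pow_succ]⟩
    obtain ⟨w, hw⟩ := (mem_sup_iff _ _ _).1 (ih u h1)
    have h2 : y ^ b • (z • w - y • v) ∈ (I • ⊤ : Submodule A M) := by
      have := Submodule.sub_mem _ hv (Submodule.smul_mem _ z hw)
      convert this using 1
      simp only [smul_sub, smul_smul, mul_comm z, pow_succ]
      abel
    have h3 := h.pow b _ h2
    obtain ⟨w', hw'⟩ := (mem_sup_iff _ _ _).1 (h' w ((mem_sup_iff _ _ _).2 ⟨v, h3⟩))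
    refine (mem_sup_iff _ _ _).2 ⟨w', ?_⟩
    have := Submodule.add_mem _ hw (Submodule.smul_mem _ (y ^ b) hw')
    convert this using 1
    simp only [smul_sub, smul_smul, pow_succ]
    abel

variable {F : Type} [AddCommGroup F] [Module A F]

/-- `φ` is injective modulo `I`. -/
def Inj (φ : F →ₗ[A] M) (I : Ideal A) : Prop :=
  ∀ f : F, φ f ∈ (I • ⊤ : Submodule A M) → f ∈ (I • ⊤ : Submodule A F)

lemma map_mem (φ : F →ₗ[A] M) (I : Ideal A) {f : F} (hf : f ∈ (I • ⊤ : Submodule A F)) :
    φ f ∈ (I • ⊤ : Submodule A M) :=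
  Submodule.smul_top_le_comap_smul_top I φ hf

lemma Inj.pow {φ : F →ₗ[A] M} {I : Ideal A} {y : A} (h : Reg M I y)
    (H : Inj φ (I ⊔ Ideal.span {y})) (a : ℕ) : Inj φ (I ⊔ Ideal.span {y ^ a}) := by
  induction a with
  | zero => intro f _; simp
  | succ a ih =>
    intro f hf
    obtain ⟨v, hv⟩ := (mem_sup_iff _ _ _).1 hf
    have h1 : φ f ∈ ((I ⊔ Ideal.span {y ^ a}) • ⊤ : Submodule A M) :=
      (mem_sup_iff _ _ _).2 ⟨y • v, by rwa [smul_smul, ← pow_succ]⟩
    obtain ⟨g, hg⟩ := (mem_sup_iff _ _ _).1 (ih f h1)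
    have h2 : y ^ a • (φ g - y • v) ∈ (I • ⊤ : Submodule A M) := by
      have := Submodule.sub_mem _ hv (map_mem φ I hg)
      convert this using 1
      simp only [smul_sub, smul_smul, pow_succ, map_sub, map_smul]
      abel
    have h3 := h.pow a _ h2
    obtain ⟨g', hg'⟩ := (mem_sup_iff _ _ _).1 (H g ((mem_sup_iff _ _ _).2 ⟨v, h3⟩))
    refine (mem_sup_iff _ _ _).2 ⟨g', ?_⟩
    have := Submodule.add_mem _ hg (Submodule.smul_mem _ (y ^ a) hg')
    convert this using 1
    simp only [smul_sub, smul_smul, pow_succ]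
    abel

lemma surj_pow {R : Submodule A M} {I : Ideal A} (h : R ⊔ I • ⊤ = ⊤) (t : ℕ) :
    R ⊔ I ^ t • ⊤ = ⊤ := by
  induction t with
  | zero => simp
  | succ t ih =>
    refine eq_top_iff.2 (ih.ge.trans (sup_le le_sup_left ?_))
    calc (I ^ t • ⊤ : Submodule A M) = I ^ t • (R ⊔ I • ⊤) := by rw [h]
      _ = I ^ t • R ⊔ I ^ (t + 1) • ⊤ := by
        rw [Submodule.smul_sup, ← Submodule.mul_smul, ← pow_succ]
      _ ≤ _ := sup_le (Submodule.smul_le_right.trans le_sup_left) le_sup_right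

lemma Inj.of_le {φ : F →ₗ[A] M} {J I : Ideal A} (hJ : Inj φ J) (hle : J ≤ I)
    (hs : LinearMap.range φ ⊔ J • ⊤ = ⊤) : Inj φ I := by
  intro f hf
  have h1 : (I • ⊤ : Submodule A M) ≤ (I • ⊤ : Submodule A F).map φ ⊔ J • ⊤ := by
    conv_lhs => rw [← hs, Submodule.smul_sup]
    refine sup_le_sup ?_ Submodule.smul_le_right
    rw [Submodule.map_smul'', Submodule.map_top]
  obtain ⟨_, ⟨g, hg, rfl⟩, j, hj, hgj⟩ := Submodule.mem_sup.1 (h1 hf)
  have h2 : f - g ∈ (J • ⊤ : Submodule A F) := hJ _ (by rw [map_sub, ← hgj]; simpa using hj)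
  have h3 := Submodule.add_mem _ (Submodule.smul_mono_left hle h2) hg
  simpa using h3

lemma inj_pow {φ : F →ₗ[A] M} {y0 y1 y2 : A} {I : Ideal A}
    (hI : I = Ideal.span {y0} ⊔ Ideal.span {y1} ⊔ Ideal.span {y2})
    (r0 : Reg M ⊥ y0) (r1 : Reg M (Ideal.span {y0}) y1)
    (r2 : Reg M (Ideal.span {y0} ⊔ Ideal.span {y1}) y2)
    (hs : LinearMap.range φ ⊔ I • ⊤ = ⊤) (hi : Inj φ I) (S : ℕ) : Inj φ (I ^ S) := by
  have i2 : Inj φ (Ideal.span {y0} ⊔ Ideal.span {y1} ⊔ Ideal.span {y2 ^ S}) :=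
    Inj.pow r2 (hI ▸ hi) S
  have r1' : Reg M (Ideal.span {y0} ⊔ Ideal.span {y2 ^ S}) y1 := r1.swap (r2.pow S)
  have i1 : Inj φ (Ideal.span {y0} ⊔ Ideal.span {y2 ^ S} ⊔ Ideal.span {y1 ^ S}) :=
    Inj.pow r1' (by rwa [sup_right_comm]) S
  have r0' : Reg M (Ideal.span {y1 ^ S}) y0 := by
    have := r0.swap (z := y1 ^ S) (by simpa using r1.pow S)
    simpa using this
  have r2' : Reg M (Ideal.span {y1 ^ S} ⊔ Ideal.span {y0}) (y2 ^ S) := by
    rw [sup_comm]
    exact r1.pow_ideal (r2.pow S) S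
  have r0'' : Reg M (Ideal.span {y1 ^ S} ⊔ Ideal.span {y2 ^ S}) y0 := r0'.swap r2'
  have i0 : Inj φ (Ideal.span {y1 ^ S} ⊔ Ideal.span {y2 ^ S} ⊔ Ideal.span {y0 ^ S}) := by
    refine Inj.pow r0'' ?_ S
    have : Ideal.span {y1 ^ S} ⊔ Ideal.span {y2 ^ S} ⊔ Ideal.span {y0} =
        Ideal.span {y0} ⊔ Ideal.span {y2 ^ S} ⊔ Ideal.span {y1 ^ S} := by ac_rfl
    rwa [this]
  have m0 : y0 ∈ I := by
    rw [hI]; exact Ideal.mem_sup_left (Ideal.mem_sup_left (Ideal.mem_span_singleton_self _))
  have m1 : y1 ∈ I := by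
    rw [hI]; exact Ideal.mem_sup_left (Ideal.mem_sup_right (Ideal.mem_span_singleton_self _))
  have m2 : y2 ∈ I := by
    rw [hI]; exact Ideal.mem_sup_right (Ideal.mem_span_singleton_self _)
  set J := Ideal.span {y1 ^ S} ⊔ Ideal.span {y2 ^ S} ⊔ Ideal.span {y0 ^ S} with hJ
  have hle : J ≤ I ^ S := by
    refine sup_le (sup_le ?_ ?_) ?_ <;> rw [Ideal.span_singleton_le_iff_mem] <;>
      apply Ideal.pow_mem_pow <;> assumption
  have hrad : I ≤ J.radical := by
    rw [hI]
    refine sup_le (sup_le ?_ ?_) ?_ <;> rw [Ideal.span_singleton_le_iff_mem] <;> refine ⟨S, ?_⟩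
    · exact Ideal.mem_sup_right (Ideal.mem_span_singleton_self _)
    · exact Ideal.mem_sup_left (Ideal.mem_sup_left (Ideal.mem_span_singleton_self _))
    · exact Ideal.mem_sup_left (Ideal.mem_sup_right (Ideal.mem_span_singleton_self _))
  have hfg : I.FG := by
    rw [hI]
    exact Submodule.FG.sup (Submodule.FG.sup (Submodule.fg_span_singleton _)
      (Submodule.fg_span_singleton _)) (Submodule.fg_span_singleton _)
  obtain ⟨n, hn⟩ := Ideal.exists_pow_le_of_le_radical_of_fg hrad hfg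
  refine i0.of_le hle ?_
  exact eq_top_iff.2 ((surj_pow hs n).ge.trans
    (sup_le le_sup_left ((Submodule.smul_mono_left hn).trans le_sup_right)))

lemma apply_mem {N : ℕ} {I : Ideal A} {f : Fin N → A} (hf : f ∈ (I • ⊤ : Submodule A (Fin N → A)))
    (i : Fin N) : f i ∈ I := by
  refine Submodule.smul_induction_on hf (fun r hr g _ => ?_) (fun f g hf hg => ?_)
  · exact I.mul_mem_right _ hr
  · exact I.add_mem hf hg

lemma mem_of_apply {N : ℕ} {I : Ideal A} {f : Fin N → A} (hf : ∀ i, f i ∈ I) :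
    f ∈ (I • ⊤ : Submodule A (Fin N → A)) := by
  rw [pi_eq_sum_univ' f]
  exact Submodule.sum_mem _ fun i _ => Submodule.smul_mem_smul (hf i) trivial

variable {O : Type} [CommRing O] [Algebra A O] [Module O M] [IsScalarTower A O M]

lemma osmul_mem (I : Ideal A) (o : O) {u : M} (hu : u ∈ (I • ⊤ : Submodule A M)) :
    o • u ∈ (I • ⊤ : Submodule A M) := by
  refine Submodule.smul_induction_on hu (fun r hr g _ => ?_) (fun f g hf hg => ?_)
  · rw [smul_comm]
    exact Submodule.smul_mem_smul hr trivial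
  · rw [smul_add]
    exact Submodule.add_mem _ hf hg

lemma mat_of_free {N : ℕ} (φ : (Fin N → A) →ₗ[A] M) (I : Ideal A)
    (hs : LinearMap.range φ ⊔ I • ⊤ = ⊤) (hi : Inj φ I) :
    ∃ β : O →+* Matrix (Fin N) (Fin N) (A ⧸ I),
      ∀ a : A, β (algebraMap A O a) = Matrix.scalar (Fin N) (Ideal.Quotient.mk I a) := by
  classical
  let Rep : O → Matrix (Fin N) (Fin N) A → Prop := fun o B =>
    ∀ f, o • φ f - φ (B.mulVec f) ∈ (I • ⊤ : Submodule A M)
  have hex : ∀ o, ∃ B, Rep o B := by
    intro o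
    have : ∀ j : Fin N, ∃ g, o • φ (Pi.single j 1) - φ g ∈ (I • ⊤ : Submodule A M) := by
      intro j
      have : o • φ (Pi.single j 1) ∈ LinearMap.range φ ⊔ I • ⊤ := by rw [hs]; trivial
      obtain ⟨_, ⟨g, rfl⟩, b, hb, hgb⟩ := Submodule.mem_sup.1 this
      exact ⟨g, by rw [← hgb]; simpa using hb⟩
    choose g hg using this
    refine ⟨Matrix.of fun i j => g j i, fun f => ?_⟩
    have e1 : (Matrix.of fun i j => g j i).mulVec f = ∑ j, f j • g j := by
      funext i
      simp [Matrix.mulVec, dotProduct, mul_comm]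
    have e2 : φ f = ∑ j, f j • φ (Pi.single j 1) := by
      conv_lhs => rw [pi_eq_sum_univ' f]
      simp only [map_sum, map_smul]
    rw [e1, e2, map_sum, Finset.smul_sum, ← Finset.sum_sub_distrib]
    refine Submodule.sum_mem _ fun j _ => ?_
    rw [map_smul, smul_comm o, ← smul_sub]
    exact Submodule.smul_mem _ _ (hg j)
  have huniq : ∀ o B B', Rep o B → Rep o B' →
      B.map (Ideal.Quotient.mk I) = B'.map (Ideal.Quotient.mk I) := by
    intro o B B' h h'
    ext i j
    have h1 : φ (B.mulVec (Pi.single j 1) - B'.mulVec (Pi.single j 1)) ∈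
        (I • ⊤ : Submodule A M) := by
      have := Submodule.sub_mem _ (h' (Pi.single j 1)) (h (Pi.single j 1))
      convert this using 1
      rw [map_sub]; abel
    have h2 := apply_mem (hi _ h1) i
    simp only [Matrix.map_apply]
    rw [Ideal.Quotient.eq]
    simpa using h2
  choose B hB using hex
  have hsc : ∀ a : A, Rep (algebraMap A O a) (Matrix.scalar (Fin N) a) := by
    intro a f
    have : (Matrix.scalar (Fin N) a).mulVec f = a • f := by
      funext i
      simp [Matrix.mulVec_diagonal]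
    rw [this, map_smul, algebraMap_smul, sub_self]
    exact Submodule.zero_mem _
  have hsc' : ∀ a : A, (B (algebraMap A O a)).map (Ideal.Quotient.mk I) =
      Matrix.scalar (Fin N) (Ideal.Quotient.mk I a) := by
    intro a
    rw [huniq _ _ _ (hB _) (hsc a)]
    simp [Matrix.diagonal_map]
  refine ⟨{ toFun := fun o => (B o).map (Ideal.Quotient.mk I)
            map_one' := by simpa using hsc' 1
            map_zero' := by simpa using hsc' 0
            map_mul' := fun o o' => ?_
            map_add' := fun o o' => ?_ }, hsc'⟩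
  · rw [← Matrix.map_mul]
    refine huniq _ _ _ (hB _) fun f => ?_
    have := Submodule.add_mem _ (osmul_mem I o (hB o' f)) (hB o ((B o').mulVec f))
    convert this using 1
    rw [Matrix.mulVec_mulVec, smul_sub, mul_smul]
    abel
  · rw [← Matrix.map_add _ (map_add _)]
    refine huniq _ _ _ (hB _) fun f => ?_
    have := Submodule.add_mem _ (hB o f) (hB o' f)
    convert this using 1
    rw [Matrix.add_mulVec, map_add, add_smul]
    abel

end Abstract

open MvPolynomial in
lemma idealOfVars_eq (k : Type) [Field k] (c : Matrix (Fin 3) (Fin 3) k) (hc : IsUnit c.det) :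
    idealOfVars (Fin 3) k = Ideal.span {∑ j, c 0 j • X j} ⊔ Ideal.span {∑ j, c 1 j • X j} ⊔
      Ideal.span {∑ j, c 2 j • X j} := by
  have hmem : ∀ i, (∑ j, c i j • X j : MvPolynomial (Fin 3) k) ∈ idealOfVars (Fin 3) k := by
    intro i
    refine Submodule.sum_mem _ fun j _ => ?_
    rw [smul_eq_C_mul]
    exact Ideal.mul_mem_left _ _ (Ideal.subset_span ⟨j, rfl⟩)
  apply le_antisymm
  · rw [Ideal.span_le]
    rintro _ ⟨l, rfl⟩
    have h1 : (X l : MvPolynomial (Fin 3) k) = ∑ i, c⁻¹ l i • ∑ j, c i j • X j := by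
      have h2 : ∀ j, ∑ i, c⁻¹ l i * c i j = (1 : Matrix (Fin 3) (Fin 3) k) l j := by
        intro j
        rw [← Matrix.nonsing_inv_mul c hc, Matrix.mul_apply]
      calc (X l : MvPolynomial (Fin 3) k)
          = ∑ j, (1 : Matrix (Fin 3) (Fin 3) k) l j • X j := by simp [Matrix.one_apply, ite_smul]
        _ = ∑ j, ∑ i, (c⁻¹ l i * c i j) • X j :=
          Finset.sum_congr rfl fun j _ => by rw [← h2, Finset.sum_smul]
        _ = _ := by
          rw [Finset.sum_comm]
          refine Finset.sum_congr rfl fun i _ => ?_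
          rw [Finset.smul_sum]
          exact Finset.sum_congr rfl fun j _ => by rw [smul_smul]
    rw [SetLike.mem_coe, h1]
    refine Submodule.sum_mem _ fun i _ => ?_
    rw [smul_eq_C_mul]
    apply Ideal.mul_mem_left
    fin_cases i
    · exact Ideal.mem_sup_left (Ideal.mem_sup_left (Ideal.mem_span_singleton_self _))
    · exact Ideal.mem_sup_left (Ideal.mem_sup_right (Ideal.mem_span_singleton_self _))
    · exact Ideal.mem_sup_right (Ideal.mem_span_singleton_self _)
  · refine sup_le (sup_le ?_ ?_) ?_ <;> rw [Ideal.span_singleton_le_iff_mem] <;> apply hmem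

open MvPolynomial in
lemma sub_C_mem (k : Type) [Field k] (f : MvPolynomial (Fin 3) k) :
    f - C (constantCoeff f) ∈ idealOfVars (Fin 3) k := by
  rw [← pow_one (idealOfVars (Fin 3) k), mem_pow_idealOfVars_iff']
  intro x hx
  have : x = 0 := by
    rw [← Finsupp.degree_eq_zero_iff]; omega
  subst this
  simp [constantCoeff_eq]

open RingTheory.Sequence in
lemma reg_of_weakly {A : Type} [CommRing A] {M : Type} [AddCommGroup M] [Module A M]
    {y0 y1 y2 : A} (h : IsWeaklyRegular M [y0, y1, y2]) :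
    Reg M ⊥ y0 ∧ Reg M (Ideal.span {y0}) y1 ∧ Reg M (Ideal.span {y0} ⊔ Ideal.span {y1}) y2 := by
  have h0 := (isSMulRegular_quotient_iff_mem_of_smul_mem _ _).1 (h.regular_mod_prev 0 (by simp))
  have h1 := (isSMulRegular_quotient_iff_mem_of_smul_mem _ _).1 (h.regular_mod_prev 1 (by simp))
  have h2 := (isSMulRegular_quotient_iff_mem_of_smul_mem _ _).1 (h.regular_mod_prev 2 (by simp))
  refine ⟨?_, ?_, ?_⟩
  · simpa [Reg] using h0
  · simpa [Reg] using h1
  · simpa [Reg] using h2

end FreeMat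

open MvPolynomial RingTheory.Sequence in
/-- If a basis of the span of `x` is weakly regular on `M` then `M` is free modulo every power of
`(x)`, which gives matrix representations. -/
theorem exists_matrix_rep_of_regular (k : Type) [Field k] {O : Type} [CommRing O] [Algebra k O]
    (x : Fin 3 → O) (M : Type) [AddCommGroup M] [Module O M] [Module k M] [IsScalarTower k O M]
    (c : Matrix (Fin 3) (Fin 3) k) (hc : IsUnit c.det)
    (hreg : IsWeaklyRegular M [∑ j, c 0 j • x j, ∑ j, c 1 j • x j, ∑ j, c 2 j • x j])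
    (hfin : FiniteDimensional k (M ⧸ (Ideal.span (Set.range x) • ⊤ : Submodule O M)))
    (hne : (Ideal.span (Set.range x) • ⊤ : Submodule O M) ≠ ⊤) :
    ∃ N : ℕ, 0 < N ∧ ∀ S : ℕ, ∃ β : O →+* Matrix (Fin N) (Fin N)
      (MvPolynomial (Fin 3) k ⧸ idealOfVars (Fin 3) k ^ S),
        ∀ f, β (aeval x f) = Matrix.scalar (Fin N) (Ideal.Quotient.mk _ f) := by
  classical
  let _ : Algebra (MvPolynomial (Fin 3) k) O := (aeval x).toRingHom.toAlgebra
  let _ : Module (MvPolynomial (Fin 3) k) M := Module.compHom M (aeval x).toRingHom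
  have hsm : ∀ (f : MvPolynomial (Fin 3) k) (u : M), f • u = aeval x f • u := fun _ _ => rfl
  have halg : ∀ f : MvPolynomial (Fin 3) k, algebraMap _ O f = aeval x f := fun _ => rfl
  have : IsScalarTower (MvPolynomial (Fin 3) k) O M := ⟨fun f o u => by
    rw [hsm, Algebra.smul_def, halg, mul_smul]⟩
  set P : Submodule O M := Ideal.span (Set.range x) • ⊤ with hP
  have hmap : (idealOfVars (Fin 3) k).map (algebraMap (MvPolynomial (Fin 3) k) O) =
      Ideal.span (Set.range x) := by
    rw [idealOfVars, Ideal.map_span, ← Set.range_comp]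
    congr 2
    funext i
    simp [halg]
  have hmemP : ∀ u : M, u ∈ (idealOfVars (Fin 3) k • ⊤ : Submodule (MvPolynomial (Fin 3) k) M) ↔
      u ∈ P := by
    intro u
    have := Ideal.smul_restrictScalars (idealOfVars (Fin 3) k) (⊤ : Submodule O M)
    rw [Submodule.restrictScalars_top, hmap] at this
    rw [← this]
    rfl
  have : Nontrivial (M ⧸ P) := Submodule.Quotient.nontrivial_iff.2 hne
  let b := Module.finBasis k (M ⧸ P)
  choose m hm using fun i => P.mkQ_surjective (b i)
  let φ : (Fin (finrank k (M ⧸ P)) → MvPolynomial (Fin 3) k) →ₗ[MvPolynomial (Fin 3) k] M :=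
    Fintype.linearCombination _ m
  have hφC : ∀ a : Fin (finrank k (M ⧸ P)) → k,
      P.mkQ (φ fun i => C (a i)) = ∑ i, a i • b i := by
    intro a
    simp only [φ, Fintype.linearCombination_apply, map_sum, hsm, aeval_C, algebraMap_smul]
    refine Finset.sum_congr rfl fun i _ => ?_
    rw [← hm i]
    rfl
  have hs : LinearMap.range φ ⊔ idealOfVars (Fin 3) k • ⊤ = ⊤ := by
    rw [eq_top_iff]
    intro u _
    refine Submodule.mem_sup.2 ⟨φ fun i => C (b.repr (P.mkQ u) i), ⟨_, rfl⟩,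
      u - φ fun i => C (b.repr (P.mkQ u) i), ?_, by simp⟩
    rw [hmemP, ← Submodule.Quotient.mk_eq_zero, ← Submodule.mkQ_apply, map_sub, hφC, b.sum_repr,
      sub_self]
  have hi : FreeMat.Inj φ (idealOfVars (Fin 3) k) := by
    intro f hf
    have h1 : (f - fun i => C (constantCoeff (f i))) ∈
        (idealOfVars (Fin 3) k • ⊤ : Submodule (MvPolynomial (Fin 3) k) _) :=
      FreeMat.mem_of_apply fun i => FreeMat.sub_C_mem k (f i)
    have h2 := Submodule.sub_mem _ hf (FreeMat.map_mem φ _ h1)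
    rw [map_sub, sub_sub_cancel, hmemP, ← Submodule.Quotient.mk_eq_zero, ← Submodule.mkQ_apply,
      hφC] at h2
    have h3 := Fintype.linearIndependent_iff.1 b.linearIndependent _ h2
    refine FreeMat.mem_of_apply fun i => ?_
    have := FreeMat.sub_C_mem k (f i)
    rwa [h3 i, map_zero, sub_zero] at this
  have hreg' : IsWeaklyRegular M ([∑ j, c 0 j • X j, ∑ j, c 1 j • X j, ∑ j, c 2 j • X j] :
      List (MvPolynomial (Fin 3) k)) := by
    rw [← isWeaklyRegular_map_algebraMap_iff O]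
    simpa [halg] using hreg
  obtain ⟨r0, r1, r2⟩ := FreeMat.reg_of_weakly hreg'
  refine ⟨finrank k (M ⧸ P), Module.finrank_pos, fun S => ?_⟩
  exact FreeMat.mat_of_free φ _ (FreeMat.surj_pow hs S)
    (FreeMat.inj_pow (FreeMat.idealOfVars_eq k c hc) r0 r1 r2 hs hi S)

namespace FreeMat

open IsLocalRing in
lemma le_sup_of_fg (k : Type) [Field k] {O : Type} [CommRing O] [IsLocalRing O] [Algebra k O]
    (hres : Function.Surjective (algebraMap k (ResidueField O)))
    {M : Type} [AddCommGroup M] [Module O M] [Module k M] [IsScalarTower k O M]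
    (P : Submodule O M) (hP : P.FG) :
    ∃ W : Submodule k M, W.FG ∧
      P.restrictScalars k ≤ W ⊔ (maximalIdeal O • P).restrictScalars k := by
  obtain ⟨s, hs⟩ := hP
  refine ⟨Submodule.span k s, Submodule.fg_span s.finite_toSet, fun u hu => ?_⟩
  rw [Submodule.restrictScalars_mem, ← hs] at hu
  obtain ⟨a, ha, rfl⟩ := Submodule.mem_span_finset.1 hu
  refine Submodule.sum_mem _ fun v hv => ?_
  obtain ⟨r, hr⟩ := hres (residue O (a v))
  have h1 : a v - algebraMap k O r ∈ maximalIdeal O := by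
    rw [← residue_eq_zero_iff, map_sub, ← hr, sub_eq_zero]
    rfl
  refine Submodule.mem_sup.2 ⟨r • v, Submodule.smul_mem _ _ (Submodule.subset_span hv),
    (a v - algebraMap k O r) • v, ?_, by simp [sub_smul]⟩
  rw [Submodule.restrictScalars_mem]
  exact Submodule.smul_mem_smul h1 (hs ▸ Submodule.subset_span hv)

open IsLocalRing in
lemma top_le_sup_pow (k : Type) [Field k] {O : Type} [CommRing O] [IsLocalRing O]
    [IsNoetherianRing O] [Algebra k O]
    (hres : Function.Surjective (algebraMap k (ResidueField O)))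
    (M : Type) [AddCommGroup M] [Module O M] [Module.Finite O M] [Module k M]
    [IsScalarTower k O M] (t : ℕ) :
    ∃ W : Submodule k M, W.FG ∧
      ⊤ ≤ W ⊔ (maximalIdeal O ^ t • ⊤ : Submodule O M).restrictScalars k := by
  induction t with
  | zero => exact ⟨⊥, Submodule.fg_bot, by simp⟩
  | succ t ih =>
    obtain ⟨W, hW, h⟩ := ih
    obtain ⟨W', hW', h'⟩ := le_sup_of_fg k hres (maximalIdeal O ^ t • ⊤ : Submodule O M)
      (IsNoetherian.noetherian _)
    refine ⟨W ⊔ W', hW.sup hW', h.trans (sup_le (le_sup_left.trans le_sup_left) (h'.trans ?_))⟩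
    rw [← Submodule.mul_smul, ← pow_succ']
    exact sup_le (le_sup_right.trans le_sup_left) le_sup_right

end FreeMat

open MvPolynomial IsLocalRing RingTheory.Sequence in
theorem exists_matrix_rep (k : Type) [Field k] [Infinite k] {O : Type} [CommRing O]
    [IsLocalRing O] [IsNoetherianRing O] [Algebra k O]
    (hres : Function.Surjective (algebraMap k (ResidueField O))) (x : Fin 3 → O)
    (hx : ∀ i, x i ∈ maximalIdeal O)
    (hrad : maximalIdeal O ≤ (Ideal.span (Set.range x)).radical)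
    (M : Type) [AddCommGroup M] [Module O M] [Module.Finite O M] [Nontrivial M]
    (rs : List O) (hl : rs.length = 3) (hm : ∀ r ∈ rs, r ∈ maximalIdeal O) (hreg : IsRegular M rs) :
    ∃ N : ℕ, 0 < N ∧ ∀ S : ℕ, ∃ β : O →+* Matrix (Fin N) (Fin N)
      (MvPolynomial (Fin 3) k ⧸ idealOfVars (Fin 3) k ^ S),
        ∀ f, β (aeval x f) = Matrix.scalar (Fin N) (Ideal.Quotient.mk _ f) := by
  let _ : Module k M := Module.compHom M (algebraMap k O)
  have : IsScalarTower k O M := ⟨fun r o u => by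
    rw [Algebra.smul_def, mul_smul]; rfl⟩
  obtain ⟨c, hc, hr⟩ := exists_regular_basis k x hx hrad M rs hl hm hreg
  refine exists_matrix_rep_of_regular k x M c hc hr ?_ ?_
  · obtain ⟨t, ht⟩ := Ideal.exists_pow_le_of_le_radical_of_fg hrad (IsNoetherian.noetherian _)
    obtain ⟨W, hW, h⟩ := FreeMat.top_le_sup_pow k hres M t
    set P : Submodule O M := Ideal.span (Set.range x) • ⊤ with hP
    have h1 : W.map (P.mkQ.restrictScalars k) = ⊤ := by
      rw [eq_top_iff]
      intro q _
      obtain ⟨u, rfl⟩ := P.mkQ_surjective q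
      obtain ⟨w, hw, v, hv, rfl⟩ := Submodule.mem_sup.1 (h (Submodule.mem_top : u ∈ ⊤))
      refine ⟨w, hw, ?_⟩
      have hv' : v ∈ P := Submodule.smul_mono_left ht hv
      rw [map_add, Submodule.mkQ_apply P v, (Submodule.Quotient.mk_eq_zero P).2 hv', add_zero]
      rfl
    exact ⟨h1 ▸ hW.map _⟩
  · refine (Submodule.top_ne_ideal_smul_of_le_jacobson_annihilator ?_).symm
    refine le_trans ?_ (maximalIdeal_le_jacobson _)
    rw [Ideal.span_le]
    rintro _ ⟨i, rfl⟩
    exact hx i

end Crest.Agent.R169
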