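import Crest.Agent.R169.Surf
import Crest.Agent.R169.Sat

/-! # task R169/RBasic -/

set_option autoImplicit false
set_option linter.unusedSectionVars false
set_option linter.unusedVariables false
open Filter Module IntermediateField

namespace Crest.Agent.R169

section pre
variable {k 𝕃 : Type} [Field k] [Field 𝕃] [Algebra k 𝕃]
  {E : Type} [AddCommGroup E] [Module k E] [Module 𝕃 E] [IsScalarTower k 𝕃 E]
  {E' : Type} [AddCommGroup E'] [Module k E'] [Module 𝕃 E'] [IsScalarTower k 𝕃 E']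

section loc
variable {Γ : Finset 𝕃} {u u' : 𝕃} {V : Fam k E}

theorem loc_of_mem {m : ℤ} {v : E} (h : v ∈ V m) : v ∈ loc u u' V m := by
  exact ⟨0, by simpa using h⟩

theorem loc_zero (m : ℤ) : (0 : E) ∈ loc u u' V m := by
  exact ⟨0, by simp⟩

theorem loc_mono {U : Fam k E} (h : U ≤ V) (m : ℤ) : loc u u' U m ⊆ loc u u' V m := by
  rintro v ⟨M, hM⟩
  exact ⟨M, h _ hM⟩

theorem loc_ksmul {m : ℤ} {v : E} (c : k) (h : v ∈ loc u u' V m) : c • v ∈ loc u u' V m := by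
  obtain ⟨M, hM⟩ := h
  exact ⟨M, by rw [smul_comm]; exact Submodule.smul_mem _ c hM⟩

variable (hu : u ∈ Γ) (hu' : u' ∈ Γ) (hV : Stab (Rg k Γ) V)
include hu hu' hV

theorem loc_pow_le {m : ℤ} {v : E} {M M' : ℕ} (h : (u * u') ^ M • v ∈ V (m + 2 * M))
    (hM : M ≤ M') : (u * u') ^ M' • v ∈ V (m + 2 * M') := by
  obtain ⟨n, rfl⟩ := Nat.exists_eq_add_of_le hM
  have := hV _ _ _ _ (pow_mem_Rg (mul_mem_Rg (mem_Rg_one hu) (mem_Rg_one hu')) n) h
  rw [smul_smul, ← pow_add, add_comm n M] at this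
  convert this using 2
  push_cast; ring

theorem loc_add {m : ℤ} {v w : E} (hv : v ∈ loc u u' V m) (hw : w ∈ loc u u' V m) :
    v + w ∈ loc u u' V m := by
  obtain ⟨M, hM⟩ := hv
  obtain ⟨N, hN⟩ := hw
  refine ⟨max M N, ?_⟩
  rw [smul_add]
  exact Submodule.add_mem _ (loc_pow_le hu hu' hV hM (le_max_left _ _))
    (loc_pow_le hu hu' hV hN (le_max_right _ _))

theorem loc_sum {ι : Type} (s : Finset ι) {m : ℤ} {v : ι → E} (hv : ∀ i ∈ s, v i ∈ loc u u' V m) :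
    ∑ i ∈ s, v i ∈ loc u u' V m := by
  exact Finset.sum_induction v (· ∈ loc u u' V m) (fun _ _ => loc_add hu hu' hV) (loc_zero m) hv

theorem loc_span {m : ℤ} {s : Set E} (hs : s ⊆ loc u u' V m) :
    (Submodule.span k s : Set E) ⊆ loc u u' V m := by
  intro v hv
  induction hv using Submodule.span_induction with
  | mem x hx => exact hs hx
  | zero => exact loc_zero m
  | add x y _ _ hx hy => exact loc_add hu hu' hV hx hy
  | smul c x _ hx => exact loc_ksmul c hx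

theorem loc_smul {i j : ℤ} {r : 𝕃} {v : E} (hr : r ∈ loc u u' (Rg k Γ) i) (hv : v ∈ loc u u' V j) :
    r • v ∈ loc u u' V (i + j) := by
  obtain ⟨M, hM⟩ := hr
  obtain ⟨N, hN⟩ := hv
  refine ⟨M + N, ?_⟩
  have := hV _ _ _ _ hM hN
  rw [smul_eq_mul, smul_smul] at this
  rw [smul_smul]
  convert this using 2
  · push_cast; ring
  · ring

theorem loc_inf {U : Fam k E} (hU : Stab (Rg k Γ) U) (m : ℤ) :
    loc u u' (U ⊓ V) m = loc u u' U m ∩ loc u u' V m := by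
  refine Set.Subset.antisymm
    (Set.subset_inter (loc_mono inf_le_left m) (loc_mono inf_le_right m)) ?_
  rintro v ⟨⟨M, hM⟩, ⟨N, hN⟩⟩
  exact ⟨max M N, loc_pow_le hu hu' hU hM (le_max_left _ _),
    loc_pow_le hu hu' hV hN (le_max_right _ _)⟩

/-- `u` is a unit of degree one on the chart. -/
theorem loc_zpow_smul (h0 : u ≠ 0) (h0' : u' ≠ 0) {m : ℤ} {v : E} (l : ℤ) :
    u ^ l • v ∈ loc u u' V (m + l) ↔ v ∈ loc u u' V m := by
  have key : ∀ (n : ℕ) (m : ℤ) (v : E), u ^ n • v ∈ loc u u' V (m + n) ↔ v ∈ loc u u' V m := by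
    intro n m v
    constructor
    · rintro ⟨M, hM⟩
      refine ⟨M + n, ?_⟩
      have := hV _ _ _ _ (pow_mem_Rg (mem_Rg_one hu') n) hM
      rw [smul_smul, smul_smul] at this
      convert this using 2
      · push_cast; ring
      · ring
    · intro h
      have := loc_smul hu hu' hV (loc_of_mem (pow_mem_Rg (mem_Rg_one hu) n)) h
      rwa [mul_one, add_comm] at this
  obtain ⟨n, rfl | rfl⟩ := l.eq_nat_or_neg
  · rw [zpow_natCast, key]
  · rw [← key n, smul_smul, zpow_neg, zpow_natCast, mul_inv_cancel₀ (pow_ne_zero _ h0), one_smul,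
      neg_add_cancel_right]

/-- A finite family of elements of the localisation has a common denominator. -/
theorem loc_common {ι : Type} [Finite ι] {m : ι → ℤ} {v : ι → E}
    (hv : ∀ i, v i ∈ loc u u' V (m i)) : ∃ M : ℕ, ∀ i, (u * u') ^ M • v i ∈ V (m i + 2 * M) := by
  choose M hM using hv
  obtain ⟨N, hN⟩ := (Set.finite_range M).bddAbove
  exact ⟨N, fun i => loc_pow_le hu hu' hV (hM i) (hN ⟨i, rfl⟩)⟩

end loc

namespace PreSurf
variable {S : PreSurf k 𝕃} {U V W : Fam k E}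

theorem Apol_le (S : PreSurf k 𝕃) : Apol k S.y S.z ≤ S.R := by
  intro j
  simpa using Apol_le_Rg (n := 1) S.one_mem S.y_mem S.z_mem j

theorem Lat.isLat (h : S.Lat V) : IsLat S.y S.z V := ⟨h.stab.of_le S.Apol_le, h.bdd⟩

theorem Lat.good (h : S.Lat V) : Good V := h.isLat.good

theorem lat_R (S : PreSurf k 𝕃) : S.Lat S.R := ⟨stab_Rg, S.bdd⟩

theorem lat_bot : S.Lat (⊥ : Fam k E) := ⟨stab_bot, bdd_bot⟩

theorem Lat.of_le (h : S.Lat V) (hU : Stab S.R U) (hUV : U ≤ V) : S.Lat U :=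
  ⟨hU, h.bdd.of_le hUV⟩

theorem Lat.cut (h : S.Lat V) (F : Submodule 𝕃 E) : S.Lat (cut V F) :=
  h.of_le (h.stab.cut F) fun _ => inf_le_left

theorem Lat.mapF (h : S.Lat V) (φ : E →ₗ[𝕃] E') : S.Lat (mapF φ V) :=
  ⟨h.stab.mapF φ, h.bdd.mapF φ⟩

theorem Lat.comapF {V : Fam k E'} (h : S.Lat V) (φ : E →ₗ[𝕃] E') (hφ : Function.Injective φ) :
    S.Lat (comapF φ V) := ⟨h.stab.comapF φ, h.bdd.comapF φ hφ⟩

theorem Lat.sup (hU : S.Lat U) (hV : S.Lat V) : S.Lat (U ⊔ V) :=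
  ⟨hU.stab.sup hV.stab, hU.bdd.sup hV.bdd⟩

theorem Lat.inf (hU : S.Lat U) (hV : Stab S.R V) : S.Lat (U ⊓ V) :=
  hU.of_le (hU.stab.inf hV) inf_le_left

theorem Lat.shift (h : S.Lat V) (l : ℤ) : S.Lat (shift V l) := ⟨h.stab.shift l, h.bdd.shift l⟩

theorem Lat.piF (h : S.Lat V) (ι : Type) [Finite ι] : S.Lat (piF ι V) :=
  ⟨h.stab.piF ι, h.bdd.piF ι⟩

theorem lat_cyc (v : E) (l : ℤ) : S.Lat (cyc S.R v l) := ⟨stab_cyc stab_Rg v l, S.bdd.cyc v l⟩

theorem stab_colon (hU : Stab S.R U) (v : E) (l : ℤ) : Stab S.R (S.colon U v l) := by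
  intro i j r a hr ha
  refine S.mem_colon.2 ⟨mul_mem_Rg hr ha.1, ?_⟩
  have := hU _ _ _ _ hr (S.mem_colon.1 ha).2
  rwa [← add_assoc, ← smul_assoc] at this

theorem lat_colon (hU : Stab S.R U) (v : E) (l : ℤ) : S.Lat (S.colon U v l) :=
  S.lat_R.of_le (stab_colon hU v l) fun _ => inf_le_left

theorem PrimeF.lat {P : Fam k 𝕃} (h : S.PrimeF P) : S.Lat P := S.lat_R.of_le h.stab h.le

theorem e_pos (S : PreSurf k 𝕃) : 0 < S.e := by
  have h := (inv_mono isLat_Apol.good S.lat_R.good S.Apol_le).1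
  rw [(inv_Apol S.ind).1] at h
  exact lt_of_lt_of_le one_pos h

theorem DD_R (S : PreSurf k 𝕃) : S.DD S.R = 0 := by
  have := S.e_pos.ne'
  change dg S.R + -dg S.R / S.e * S.e = 0
  field_simp
  ring

theorem SS_R (S : PreSurf k 𝕃) : S.SS S.R = 0 := by
  have := S.e_pos.ne'
  change HP S.R S.ctr + -HP S.R S.ctr / S.e * S.e = 0
  field_simp
  ring

theorem Δ_eq (h : rk V ≠ 0) : S.Δ V = cc V + S.κ * rk V := by
  change (rk V * S.ctr ^ 2 / 2 + dg V * S.ctr + ch V) + S.κ * rk V -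
    (dg V + S.ctr * rk V) ^ 2 / (2 * rk V) = (ch V - dg V ^ 2 / (2 * rk V)) + S.κ * rk V
  field_simp
  ring

theorem inv_cyc (S : PreSurf k 𝕃) {v : E} (hv : v ≠ 0) (l : ℤ) :
    rk (cyc S.R v l) = S.e ∧ S.DD (cyc S.R v l) = -l * S.e ∧
      S.SS (cyc S.R v l) = (l : ℝ) ^ 2 * S.e / 2 := by
  obtain ⟨h1, h2, h3⟩ := inv_congr (U := cyc S.R v l) (V := shift S.R (-l))
    (Eventually.of_forall fun m => by rw [hf_cyc _ hv, sub_eq_add_neg]; rfl)
  obtain ⟨h4, h5, h6⟩ := inv_shift S.lat_R.good (-l)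
  have h7 : dg S.R + S.ctr * S.e = 0 := S.DD_R
  have h8 : (S.e * S.ctr ^ 2 / 2 + dg S.R * S.ctr + ch S.R) + S.κ * S.e = 0 := S.SS_R
  have h9 : HP S.R ((-l : ℤ) : ℝ) =
    S.e * ((-l : ℤ) : ℝ) ^ 2 / 2 + dg S.R * ((-l : ℤ) : ℝ) + ch S.R := rfl
  have he : rk S.R = S.e := rfl
  rw [h4, he] at h1
  rw [h5, he] at h2
  rw [h6, h9] at h3
  push_cast at h2 h3
  refine ⟨h1, ?_, ?_⟩
  · change dg (cyc S.R v l) + S.ctr * rk (cyc S.R v l) = _
    rw [h1, h2]; linear_combination h7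
  · change (rk (cyc S.R v l) * S.ctr ^ 2 / 2 + dg (cyc S.R v l) * S.ctr + ch (cyc S.R v l)) +
      S.κ * rk (cyc S.R v l) = _
    rw [h1, h2, h3]; linear_combination h8 - l * h7

theorem window_iff_dwin {α β : ℝ} : Window 𝕃 V α β ↔ S.DWin V (α + S.ctr) (β + S.ctr) := by
  refine forall_congr' fun F => ?_
  change _ ↔ dg (cut V F) + S.ctr * rk (cut V F) ≤ _ ∧
    _ ≤ (dg V + S.ctr * rk V) - (dg (cut V F) + S.ctr * rk (cut V F))
  constructor <;> rintro ⟨h1, h2⟩ <;> constructor <;> linarith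

/-- Finite generation over `R`. -/
theorem Lat.fg (h : S.Lat V) : ∃ (n : ℕ) (v : Fin n → E) (a : Fin n → ℤ),
    (∀ i, v i ∈ V (a i)) ∧ V = ⨆ i, cyc S.R (v i) (a i) := by
  obtain ⟨n, v, a, h1, h2⟩ := h.isLat.fg'
  refine ⟨n, v, a, h1, le_antisymm (h2.le.trans (iSup_mono fun i m => ?_))
    (iSup_le fun i => h.stab.cyc_le (h1 i))⟩
  exact Submodule.map_mono (S.Apol_le _)

/-- Local-to-global principle: membership in a lattice in large degree can be tested on charts. -/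
theorem Lat.glue (C : Cover k S.Γ) (h : S.Lat V) :
    ∀ᶠ m : ℤ in atTop, ∀ w : E, (∀ c, w ∈ loc (C.u c) (C.u' c) V m) → w ∈ V m := by
  classical
  filter_upwards [h.isLat.sat S.ind] with m hm w hw
  have h1 : ∃ M : ℕ, ∀ c, (C.u c * C.u' c) ^ M • w ∈ V (m + 2 * M) := by
    choose M hM using hw
    obtain ⟨N, hN⟩ := (Set.finite_range M).bddAbove
    exact ⟨N, fun c => loc_pow_le (C.u_mem c) (C.u'_mem c) h.stab (hM c) (hN ⟨c, rfl⟩)⟩
  obtain ⟨M, hM⟩ := h1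
  have h2 : ∀ γ ∈ S.Γ, ∃ K : ℕ, γ ^ K • w ∈ V (m + K) := fun γ hγ => by
    obtain ⟨K, r, hr, e⟩ := C.cover γ hγ M
    refine ⟨K, ?_⟩
    rw [e, Finset.sum_smul]
    refine Submodule.sum_mem _ fun c _ => ?_
    have := h.stab _ _ _ _ (hr c) (hM c)
    rw [smul_smul] at this
    convert this using 2
    ring
  choose! K hK using h2
  refine hm w ⟨∑ γ ∈ S.Γ, K γ, fun r hr => ?_⟩
  have hr' : r ∈ Rg k S.Γ _ := S.Apol_le _ hr
  rw [Rg_eq_span] at hr'
  clear hr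
  induction hr' using Submodule.span_induction with
  | mem x hx =>
    obtain ⟨c, hc, rfl⟩ := hx
    obtain ⟨γ, hγ, hle⟩ := Finset.exists_le_of_sum_le ⟨1, S.one_mem⟩ hc.ge
    have h3 := mul_mem_Rg (sat_prod_mem_Rg (k := k) (S.Γ.erase γ) (fun δ => δ ^ c δ)
      (fun δ => (c δ : ℤ) * 1) fun δ hδ => pow_mem_Rg (mem_Rg_one (Finset.mem_of_mem_erase hδ)) _)
      (pow_mem_Rg (mem_Rg_one hγ) (c γ - K γ))
    have h4 := h.stab _ _ _ _ h3 (hK γ hγ)
    rw [smul_smul, mul_assoc, ← pow_add, Nat.sub_add_cancel hle,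
      Finset.prod_erase_mul _ (fun δ => δ ^ c δ) hγ] at h4
    convert h4 using 2
    rw [← hc, ← Finset.sum_erase_add _ _ hγ]
    push_cast [hle]
    simp only [mul_one]
    ring
  | zero => rw [zero_smul]; exact Submodule.zero_mem _
  | add x y _ _ hx hy => rw [add_smul]; exact Submodule.add_mem _ hx hy
  | smul c x _ hx => rw [smul_assoc]; exact Submodule.smul_mem _ c hx

/-- Slopes of sublattices are bounded above. -/
theorem Lat.exists_slope_bound (h : S.Lat V) :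
    ∃ C : ℝ, ∀ U : Fam k E, Stab S.R U → U ≤ V → S.DD U ≤ C * rk U := by
  obtain ⟨C, hC⟩ := IsLat.exists_slope_bound (ratFn_adjoin S.ind) (isLat_adjoin_iff.2 h.isLat)
  refine ⟨C + S.ctr, fun U hU hUV => ?_⟩
  have := hC U (stab_adjoin_iff.2 (hU.of_le S.Apol_le)) hUV
  change dg U + S.ctr * rk U ≤ _
  linarith

/-- A nonzero ideal has full rank. -/
theorem rk_ideal {P : Fam k 𝕃} (hP : Stab S.R P) (hle : P ≤ S.R) (hne : P ≠ ⊥) : rk P = S.e := by
  have hg := (S.lat_R.of_le hP hle).good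
  obtain ⟨j, hj⟩ := Function.ne_iff.1 hne
  obtain ⟨a, ha, h0⟩ := (Submodule.ne_bot_iff _).1 hj
  refine le_antisymm (inv_mono hg S.lat_R.good hle).1 ?_
  rw [← (S.inv_cyc h0 j).1]
  exact (inv_mono (lat_cyc a j).good hg (hP.cyc_le ha)).1

/-- The Hilbert function of an elementary extension. -/
theorem hf_step (hW : S.Lat W) (v : E) (l m : ℤ) :
    hf (W ⊔ cyc S.R v l) m = hf W m + hf S.R (m - l) - hf (S.colon W v l) (m - l) := by
  by_cases hv : v = 0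
  · subst hv
    have h1 : cyc S.R (0 : E) l = ⊥ := by
      refine le_bot_iff.1 fun j w hw => ?_
      obtain ⟨r, -, rfl⟩ := mem_cyc.1 hw
      rw [smul_zero]; exact Submodule.zero_mem _
    have h2 : S.colon W (0 : E) l = S.R := by
      refine le_antisymm (fun _ => inf_le_left) fun j r hr => S.mem_colon.2 ⟨hr, ?_⟩
      rw [smul_zero]; exact Submodule.zero_mem _
    rw [h1, h2, sup_bot_eq, add_sub_cancel_right]
  have := hW.good.fd m
  have := (lat_cyc (S := S) v l).good.fd m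
  have h1 := hf_sup_add_inf W (cyc S.R v l) m
  have h2 : W ⊓ cyc S.R v l = cyc (S.colon W v l) v l := by
    funext j
    ext w
    constructor
    · rintro ⟨h3, h4⟩
      obtain ⟨r, hr, rfl⟩ := mem_cyc.1 h4
      exact mem_cyc.2 ⟨r, S.mem_colon.2 ⟨hr, by rwa [sub_add_cancel]⟩, rfl⟩
    · intro h
      obtain ⟨r, hr, rfl⟩ := mem_cyc.1 h
      have h3 := (S.mem_colon.1 hr).2
      rw [sub_add_cancel] at h3
      exact ⟨h3, mem_cyc.2 ⟨r, hr.1, rfl⟩⟩
  rw [h2, hf_cyc _ hv, hf_cyc _ hv] at h1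
  linarith

/-- An ideal strictly containing a nonzero prime has colength of degree zero. -/
theorem PrimeF.dg_eq_of_lt {P P' : Fam k 𝕃} (hP : S.PrimeF P) (hne : P ≠ ⊥) (hP' : Stab S.R P')
    (hle : P' ≤ S.R) (hlt : P < P') : dg P' = dg S.R := by
  obtain ⟨i, hi⟩ := not_forall.1 (mt Pi.le_def.2 hlt.not_ge)
  obtain ⟨a, ha, ha'⟩ := SetLike.not_le_iff_exists.1 hi
  have hc : S.colon P a i = P := by
    refine le_antisymm (fun j r hr => ?_) fun j r hr => S.mem_colon.2 ⟨hP.le j hr, ?_⟩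
    · exact (hP.mul j i r a hr.1 (hle i ha) hr.2).resolve_right ha'
    · have := hP.stab _ _ _ _ (hle i ha) hr
      rwa [smul_eq_mul, mul_comm, add_comm] at this
  have hQ := hP.lat.sup (lat_cyc a i)
  have hQle : P ⊔ cyc S.R a i ≤ P' := sup_le hlt.le (hP'.cyc_le ha)
  have hg := (S.lat_R.of_le hP' hle).good
  have H := ((hP.lat.good.hasHP.add (S.lat_R.good.hasHP.shift (-i))).sub
    (hP.lat.good.hasHP.shift (-i))).congr (h' := hf (P ⊔ cyc S.R a i))
    (Eventually.of_forall fun m => by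
      rw [hf_step hP.lat, hc, ← sub_eq_add_neg m i])
  obtain ⟨h1, h2, -⟩ := H.eq_inv
  have h3 := rk_ideal hP.stab hP.le hne
  have h4 := rk_ideal hP' hle (ne_bot_of_gt hlt)
  have he : rk S.R = S.e := rfl
  have h5 := ((inv_mono hQ.good hg hQle).2 (by rw [h1, h4, he]; ring)).1
  have h6 := ((inv_mono hg S.lat_R.good hle).2 h4).1
  rw [h2, h3, he] at h5
  linarith

/-- Prime dévissage. -/
theorem deviss (hU : Stab S.R U) (hV : S.Lat V) (hUV : U ≤ V) (Q : Fam k E → Prop) (h0 : Q U)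
    (step : ∀ (W : Fam k E) (v : E) (l : ℤ), Stab S.R W → U ≤ W → W ≤ V → v ∈ V l →
      S.PrimeF (S.colon W v l) → Q W → Q (W ⊔ cyc S.R v l)) : Q V := by
  obtain ⟨W, ⟨hW, hUW, hWV, hQ⟩, hmax⟩ := hV.isLat.exists_maximal
    {W | Stab S.R W ∧ U ≤ W ∧ W ≤ V ∧ Q W} ⟨U, hU, le_rfl, hUV, h0⟩
    fun W hW => ⟨hW.1.of_le S.Apol_le, hW.2.2.1⟩
  by_contra hn
  have hne : ¬ V ≤ W := fun h => hn (le_antisymm hWV h ▸ hQ)
  obtain ⟨l₀, hl₀⟩ := not_forall.1 (mt Pi.le_def.2 hne)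
  obtain ⟨v₀, hv₀, hv₀'⟩ := SetLike.not_le_iff_exists.1 hl₀
  obtain ⟨_, ⟨v, l, hv, hv', rfl⟩, hmax'⟩ := S.lat_R.isLat.exists_maximal
    {P | ∃ v l, v ∈ V l ∧ v ∉ W l ∧ P = S.colon W v l} ⟨_, v₀, l₀, hv₀, hv₀', rfl⟩ (by
      rintro _ ⟨v, l, -, -, rfl⟩
      exact ⟨(stab_colon hW v l).of_le S.Apol_le, fun _ => inf_le_left⟩)
  have hP : S.PrimeF (S.colon W v l) := by
    refine ⟨fun _ => inf_le_left, stab_colon hW v l, fun h => hv' ?_, fun i j a b ha hb hab => ?_⟩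
    · simpa using (S.mem_colon.1 h).2
    · refine or_iff_not_imp_right.2 fun hn => ?_
      have e := hmax' (S.colon W (b • v) (j + l)) ⟨_, _, hV.stab _ _ _ _ hb hv,
        fun h => hn (S.mem_colon.2 ⟨hb, h⟩), rfl⟩ fun n r hr => S.mem_colon.2 ⟨hr.1, by
          have := hW _ _ _ _ hb (S.mem_colon.1 hr).2
          rwa [smul_comm, add_left_comm] at this⟩
      rw [← e]
      refine S.mem_colon.2 ⟨ha, ?_⟩
      have := (S.mem_colon.1 hab).2
      rwa [mul_smul, add_assoc] at this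
  have e := hmax (W ⊔ cyc S.R v l) ⟨hW.sup (lat_cyc v l).stab, hUW.trans le_sup_left,
    sup_le hWV (hV.stab.cyc_le hv), step W v l hW hUW hWV hv hP hQ⟩ le_sup_left
  exact hv' (e ▸ (le_sup_right : cyc S.R v l ≤ W ⊔ cyc S.R v l) l
    (mem_cyc_self one_mem_Rg_zero v l))

end PreSurf
end pre

end Crest.Agent.R169
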