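import Crest.Agent.R169.WLower
import Crest.Agent.R169.CoverC
import Crest.Agent.R169.RBasic

/-! # Auxiliary lemmas for task R169/HfLower -/

set_option autoImplicit false
open Filter Module IntermediateField

namespace Crest.Agent.R169

/-- The weights on the edges through the last vertex. -/
def HfLower_star (c : Fin 5 → ℤ) : Ed → ℤ :=
  Sym2.lift ⟨fun a b => if a = 4 then c b else if b = 4 then c a else 0, fun a b => by
    by_cases ha : a = 4 <;> by_cases hb : b = 4 <;> simp [ha, hb]⟩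

theorem HfLower_star_mk (c : Fin 5 → ℤ) (a b : Fin 5) :
    HfLower_star c s(a, b) = if a = 4 then c b else if b = 4 then c a else 0 := rfl

theorem HfLower_chart (π : Equiv.Perm (Fin 5)) : ∃ i : Fin 4,
    (π 0 = 4 → π 1 = i.castSucc) ∧ (π 1 = 4 → π 0 = i.castSucc) ∧
    (π 2 = 4 → π 3 = i.castSucc) ∧ (π 3 = 4 → π 2 = i.castSucc) := by
  have key : ∀ a : Fin 5, a ≠ 4 → ∃ i : Fin 4, a = i.castSucc := by decide
  have inj : ∀ a b : Fin 5, a ≠ b → π a = 4 → π b ≠ 4 := fun a b hab ha hb =>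
    hab (π.injective (ha.trans hb.symm))
  by_cases h0 : π 0 = 4
  · obtain ⟨i, hi⟩ := key _ (inj 0 1 (by decide) h0)
    exact ⟨i, fun _ => hi, fun h => absurd h (inj 0 1 (by decide) h0),
      fun h => absurd h (inj 0 2 (by decide) h0), fun h => absurd h (inj 0 3 (by decide) h0)⟩
  by_cases h1 : π 1 = 4
  · obtain ⟨i, hi⟩ := key _ h0
    exact ⟨i, fun h => absurd h h0, fun _ => hi,
      fun h => absurd h (inj 1 2 (by decide) h1), fun h => absurd h (inj 1 3 (by decide) h1)⟩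
  by_cases h2 : π 2 = 4
  · obtain ⟨i, hi⟩ := key _ (inj 2 3 (by decide) h2)
    exact ⟨i, fun h => absurd h h0, fun h => absurd h h1, fun _ => hi,
      fun h => absurd h (inj 2 3 (by decide) h2)⟩
  obtain ⟨i, hi⟩ := key _ h2
  exact ⟨i, fun h => absurd h h0, fun h => absurd h h1, fun h => absurd h h2, fun _ => hi⟩

section fam
variable {k : Type} [Field k] {𝕃 : Type} [Field 𝕃] [Algebra k 𝕃] {n : ℕ} {w : Ed → 𝕃} {x : 𝕃}
  {t : Fin 4 → 𝕃}

theorem HfLower_aeval_pp (e : Ed) :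
    MvPolynomial.aeval t (pp (MvPolynomial.X : Fin 4 → MvPolynomial (Fin 4) k) e) = pp t e := by
  revert e
  rw [forall_Ed]
  simp [pp]

theorem HfLower_aeval_mon (f : Ed → ℕ) :
    MvPolynomial.aeval t (mon (pp (MvPolynomial.X : Fin 4 → MvPolynomial (Fin 4) k)) f) =
      mon (pp t) f := by
  simp only [mon, map_prod, map_pow, HfLower_aeval_pp]

/-- A generator of `Wi` gives a Laurent monomial which is regular on the chart. -/
theorem HfLower_gen (h : SymFam k n w) (hx : x ≠ 0) (hw : ∀ e, w e ^ n = pp t e)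
    (hl : ∀ i, w s(i, 4) = 1) {ε : Ed → ℕ} (hε : ∀ i, ε s(i, i) = 0) {d : Fin 5 → ℕ} {m : ℤ}
    (hdeg : ∀ i, ((deg ε i : ℕ) : ℤ) + n * d i = 2 * m) {D : ℕ}
    (hD : 2 * D + d 4 = d 0 + d 1 + d 2 + d 3) (π : Equiv.Perm (Fin 5)) {i : Fin 4}
    (hi : (π 0 = 4 → π 1 = i.castSucc) ∧ (π 1 = 4 → π 0 = i.castSucc) ∧
      (π 2 = 4 → π 3 = i.castSucc) ∧ (π 3 = 4 → π 2 = i.castSucc))
    {f : Ed → ℕ} (f0 : ∀ j, f s(j, j) = 0) (f4 : ∀ j, f s(j, 4) = 0) (fs : ∑ y, f y = D)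
    (fi : deg f i.castSucc ≤ d i.castSucc) :
    mon w ε * mon (pp t) f / x ^ m ∈ loc (cu w x π) (cu' w x π) (Rg k (Gam w x)) m := by
  obtain ⟨c, hc⟩ : ∃ c : Fin 5 → ℤ, ∀ l, c l = if l = 4 then 0 else (d l : ℤ) - (deg f l : ℕ) :=
    ⟨_, fun _ => rfl⟩
  obtain ⟨e, he⟩ : ∃ e : Ed → ℤ, ∀ y, e y = (ε y : ℤ) + n * ((f y : ℤ) + HfLower_star c y) :=
    ⟨_, fun _ => rfl⟩
  have e1 : zmon w e = mon w ε * mon (pp t) f := by
    rw [zmon, mon, mon, ← Finset.prod_mul_distrib]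
    refine Finset.prod_congr rfl fun y _ => ?_
    induction y using Sym2.ind with
    | h a b =>
      rw [← hw]
      by_cases ha : a = 4
      · subst ha
        rw [Sym2.eq_swap, hl]
        simp
      by_cases hb : b = 4
      · subst hb
        rw [hl]
        simp
      rw [he, HfLower_star_mk, if_neg ha, if_neg hb, add_zero, zpow_add₀ (h.ne _), ← pow_mul,
        ← Nat.cast_mul, zpow_natCast, zpow_natCast]
  have hdf : ∀ l, deg (fun y => (f y : ℤ) + HfLower_star c y) l = d l := by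
    obtain ⟨g0, g1, g2, g3, g4⟩ := deg_expand f
    obtain ⟨r0, r1, r2, r3, r4⟩ := deg_expand fun y => (f y : ℤ) + HfLower_star c y
    rw [sum_Ed] at fs
    simp only [f0, f4] at g0 g1 g2 g3 g4 fs
    simp only [f0, f4, HfLower_star_mk, hc] at r0 r1 r2 r3 r4
    simp at r0 r1 r2 r3 r4
    intro l
    fin_cases l
    · exact r0.trans (by simp; omega)
    · exact r1.trans (by simp; omega)
    · exact r2.trans (by simp; omega)
    · exact r3.trans (by simp; omega)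
    · exact r4.trans (by simp; omega)
  have hci : 0 ≤ c i.castSucc := by
    simp only [hc]
    split_ifs
    · exact le_rfl
    · omega
  have hpos : ∀ a b : Fin 5, (a = 4 → b = i.castSucc) → (b = 4 → a = i.castSucc) →
      0 ≤ e s(a, b) := by
    intro a b h1 h2
    have : 0 ≤ HfLower_star c s(a, b) := by
      rw [HfLower_star_mk]
      split_ifs with ha hb
      · rw [h1 ha]; exact hci
      · rw [h2 hb]; exact hci
      · exact le_rfl
    simp only [he]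
    positivity
  rw [← e1]
  refine h.zmon_mem_loc hx π (fun l => ?_) (fun l => ?_) (hpos _ _ hi.1 hi.2.1)
    (hpos _ _ hi.2.2.1 hi.2.2.2)
  · simp only [he, hε, f0, HfLower_star_mk, hc]
    by_cases h4 : l = 4 <;> simp [h4]
  · rw [← hdeg l, ← hdf l]
    simp only [he, deg, Finset.sum_add_distrib, ← Finset.mul_sum, Nat.cast_sum]

/-- The twisted forms with the prescribed vanishing are regular on every chart. -/
theorem HfLower_loc (h : SymFam k n w) (hx : x ≠ 0) (hw : ∀ e, w e ^ n = pp t e)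
    (hl : ∀ i, w s(i, 4) = 1) {ε : Ed → ℕ} (hε : ∀ i, ε s(i, i) = 0) {d : Fin 5 → ℕ} {m : ℤ}
    (hdeg : ∀ i, ((deg ε i : ℕ) : ℤ) + n * d i = 2 * m) {D : ℕ}
    (hD : 2 * D + d 4 = d 0 + d 1 + d 2 + d 3) (π : Equiv.Perm (Fin 5))
    {F : MvPolynomial (Fin 4) k} (hF : F ∈ Wd k D d) :
    mon w ε * MvPolynomial.aeval t F / x ^ m ∈
      loc (cu w x π) (cu' w x π) (Rg k (Gam w x)) m := by
  obtain ⟨i, hi⟩ := HfLower_chart π
  have hF' : F ∈ Wi k D i.castSucc (d i.castSucc) := (Submodule.mem_iInf _).1 hF i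
  clear hF
  induction hF' using Submodule.span_induction with
  | mem F hF =>
    obtain ⟨f, f0, f4, fs, fi, rfl⟩ := hF
    rw [HfLower_aeval_mon]
    exact HfLower_gen h hx hw hl hε hdeg hD π hi f0 f4 fs fi
  | zero => simpa using loc_zero m
  | add F G _ _ hF hG =>
    rw [map_add, mul_add, add_div]
    exact loc_add (cu_mem π) (cu'_mem π) stab_Rg hF hG
  | smul c F _ hF =>
    rw [map_smul, mul_smul_comm, smul_div_assoc]
    exact loc_ksmul c hF

/-- Gluing over the fifteen charts. -/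
theorem HfLower_glue (h : SymFam k n w) (hn : 0 < n) (hx : x ≠ 0) (S : PreSurf k 𝕃)
    (hΓ : S.Γ = Gam w x) : ∀ᶠ m : ℤ in atTop, ∀ v : 𝕃,
      (∀ π, v ∈ loc (cu w x π) (cu' w x π) (Rg k (Gam w x)) m) → v ∈ S.R m := by
  obtain ⟨Γ, y, z, h1, h2, h3, h4, h5⟩ := S
  dsimp only at hΓ
  subst hΓ
  exact PreSurf.Lat.glue (S := ⟨Gam w x, y, z, h1, h2, h3, h4, h5⟩) (h.toCover hn hx)
    (PreSurf.lat_R _)

/-- The dimension count. -/
theorem HfLower_sum (h : SymFam k n w) (hx : x ≠ 0) (hw : ∀ e, w e ^ n = pp t e)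
    (hl : ∀ i, w s(i, 4) = 1) {ι : Type} [Fintype ι] {ε : ι → Ed → ℕ}
    (hε : ∀ c i, ε c s(i, i) = 0) {d : ι → Fin 5 → ℕ} {m : ℤ}
    (hdeg : ∀ c i, ((deg (ε c) i : ℕ) : ℤ) + n * d c i = 2 * m) {D : ι → ℕ}
    (hD : ∀ c, 2 * D c + d c 4 = d c 0 + d c 1 + d c 2 + d c 3)
    (hd : ∀ c, ∀ i : Fin 4, d c i.castSucc ≤ D c)
    (hind : ∀ F : ι → MvPolynomial (Fin 4) k, (∀ c, F c ∈ Wd k (D c) (d c)) →
      ∑ c, mon w (ε c) * MvPolynomial.aeval t (F c) = 0 → ∀ c, F c = 0)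
    (V : Submodule k 𝕃) [FiniteDimensional k V]
    (hV : ∀ v : 𝕃, (∀ π, v ∈ loc (cu w x π) (cu' w x π) (Rg k (Gam w x)) m) → v ∈ V) :
    ∑ c, chiPl (fun i => d c i) ≤ (finrank k V : ℝ) := by
  have : ∀ c, FiniteDimensional k (Wd k (D c) (d c)) := fun c => by
    have := fd_Wi k (D c) (0 : Fin 4).castSucc (d c (0 : Fin 4).castSucc)
    exact Submodule.finiteDimensional_of_le (iInf_le _ (0 : Fin 4))
  let Φ : (∀ c, Wd k (D c) (d c)) →ₗ[k] V :=
    { toFun := fun F => ⟨∑ c, mon w (ε c) * MvPolynomial.aeval t (F c).1 / x ^ m,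
        V.sum_mem fun c _ => hV _ fun π => HfLower_loc h hx hw hl (hε c) (hdeg c) (hD c) π (F c).2⟩
      map_add' := fun F G => Subtype.ext (by
        simp [mul_add, add_div, Finset.sum_add_distrib])
      map_smul' := fun a F => Subtype.ext (by
        simp [Finset.smul_sum, smul_div_assoc]) }
  have hΦ : Function.Injective Φ := by
    rw [injective_iff_map_eq_zero]
    intro F hF
    have h1 : ∑ c, mon w (ε c) * MvPolynomial.aeval t (F c).1 / x ^ m = 0 :=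
      congrArg Subtype.val hF
    rw [← Finset.sum_div, div_eq_zero_iff, or_iff_left (zpow_ne_zero m hx)] at h1
    funext c
    exact Subtype.ext (hind (fun c => (F c).1) (fun c => (F c).2) h1 c)
  have h2 := LinearMap.finrank_le_finrank_of_injective hΦ
  rw [Module.finrank_pi_fintype] at h2
  calc ∑ c, chiPl (fun i => d c i) ≤ ∑ c, (finrank k (Wd k (D c) (d c)) : ℝ) :=
        Finset.sum_le_sum fun c _ => le_finrank_Wd k (D c) (d c) (hD c) (hd c)
    _ ≤ _ := by exact_mod_cast h2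

end fam

/-- For odd `n` a class in `Zs n` is determined by five of its coordinates. -/
theorem HfLower_Zs_ext {n : ℕ} (hn : Odd n) {ε ε' : Ed → ℕ} (h : ε ∈ Zs n) (h' : ε' ∈ Zs n)
    (h02 : ε s(0, 2) = ε' s(0, 2)) (h03 : ε s(0, 3) = ε' s(0, 3)) (h12 : ε s(1, 2) = ε' s(1, 2))
    (h13 : ε s(1, 3) = ε' s(1, 3)) (h23 : ε s(2, 3) = ε' s(2, 3)) : ε = ε' := by
  simp only [Zs, Finset.mem_filter, Fintype.mem_piFinset, Finset.mem_range] at h h'
  obtain ⟨hl, h0, hd⟩ := h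
  obtain ⟨hl', h0', hd'⟩ := h'
  obtain ⟨g0, g1, g2, g3, g4⟩ := deg_expand ε
  obtain ⟨r0, r1, r2, r3, r4⟩ := deg_expand ε'
  have key : ∀ y, (n : ℤ) ∣ (ε y : ℤ) - ε' y → ε y = ε' y := by
    intro y hy
    have h1 := hl y
    have h2 := hl' y
    have := Int.eq_zero_of_abs_lt_dvd hy (by rw [abs_lt]; constructor <;> omega)
    omega
  have hdd : ∀ i, (n : ℤ) ∣ ((deg ε i : ℕ) : ℤ) - (deg ε' i : ℕ) := fun i =>
    dvd_sub (Int.natCast_dvd_natCast.2 (hd i)) (Int.natCast_dvd_natCast.2 (hd' i))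
  simp only [h0, h0'] at g0 g1 g2 g3 g4 r0 r1 r2 r3 r4
  have h24 : ε s(2, 4) = ε' s(2, 4) := key _ (by convert hdd 2 using 1; omega)
  have h34 : ε s(3, 4) = ε' s(3, 4) := key _ (by convert hdd 3 using 1; omega)
  have h01 : ε s(0, 1) = ε' s(0, 1) := by
    refine key _ ?_
    have h1 : (n : ℤ) ∣ 2 * ((ε s(0, 1) : ℤ) - ε' s(0, 1)) := by
      have h3 := dvd_sub (dvd_add (hdd 0) (hdd 1)) (hdd 4)
      rwa [show (((deg ε 0 : ℕ) : ℤ) - (deg ε' 0 : ℕ)) + (((deg ε 1 : ℕ) : ℤ) - (deg ε' 1 : ℕ)) -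
        (((deg ε 4 : ℕ) : ℤ) - (deg ε' 4 : ℕ)) = 2 * ((ε s(0, 1) : ℤ) - ε' s(0, 1)) by omega] at h3
    have h2 : IsCoprime (n : ℤ) 2 := by
      obtain ⟨r, rfl⟩ := hn
      exact ⟨1, -r, by push_cast; ring⟩
    exact h2.dvd_of_dvd_mul_left h1
  have h04 : ε s(0, 4) = ε' s(0, 4) := key _ (by convert hdd 0 using 1; omega)
  have h14 : ε s(1, 4) = ε' s(1, 4) := key _ (by convert hdd 1 using 1; omega)
  funext y
  revert y
  rw [forall_Ed]
  simp only [h0, h0', and_self, true_and]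
  exact ⟨h01, h02, h03, h04, h12, h13, h14, h23, h24, h34⟩

/-- The degree data of a class. -/
theorem HfLower_Zs_data {n : ℕ} (hn : Odd n) {ε : Ed → ℕ} (h : ε ∈ Zs n) {j : ℕ} (hj : 8 ≤ j) :
    ∃ (d : Fin 5 → ℕ) (D : ℕ), (∀ i, deg ε i + n * d i = 2 * (n * j)) ∧
      2 * D + d 4 = d 0 + d 1 + d 2 + d 3 ∧ ∀ i : Fin 4, d i.castSucc ≤ D := by
  simp only [Zs, Finset.mem_filter, Fintype.mem_piFinset, Finset.mem_range] at h
  obtain ⟨hl, h0, hd⟩ := h
  choose q hq using hd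
  have hq5 : ∀ i, q i < 5 := by
    intro i
    have h1 : deg ε i < n * 5 := by
      have := hl s(i, 0)
      have := hl s(i, 1)
      have := hl s(i, 2)
      have := hl s(i, 3)
      have := hl s(i, 4)
      simp only [deg, Fin.sum_univ_five]
      omega
    rw [hq] at h1
    exact Nat.lt_of_mul_lt_mul_left h1
  have hev : 2 ∣ q 0 + q 1 + q 2 + q 3 + q 4 := by
    obtain ⟨g0, g1, g2, g3, g4⟩ := deg_expand ε
    simp only [h0] at g0 g1 g2 g3 g4
    have h1 : 2 ∣ n * (q 0 + q 1 + q 2 + q 3 + q 4) := by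
      simp only [mul_add, ← hq]
      omega
    exact (Nat.Coprime.symm (Nat.coprime_two_right.2 hn)).dvd_of_dvd_mul_left h1
  have a0 := hq5 0
  have a1 := hq5 1
  have a2 := hq5 2
  have a3 := hq5 3
  have a4 := hq5 4
  refine ⟨fun i => 2 * j - q i, (6 * j + q 4 - (q 0 + q 1 + q 2 + q 3)) / 2, fun i => ?_, ?_,
    fun i => ?_⟩
  · have := hq5 i
    rw [hq, ← mul_add, show q i + (2 * j - q i) = 2 * j by omega]
    ring
  · dsimp only
    omega
  · dsimp only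
    omega

end Crest.Agent.R169
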