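import Crest.Agent.R169.Petersen

/-! # task R169/WLower -/

set_option autoImplicit false
open Filter Module IntermediateField

namespace Crest.Agent.R169

theorem fd_Wi (k : Type) [Field k] (D : ℕ) (i : Fin 5) (di : ℕ) :
    FiniteDimensional k (Wi k D i di) := by
  refine FiniteDimensional.span_of_finite k ?_
  refine Set.Finite.subset
    (((Fintype.piFinset fun _ : Ed => Finset.range (D + 1)).finite_toSet).image
      fun f => mon (pp (MvPolynomial.X : Fin 4 → MvPolynomial (Fin 4) k)) f) ?_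
  rintro F ⟨f, -, -, hs, -, rfl⟩
  refine ⟨f, ?_, rfl⟩
  simp only [Finset.mem_coe, Fintype.mem_piFinset, Finset.mem_range]
  intro x
  have : f x ≤ ∑ x, f x :=
    Finset.single_le_sum (f := f) (fun _ _ => Nat.zero_le _) (Finset.mem_univ x)
  omega

section aux
open MvPolynomial

/-- A triangle of side `a`. -/
abbrev wlT (a : ℕ) : Type := Σ s : Fin a, Fin (s + 1)

theorem wlT_card (a : ℕ) : (Fintype.card (wlT a) : ℝ) = a * (a + 1) / 2 := by
  rw [Fintype.card_sigma]
  simp only [Fintype.card_fin]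
  rw [Fin.sum_univ_eq_sum_range (fun s => s + 1) a]
  induction a with
  | zero => simp
  | succ a ih => rw [Finset.sum_range_succ]; push_cast at ih ⊢; rw [ih]; ring

/-- The exponent attached to a point of the triangle. -/
noncomputable def wlEx (D : ℕ) {a : ℕ} (τ : wlT a) : Fin 3 →₀ ℕ :=
  Finsupp.equivFunOnFinite.symm ![D - τ.1, τ.2, τ.1 - τ.2]

theorem wlEx_inj (D a : ℕ) : Function.Injective (wlEx D : wlT a → Fin 3 →₀ ℕ) := by
  rintro ⟨s, b⟩ ⟨s', b'⟩ h
  have h1 : (b : ℕ) = b' := by simpa [wlEx] using DFunLike.congr_fun h 1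
  have h2 : (s : ℕ) - b = s' - b' := by simpa [wlEx] using DFunLike.congr_fun h 2
  have h3 := b.2
  have h4 := b'.2
  have h5 : s = s' := Fin.ext (by omega)
  subst h5
  have h6 : b = b' := Fin.ext h1
  rw [h6]

theorem wlEx_degree (D : ℕ) (τ : wlT (D + 1)) : (wlEx D τ).degree = D := by
  obtain ⟨s, b⟩ := τ
  have h3 := b.2
  have h4 := s.2
  rw [Finsupp.degree_eq_sum, Fin.sum_univ_three]
  simp only [wlEx, Finsupp.equivFunOnFinite_symm_apply_apply, Matrix.cons_val_zero,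
    Matrix.cons_val_one, Matrix.cons_val]
  omega

theorem wl_exists_ex {D di : ℕ} (m : Fin 3 →₀ ℕ) (hm : m 0 + m 1 + m 2 = D) (h : di < m 0) :
    ∃ τ : wlT (D - di), wlEx D τ = m := by
  refine ⟨⟨⟨m 1 + m 2, by omega⟩, ⟨m 1, by simp only []; omega⟩⟩, ?_⟩
  ext l
  fin_cases l
  · simp [wlEx]; omega
  · simp [wlEx]
  · simp [wlEx]

theorem wl_mem_Wi (k : Type) [Field k] (D di : ℕ) (i j0 : Fin 5) (e : Fin 3 → Ed)
    (he0 : e 0 = s(i, j0)) (h1 : ∀ j, e 1 ≠ s(i, j)) (h2 : ∀ j, e 2 ≠ s(i, j))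
    (hl : ∀ l j, e l ≠ s(j, j)) (h4 : ∀ l j, e l ≠ s(j, 4))
    (F : MvPolynomial (Fin 3) k) (hF : F.IsHomogeneous D)
    (h0 : ∀ τ : wlT (D - di), coeff (wlEx D τ) F = 0) :
    aeval (fun l => pp (X : Fin 4 → MvPolynomial (Fin 4) k) (e l)) F ∈ Wi k D i di := by
  rw [F.as_sum, map_sum]
  refine Submodule.sum_mem _ fun m hm => ?_
  have hm' : coeff m F ≠ 0 := mem_support_iff.1 hm
  have hdeg : m 0 + m 1 + m 2 = D := by
    have : m.degree = D := by rw [Finsupp.degree_eq_weight_one]; exact hF hm'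
    rw [Finsupp.degree_eq_sum, Fin.sum_univ_three] at this
    exact this
  have hle : m 0 ≤ di := by
    by_contra hc
    obtain ⟨τ, hτ⟩ := wl_exists_ex m hdeg (not_le.1 hc)
    exact hm' (hτ ▸ h0 τ)
  rw [aeval_monomial, ← Algebra.smul_def]
  refine Submodule.smul_mem _ _ (Submodule.subset_span ?_)
  refine ⟨fun x => ∑ l, if e l = x then m l else 0, ?_, ?_, ?_, ?_, ?_⟩
  · intro j
    exact Finset.sum_eq_zero fun l _ => if_neg (hl l j)
  · intro j
    exact Finset.sum_eq_zero fun l _ => if_neg (h4 l j)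
  · rw [Finset.sum_comm]
    simp only [Finset.sum_ite_eq, Finset.mem_univ, if_true]
    rw [Fin.sum_univ_three]
    exact hdeg
  · simp only [deg, Fin.sum_univ_three, if_neg (h1 _), if_neg (h2 _), add_zero, he0,
      Sym2.congr_right, Finset.sum_ite_eq, Finset.mem_univ, if_true]
    exact hle
  · rw [Finsupp.prod_fintype _ _ (fun _ => pow_zero _)]
    simp only [mon, ← Finset.prod_pow_eq_pow_sum]
    rw [Finset.prod_comm]
    refine Finset.prod_congr rfl fun l _ => ?_
    simp only [pow_ite, pow_zero, Finset.prod_ite_eq, Finset.mem_univ, if_true]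

/-- The three edges adapted to the vertex `i`. -/
def wlE : Fin 4 → Fin 3 → Ed :=
  ![![s(0, 1), s(1, 2), s(1, 3)], ![s(1, 0), s(0, 2), s(0, 3)], ![s(2, 0), s(0, 1), s(0, 3)],
    ![s(3, 0), s(0, 1), s(0, 2)]]

theorem wlE_spec : ∀ i : Fin 4, wlE i 0 = s(i.castSucc, (![1, 0, 0, 0] : Fin 4 → Fin 5) i) ∧
    (∀ j, wlE i 1 ≠ s(i.castSucc, j)) ∧ (∀ j, wlE i 2 ≠ s(i.castSucc, j)) ∧
    (∀ l j, wlE i l ≠ s(j, j)) ∧ (∀ l j, wlE i l ≠ s(j, 4)) := by
  decide

/-- The basic differences in terms of the differences adapted to the vertex `i`. -/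
noncomputable def wlL (k : Type) [Field k] : Fin 4 → Fin 3 → MvPolynomial (Fin 3) k :=
  ![![X 0, X 0 + X 1, X 0 + X 2], ![X 0, X 1, X 2], ![X 1, X 0, X 2], ![X 1, X 2, X 0]]

/-- The basic differences. -/
noncomputable def wlB (k : Type) [Field k] : Fin 3 → MvPolynomial (Fin 4) k :=
  ![X 0 - X 1, X 0 - X 2, X 0 - X 3]

theorem wlL_hom (k : Type) [Field k] (i : Fin 4) (l : Fin 3) : (wlL k i l).IsHomogeneous 1 := by
  fin_cases i <;> fin_cases l <;>
    first
    | exact isHomogeneous_X _ _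
    | exact (isHomogeneous_X _ _).add (isHomogeneous_X _ _)

theorem wl_pp {C : Type} [CommRing C] (t : Fin 4 → C) :
    pp t s(0, 1) = t 0 - t 1 ∧ pp t s(0, 2) = t 0 - t 2 ∧ pp t s(0, 3) = t 0 - t 3 ∧
    pp t s(1, 2) = t 1 - t 2 ∧ pp t s(1, 3) = t 1 - t 3 ∧
    pp t s(1, 0) = t 0 - t 1 ∧ pp t s(2, 0) = t 0 - t 2 ∧ pp t s(3, 0) = t 0 - t 3 :=
  ⟨rfl, rfl, rfl, rfl, rfl, rfl, rfl, rfl⟩

theorem wl_comp (k : Type) [Field k] (i : Fin 4) (F : MvPolynomial (Fin 3) k) :
    aeval (fun l => pp (X : Fin 4 → MvPolynomial (Fin 4) k) (wlE i l)) (aeval (wlL k i) F) =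
      aeval (wlB k) F := by
  obtain ⟨p1, p2, p3, p4, p5, p6, p7, p8⟩ := wl_pp (X : Fin 4 → MvPolynomial (Fin 4) k)
  rw [← AlgHom.comp_apply]
  congr 1
  refine algHom_ext fun l => ?_
  fin_cases i <;> fin_cases l <;>
    simp [wlL, wlB, wlE, p1, p2, p3, p4, p5, p6, p7, p8]

theorem wlB_inj (k : Type) [Field k] :
    Function.Injective (aeval (wlB k) : MvPolynomial (Fin 3) k → MvPolynomial (Fin 4) k) := by
  refine Function.LeftInverse.injective
    (g := aeval (![0, -X 0, -X 1, -X 2] : Fin 4 → MvPolynomial (Fin 3) k)) fun F => ?_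
  rw [← AlgHom.comp_apply]
  have : (aeval (![0, -X 0, -X 1, -X 2] : Fin 4 → MvPolynomial (Fin 3) k)).comp (aeval (wlB k)) =
      AlgHom.id k _ := by
    refine algHom_ext fun l => ?_
    fin_cases l <;> simp [wlB]
  rw [this]
  rfl

theorem wl_main (k : Type) [Field k] (D : ℕ) (d : Fin 5 → ℕ) :
    Fintype.card (wlT (D + 1)) ≤
      finrank k (Wd k D d) + ∑ i : Fin 4, Fintype.card (wlT (D - d i.castSucc)) := by
  set ι : (wlT (D + 1) → k) →ₗ[k] MvPolynomial (Fin 3) k :=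
    Fintype.linearCombination k fun τ => monomial (wlEx D τ) (1 : k) with hι
  have hli : LinearIndependent k fun τ : wlT (D + 1) => monomial (wlEx D τ) (1 : k) :=
    (basisMonomials (Fin 3) k).linearIndependent.comp _ (wlEx_inj D (D + 1))
  have hinj : Function.Injective ι := hli.fintypeLinearCombination_injective
  have hhom : ∀ c, (ι c).IsHomogeneous D := by
    intro c
    rw [hι, Fintype.linearCombination_apply]
    refine IsHomogeneous.sum _ _ _ fun τ _ => ?_
    rw [smul_monomial]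
    exact isHomogeneous_monomial _ (wlEx_degree D τ)
  set L : (wlT (D + 1) → k) →ₗ[k] (∀ i : Fin 4, wlT (D - d i.castSucc) → k) :=
    LinearMap.pi fun i => LinearMap.pi fun τ =>
      lcoeff k (wlEx D τ) ∘ₗ (aeval (wlL k i)).toLinearMap ∘ₗ ι with hL
  have hmem : ∀ c ∈ LinearMap.ker L, aeval (wlB k) (ι c) ∈ Wd k D d := by
    intro c hc
    rw [Wd, Submodule.mem_iInf]
    intro i
    rw [← wl_comp k i]
    have h0 : ∀ τ : wlT (D - d i.castSucc), coeff (wlEx D τ) (aeval (wlL k i) (ι c)) = 0 :=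
      fun τ => congrFun (congrFun (LinearMap.mem_ker.1 hc) i) τ
    have hh : (aeval (wlL k i) (ι c)).IsHomogeneous D := by
      simpa using (hhom c).aeval _ (wlL_hom k i)
    obtain ⟨q0, q1, q2, q3, q4⟩ := wlE_spec i
    exact wl_mem_Wi k D _ _ _ _ q0 q1 q2 q3 q4 _ hh h0
  have : FiniteDimensional k (Wd k D d) := by
    have := fd_Wi k D (0 : Fin 4).castSucc (d (0 : Fin 4).castSucc)
    exact Submodule.finiteDimensional_of_le (iInf_le _ (0 : Fin 4))
  have h1 : finrank k (LinearMap.ker L) ≤ finrank k (Wd k D d) := by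
    refine LinearMap.finrank_le_finrank_of_injective
      (f := ((aeval (wlB k)).toLinearMap ∘ₗ ι).restrict hmem) ?_
    intro c c' h
    exact Subtype.ext (hinj (wlB_inj k (congrArg Subtype.val h)))
  have h2 := LinearMap.finrank_range_add_finrank_ker L
  have h3 := Submodule.finrank_le (LinearMap.range L)
  rw [Module.finrank_pi_fintype] at h3
  simp only [Module.finrank_fintype_fun_eq_card] at h2 h3
  omega

end aux

theorem le_finrank_Wd (k : Type) [Field k] (D : ℕ) (d : Fin 5 → ℕ)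
    (hD : 2 * D + d 4 = d 0 + d 1 + d 2 + d 3) (hd : ∀ i : Fin 4, d i.castSucc ≤ D) :
    (chiPl fun i => d i) ≤ finrank k (Wd k D d) := by
  have h := (Nat.cast_le (α := ℝ)).2 (wl_main k D d)
  push_cast at h
  simp only [wlT_card, Nat.cast_sub (hd _), Fin.sum_univ_four] at h
  have hD' : 2 * (D : ℝ) + d 4 = d 0 + d 1 + d 2 + d 3 := by exact_mod_cast hD
  have e0 : (0 : Fin 4).castSucc = 0 := rfl
  have e1 : (1 : Fin 4).castSucc = 1 := rfl
  have e2 : (2 : Fin 4).castSucc = 2 := rfl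
  have e3 : (3 : Fin 4).castSucc = 3 := rfl
  rw [e0, e1, e2, e3] at h
  push_cast at h
  rw [chiPl, Fin.sum_univ_five, Fin.sum_univ_five]
  have h4 : (d 4 : ℝ) = d 0 + d 1 + d 2 + d 3 - 2 * D := by linarith
  rw [h4]
  nlinarith [h]

end Crest.Agent.R169
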