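import Crest.Agent.R169.HfUpper
import Crest.Agent.R169.WLower
import Crest.Agent.R169.CoverC
import Crest.Agent.R169.RBasic
import Crest.Agent.R169.HfLowerAux

/-! # task R169/HfLower -/

set_option autoImplicit false
open Filter Module IntermediateField

namespace Crest.Agent.R169

namespace Model
variable {k 𝕂 : Type} [Field k] [Field 𝕂] [Algebra k 𝕂] {n : ℕ} (M : Model k 𝕂 n)

theorem HfLower_aeval_mem (F : MvPolynomial (Fin 4) k) :
    MvPolynomial.aeval M.t F ∈ k⟮M.t 2, M.t 3⟯ := by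
  have ht : ∀ i, M.t i ∈ k⟮M.t 2, M.t 3⟯ := by
    intro i
    fin_cases i
    · exact M.t0 ▸ IntermediateField.zero_mem _
    · exact M.t1 ▸ IntermediateField.neg_mem _ (IntermediateField.one_mem _)
    · exact subset_adjoin k _ (by simp)
    · exact subset_adjoin k _ (by simp)
  induction F using MvPolynomial.induction_on with
  | C a => simp
  | add F G hF hG => rw [map_add]; exact add_mem hF hG
  | mul_X F i hF => rw [map_mul, MvPolynomial.aeval_X]; exact mul_mem hF (ht i)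

theorem HfLower_mon (ε : Ed → ℕ) : mon M.w ε =
    M.w s(0, 2) ^ ε s(0, 2) * M.w s(0, 3) ^ ε s(0, 3) * M.w s(1, 2) ^ ε s(1, 2) *
      M.w s(1, 3) ^ ε s(1, 3) * M.w s(2, 3) ^ ε s(2, 3) := by
  simp only [mon, prod_Ed, M.w_diag, M.w_last, M.w_01, one_pow, mul_one, one_mul]

theorem HfLower_ind (hn : Odd n) :
    LinearIndependent k⟮M.t 2, M.t 3⟯ fun ε : Zs n => mon M.w ε.1 := by
  have hlt : ∀ ε : Zs n, ∀ y, ε.1 y < n := fun ε => by
    have h := ε.2
    simp only [Zs, Finset.mem_filter, Fintype.mem_piFinset, Finset.mem_range] at h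
    exact h.1
  let κ : Zs n → Fin 5 → Fin n := fun ε =>
    ![⟨_, hlt ε s(0, 2)⟩, ⟨_, hlt ε s(0, 3)⟩, ⟨_, hlt ε s(1, 2)⟩, ⟨_, hlt ε s(1, 3)⟩,
      ⟨_, hlt ε s(2, 3)⟩]
  have hκ : Function.Injective κ := fun ε ε' h => Subtype.ext
    (HfLower_Zs_ext hn ε.2 ε'.2 (congrArg Fin.val (congrFun h 0))
      (congrArg Fin.val (congrFun h 1)) (congrArg Fin.val (congrFun h 2))
      (congrArg Fin.val (congrFun h 3)) (congrArg Fin.val (congrFun h 4)))
  have := M.kummer.comp κ hκ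
  convert this using 1
  funext ε
  exact M.HfLower_mon ε.1

theorem HfLower_zero {D : ℕ} {d : Fin 5 → ℕ} {F : MvPolynomial (Fin 4) k} (hF : F ∈ Wd k D d)
    (h : MvPolynomial.aeval M.t F = 0) : F = 0 :=
  M.eq_zero_of_aeval ((Submodule.mem_iInf _).1 hF 0) h

theorem le_hf (hn : Odd n) (S : PreSurf k 𝕂) (hΓ : S.Γ = M.Γ) :
    ∀ᶠ j : ℤ in atTop, PhiR n (n * j) ≤ hf S.R (n * j) := by
  have hn0 := M.n_pos
  have hn' : (0 : ℤ) < n := by exact_mod_cast hn0
  have ht : Tendsto (fun j : ℤ => (n : ℤ) * j) atTop atTop :=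
    Tendsto.const_mul_atTop' hn' tendsto_id
  filter_upwards [ht.eventually (HfLower_glue M.symFam hn0 M.x_ne S hΓ),
    eventually_ge_atTop (8 : ℤ)] with j hV hj
  lift j to ℕ using by omega
  have hj' : 8 ≤ j := by exact_mod_cast hj
  choose d D hdeg hD hd using fun ε : Zs n => HfLower_Zs_data hn ε.2 hj'
  have hε : ∀ ε : Zs n, ∀ i, ε.1 s(i, i) = 0 := fun ε => by
    have h := ε.2
    simp only [Zs, Finset.mem_filter] at h
    exact h.2.1
  have := S.lat_R.good.fd (n * j)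
  have key := HfLower_sum M.symFam M.x_ne M.w_pow M.w_last (ε := fun ε : Zs n => ε.1) hε
    (d := d) (m := n * j) (fun c i => by exact_mod_cast hdeg c i) hD hd (fun F hF h0 c => by
      have h1 := Fintype.linearIndependent_iff.1 (M.HfLower_ind hn)
        (fun c => ⟨_, M.HfLower_aeval_mem (F c)⟩) (by
          rw [← h0]
          exact Finset.sum_congr rfl fun c _ => mul_comm _ _) c
      exact M.HfLower_zero (hF c) (congrArg Subtype.val h1)) (S.R (n * j)) hV
  refine le_trans (le_of_eq ?_) key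
  rw [Int.cast_natCast, ← sum_chiPl hn0, ← Finset.sum_coe_sort]
  refine Finset.sum_congr rfl fun ε _ => congrArg chiPl (funext fun i => ?_)
  have h1 : ((deg ε.1 i : ℕ) : ℝ) + n * d ε i = 2 * (n * j) := by exact_mod_cast hdeg ε i
  have h2 : (n : ℝ) ≠ 0 := by positivity
  field_simp
  linarith

theorem le_hfB (S : PreSurf k 𝕂) (hΓ : S.Γ = M.ΓB) :
    ∀ᶠ j : ℤ in atTop, (5 * (j : ℝ) ^ 2 + 5 * j + 2) / 2 ≤ hf S.R j := by
  have hx : M.x ^ n ≠ 0 := pow_ne_zero n M.x_ne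
  filter_upwards [HfLower_glue M.symFamB one_pos hx S hΓ, eventually_ge_atTop (0 : ℤ)]
    with j hV hj
  lift j to ℕ using hj
  have := S.lat_R.good.fd j
  have key := HfLower_sum M.symFamB hx (t := M.t) (fun e => pow_one _)
    (fun i => by simp [pp]) (ι := Unit) (ε := fun _ => 0) (fun _ _ => rfl)
    (d := fun _ _ => 2 * j) (m := j) (fun c i => by simp [deg]) (D := fun _ => 3 * j)
    (fun _ => by omega) (fun _ _ => by omega) (fun F hF h0 c => by
      refine M.HfLower_zero (hF c) ?_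
      simpa [mon] using h0) (S.R j) hV
  refine le_trans (le_of_eq ?_) key
  simp [chiPl]
  ring

theorem inv_R (hn : Odd n) (S : PreSurf k 𝕂) (hΓ : S.Γ = M.Γ) :
    S.e = eR n ∧ S.ctr = ((n : ℝ) - 2) / 2 ∧ S.κ = ((n : ℝ) ^ 2 - 10) / 120 := by
  have hn0 := M.n_pos
  have hn' : (0 : ℝ) < n := by exact_mod_cast hn0
  have he : 0 < eR n := by
    have : (0 : ℝ) < nu n := by exact_mod_cast nu_pos hn0
    rw [eR]
    positivity
  have H1 := S.lat_R.good.hasHP.vero hn0 0
  have H2 : HasHP (fun j => hf S.R (n * j + 0)) ((n : ℝ) ^ 2 * eR n)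
      (n * (-(eR n * (((n : ℝ) - 2) / 2))))
      (eR n * (((n : ℝ) - 2) / 2) ^ 2 / 2 - eR n * (((n : ℝ) ^ 2 - 10) / 120)) := by
    filter_upwards [M.le_hf hn S hΓ, M.hf_le hn] with j h1 h2
    rw [← hΓ] at h2
    rw [add_zero, le_antisymm h2 h1, PhiR]
    ring
  obtain ⟨a1, a2, a3⟩ := H1.unique H2
  have b1 : rk S.R = eR n := mul_left_cancel₀ (by positivity) a1
  have b2 : dg S.R = -(eR n * (((n : ℝ) - 2) / 2)) := by
    simpa using mul_left_cancel₀ hn'.ne' a2
  have b3 : ch S.R = eR n * (((n : ℝ) - 2) / 2) ^ 2 / 2 - eR n * (((n : ℝ) ^ 2 - 10) / 120) := by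
    simpa using a3
  have c1 : S.e = eR n := b1
  have c2 : S.ctr = ((n : ℝ) - 2) / 2 := by
    rw [PreSurf.ctr, c1, b2]
    field_simp
  refine ⟨c1, c2, ?_⟩
  rw [PreSurf.κ, c1, c2, HP, b1, b2, b3]
  field_simp
  ring

end Model

end Crest.Agent.R169
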