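import Crest.Agent.R169.BRing
import Crest.Agent.R169.HfLower

/-! # task R169/Lam -/

set_option autoImplicit false
open Filter Module IntermediateField

namespace Crest.Agent.R169

theorem Lam_exists_dual {F V : Type} [Field F] [AddCommGroup V] [Module F V] {W : Submodule F V}
    {v : V} (h : v ∉ W) : ∃ f : V →ₗ[F] F, f v = 1 ∧ ∀ w ∈ W, f w = 0 := by
  obtain ⟨f, h1, h2⟩ := Submodule.exists_le_ker_of_notMem h
  exact ⟨(f v)⁻¹ • f, by simp [h1], fun w hw => by simp [LinearMap.mem_ker.1 (h2 hw)]⟩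

theorem Lam_deg {n : ℕ} {e f : Ed → ℕ} (he : ∀ i, e s(i, i) = 0) (hf : ∀ i, f s(i, i) = 0)
    (h : ∀ x : Ed, ¬ x.IsDiag → e x + 1 = n * (f x + 1)) (i : Fin 5) :
    deg e i + 4 = n * (deg f i + 4) := by
  have h4 : ∑ j : Fin 5, (if i = j then 0 else 1) = 4 := by revert i; decide
  rw [← h4, deg, deg, ← Finset.sum_add_distrib, ← Finset.sum_add_distrib, Finset.mul_sum]
  refine Finset.sum_congr rfl fun j _ => ?_
  split_ifs with hij
  · subst hij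
    simp [he, hf]
  · exact h _ (by simpa using hij)

namespace Model
variable {k 𝕂 : Type} [Field k] [Field 𝕂] [Algebra k 𝕂] {n : ℕ} (M : Model k 𝕂 n)

theorem Lam_gens (j : ℤ) {b : 𝕂} (hb : b ∈ Rg k M.ΓB j) :
    ∃ c0 c1 c2 c3 c4 : k⟮M.yB, M.zB⟯, (c4 : 𝕂) ∈ Apol k M.yB M.zB (j - 2) ∧
      b = c0 • (1 : 𝕂) + c1 • M.Y 0 + c2 • M.Y 2 + c3 • M.Y 4 + c4 • (M.Y 0 * M.Y 2) := by
  obtain ⟨c0, h0, c1, h1, c2, h2, c3, h3, c4, h4, rfl⟩ := M.RgB_le_gens j hb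
  obtain ⟨c0, -, rfl⟩ := exists_adjoin_of_mem_Apol h0
  obtain ⟨c1, -, rfl⟩ := exists_adjoin_of_mem_Apol h1
  obtain ⟨c2, -, rfl⟩ := exists_adjoin_of_mem_Apol h2
  obtain ⟨c3, -, rfl⟩ := exists_adjoin_of_mem_Apol h3
  obtain ⟨c4, -, rfl⟩ := exists_adjoin_of_mem_Apol h4
  exact ⟨c0, c1, c2, c3, c4, h4, by simp only [IntermediateField.smul_def, smul_eq_mul, mul_one]⟩

theorem Lam_notMem : M.Y 0 * M.Y 2 ∉
    Submodule.span k⟮M.yB, M.zB⟯ (Set.range ![1, M.Y 0, M.Y 2, M.Y 4]) := by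
  intro h
  have hv : ∀ i, ![1, M.Y 0, M.Y 2, M.Y 4] i ∈
      Submodule.span k⟮M.yB, M.zB⟯ (Set.range ![1, M.Y 0, M.Y 2, M.Y 4]) :=
    fun i => Submodule.subset_span ⟨i, rfl⟩
  have h1 : spanF k⟮M.yB, M.zB⟯ (Rg k M.ΓB) ≤
      Submodule.span k⟮M.yB, M.zB⟯ (Set.range ![1, M.Y 0, M.Y 2, M.Y 4]) := by
    refine Submodule.span_le.2 (Set.iUnion_subset fun j b hb => ?_)
    obtain ⟨c0, c1, c2, c3, c4, -, rfl⟩ := M.Lam_gens j hb
    exact add_mem (add_mem (add_mem (add_mem (Submodule.smul_mem _ _ (hv 0))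
      (Submodule.smul_mem _ _ (hv 1))) (Submodule.smul_mem _ _ (hv 2)))
      (Submodule.smul_mem _ _ (hv 3))) (Submodule.smul_mem _ _ h)
  have h0 : IsLat M.yB M.zB (Rg k M.ΓB) := M.preSurfB.lat_R.isLat
  have h2 := (isLat_adjoin_iff.2 h0).rk_eq (ratFn_adjoin M.indB)
  have : FiniteDimensional k⟮M.yB, M.zB⟯
      (Submodule.span k⟮M.yB, M.zB⟯ (Set.range ![1, M.Y 0, M.Y 2, M.Y 4])) :=
    FiniteDimensional.span_of_finite _ (Set.finite_range _)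
  have h3 := (Submodule.finrank_mono h1).trans
    (finrank_range_le_card (R := k⟮M.yB, M.zB⟯) ![1, M.Y 0, M.Y 2, M.Y 4])
  have h4 := ((hasHP_poly 5 (5 / 2) 1).le h0.good.hasHP (by
    filter_upwards [M.le_hfB M.preSurfB rfl] with j hj
    exact le_trans (by linarith) hj)).1
  rw [h2] at h4
  have h5 : 5 ≤ finrank k⟮M.yB, M.zB⟯ (spanF k⟮M.yB, M.zB⟯ (Rg k M.ΓB)) := by exact_mod_cast h4
  have := h5.trans h3
  simp at this

/-- The socle coordinate on the del Pezzo ring. -/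
theorem exists_lamB : ∃ lam : 𝕂 →ₗ[k⟮M.yB, M.zB⟯] k⟮M.yB, M.zB⟯, lam (M.Y 0 * M.Y 2) = 1 ∧
    ∀ j : ℤ, ∀ b ∈ Rg k M.ΓB j, (lam b : 𝕂) ∈ Apol k M.yB M.zB (j - 2) := by
  obtain ⟨lam, h1, h2⟩ := Lam_exists_dual M.Lam_notMem
  refine ⟨lam, h1, fun j b hb => ?_⟩
  obtain ⟨c0, c1, c2, c3, c4, h4, rfl⟩ := M.Lam_gens j hb
  have e0 : lam 1 = 0 := h2 _ (Submodule.subset_span ⟨0, rfl⟩)
  have e1 : lam (M.Y 0) = 0 := h2 _ (Submodule.subset_span ⟨1, rfl⟩)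
  have e2 : lam (M.Y 2) = 0 := h2 _ (Submodule.subset_span ⟨2, rfl⟩)
  have e3 : lam (M.Y 4) = 0 := h2 _ (Submodule.subset_span ⟨3, rfl⟩)
  simp only [map_add, map_smul, e0, e1, e2, e3, h1, mul_zero, zero_add, smul_eq_mul, mul_one]
  exact h4

theorem Lam_mon_w (e : Ed → ℕ) : mon M.w e = M.w s(0, 2) ^ e s(0, 2) * M.w s(0, 3) ^ e s(0, 3) *
    M.w s(1, 2) ^ e s(1, 2) * M.w s(1, 3) ^ e s(1, 3) * M.w s(2, 3) ^ e s(2, 3) := by
  rw [mon, prod_Ed]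
  simp only [M.w_diag, M.w_last, M.w_01, one_pow, one_mul, mul_one]

theorem Lam_mon_pp_mem (f : Ed → ℕ) : mon (pp M.t) f ∈ k⟮M.t 2, M.t 3⟯ := by
  have h2 : M.t 2 ∈ k⟮M.t 2, M.t 3⟯ := subset_adjoin k _ (by simp)
  have h3 : M.t 3 ∈ k⟮M.t 2, M.t 3⟯ := subset_adjoin k _ (by simp)
  have h0 : M.t 0 ∈ k⟮M.t 2, M.t 3⟯ := M.t0 ▸ zero_mem _
  have h1 : M.t 1 ∈ k⟮M.t 2, M.t 3⟯ := M.t1 ▸ neg_mem (OneMemClass.one_mem _)
  rw [BRing_mon]
  exact mul_mem (mul_mem (mul_mem (mul_mem (mul_mem (pow_mem (sub_mem h0 h1) _)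
    (pow_mem (sub_mem h0 h2) _)) (pow_mem (sub_mem h0 h3) _)) (pow_mem (sub_mem h1 h2) _))
    (pow_mem (sub_mem h1 h3) _)) (pow_mem (sub_mem h2 h3) _)

theorem Lam_mon_split (e : Ed → ℕ) :
    mon M.w e = mon (pp M.t) (fun x => e x / n) * mon M.w fun x => e x % n := by
  rw [← M.mon_pow, mon, mon, mon, ← Finset.prod_pow, ← Finset.prod_mul_distrib]
  exact Finset.prod_congr rfl fun x _ => by rw [← pow_mul, ← pow_add, Nat.div_add_mod']

/-- The coefficient of `∏ w ^ (n - 1)` in the Kummer basis. -/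
theorem exists_kappa : ∃ κ : 𝕂 →ₗ[k⟮M.t 2, M.t 3⟯] 𝕂, ∀ (e : Ed → ℕ) (j : ℕ), Reg e j →
    n ∣ j + 2 → (κ (mon M.w e) = 0 ∧ ¬ ∀ x : Ed, ¬ x.IsDiag → n ∣ e x + 1) ∨
      ∃ f : Ed → ℕ, (∀ x : Ed, ¬ x.IsDiag → e x + 1 = n * (f x + 1)) ∧ (∀ i, f s(i, i) = 0) ∧
        κ (mon M.w e) = mon (pp M.t) f := by
  have hn := M.n_pos
  let top : Fin 5 → Fin n := fun _ => ⟨n - 1, by omega⟩
  obtain ⟨φ, h1, h2⟩ := Lam_exists_dual (M.kummer.notMem_span_image (s := {top}ᶜ) (x := top)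
    (by simp))
  refine ⟨(Algebra.linearMap _ 𝕂).comp φ, fun e j he hj => ?_⟩
  let ε : Fin 5 → Fin n := ![⟨e s(0, 2) % n, Nat.mod_lt _ hn⟩, ⟨e s(0, 3) % n, Nat.mod_lt _ hn⟩,
    ⟨e s(1, 2) % n, Nat.mod_lt _ hn⟩, ⟨e s(1, 3) % n, Nat.mod_lt _ hn⟩,
    ⟨e s(2, 3) % n, Nat.mod_lt _ hn⟩]
  have h3 : φ (mon M.w e) = (⟨_, M.Lam_mon_pp_mem fun x => e x / n⟩ : k⟮M.t 2, M.t 3⟯) •
      φ (M.w s(0, 2) ^ (ε 0 : ℕ) * M.w s(0, 3) ^ (ε 1 : ℕ) * M.w s(1, 2) ^ (ε 2 : ℕ) *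
        M.w s(1, 3) ^ (ε 3 : ℕ) * M.w s(2, 3) ^ (ε 4 : ℕ)) := by
    rw [← map_smul, M.Lam_mon_split e, M.Lam_mon_w fun x => e x % n]
    rfl
  have hmod : ∀ a : ℕ, n ∣ a + 1 ↔ a % n = n - 1 := fun a => by
    constructor
    · rintro ⟨c, hc⟩
      obtain ⟨c, rfl⟩ : ∃ d, c = d + 1 := ⟨c - 1, by
        rcases c with _ | c
        · simp at hc
        · rfl⟩
      rw [show a = n - 1 + n * c by rw [mul_add] at hc; omega, Nat.add_mul_mod_self_left,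
        Nat.mod_eq_of_lt (by omega)]
    · intro h
      refine ⟨a / n + 1, ?_⟩
      have := Nat.div_add_mod a n
      rw [mul_add]
      omega
  by_cases H : ∀ x : Ed, ¬ x.IsDiag → n ∣ e x + 1
  · refine Or.inr ⟨fun x => e x / n, fun x hx => ?_, fun i => by simp [he.diag i], ?_⟩
    · have := Nat.div_add_mod (e x) n
      rw [(hmod _).1 (H x hx)] at this
      dsimp only
      rw [mul_add]
      omega
    · have hε : ε = top := by
        funext i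
        fin_cases i <;> exact Fin.ext ((hmod _).1 (H _ (by decide)))
      rw [LinearMap.comp_apply, h3, hε, h1, smul_eq_mul, mul_one]
      rfl
  · refine Or.inl ⟨?_, H⟩
    have hε : ε ≠ top := by
      intro hε
      apply H
      obtain ⟨c1, g1⟩ := (hmod (e s(0, 2))).2 (congrArg Fin.val (congrFun hε 0))
      obtain ⟨c2, g2⟩ := (hmod (e s(0, 3))).2 (congrArg Fin.val (congrFun hε 1))
      obtain ⟨c3, g3⟩ := (hmod (e s(1, 2))).2 (congrArg Fin.val (congrFun hε 2))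
      obtain ⟨c4, g4⟩ := (hmod (e s(1, 3))).2 (congrArg Fin.val (congrFun hε 3))
      obtain ⟨c5, g5⟩ := (hmod (e s(2, 3))).2 (congrArg Fin.val (congrFun hε 4))
      obtain ⟨c, hc⟩ := hj
      obtain ⟨d0, d1, d2, d3, d4⟩ := deg_expand e
      rw [he.deg, he.diag] at d0 d1 d2 d3 d4
      have key : ∀ (a : ℕ) (z : ℤ), ((a + 1 : ℕ) : ℤ) = n * z → n ∣ a + 1 := fun a z h =>
        Int.natCast_dvd_natCast.1 ⟨z, h⟩
      zify at g1 g2 g3 g4 g5 hc d0 d1 d2 d3 d4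
      refine forall_Ed.2 ⟨by simp, fun _ => key _ (3 * c - c1 - c2 - c3 - c4 - c5) ?_,
        fun _ => key _ c1 ?_, fun _ => key _ c2 ?_, fun _ => key _ (c3 + c4 + c5 - c) ?_,
        fun _ => key _ c3 ?_, fun _ => key _ c4 ?_, fun _ => key _ (c1 + c2 + c5 - c) ?_,
        fun _ => key _ c5 ?_, fun _ => key _ (2 * c - c1 - c3 - c5) ?_,
        fun _ => key _ (2 * c - c2 - c4 - c5) ?_⟩ <;>
      · push_cast
        linarith
    rw [LinearMap.comp_apply, h3, h2 _ (Submodule.subset_span ⟨ε, hε, rfl⟩), smul_zero, map_zero]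

theorem exists_dua (S : PreSurf k 𝕂) (hΓ : S.Γ = M.Γ) (hc : S.ctr = ((n : ℝ) - 2) / 2) :
    Nonempty (Dua S) := by
  have hn := M.n_pos
  obtain ⟨lamB, hB1, hB2⟩ := M.exists_lamB
  obtain ⟨κ, hκ⟩ := M.exists_kappa
  have hle : k⟮M.yB, M.zB⟯ ≤ k⟮M.t 2, M.t 3⟯ := by
    have hY : ∀ i, M.Y i ∈ k⟮M.t 2, M.t 3⟯ := fun i => M.ΓB_subset _ (M.Y_mem i)
    rw [adjoin_le_iff]
    rintro _ (rfl | rfl)
    · exact sub_mem (add_mem (hY 0) (hY 2)) (hY 1)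
    · exact sub_mem (add_mem (hY 2) (hY 4)) (hY 3)
  have hκ' : ∀ c ∈ k⟮M.t 2, M.t 3⟯, ∀ u, κ (c * u) = c * κ u := fun c hc u =>
    κ.map_smul ⟨c, hc⟩ u
  have hx : M.x ^ n ∈ k⟮M.t 2, M.t 3⟯ := M.x_pow ▸ M.Lam_mon_pp_mem _
  have hx0 := M.x_ne
  let lam : 𝕂 →ₗ[k⟮M.yB, M.zB⟯] k⟮M.yB, M.zB⟯ :=
    { toFun := fun u => lamB ((M.x ^ n) ^ 2 * κ (u / M.x ^ 2))
      map_add' := fun u v => by rw [add_div, map_add, mul_add, map_add]
      map_smul' := fun c u => by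
        rw [RingHom.id_apply, ← map_smul, IntermediateField.smul_def, IntermediateField.smul_def,
          smul_eq_mul, smul_eq_mul, mul_div_assoc, hκ' _ (hle c.2), mul_left_comm] }
  have hlam : ∀ (e : Ed → ℕ) (l J : ℕ), l + 2 = n * J → lam (mon M.w e / M.x ^ l) =
      lamB ((M.x ^ n) ^ 2 * (κ (mon M.w e) / (M.x ^ n) ^ J)) := fun e l J h => by
    change lamB ((M.x ^ n) ^ 2 * κ (mon M.w e / M.x ^ l / M.x ^ 2)) = _
    rw [div_div, ← pow_add, h, pow_mul, div_eq_inv_mul, hκ' _ (inv_mem (pow_mem hx J)),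
      ← div_eq_inv_mul]
  have hdiv : ∀ (a : 𝕂) (J : ℕ), (M.x ^ n) ^ 2 * (a / (M.x ^ n) ^ (J + 2)) = a / (M.x ^ n) ^ J :=
    fun a J => by rw [pow_add]; field_simp
  have hR : S.R = Rg k M.Γ := by rw [PreSurf.R, hΓ]
  refine ⟨⟨n, M.yB, M.zB, (n : ℤ) - 2, lam, hn, ?_, ?_, M.indB, fun i => ?_, ?_, ?_, ?_⟩⟩
  · simpa [hR] using M.RgB_le 1 M.yB_mem
  · simpa [hR] using M.RgB_le 1 M.zB_mem
  · rw [hR]
    exact bdd_vero_Rg hn M.one_memB (fun γ hγ => M.pow_mem_ΓB hγ) M.bddB i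
  · obtain ⟨γ, hγ⟩ := mem_Gam.1 (M.Y_mem 0)
    obtain ⟨γ', hγ'⟩ := mem_Gam.1 (M.Y_mem 2)
    have hf := γ.2.add γ'.2
    set f := γ.1 + γ'.1 with hfdef
    let e : Ed → ℕ := fun x => if x.IsDiag then 0 else n * (f x + 1) - 1
    have he0 : ∀ i, e s(i, i) = 0 := fun i => by simp [e]
    have he1 : ∀ x : Ed, ¬ x.IsDiag → e x + 1 = n * (f x + 1) := fun x hx => by
      have : 0 < n * (f x + 1) := by positivity
      simp only [e, if_neg hx]
      omega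
    have he : Reg e (4 * n - 2) := ⟨he0, fun i => by
      have := Lam_deg he0 hf.diag he1 i
      rw [hf.deg] at this
      omega⟩
    have hl : 4 * n - 2 + 2 = n * (2 + 2) := by omega
    have h1 := hlam e _ _ hl
    rcases hκ e _ he ⟨_, hl⟩ with h | ⟨f', h2, h3, h4⟩
    · exact absurd (fun x hx => ⟨_, he1 x hx⟩) h.2
    have h5 : f' = f := by
      funext x
      by_cases hx : x.IsDiag
      · induction x using Sym2.ind with
        | h a b =>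
          obtain rfl : a = b := by simpa using hx
          rw [h3, hf.diag]
      · exact Nat.succ_injective (Nat.eq_of_mul_eq_mul_left hn ((h2 x hx).symm.trans (he1 x hx)))
    rw [hdiv, h4, h5, hfdef, mon_add, sq, ← div_mul_div_comm, hγ, hγ', hB1] at h1
    intro h0
    rw [h0] at h1
    exact zero_ne_one h1
  · intro j r hr
    rw [hR] at hr
    rcases lt_or_ge (n * j + (n - 2) : ℤ) 0 with h0 | h0
    · rw [Rg_neg h0, Submodule.mem_bot] at hr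
      rw [hr, map_zero]
      exact zero_mem _
    obtain ⟨l, hl⟩ := Int.eq_ofNat_of_zero_le h0
    have hj : 0 ≤ j + 1 := by
      by_contra hj
      have : (n : ℤ) * (j + 1) ≤ 0 := mul_nonpos_of_nonneg_of_nonpos (by omega) (by omega)
      linarith
    obtain ⟨J, hJ⟩ := Int.eq_ofNat_of_zero_le hj
    have hlJ : l + 2 = n * J := by
      zify
      rw [← hJ]
      linarith
    rw [hl, Γ, Rg_Gam] at hr
    induction hr using Submodule.span_induction with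
    | mem x hx =>
      obtain ⟨e, he, rfl⟩ := hx
      rw [hlam e l J hlJ]
      rcases hκ e l he ⟨J, hlJ⟩ with h | ⟨f, h2, h3, h4⟩
      · rw [h.1, zero_div, mul_zero, map_zero]
        exact zero_mem _
      have h5 : ∀ i, deg f i + 4 = 2 * J := fun i => by
        have := Lam_deg he.diag h3 h2 i
        rw [he.deg] at this
        refine Nat.eq_of_mul_eq_mul_left hn ?_
        rw [← this, mul_left_comm, ← hlJ]
        ring
      obtain ⟨J', rfl⟩ : ∃ J', J = J' + 2 := ⟨J - 2, by have := h5 0; omega⟩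
      have hf : Reg f J' := ⟨h3, fun i => by have := h5 i; omega⟩
      rw [hdiv, h4, show j - 3 = J' - 2 by omega]
      exact hB2 _ _ (mon_div_mem_Rg hf)
    | zero => rw [map_zero]; exact zero_mem _
    | add x y _ _ hx hy => rw [map_add]; exact add_mem hx hy
    | smul c x _ hx =>
      rw [← algebraMap_smul k⟮M.yB, M.zB⟯ c x, map_smul, algebraMap_smul]
      exact Submodule.smul_mem _ c hx
  · rw [hc]
    push_cast
    ring

end Model

end Crest.Agent.R169
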