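import Crest.Agent.R169.Model

/-! # task R169/Lefschetz -/

set_option autoImplicit false
open Filter Module IntermediateField

namespace Crest.Agent.R169

theorem lefschetz_isJacobsonRing_int : IsJacobsonRing ℤ := by
  rw [isJacobsonRing_iff_prime_eq]
  intro P hP
  by_cases h : P = ⊥
  · subst h
    refine le_antisymm (fun x hx => ?_) Ideal.le_jacobson
    have h1 := Ideal.mem_jacobson_bot.1 hx x
    rw [Int.isUnit_iff] at h1
    have : x = 0 := by rcases h1 with h1 | h1 <;> nlinarith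
    simp [this]
  · have := hP.isMaximal h
    exact Ideal.jacobson_eq_self_of_isMaximal

/-- A nonzero finitely generated ring in which `p0!` is invertible maps to an algebraically closed
field of characteristic larger than `p0`. -/
theorem lefschetz_exists_hom (A : Type) [CommRing A] [Nontrivial A] [Algebra.FiniteType ℤ A]
    (p0 : ℕ) (hu : IsUnit ((p0.factorial : ℕ) : A)) :
    ∃ (p : ℕ) (k : Type) (_ : Field k), p.Prime ∧ p0 < p ∧ CharP k p ∧ IsAlgClosed k ∧
      Nonempty (A →+* k) := by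
  obtain ⟨m, hm⟩ := Ideal.exists_maximal A
  let _ : Field (A ⧸ m) := Ideal.Quotient.field m
  have := lefschetz_isJacobsonRing_int
  have hfin : Module.Finite ℤ (A ⧸ m) := finite_of_finite_type_of_isJacobsonRing ℤ (A ⧸ m)
  obtain ⟨p, hp⟩ := CharP.exists (A ⧸ m)
  have hp0 : p ≠ 0 := by
    rintro rfl
    have : CharZero (A ⧸ m) := CharP.charP_to_charZero _
    have hint : Algebra.IsIntegral ℤ (A ⧸ m) := inferInstance
    exact Int.not_isField
      (isField_of_isIntegral_of_isField (R := ℤ) (S := A ⧸ m) (RingHom.injective_int _)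
        (Field.toIsField _))
  have hprime : p.Prime := (CharP.char_is_prime_or_zero (A ⧸ m) p).resolve_right hp0
  have hlt : p0 < p := by
    by_contra hle
    have hdvd : p ∣ p0.factorial := (hprime.dvd_factorial).2 (not_lt.1 hle)
    have h0 : ((p0.factorial : ℕ) : A ⧸ m) = 0 := (CharP.cast_eq_zero_iff _ p _).2 hdvd
    have h1 := hu.map (Ideal.Quotient.mk m)
    rw [map_natCast, h0] at h1
    exact not_isUnit_zero h1
  refine ⟨p, AlgebraicClosure (A ⧸ m), inferInstance, hprime, hlt, inferInstance, inferInstance,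
    ⟨(algebraMap (A ⧸ m) _).comp (Ideal.Quotient.mk m)⟩⟩

open MvPolynomial in
theorem lefschetz_map_expr {A k : Type} [CommRing A] [CommRing k] (f : A →+* k) {N e : ℕ}
    (δ : MvPolynomial (Fin 3) ℤ) (a : Fin e → MvPolynomial (Fin 3) ℤ)
    (X Bθ : Matrix (Fin N) (Fin N) (MvPolynomial (Fin 3) A)) (i j : Fin N) :
    (map (Int.castRingHom k) δ • (map f : _ →+* _).mapMatrix X -
      ∑ l, map (Int.castRingHom k) (a l) • (map f : _ →+* _).mapMatrix Bθ ^ (l : ℕ)) i j
      = map f ((map (Int.castRingHom A) δ • X -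
        ∑ l, map (Int.castRingHom A) (a l) • Bθ ^ (l : ℕ)) i j) := by
  have hc : ∀ q : MvPolynomial (Fin 3) ℤ,
      map f (map (Int.castRingHom A) q) = map (Int.castRingHom k) q := by
    intro q
    rw [MvPolynomial.map_map, RingHom.ext_int (f.comp (Int.castRingHom A)) (Int.castRingHom k)]
  simp_rw [← map_pow]
  simp only [Matrix.sub_apply, Matrix.smul_apply, Matrix.sum_apply, smul_eq_mul,
    map_sub, map_mul, map_sum, hc, RingHom.mapMatrix_apply, Matrix.map_apply]

open MvPolynomial in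
theorem lefschetz_mem_map {A k : Type} [CommRing A] [CommRing k] (f : A →+* k) {S : ℕ}
    {q : MvPolynomial (Fin 3) A} (h : q ∈ idealOfVars (Fin 3) A ^ S) :
    map f q ∈ idealOfVars (Fin 3) k ^ S := by
  rw [mem_pow_idealOfVars_iff'] at h ⊢
  intro x hx
  rw [coeff_map, h x hx, map_zero]

open MvPolynomial in
theorem lefschetz_mem_of_map {A k : Type} [CommRing A] [CommRing k] {f : A →+* k}
    (hf : Function.Injective f) {S : ℕ} {q : MvPolynomial (Fin 3) A}
    (h : map f q ∈ idealOfVars (Fin 3) k ^ S) : q ∈ idealOfVars (Fin 3) A ^ S := by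
  rw [mem_pow_idealOfVars_iff'] at h ⊢
  intro x hx
  have := h x hx
  rw [coeff_map] at this
  exact hf (by rw [this, map_zero])

open MvPolynomial in
theorem Table.Mats.map {n : ℕ} {τ : Table n} {N Sp : ℕ} {A k : Type} [CommRing A] [CommRing k]
    (f : A →+* k) (h : τ.Mats A N Sp) : τ.Mats k N Sp := by
  obtain ⟨Bθ, B, h1, h2⟩ := h
  refine ⟨(MvPolynomial.map f : _ →+* _).mapMatrix Bθ,
    fun γ => (MvPolynomial.map f : _ →+* _).mapMatrix (B γ), fun i j => ?_, fun γ i j => ?_⟩
  · rw [← map_pow, lefschetz_map_expr]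
    exact lefschetz_mem_map f (h1 i j)
  · rw [lefschetz_map_expr]
    exact lefschetz_mem_map f (h2 γ i j)

open MvPolynomial in
theorem lefschetz_lift_matrix {A k : Type} [CommRing A] [CommRing k] (f : A →+* k) {N : ℕ}
    (X : Matrix (Fin N) (Fin N) (MvPolynomial (Fin 3) k))
    (h : ∀ i j, ((X i j).coeffs : Set k) ⊆ Set.range f) :
    ∃ Y : Matrix (Fin N) (Fin N) (MvPolynomial (Fin 3) A),
      (MvPolynomial.map f : _ →+* _).mapMatrix Y = X := by
  choose Y hY using fun i j => mem_range_map_iff_coeffs_subset.2 (h i j)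
  exact ⟨Matrix.of Y, by ext i j : 1; simpa using hY i j⟩

/-- Solutions over `ℂ` give solutions over algebraically closed fields of large characteristic. -/
theorem Table.Mats.charP {n : ℕ} {τ : Table n} {N Sp : ℕ} (h : τ.Mats ℂ N Sp) (p0 : ℕ) :
    ∃ (p : ℕ) (k : Type) (_ : Field k), p.Prime ∧ p0 < p ∧ CharP k p ∧ IsAlgClosed k ∧
      τ.Mats k N Sp := by
  classical
  obtain ⟨Bθ, B, h1, h2⟩ := h
  let s : Finset ℂ := insert ((p0.factorial : ℂ)⁻¹)
    ((Finset.univ.biUnion fun ij : Fin N × Fin N => (Bθ ij.1 ij.2).coeffs) ∪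
      Finset.univ.biUnion fun γij : Gen × Fin N × Fin N => (B γij.1 γij.2.1 γij.2.2).coeffs)
  let A : Subalgebra ℤ ℂ := Algebra.adjoin ℤ (s : Set ℂ)
  have hft : Algebra.FiniteType ℤ A := (Subalgebra.fg_iff_finiteType A).1 ⟨s, rfl⟩
  let f : A →+* ℂ := A.val.toRingHom
  have hf : Function.Injective f := Subtype.val_injective
  have hs : ∀ c ∈ s, c ∈ Set.range f := fun c hc => ⟨⟨c, Algebra.subset_adjoin hc⟩, rfl⟩
  have hu : IsUnit ((p0.factorial : ℕ) : A) := by
    obtain ⟨u, hu⟩ := hs _ (Finset.mem_insert_self _ _)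
    refine IsUnit.of_mul_eq_one u (hf ?_)
    rw [map_mul, map_natCast, hu, map_one]
    exact mul_inv_cancel₀ (Nat.cast_ne_zero.2 p0.factorial_ne_zero)
  obtain ⟨Yθ, hYθ⟩ := lefschetz_lift_matrix f Bθ (fun i j c hc => hs c (by
    refine Finset.mem_insert_of_mem (Finset.mem_union_left _ ?_)
    exact Finset.mem_biUnion.2 ⟨(i, j), Finset.mem_univ _, hc⟩))
  choose Y hY using fun γ => lefschetz_lift_matrix f (B γ) (fun i j c hc => hs c (by
    refine Finset.mem_insert_of_mem (Finset.mem_union_right _ ?_)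
    exact Finset.mem_biUnion.2 ⟨(γ, i, j), Finset.mem_univ _, hc⟩))
  have hA : τ.Mats A N Sp := by
    refine ⟨Yθ, Y, fun i j => lefschetz_mem_of_map hf ?_, fun γ i j => lefschetz_mem_of_map hf ?_⟩
    · rw [← lefschetz_map_expr, map_pow, hYθ]
      exact h1 i j
    · rw [← lefschetz_map_expr, hY, hYθ]
      exact h2 γ i j
  obtain ⟨p, k, hk, hp, hlt, hchar, halg, ⟨g⟩⟩ := lefschetz_exists_hom A p0 hu
  exact ⟨p, k, hk, hp, hlt, hchar, halg, hA.map g⟩

end Crest.Agent.R169
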