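import Crest.Agent.R169.Petersen

/-! # task R169/LogC -/

set_option autoImplicit false
open Filter Module IntermediateField

namespace Crest.Agent.R169

variable {k : Type} [Field k] {𝕃 : Type} [Field 𝕃] [Algebra k 𝕃] {n : ℕ} {w : Ed → 𝕃} {x : 𝕃}

namespace LogC

theorem mem_loc_of (h : SymFam k n w) (hx : x ≠ 0) (l l' : List Ed) {a : 𝕃}
    (hd : ∀ i, (ofList l s(i, i) : ℤ) - ofList l' s(i, i) = 0)
    (he : ∀ i, deg (fun e => (ofList l e : ℤ) - ofList l' e) i = 2 * 0)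
    (h1 : 0 ≤ (ofList l s(0, 1) : ℤ) - ofList l' s(0, 1))
    (h2 : 0 ≤ (ofList l s(2, 3) : ℤ) - ofList l' s(2, 3))
    (ha : a = (l.map w).prod / (l'.map w).prod) :
    a ∈ loc (cu w x 1) (cu' w x 1) (Rg k (Gam w x)) 0 := by
  convert h.zmon_mem_loc hx 1 hd he h1 h2
  rw [ha, ← mon_ofList, ← mon_ofList]
  simp [zmon, mon, zpow_sub₀ (h.ne _)]

theorem pow_mem_of (l : List Ed) {a : 𝕃} (hd : ∀ i, ofList l s(i, i) = 0)
    (he : ∀ i, deg (ofList l) i = 2 * 2) (ha : a = ((l.map w).prod / x ^ 2) ^ n) :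
    a ∈ Rg k (Gam w x) (2 * n : ℕ) := by
  have := pow_mem_Rg (mon_div_mem_Rg (k := k) (w := w) (x := x) ⟨hd, he⟩) n
  rwa [mon_ofList, ← ha, ← Nat.cast_mul, mul_comm] at this

theorem zmon_eq {a01 a02 a03 a04 a12 a13 a14 a23 a24 a34 : 𝕃} (h01 : a01 ≠ 0) (h02 : a02 ≠ 0)
    (h03 : a03 ≠ 0) (h04 : a04 ≠ 0) (h12 : a12 ≠ 0) (h13 : a13 ≠ 0) (h14 : a14 ≠ 0)
    (h23 : a23 ≠ 0) (h24 : a24 ≠ 0) (h34 : a34 ≠ 0) {e01 e02 e03 e04 e12 e13 e14 e23 e24 e34 : ℕ}
    (d0 : e01 + e02 + e03 + e04 = 2) (d1 : e01 + e12 + e13 + e14 = 2)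
    (d2 : e02 + e12 + e23 + e24 = 2) (d3 : e03 + e13 + e23 + e34 = 2)
    (d4 : e04 + e14 + e24 + e34 = 2) :
    a01 ^ e01 * a02 ^ e02 * a03 ^ e03 * a04 ^ e04 * a12 ^ e12 * a13 ^ e13 * a14 ^ e14 * a23 ^ e23 *
      a24 ^ e24 * a34 ^ e34 = a04 * a02 * a12 * a13 * a34 *
      ((a01 * a24 / (a14 * a02)) ^ e01 * (a23 * a04 / (a34 * a02)) ^ e23 *
        ((a12 * a04 / (a14 * a02)) ^ ((e12 : ℤ) - 1) * (a03 * a24 / (a34 * a02)) ^ (e03 : ℤ) *
          (a13 * a04 * a24 / (a14 * a34 * a02)) ^ ((e13 : ℤ) - 1))) := by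
  have p02 : a02 ^ (e02 + e01 + e23 + e12 + e03 + e13) = a02 ^ 3 := by congr 1; omega
  have p04 : a04 ^ (e04 + 1) = a04 ^ (e23 + e12 + e13) := by congr 1; omega
  have p14 : a14 ^ (e14 + e01 + e12 + e13) = a14 ^ 2 := by congr 1; omega
  have p24 : a24 ^ (e24 + 1) = a24 ^ (e01 + e03 + e13) := by congr 1; omega
  have p34 : a34 ^ (e34 + e23 + e03 + e13) = a34 ^ 2 := by congr 1; omega
  have q02 : a02 ^ e02 = a02 ^ 3 / a02 ^ (e01 + e23 + e12 + e03 + e13) := by
    rw [← p02]; field_simp; ring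
  have q04 : a04 ^ e04 = a04 ^ (e23 + e12 + e13) / a04 := by rw [← p04]; field_simp; ring
  have q14 : a14 ^ e14 = a14 ^ 2 / a14 ^ (e01 + e12 + e13) := by rw [← p14]; field_simp; ring
  have q24 : a24 ^ e24 = a24 ^ (e01 + e03 + e13) / a24 := by rw [← p24]; field_simp; ring
  have q34 : a34 ^ e34 = a34 ^ 2 / a34 ^ (e23 + e03 + e13) := by rw [← p34]; field_simp; ring
  rw [zpow_sub₀ (by positivity), zpow_sub₀ (by positivity), q02, q04, q14, q24, q34]
  simp only [zpow_natCast, zpow_one, div_pow, mul_pow, pow_add]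
  field_simp

theorem chart_one (h : SymFam k n w) (hx : x ≠ 0) :
    Nonempty (LogChart k (Gam w x) n (2 * n) (cu w x 1) (cu' w x 1)) := by
  have h01 := h.ne s(0, 1)
  have h02 := h.ne s(0, 2)
  have h03 := h.ne s(0, 3)
  have h04 := h.ne s(0, 4)
  have h12 := h.ne s(1, 2)
  have h13 := h.ne s(1, 3)
  have h14 := h.ne s(1, 4)
  have h23 := h.ne s(2, 3)
  have h24 := h.ne s(2, 4)
  have h34 := h.ne s(3, 4)
  obtain ⟨a₁, a₂, ha⟩ := h.pl 1 2 0 4 (by decide) (by decide) (by decide) (by decide) (by decide)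
    (by decide)
  obtain ⟨b₁, b₂, hb⟩ := h.pl 0 3 2 4 (by decide) (by decide) (by decide) (by decide) (by decide)
    (by decide)
  obtain ⟨c₁, c₂, hc⟩ := h.pl 1 3 2 4 (by decide) (by decide) (by decide) (by decide) (by decide)
    (by decide)
  have hu : cu w x 1 = w s(0, 4) * w s(0, 2) * w s(1, 2) * w s(1, 3) * w s(3, 4) / x := by
    simp only [cu, Equiv.Perm.one_apply, Sym2.eq_swap (a := (4 : Fin 5)) (b := 0),
      Sym2.eq_swap (a := (2 : Fin 5)) (b := 1)]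
  have hu' : cu' w x 1 = w s(1, 4) * w s(1, 3) * w s(0, 3) * w s(0, 2) * w s(2, 4) / x := by
    simp only [cu', Equiv.Perm.one_apply, Sym2.eq_swap (a := (4 : Fin 5)) (b := 1),
      Sym2.eq_swap (a := (3 : Fin 5)) (b := 0)]
  rw [Sym2.eq_swap (a := (1 : Fin 5)) (b := 0), Sym2.eq_swap (a := (2 : Fin 5)) (b := 0)] at ha
  rw [Sym2.eq_swap (a := (3 : Fin 5)) (b := 2)] at hb hc
  simp only [Algebra.smul_def, mul_pow] at ha hb hc
  refine ⟨{
    σ := ![w s(0, 1) * w s(2, 4) / (w s(1, 4) * w s(0, 2)),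
      w s(2, 3) * w s(0, 4) / (w s(3, 4) * w s(0, 2))]
    v := ![w s(1, 2) * w s(0, 4) / (w s(1, 4) * w s(0, 2)),
      w s(0, 3) * w s(2, 4) / (w s(3, 4) * w s(0, 2)),
      w s(1, 3) * w s(0, 4) * w s(2, 4) / (w s(1, 4) * w s(3, 4) * w s(0, 2))]
    co := ![![a₂, a₁, 0], ![b₁, 0, b₂], ![c₁ * a₂, c₁ * a₁, c₂]]
    h := (w s(0, 1) * w s(0, 2) * w s(0, 3) * w s(0, 4) * w s(1, 2) * w s(1, 3) * w s(1, 4) *
      w s(2, 3) * w s(2, 4) * w s(3, 4) / x ^ 2) ^ n
    σ_ne := fun i => by fin_cases i <;> simp [*]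
    v_ne := fun i => by fin_cases i <;> simp [*]
    h_ne := by positivity
    σ_mem := ?_
    v_mem := ?_
    vinv_mem := ?_
    rel := ?_
    mono := ?_
    mono' := ⟨1, ![-1, 1, 0], by
      simp [hu, hu', Fin.prod_univ_three]
      field_simp⟩
    h_mem := pow_mem_of [s(0, 1), s(0, 2), s(0, 3), s(0, 4), s(1, 2), s(1, 3), s(1, 4), s(2, 3),
      s(2, 4), s(3, 4)] (by decide) (by decide) (by simp [mul_assoc])
    hσ_mem := ?_ }⟩
  · intro i
    fin_cases i
    · exact mem_loc_of h hx [s(0, 1), s(2, 4)] [s(1, 4), s(0, 2)] (by decide) (by decide)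
        (by decide) (by decide) (by simp)
    · exact mem_loc_of h hx [s(2, 3), s(0, 4)] [s(3, 4), s(0, 2)] (by decide) (by decide)
        (by decide) (by decide) (by simp)
  · intro i
    fin_cases i
    · exact mem_loc_of h hx [s(1, 2), s(0, 4)] [s(1, 4), s(0, 2)] (by decide) (by decide)
        (by decide) (by decide) (by simp)
    · exact mem_loc_of h hx [s(0, 3), s(2, 4)] [s(3, 4), s(0, 2)] (by decide) (by decide)
        (by decide) (by decide) (by simp)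
    · exact mem_loc_of h hx [s(1, 3), s(0, 4), s(2, 4)] [s(1, 4), s(3, 4), s(0, 2)] (by decide)
        (by decide) (by decide) (by decide) (by simp [mul_assoc])
  · intro i
    fin_cases i
    · exact mem_loc_of h hx [s(1, 4), s(0, 2)] [s(1, 2), s(0, 4)] (by decide) (by decide)
        (by decide) (by decide) (by simp)
    · exact mem_loc_of h hx [s(3, 4), s(0, 2)] [s(0, 3), s(2, 4)] (by decide) (by decide)
        (by decide) (by decide) (by simp)
    · exact mem_loc_of h hx [s(1, 4), s(3, 4), s(0, 2)] [s(1, 3), s(0, 4), s(2, 4)] (by decide)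
        (by decide) (by decide) (by decide) (by simp [mul_assoc])
  · intro i
    fin_cases i <;> simp [Algebra.smul_def, div_pow, mul_pow] <;> field_simp
    · linear_combination ha
    · linear_combination hb
    · linear_combination w s(0, 4) ^ n * hc + algebraMap k 𝕃 c₁ * w s(3, 4) ^ n * ha
  · intro γ hγ
    obtain ⟨⟨g, hg⟩, rfl⟩ := mem_Gam.1 hγ
    obtain ⟨d0, d1, d2, d3, d4⟩ := deg_expand g
    simp only [hg.deg, hg.diag, zero_add, add_zero] at d0 d1 d2 d3 d4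
    refine ⟨1, ![g s(0, 1), g s(2, 3)], ![g s(1, 2) - 1, g s(0, 3), g s(1, 3) - 1], ?_⟩
    rw [mon, prod_Ed, hu, one_smul, div_mul_eq_mul_div, Fin.prod_univ_two, Fin.prod_univ_three]
    simp only [h.diag, one_pow, one_mul]
    exact congrArg (· / x) (zmon_eq h01 h02 h03 h04 h12 h13 h14 h23 h24 h34 d0.symm d1.symm d2.symm
      d3.symm d4.symm)
  · intro i j
    rw [← mul_pow, ← div_pow]
    fin_cases i <;> fin_cases j
    · exact pow_mem_of [s(0, 1), s(0, 2), s(0, 3), s(0, 1), s(2, 4), s(1, 3), s(1, 4), s(2, 3),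
        s(2, 4), s(3, 4)] (by decide) (by decide) (by congr 1; simp; field_simp)
    · exact pow_mem_of [s(0, 1), s(0, 2), s(0, 1), s(0, 4), s(1, 2), s(1, 3), s(3, 4), s(2, 3),
        s(2, 4), s(3, 4)] (by decide) (by decide) (by congr 1; simp; field_simp)
    · exact pow_mem_of [s(0, 1), s(0, 2), s(0, 3), s(0, 1), s(1, 2), s(3, 4), s(1, 4), s(2, 3),
        s(2, 4), s(3, 4)] (by decide) (by decide) (by congr 1; simp; field_simp)
    · exact pow_mem_of [s(0, 1), s(0, 2), s(0, 3), s(0, 4), s(2, 3), s(1, 3), s(1, 4), s(2, 3),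
        s(2, 4), s(1, 4)] (by decide) (by decide) (by congr 1; simp; field_simp)
    · exact pow_mem_of [s(0, 1), s(0, 2), s(2, 3), s(0, 4), s(1, 2), s(1, 3), s(1, 4), s(2, 3),
        s(0, 4), s(3, 4)] (by decide) (by decide) (by congr 1; simp; field_simp)
    · exact pow_mem_of [s(0, 1), s(0, 2), s(0, 3), s(0, 4), s(1, 2), s(2, 3), s(1, 4), s(2, 3),
        s(1, 4), s(3, 4)] (by decide) (by decide) (by congr 1; simp; field_simp)

end LogC

theorem SymFam.logChart (h : SymFam k n w) (hx : x ≠ 0) (π : Equiv.Perm (Fin 5)) :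
    Nonempty (LogChart k (Gam w x) n (2 * n) (cu w x π) (cu' w x π)) := by
  have := LogC.chart_one (h.perm π) hx
  rwa [Gam_perm] at this

end Crest.Agent.R169
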