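import Crest.Agent.R169.PInd

/-! # task R169/LogDer -/

set_option autoImplicit false
open Filter Module IntermediateField

namespace Crest.Agent.R169

variable {k 𝕂 : Type} [Field k] [Field 𝕂] [Algebra k 𝕂] [IsAlgClosed k]
  (p : ℕ) [Fact p.Prime] [CharP 𝕂 p]

/-- Euler derivations with respect to a `p`-basis. -/
theorem LogDer.exists_euler (s t : 𝕂)
    (hspan : ∀ w : 𝕂, ∃ f : Fin p × Fin p → 𝕂, w = ∑ i, s ^ (i.1 : ℕ) * t ^ (i.2 : ℕ) * f i ^ p)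
    (hind : ∀ f : Fin p × Fin p → 𝕂, ∑ i, s ^ (i.1 : ℕ) * t ^ (i.2 : ℕ) * f i ^ p = 0 → f = 0)
    (w0 w1 : ℕ) : ∃ θ : Derivation k 𝕂 𝕂, ∀ (a b : ℕ) (g : 𝕂),
      θ (s ^ a * t ^ b * g ^ p) = ((w0 * a + w1 * b : ℕ) : 𝕂) * (s ^ a * t ^ b * g ^ p) := by
  have hp : 0 < p := (Fact.out : p.Prime).pos
  let B : Basis (Fin p × Fin p) (frobenius 𝕂 p).fieldRange 𝕂 :=
    Basis.mk ((PInd.ind_iff (frobenius 𝕂 p) fun i : Fin p × Fin p =>
      s ^ (i.1 : ℕ) * t ^ (i.2 : ℕ)).2 hind) (PInd.span_top (frobenius 𝕂 p) _ hspan)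
  have hB : ∀ i, B i = s ^ (i.1 : ℕ) * t ^ (i.2 : ℕ) := fun i => Basis.mk_apply _ _ _
  obtain ⟨D, hD⟩ : ∃ D : 𝕂 →ₗ[(frobenius 𝕂 p).fieldRange] 𝕂,
      ∀ i, D (B i) = ((w0 * i.1 + w1 * i.2 : ℕ) : 𝕂) * B i :=
    ⟨B.constr ℕ fun i => ((w0 * i.1 + w1 * i.2 : ℕ) : 𝕂) * B i, fun i => B.constr_basis _ _ _⟩
  have hlin : ∀ g x : 𝕂, D (g ^ p * x) = g ^ p * D x := fun g x =>
    D.map_smul (⟨g ^ p, g, rfl⟩ : (frobenius 𝕂 p).fieldRange) x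
  have hmon : ∀ (a b : ℕ) (g : 𝕂),
      D (s ^ a * t ^ b * g ^ p) = ((w0 * a + w1 * b : ℕ) : 𝕂) * (s ^ a * t ^ b * g ^ p) := by
    intro a b g
    have h1 := hD (⟨a % p, Nat.mod_lt _ hp⟩, ⟨b % p, Nat.mod_lt _ hp⟩)
    rw [hB] at h1
    simp only at h1
    have e : s ^ a * t ^ b * g ^ p =
        (s ^ (a / p) * t ^ (b / p) * g) ^ p * (s ^ (a % p) * t ^ (b % p)) := by
      conv_lhs => rw [← Nat.div_add_mod a p, ← Nat.div_add_mod b p]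
      ring
    have e2 : ((w0 * a + w1 * b : ℕ) : 𝕂) = ((w0 * (a % p) + w1 * (b % p) : ℕ) : 𝕂) := by
      push_cast
      rw [CharP.cast_eq_mod 𝕂 p a, CharP.cast_eq_mod 𝕂 p b]
    rw [e, hlin, h1, e2]
    ring
  have hk : ∀ (c : k) (x : 𝕂), D (c • x) = c • D x := by
    intro c x
    obtain ⟨c', rfl⟩ := IsAlgClosed.exists_pow_nat_eq c hp
    rw [Algebra.smul_def, Algebra.smul_def, map_pow, hlin]
  refine ⟨Derivation.mk' { toFun := D, map_add' := D.map_add, map_smul' := hk } fun x y => ?_, hmon⟩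
  obtain ⟨f, rfl⟩ := hspan x
  obtain ⟨g, rfl⟩ := hspan y
  change D _ = _ * D _ + _ * D _
  rw [Finset.sum_mul_sum, map_sum, map_sum, map_sum, Finset.sum_mul_sum, mul_comm,
    Finset.sum_mul_sum, ← Finset.sum_add_distrib]
  refine Finset.sum_congr rfl fun i _ => ?_
  rw [map_sum, ← Finset.sum_add_distrib]
  refine Finset.sum_congr rfl fun j _ => ?_
  have e : s ^ (i.1 : ℕ) * t ^ (i.2 : ℕ) * f i ^ p * (s ^ (j.1 : ℕ) * t ^ (j.2 : ℕ) * g j ^ p) =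
      s ^ (i.1 + j.1 : ℕ) * t ^ (i.2 + j.2 : ℕ) * (f i * g j) ^ p := by ring
  rw [e, hmon, hmon, hmon]
  push_cast
  ring

/-- Partial derivatives with respect to a `p`-basis. -/
theorem exists_partial (σ : Fin 2 → 𝕂)
    (hspan : ∀ w : 𝕂, ∃ f : Fin p × Fin p → 𝕂, w = ∑ i, σ 0 ^ (i.1 : ℕ) * σ 1 ^ (i.2 : ℕ) * f i ^ p)
    (hind : ∀ f : Fin p × Fin p → 𝕂,
      ∑ i, σ 0 ^ (i.1 : ℕ) * σ 1 ^ (i.2 : ℕ) * f i ^ p = 0 → f = 0) :
    ∃ d : Fin 2 → Derivation k 𝕂 𝕂, (∀ i j, d i (σ j) = if i = j then 1 else 0) ∧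
      ∀ x : 𝕂, (∀ i, d i x = 0) → ∃ y : 𝕂, y ^ p = x := by
  classical
  have hp : 1 < p := (Fact.out : p.Prime).one_lt
  have hp0 : p ≠ 0 := by omega
  obtain ⟨θ0, h0⟩ := LogDer.exists_euler (k := k) p (σ 0) (σ 1) hspan hind 1 0
  obtain ⟨θ1, h1⟩ := LogDer.exists_euler (k := k) p (σ 0) (σ 1) hspan hind 0 1
  have hne : ∀ i : Fin p × Fin p, σ 0 ^ (i.1 : ℕ) * σ 1 ^ (i.2 : ℕ) ≠ 0 := by
    intro i hi
    have := hind (Pi.single i 1) (Finset.sum_eq_zero fun j _ => by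
      by_cases e : j = i
      · rw [e, hi, zero_mul]
      · rw [Pi.single_eq_of_ne e, zero_pow hp0, mul_zero])
    simpa using congrFun this i
  have hs : σ 0 ≠ 0 := by simpa using hne (⟨1, hp⟩, ⟨0, by omega⟩)
  have ht : σ 1 ≠ 0 := by simpa using hne (⟨0, by omega⟩, ⟨1, hp⟩)
  have a00 : θ0 (σ 0) = σ 0 := by simpa using h0 1 0 1
  have a01 : θ0 (σ 1) = 0 := by simpa using h0 0 1 1
  have a10 : θ1 (σ 0) = 0 := by simpa using h1 1 0 1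
  have a11 : θ1 (σ 1) = σ 1 := by simpa using h1 0 1 1
  refine ⟨![(σ 0)⁻¹ • θ0, (σ 1)⁻¹ • θ1], ?_, fun x hx => ?_⟩
  · simp [Fin.forall_fin_two, a00, a01, a10, a11, hs, ht]
  have x0 : θ0 x = 0 := by simpa [hs] using hx 0
  have x1 : θ1 x = 0 := by simpa [ht] using hx 1
  obtain ⟨f, rfl⟩ := hspan x
  -- comparing coefficients
  have key : ∀ (θ : Derivation k 𝕂 𝕂) (w : Fin p × Fin p → Fin p),
      (∀ (i : Fin p × Fin p) (g : 𝕂), θ (σ 0 ^ (i.1 : ℕ) * σ 1 ^ (i.2 : ℕ) * g ^ p) =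
        ((w i : ℕ) : 𝕂) * (σ 0 ^ (i.1 : ℕ) * σ 1 ^ (i.2 : ℕ) * g ^ p)) →
      θ (∑ i, σ 0 ^ (i.1 : ℕ) * σ 1 ^ (i.2 : ℕ) * f i ^ p) = 0 →
      ∀ i, (w i : ℕ) ≠ 0 → f i = 0 := by
    intro θ w hw hθ i hi
    have h2 := hind (fun i => ((w i : ℕ) : 𝕂) * f i) (by
      rw [← hθ, map_sum]
      refine Finset.sum_congr rfl fun j _ => ?_
      have : (((w j : ℕ) : 𝕂)) ^ p = ((w j : ℕ) : 𝕂) := map_natCast (frobenius 𝕂 p) _
      rw [hw, mul_pow, this]; ring)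
    have h3 : ((w i : ℕ) : 𝕂) ≠ 0 := fun e =>
      hi (Nat.eq_zero_of_dvd_of_lt ((CharP.cast_eq_zero_iff 𝕂 p _).1 e) (w i).2)
    exact (mul_eq_zero.1 (congrFun h2 i)).resolve_left h3
  have k0 := key θ0 (fun i => i.1) (fun i g => by simpa using h0 i.1 i.2 g) x0
  have k1 := key θ1 (fun i => i.2) (fun i g => by simpa using h1 i.1 i.2 g) x1
  refine ⟨f (⟨0, by omega⟩, ⟨0, by omega⟩), ?_⟩
  rw [Finset.sum_eq_single (⟨0, by omega⟩, ⟨0, by omega⟩)]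
  · simp
  · intro i _ hi
    have : f i = 0 := by
      by_contra hf
      apply hi
      refine Prod.ext (Fin.ext ?_) (Fin.ext ?_)
      · by_contra e; exact hf (k0 i e)
      · by_contra e; exact hf (k1 i e)
    rw [this, zero_pow hp0, mul_zero]
  · simp

omit [IsAlgClosed k] in
/-- Elements whose logarithmic derivative lies in `W`. -/
def LogDer.logSub (θ : Derivation k 𝕂 𝕂) (W : Submodule k 𝕂) : Submonoid 𝕂 where
  carrier := {x | ∃ ρ ∈ W, θ x = x * ρ}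
  one_mem' := ⟨0, zero_mem _, by simp⟩
  mul_mem' := by
    rintro a b ⟨ρ, hρ, ha⟩ ⟨ρ', hρ', hb⟩
    refine ⟨ρ + ρ', add_mem hρ hρ', ?_⟩
    rw [θ.leibniz, ha, hb, smul_eq_mul, smul_eq_mul]; ring

omit [IsAlgClosed k] in
theorem LogDer.inv_mem {θ : Derivation k 𝕂 𝕂} {W : Submodule k 𝕂} {x : 𝕂}
    (h : x ∈ LogDer.logSub θ W) : x⁻¹ ∈ LogDer.logSub θ W := by
  obtain ⟨ρ, hρ, hx⟩ := h
  refine ⟨-ρ, neg_mem hρ, ?_⟩
  rw [θ.leibniz_inv, hx, smul_eq_mul]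
  by_cases h0 : x = 0
  · simp [h0]
  · field_simp

omit [IsAlgClosed k] in
theorem LogDer.zpow_mem {θ : Derivation k 𝕂 𝕂} {W : Submodule k 𝕂} {x : 𝕂}
    (h : x ∈ LogDer.logSub θ W) (l : ℤ) : x ^ l ∈ LogDer.logSub θ W := by
  cases l with
  | ofNat l => simpa using pow_mem h l
  | negSucc l => rw [zpow_negSucc]; exact LogDer.inv_mem (pow_mem h _)

omit [IsAlgClosed k] in
theorem LogDer.smul_mem {θ : Derivation k 𝕂 𝕂} {W : Submodule k 𝕂} {x : 𝕂} (c : k)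
    (h : x ∈ LogDer.logSub θ W) : c • x ∈ LogDer.logSub θ W := by
  obtain ⟨ρ, hρ, hx⟩ := h
  exact ⟨ρ, hρ, by rw [θ.map_smul, hx, smul_mul_assoc]⟩

theorem exists_derivs (S : Surf k 𝕂) {n C : ℕ} {u u' : 𝕂} (L : LogChart k S.Γ n C u u')
    (hu : u ∈ S.Γ) (hu' : u' ∈ S.Γ) (h0 : u ≠ 0) (h0' : u' ≠ 0) (hn : ¬ p ∣ n) :
    Nonempty (Derivs k S.Γ p C) := by
  have key : ∀ q, p ^ 1 = q → (∀ w : 𝕂, ∃ f : Fin q × Fin q → 𝕂,
      w = ∑ i, L.σ 0 ^ (i.1 : ℕ) * L.σ 1 ^ (i.2 : ℕ) * f i ^ q) ∧ ∀ f : Fin q × Fin q → 𝕂,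
      ∑ i, L.σ 0 ^ (i.1 : ℕ) * L.σ 1 ^ (i.2 : ℕ) * f i ^ q = 0 → f = 0 := by
    rintro _ rfl
    exact ⟨L.span_top p S hu hu' h0 h0' hn 1, S.pind p 1 _ (L.span_top p S hu hu' h0 h0' hn 1)⟩
  obtain ⟨d, hd, hker⟩ := exists_partial (k := k) p L.σ (key p (pow_one p)).1 (key p (pow_one p)).2
  obtain ⟨θ, hθ⟩ : ∃ θ : Fin 2 → Derivation k 𝕂 𝕂, θ = fun i => (L.h * L.σ i) • d i := ⟨_, rfl⟩
  have hθx : ∀ i x, θ i x = L.h * L.σ i * d i x := fun i x => by rw [hθ]; rfl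
  have hn0 : (n : 𝕂) ≠ 0 := fun e => hn ((CharP.cast_eq_zero_iff 𝕂 p _).1 e)
  have hσ' : ∀ i j, θ i (L.σ j) = L.σ j * if i = j then L.h else 0 := by
    intro i j
    rw [hθx, hd]
    split_ifs with e
    · rw [e]; ring
    · ring
  have hσ : ∀ i j, L.σ j ∈ LogDer.logSub (θ i) (Rg k S.Γ C) := fun i j =>
    ⟨_, by split_ifs; exacts [L.h_mem, zero_mem _], hσ' i j⟩
  have hpow : ∀ i x, θ i (x ^ n) * x = n * x ^ n * θ i x := by
    intro i x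
    obtain ⟨n', rfl⟩ : ∃ n', n = n' + 1 := ⟨n - 1, by
      have : n ≠ 0 := fun e => hn (e ▸ dvd_zero p)
      omega⟩
    rw [(θ i).leibniz_pow, Nat.add_sub_cancel, nsmul_eq_mul, smul_eq_mul]; ring
  have hσn : ∀ i j, θ i (L.σ j ^ n) = n * L.σ j ^ n * if i = j then L.h else 0 := by
    intro i j
    have := hpow i (L.σ j)
    rw [hσ'] at this
    apply mul_right_cancel₀ (L.σ_ne j)
    rw [this]; ring
  have hv : ∀ i j, L.v j ∈ LogDer.logSub (θ i) (Rg k S.Γ C) := by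
    intro i j
    refine ⟨L.co j i.succ • (L.h * L.σ i ^ n / L.v j ^ n), Submodule.smul_mem _ _ (L.hσ_mem i j), ?_⟩
    have h1 := hpow i (L.v j)
    have h2 : θ i (L.v j ^ n) = n * L.co j i.succ • (L.h * L.σ i ^ n) := by
      rw [L.rel, map_add, map_add, (θ i).map_algebraMap, (θ i).map_smul, (θ i).map_smul, hσn, hσn]
      fin_cases i
      · simp [Algebra.smul_def]; ring
      · simp [Algebra.smul_def]; ring
    rw [h2] at h1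
    have h3 := pow_ne_zero n (L.v_ne j)
    apply mul_left_cancel₀ (mul_ne_zero hn0 h3)
    rw [← h1, ← smul_div_assoc]
    field_simp
  have hγ : ∀ i, ∀ γ ∈ S.Γ, γ ∈ LogDer.logSub (θ i) (Rg k S.Γ C) := by
    intro i
    have hm : ∀ γ ∈ S.Γ, γ / u ∈ LogDer.logSub (θ i) (Rg k S.Γ C) := by
      intro γ hγ
      obtain ⟨c, a, l, rfl⟩ := L.mono γ hγ
      rw [mul_div_cancel_left₀ _ h0]
      exact LogDer.smul_mem c (mul_mem (prod_mem fun j _ => pow_mem (hσ i j) _)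
        (prod_mem fun j _ => LogDer.zpow_mem (hv i j) _))
    intro γ hγ
    have := mul_mem (hm γ hγ) (LogDer.inv_mem (hm 1 S.one_mem))
    rwa [one_div, inv_inv, div_mul_cancel₀ _ h0] at this
  refine ⟨⟨θ, fun i j r hr => ?_, fun x hx => hker x fun i => ?_⟩⟩
  · rcases lt_or_ge j 0 with hj | hj
    · rw [Rg_neg hj, Submodule.mem_bot] at hr
      rw [hr, map_zero]; exact zero_mem _
    obtain ⟨j, rfl⟩ := Int.eq_ofNat_of_zero_le hj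
    refine (Rg_induction (Γ := S.Γ)
      (P := fun j w => w ∈ Rg k S.Γ j ∧ θ i w ∈ Rg k S.Γ ((j : ℤ) + C))
      ⟨one_mem_Rg_zero, by simp⟩ (fun j => ⟨zero_mem _, by simp⟩)
      (fun j a b ha hb => ⟨add_mem ha.1 hb.1, by rw [map_add]; exact add_mem ha.2 hb.2⟩)
      (fun j c a ha => ⟨Submodule.smul_mem _ c ha.1, by
        rw [(θ i).map_smul]; exact Submodule.smul_mem _ c ha.2⟩)
      (fun j a γ hγ' ha => ?_) j r hr).2
    obtain ⟨ρ, hρ, e⟩ := hγ i γ hγ'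
    have h1 : γ * a ∈ Rg k S.Γ ((j + 1 : ℕ) : ℤ) := by
      have := mul_mem_Rg (mem_Rg_one (k := k) hγ') ha.1
      rwa [add_comm] at this
    refine ⟨h1, ?_⟩
    rw [(θ i).leibniz, e, smul_eq_mul, smul_eq_mul]
    refine add_mem ?_ ?_
    · have := mul_mem_Rg (mem_Rg_one (k := k) hγ') ha.2
      have e2 : (1 : ℤ) + (j + C) = ((j + 1 : ℕ) : ℤ) + C := by push_cast; ring
      rwa [e2] at this
    · rw [← mul_assoc, mul_comm a]
      exact mul_mem_Rg h1 hρ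
  · have := hx i
    rw [hθx] at this
    exact (mul_eq_zero.1 this).resolve_left (mul_ne_zero L.h_ne (L.σ_ne i))

end Crest.Agent.R169
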