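import Crest.Agent.R169.FrobScale

/-! # task R169/Langer -/

set_option autoImplicit false
open Filter Module IntermediateField

namespace Crest.Agent.R169

/-- The maximum principle behind Langer's estimate. -/
theorem langer_max {X : Type} (dim : X → ℕ) (f : X → ℝ) (r : ℕ) (c : ℝ) (hc : 0 < c) (C : ℕ)
    (hdim : ∀ F, dim F ≤ r) (hb : BddAbove (Set.range f))
    (h : ∀ F, f F ≤ 0 ∨ ∃ (F₁ F₂ : X) (j : ℕ), 0 < j ∧ dim F₁ + j = dim F ∧ dim F₂ = dim F + j ∧
      2 * f F ≤ f F₁ + f F₂ + C * c * j) (F : X) : f F ≤ c * ((C + 1) * (r : ℝ) ^ 2 + 1) := by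
  let g : X → ℝ := fun F => f F + (C + 1) * c * (dim F : ℝ) ^ 2 / 2
  have hC : (0 : ℝ) ≤ C := Nat.cast_nonneg C
  have hCc : (0 : ℝ) ≤ (C + 1) * c := by positivity
  have hg : ∀ F, g F ≤ f F + (C + 1) * c * (r : ℝ) ^ 2 / 2 := fun F => by
    have h1 : (dim F : ℝ) ^ 2 ≤ (r : ℝ) ^ 2 := by
      have : (dim F : ℝ) ≤ r := by exact_mod_cast hdim F
      gcongr
    have := mul_le_mul_of_nonneg_left h1 hCc
    simp only [g]
    linarith
  have hbg : BddAbove (Set.range g) := by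
    obtain ⟨M, hM⟩ := hb
    refine ⟨M + (C + 1) * c * (r : ℝ) ^ 2 / 2, ?_⟩
    rintro _ ⟨G, rfl⟩
    have := hM ⟨G, rfl⟩
    linarith [hg G]
  have hle : ∀ G, g G ≤ ⨆ G, g G := fun G => le_ciSup hbg G
  have : Nonempty X := ⟨F⟩
  obtain ⟨G, hG⟩ := exists_lt_of_lt_ciSup (f := g) (b := (⨆ G, g G) - c / 2) (by linarith)
  have hG0 : f G ≤ 0 := by
    refine (h G).resolve_right ?_
    rintro ⟨F₁, F₂, j, hj, e1, e2, h3⟩
    have d1 : (dim F₁ : ℝ) = dim G - j := by rw [← e1]; push_cast; ring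
    have d2 : (dim F₂ : ℝ) = dim G + j := by rw [e2]; push_cast; ring
    have hj' : (1 : ℝ) ≤ j := by exact_mod_cast hj
    have a1 := hle F₁
    have a2 := hle F₂
    simp only [g, d1, d2] at a1 a2 hG
    have a3 : 0 ≤ C * c * (j * (j - 1)) := by
      have : (0 : ℝ) ≤ j - 1 := by linarith
      positivity
    have a4 : c ≤ c * (j : ℝ) ^ 2 := le_mul_of_one_le_right hc.le (one_le_pow₀ hj')
    nlinarith
  have h1 := hg G
  have h2 := hle F
  have h3 : 0 ≤ (C + 1) * c * (dim F : ℝ) ^ 2 / 2 := by positivity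
  have h4 : 0 ≤ (C + 1) * c * (r : ℝ) ^ 2 / 2 := by positivity
  have h5 : f F ≤ g F := by simp only [g]; linarith
  nlinarith

theorem langer_finrank_map_mkQ {K E : Type} [Field K] [AddCommGroup E] [Module K E]
    {B₁ B : Submodule K E} [FiniteDimensional K B] (h : B₁ ≤ B) :
    finrank K (B.map B₁.mkQ) + finrank K B₁ = finrank K B := by
  have e := LinearMap.finrank_range_add_finrank_ker (B₁.mkQ.domRestrict B)
  rw [LinearMap.range_domRestrict, LinearMap.ker_domRestrict, Submodule.ker_mkQ,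
    (Submodule.comapSubtypeEquivOfLe h).finrank_eq] at e
  exact e

/-- An injection `A / A₁ → B / B₁`. -/
theorem langer_finrank_le {K E : Type} [Field K] [AddCommGroup E] [Module K E] (T : E →ₗ[K] E)
    {A₁ A B₁ B : Submodule K E} [FiniteDimensional K A] [FiniteDimensional K B]
    [FiniteDimensional K A₁] (hB : B₁ ≤ B)
    (hT : ∀ v ∈ A, T v ∈ B) (hk : ∀ v ∈ A, T v ∈ B₁ → v ∈ A₁) :
    finrank K A + finrank K B₁ ≤ finrank K A₁ + finrank K B := by
  have e := LinearMap.finrank_range_add_finrank_ker ((B₁.mkQ ∘ₗ T).domRestrict A)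
  have e1 : finrank K (LinearMap.range ((B₁.mkQ ∘ₗ T).domRestrict A)) ≤
      finrank K (B.map B₁.mkQ) := by
    refine Submodule.finrank_mono ?_
    rintro _ ⟨v, rfl⟩
    exact ⟨T v, hT v v.2, rfl⟩
  have e2 : finrank K (LinearMap.ker ((B₁.mkQ ∘ₗ T).domRestrict A)) ≤ finrank K A₁ := by
    rw [← Submodule.finrank_map_subtype_eq]
    refine Submodule.finrank_mono ?_
    rintro _ ⟨v, hv, rfl⟩
    exact hk v v.2 ((Submodule.Quotient.mk_eq_zero B₁).1 hv)
  have e3 := langer_finrank_map_mkQ hB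
  omega

variable {k 𝕂 : Type} [Field k] [Field 𝕂] [Algebra k 𝕂] {S : Surf k 𝕂}
  {p : ℕ} [Fact p.Prime] [CharP 𝕂 p] {ι : Type} [Fintype ι]

/-- Cartier descent of subspaces. -/
theorem exists_frS_of_stable {C : ℕ} (θ : Derivs k S.Γ p C) (F : Submodule 𝕂 (ι → 𝕂))
    (h : ∀ i, ∀ v ∈ F, (fun a => θ.θ i (v a)) ∈ F) : ∃ F₀, F = frS p 1 F₀ := by
  classical
  let F₀ : Submodule 𝕂 (ι → 𝕂) :=
    { carrier := {u | frv 𝕂 p ι 1 u ∈ F}
      add_mem' := fun {a b} ha hb => by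
        change frv 𝕂 p ι 1 (a + b) ∈ F
        rw [map_add]; exact F.add_mem ha hb
      zero_mem' := by
        change frv 𝕂 p ι 1 0 ∈ F
        rw [map_zero]; exact F.zero_mem
      smul_mem' := fun c a ha => by
        change frv 𝕂 p ι 1 (c • a) ∈ F
        have : frv 𝕂 p ι 1 (c • a) = c ^ p ^ 1 • frv 𝕂 p ι 1 a := by
          ext i; simp [mul_pow]
        rw [this]; exact F.smul_mem _ ha }
  refine ⟨F₀, le_antisymm ?_ (Submodule.span_le.2 ?_)⟩
  swap
  · rintro _ ⟨u, hu, rfl⟩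
    exact hu
  have key : ∀ n : ℕ, ∀ v ∈ F, (Finset.univ.filter fun a => v a ≠ 0).card = n →
      v ∈ frS p 1 F₀ := by
    intro n
    induction n using Nat.strong_induction_on with
    | _ n ih =>
    intro v hv hn
    have small : ∀ a, v a ≠ 0 → ∀ w : ι → 𝕂, (∀ b, v b = 0 → w b = 0) → w a = 0 →
        (Finset.univ.filter fun a => w a ≠ 0).card < n := by
      intro a ha w h1 h2
      rw [← hn]
      refine Finset.card_lt_card ⟨fun b hb => ?_, fun hs => ?_⟩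
      · simp only [Finset.mem_filter, Finset.mem_univ, true_and] at hb ⊢
        exact fun e => hb (h1 b e)
      · have := hs (Finset.mem_filter.2 ⟨Finset.mem_univ a, ha⟩)
        exact (Finset.mem_filter.1 this).2 h2
    by_cases hex : ∃ w ∈ F, w ≠ 0 ∧ (∀ b, v b = 0 → w b = 0) ∧ ∃ a, v a ≠ 0 ∧ w a = 0
    · obtain ⟨w, hw, hw0, h1, a, ha, h2⟩ := hex
      have hwG := ih _ (small a ha w h1 h2) w hw rfl
      obtain ⟨b, hb⟩ := Function.ne_iff.1 hw0
      have hb' : w b ≠ 0 := hb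
      have hG := ih _ (small b (fun e => hb' (h1 b e)) (v - (v b / w b) • w)
        (fun c hc => by simp [hc, h1 c hc]) (by simp [hb'])) _
        (F.sub_mem hv (F.smul_mem _ hw)) rfl
      have := Submodule.add_mem _ hG (Submodule.smul_mem _ (v b / w b) hwG)
      rwa [sub_add_cancel] at this
    · by_cases hv0 : v = 0
      · rw [hv0]; exact Submodule.zero_mem _
      obtain ⟨a, ha⟩ := Function.ne_iff.1 hv0
      have ha' : v a ≠ 0 := ha
      have hu : (v a)⁻¹ • v ∈ F := F.smul_mem _ hv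
      have h0 : ∀ b, ∃ y : 𝕂, y ^ p = ((v a)⁻¹ • v) b := by
        intro b
        refine θ.ker _ fun i => ?_
        by_contra hne
        refine hex ⟨_, h i _ hu, fun e => hne (congrFun e b), fun c hc => by simp [hc],
          a, ha', ?_⟩
        simp [ha']
      choose y hy using h0
      have e : frv 𝕂 p ι 1 y = (v a)⁻¹ • v := by
        ext b; rw [frv_apply, pow_one, hy]
      have : v = v a • frv 𝕂 p ι 1 y := by rw [e, smul_smul, mul_inv_cancel₀ ha', one_smul]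
      rw [this]
      exact Submodule.smul_mem _ _ (Submodule.subset_span ⟨y, show frv 𝕂 p ι 1 y ∈ F from
        e ▸ hu, rfl⟩)
  exact fun v hv => key _ v hv rfl

/-- The second fundamental form of a subspace with respect to the canonical connection. -/
theorem exists_second_form {C : ℕ} (θ : Derivation k 𝕂 𝕂)
    (hθ : ∀ (j : ℤ) (r : 𝕂), r ∈ S.R j → θ r ∈ S.R (j + C)) {V : Fam k (ι → 𝕂)} (hV : S.Lat V)
    (hF : Full 𝕂 V) (F : Submodule 𝕂 (ι → 𝕂)) (h : ∃ v ∈ F, (fun a => θ (v a)) ∉ F) :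
    ∃ (F₁ F₂ : Submodule 𝕂 (ι → 𝕂)) (j : ℕ), 0 < j ∧ finrank 𝕂 F₁ + j = finrank 𝕂 F ∧
      finrank 𝕂 F₂ = finrank 𝕂 F + j ∧ 2 * S.DD (cut (S.fr p 1 V) F) ≤
        S.DD (cut (S.fr p 1 V) F₁) + S.DD (cut (S.fr p 1 V) F₂) + C * S.e * j := by
  let T : (ι → 𝕂) →ₗ[k] (ι → 𝕂) := (θ : 𝕂 →ₗ[k] 𝕂).compLeft ι
  have hT : ∀ v a, T v a = θ (v a) := fun _ _ => rfl
  have hTs : ∀ (c : 𝕂) v, T (c • v) = c • T v + θ c • v := fun c v => by
    ext a
    simp [hT, mul_comm]
  let Tb : F →ₗ[𝕂] (ι → 𝕂) ⧸ F :=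
    { toFun := fun v => F.mkQ (T v)
      map_add' := fun v w => by simp
      map_smul' := fun c v => by
        rw [Submodule.coe_smul, hTs, map_add, map_smul, map_smul]
        have : F.mkQ (v : ι → 𝕂) = 0 := (Submodule.Quotient.mk_eq_zero F).2 v.2
        simp [this] }
  have hTb : ∀ v : F, Tb v = F.mkQ (T v) := fun _ => rfl
  set W := S.fr p 1 V with hW
  have hWl : S.Lat W := hV.fr 1
  have hWF : Full 𝕂 W := PreSurf.full_fr hF 1
  have hTW : ∀ m, ∀ w ∈ W m, T w ∈ W (m + C) := by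
    intro m w hw
    refine (Submodule.span_le (p := (W (m + C)).comap T)).2 ?_ hw
    rintro _ ⟨l, v, r, hv, hr, rfl⟩
    have e : T (r • frv 𝕂 p ι 1 v) = θ r • frv 𝕂 p ι 1 v := by
      rw [hTs]
      have : T (frv 𝕂 p ι 1 v) = 0 := by
        ext a
        rw [hT, frv_apply, pow_one, Derivation.leibniz_pow]
        simp
      rw [this, smul_zero, zero_add]
    change T _ ∈ W (m + C)
    rw [e]
    refine Submodule.subset_span ⟨l, v, θ r, hv, ?_, rfl⟩
    convert hθ _ r hr using 2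
    ring
  let F₁ : Submodule 𝕂 (ι → 𝕂) := (LinearMap.ker Tb).map F.subtype
  let F₂ : Submodule 𝕂 (ι → 𝕂) := (LinearMap.range Tb).comap F.mkQ
  have hFF₂ : F ≤ F₂ := fun v hv => by
    change F.mkQ v ∈ LinearMap.range Tb
    rw [show F.mkQ v = 0 from (Submodule.Quotient.mk_eq_zero F).2 hv]
    exact Submodule.zero_mem _
  have d1 : finrank 𝕂 F₁ + finrank 𝕂 (LinearMap.range Tb) = finrank 𝕂 F := by
    rw [Submodule.finrank_map_subtype_eq, add_comm]
    exact LinearMap.finrank_range_add_finrank_ker Tb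
  have d2 : finrank 𝕂 F₂ = finrank 𝕂 F + finrank 𝕂 (LinearMap.range Tb) := by
    rw [← langer_finrank_map_mkQ hFF₂, Submodule.map_comap_eq_of_surjective F.mkQ_surjective,
      add_comm]
  refine ⟨F₁, F₂, finrank 𝕂 (LinearMap.range Tb), ?_, d1, d2, ?_⟩
  · obtain ⟨v, hv, hv'⟩ := h
    rw [pos_iff_ne_zero, Ne, Submodule.finrank_eq_zero]
    intro e
    have : Tb ⟨v, hv⟩ ∈ LinearMap.range Tb := ⟨_, rfl⟩
    rw [e, Submodule.mem_bot, hTb] at this
    exact hv' ((Submodule.Quotient.mk_eq_zero F).1 this)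
  have g0 := (hWl.cut F).good
  have g1 := (hWl.cut F₁).good
  have g2 := (hWl.cut F₂).good
  have hle : ∀ m, hf (cut W F) m + hf (cut W F) (m + C) ≤
      hf (cut W F₁) m + hf (cut W F₂) (m + C) := by
    intro m
    have := g0.fd m
    have := g1.fd m
    have := g2.fd (m + C)
    have := langer_finrank_le T (A₁ := cut W F₁ m) (A := cut W F m) (B₁ := cut W F (m + C))
      (B := cut W F₂ (m + C)) (fun v hv => ⟨hv.1, hFF₂ hv.2⟩)
      (fun v hv => ⟨hTW m v hv.1, ⟨⟨v, hv.2⟩, rfl⟩⟩)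
      (fun v hv hv' => ⟨hv.1, ⟨⟨v, hv.2⟩, (Submodule.Quotient.mk_eq_zero F).2 hv'.2, rfl⟩⟩)
    unfold hf
    exact_mod_cast this
  have H := (g0.hasHP.add (g0.hasHP.shift C)).le (g1.hasHP.add (g2.hasHP.shift C))
    (Eventually.of_forall hle)
  have r0 := S.rk_cut hWl hWF F
  have r1 := S.rk_cut hWl hWF F₁
  have r2 := S.rk_cut hWl hWF F₂
  have d1' : (finrank 𝕂 F₁ : ℝ) = finrank 𝕂 F - finrank 𝕂 (LinearMap.range Tb) := by
    rw [← d1]; push_cast; ring
  have d2' : (finrank 𝕂 F₂ : ℝ) = finrank 𝕂 F + finrank 𝕂 (LinearMap.range Tb) := by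
    rw [d2]; push_cast; ring
  have H2 := (H.2 (by rw [r0, r1, r2, d1', d2']; ring)).1
  simp only [PreSurf.DD]
  rw [r0, r2, d2'] at H2
  rw [r0, r1, r2, d1', d2']
  push_cast at H2
  linarith

theorem langer_dwin_mono {E : Type} [AddCommGroup E] [Module k E] [Module 𝕂 E]
    [IsScalarTower k 𝕂 E] {V : Fam k E} (hV : S.Lat V) {α β α' β' : ℝ} (h : S.DWin V α β)
    (hα : α' ≤ α) (hβ : β ≤ β') : S.DWin V α' β' := by
  intro F
  obtain ⟨h1, h2⟩ := h F
  have h3 := rk_nonneg (cut V F)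
  have h4 : rk (cut V F) ≤ rk V := (inv_mono (hV.cut F).good hV.good fun _ => inf_le_left).1
  exact ⟨h1.trans (mul_le_mul_of_nonneg_right hβ h3),
    (mul_le_mul_of_nonneg_right hα (by linarith)).trans h2⟩

variable [IsAlgClosed k]

theorem langer_affine (Pd : PData k S.Γ p) {C : ℕ} (θ : Derivs k S.Γ p C) {V : Fam k (ι → 𝕂)}
    (hV : S.Lat V) (hF : Full 𝕂 V) {γ δ : ℝ}
    (h : ∀ F₀ : Submodule 𝕂 (ι → 𝕂), p * S.DD (cut V F₀) - γ * rk (cut V F₀) + δ ≤ 0)
    (F : Submodule 𝕂 (ι → 𝕂)) :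
    S.DD (cut (S.fr p 1 V) F) - γ * rk (cut (S.fr p 1 V) F) + δ ≤
      S.e * ((C + 1) * (Fintype.card ι : ℝ) ^ 2 + 1) := by
  have hWl : S.Lat (S.fr p 1 V) := hV.fr 1
  have hWF : Full 𝕂 (S.fr p 1 V) := PreSurf.full_fr hF 1
  have hdim : ∀ F : Submodule 𝕂 (ι → 𝕂), finrank 𝕂 F ≤ Fintype.card ι := fun F =>
    (Submodule.finrank_le F).trans (Module.finrank_fintype_fun_eq_card 𝕂).le
  refine langer_max (fun F : Submodule 𝕂 (ι → 𝕂) => finrank 𝕂 F)
    (fun F => S.DD (cut (S.fr p 1 V) F) - γ * rk (cut (S.fr p 1 V) F) + δ) (Fintype.card ι) S.e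
    S.e_pos C hdim ?_ (fun G => ?_) F
  · obtain ⟨M, hM⟩ := hWl.exists_slope_bound
    refine ⟨|M - γ| * rk (S.fr p 1 V) + δ, ?_⟩
    rintro _ ⟨G, rfl⟩
    have h1 := hM (cut (S.fr p 1 V) G) (hWl.cut G).stab fun _ => inf_le_left
    have h3 := rk_nonneg (cut (S.fr p 1 V) G)
    have h4 : rk (cut (S.fr p 1 V) G) ≤ rk (S.fr p 1 V) :=
      (inv_mono (hWl.cut G).good hWl.good fun _ => inf_le_left).1
    have h5 := mul_le_mul (le_abs_self (M - γ)) h4 h3 (abs_nonneg _)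
    dsimp only
    linarith
  · by_cases hs : ∀ i, ∀ v ∈ G, (fun a => θ.θ i (v a)) ∈ G
    · left
      obtain ⟨F₀, rfl⟩ := exists_frS_of_stable θ G hs
      obtain ⟨e1, e2, -⟩ := inv_congr' (PreSurf.fr_cut Pd hV 1 F₀)
      obtain ⟨e3, e4⟩ := (hV.cut F₀).inv_fr Pd 1
      have e5 : S.DD (cut (S.fr p 1 V) (frS p 1 F₀)) = p * S.DD (cut V F₀) := by
        rw [pow_one] at e4
        rw [← e4]
        simp only [PreSurf.DD, e1, e2]
      rw [e5, ← e1, e3]
      exact h F₀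
    · right
      push Not at hs
      obtain ⟨i, hi⟩ := hs
      obtain ⟨F₁, F₂, j, hj, d1, d2, h3⟩ := exists_second_form (p := p) (θ.θ i) (θ.mem i) hV hF G hi
      refine ⟨F₁, F₂, j, hj, d1, d2, ?_⟩
      have d1' : (finrank 𝕂 F₁ : ℝ) = finrank 𝕂 G - j := by rw [← d1]; push_cast; ring
      have d2' : (finrank 𝕂 F₂ : ℝ) = finrank 𝕂 G + j := by rw [d2]; push_cast; ring
      rw [S.rk_cut hWl hWF, S.rk_cut hWl hWF, S.rk_cut hWl hWF, d1', d2']
      linarith

theorem dwin_fr_one (Pd : PData k S.Γ p) {C : ℕ} (θ : Derivs k S.Γ p C) {V : Fam k (ι → 𝕂)}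
    (hV : S.Lat V) (hF : Full 𝕂 V) {α β : ℝ} (h : S.DWin V α β) :
    S.DWin (S.fr p 1 V) (p * α - ((C + 1) * (Fintype.card ι : ℝ) ^ 2 + 1))
      (p * β + ((C + 1) * (Fintype.card ι : ℝ) ^ 2 + 1)) := by
  have hWl : S.Lat (S.fr p 1 V) := hV.fr 1
  have hWF : Full 𝕂 (S.fr p 1 V) := PreSurf.full_fr hF 1
  have hp : (0 : ℝ) ≤ p := Nat.cast_nonneg p
  have he := S.e_pos.le
  have hC : (0 : ℝ) ≤ (C + 1) * (Fintype.card ι : ℝ) ^ 2 + 1 := by positivity
  intro F
  constructor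
  · by_cases h0 : F = ⊥
    · simp only [h0, cut_bot, PreSurf.DD, inv_bot.1, inv_bot.2.1]
      simp
    have h1 := langer_affine Pd θ hV hF (γ := p * β) (δ := 0) (fun F₀ => by
      have := mul_le_mul_of_nonneg_left (h F₀).1 hp
      linarith) F
    have h2 : S.e ≤ rk (cut (S.fr p 1 V) F) := by
      rw [S.rk_cut hWl hWF]
      refine le_mul_of_one_le_right he ?_
      exact_mod_cast Nat.one_le_iff_ne_zero.2 fun e => h0 (Submodule.finrank_eq_zero.1 e)
    have h3 := mul_le_mul_of_nonneg_right h2 hC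
    linarith
  · by_cases h0 : F = ⊤
    · simp [h0, cut_top]
    obtain ⟨e3, e4⟩ := hV.inv_fr Pd 1
    rw [pow_one] at e4
    have h1 := langer_affine Pd θ hV hF (γ := p * α) (δ := p * α * rk V - p * S.DD V) (fun F₀ => by
      have := mul_le_mul_of_nonneg_left (h F₀).2 hp
      linarith) F
    have h2 : S.e ≤ rk (S.fr p 1 V) - rk (cut (S.fr p 1 V) F) := by
      rw [S.rk_cut hWl hWF, S.rk_full hWl hWF, ← mul_sub]
      refine le_mul_of_one_le_right he ?_
      have := Submodule.finrank_lt h0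
      rw [Module.finrank_fintype_fun_eq_card] at this
      have : (finrank 𝕂 F : ℝ) + 1 ≤ Fintype.card ι := by exact_mod_cast this
      linarith
    have h3 := mul_le_mul_of_nonneg_right h2 hC
    rw [e3] at h3
    rw [e3, e4]
    linarith

theorem awin_of_dwin (Pd : PData k S.Γ p) {C : ℕ} (θ : Derivs k S.Γ p C) {V : Fam k (ι → 𝕂)}
    (hV : S.Lat V) (hF : Full 𝕂 V) (hp : (C + 1) * Fintype.card ι ^ 2 + 2 ≤ p) {α β : ℝ}
    (h : S.DWin V α β) : S.AWin p V (α - 1) (β + 1) := by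
  have hp' : ((C : ℝ) + 1) * (Fintype.card ι : ℝ) ^ 2 + 2 ≤ p := by exact_mod_cast hp
  have key : ∀ m : ℕ, S.DWin (S.fr p m V) ((p : ℝ) ^ m * (α - 1) + 1)
      ((p : ℝ) ^ m * (β + 1) - 1) := by
    intro m
    induction m with
    | zero =>
      rw [PreSurf.fr_zero hV.stab]
      simpa using h
    | succ m ih =>
      have := dwin_fr_one Pd θ (hV.fr m) (PreSurf.full_fr hF m) ih
      rw [PreSurf.fr_fr, add_comm 1 m] at this
      refine langer_dwin_mono (hV.fr _) this ?_ ?_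
      · rw [pow_succ (p : ℝ) m]; linarith
      · rw [pow_succ (p : ℝ) m]; linarith
  intro m
  exact langer_dwin_mono (hV.fr m) (key m) (by linarith) (by linarith)

end Crest.Agent.R169
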