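import Crest.Agent.R169.FrobScale
import Crest.Agent.R169.RDual

/-! # task R169/PhiDual -/

set_option autoImplicit false
open Filter Module IntermediateField

namespace Crest.Agent.R169

variable {k 𝕂 : Type} [Field k] [Field 𝕂] [Algebra k 𝕂] [IsAlgClosed k] {S : Surf k 𝕂}
  {p : ℕ} [Fact p.Prime] [CharP 𝕂 p] {ι : Type} [Fintype ι]

theorem PhiDual_base (D : Dua S.toPreSurf) (Pd : PData k S.Γ p) {c : 𝕂} (hc : c ≠ 0) (l : ℤ)
    (m : ℕ) : S.Phi p m (D.rdual (piF ι (cyc S.R c l))) = 0 := by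
  have hU : S.Lat (piF ι (cyc S.R c l)) := (PreSurf.lat_cyc c l).piF ι
  have hF : Full 𝕂 (piF ι (cyc S.R c l)) := S.full_piF hc l
  have hU' : S.Lat (piF ι (cyc S.R c⁻¹ (-l - D.a))) := (PreSurf.lat_cyc _ _).piF ι
  have hle : piF ι (cyc S.R c⁻¹ (-l - D.a)) ≤ D.rdual (piF ι (cyc S.R c l)) := by
    rw [D.rdual_piF_cyc hc]
    intro j v hv
    rw [mem_piF] at hv ⊢
    intro i
    obtain ⟨r, hr, hr'⟩ := mem_cyc.1 (hv i)
    refine mem_cyc.2 ⟨r, D.cyc_le_om _ (mem_cyc.2 ⟨r, ?_, by simp⟩), hr'⟩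
    convert hr using 2
    ring
  obtain ⟨a1, a2, -⟩ := D.inv_rdual hU hF
  obtain ⟨b1, b2, -⟩ := inv_piF ι (PreSurf.lat_cyc (S := S.toPreSurf) c l).good
  obtain ⟨c1, c2, -⟩ := inv_piF ι (PreSurf.lat_cyc (S := S.toPreSurf) c⁻¹ (-l - D.a)).good
  obtain ⟨d1, d2, -⟩ := S.inv_cyc hc l
  obtain ⟨e1, e2, -⟩ := S.inv_cyc (inv_ne_zero hc) (-l - D.a)
  have ha := D.a_eq
  unfold PreSurf.DD at d2 e2
  rw [d1] at d2
  rw [e1] at e2
  push_cast at e2
  rw [← PreSurf.Phi_congr Pd hU' (D.lat_rdual hU hF).1 hle (by rw [a1, b1, c1, d1, e1]) ?_ m]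
  · exact PreSurf.Phi_piF_cyc (inv_ne_zero hc) _ m
  · rw [a2, b2, c2]
    linear_combination (Fintype.card ι : ℝ) * (d2 + e2 + S.e * ha)

/-- The symmetrised Riemann–Roch identity. -/
theorem Phi_add_Phi_rdual (D : Dua S.toPreSurf) (Pd : PData k S.Γ p) {V : Fam k (ι → 𝕂)}
    (hV : S.Lat V) (hF : Full 𝕂 V) (m : ℕ) : S.Phi p m V + S.Phi p m (D.rdual V) = 0 := by
  obtain ⟨c, l, hc, hle⟩ := S.exists_piF_le hV hF
  have hU : S.Lat (piF ι (cyc S.R c l)) := (PreSurf.lat_cyc c l).piF ι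
  have hFU : Full 𝕂 (piF ι (cyc S.R c l)) := S.full_piF hc l
  refine PreSurf.deviss hU.stab hV hle (fun W => S.Phi p m W + S.Phi p m (D.rdual W) = 0) ?_ ?_
  · rw [PreSurf.Phi_piF_cyc hc, PhiDual_base D Pd hc, add_zero]
  · intro W v l' hWs hUW hWV hv hP hQ
    have hW := hV.of_le hWs hWV
    have hFW : Full 𝕂 W := hFU.mono hUW
    have hW' : S.Lat (W ⊔ cyc S.R v l') := hW.sup (PreSurf.lat_cyc v l')
    have hFW' : Full 𝕂 (W ⊔ cyc S.R v l') := hFW.mono le_sup_left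
    have hne : S.colon W v l' ≠ ⊥ := fun h0 => by
      have e1 := Eventually.of_forall (f := atTop) fun j => PreSurf.hf_step hW v l' j
      rw [h0] at e1
      have h1 := (FrobScale_step_bot hW.good l' e1).1
      rw [S.rk_full hW hFW, S.rk_full hW' hFW'] at h1
      linarith [S.e_pos]
    obtain ⟨-, c2, c3⟩ := PreSurf.Phi_step Pd hW m v l' hP hne
    have h2 := PreSurf.Phi_killed Pd (D.lat_rdual hW' hFW').1 (D.lat_rdual hW hFW).1
      (D.rdual_anti le_sup_left) hP hne ?_ ?_ m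
    · linarith
    · intro i j r φ hr hφ
      rw [Dua.mem_rdual] at hφ ⊢
      intro l'' j' w hw hj
      obtain ⟨hrR, hrv⟩ := (S.mem_colon).1 hr
      obtain ⟨w₁, hw₁, w₂, hw₂, rfl⟩ := Submodule.mem_sup.1 hw
      obtain ⟨s, hs, rfl⟩ := mem_cyc.1 hw₂
      have h3 : r • (w₁ + s • v) ∈ W (i + l'') := by
        rw [smul_add, smul_comm r s v]
        refine Submodule.add_mem _ (hWs _ _ _ _ hrR hw₁) ?_
        convert hWs _ _ _ _ hs hrv using 2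
        ring
      have h4 := hφ _ j' _ h3 (by linarith)
      rwa [dotProduct_smul, ← smul_dotProduct] at h4
    · rw [(D.inv_rdual hW hFW).2.1, (D.inv_rdual hW' hFW').2.1]
      linarith

theorem Δ_fr_add (D : Dua S.toPreSurf) (Pd : PData k S.Γ p) {V : Fam k (ι → 𝕂)}
    (hV : S.Lat V) (hF : Full 𝕂 V) (m : ℕ) :
    S.Δ (S.fr p m V) + S.Δ (S.fr p m (D.rdual V)) =
      ((p : ℝ) ^ m) ^ 2 * (S.Δ V + S.Δ (D.rdual V)) := by
  have h1 := Phi_add_Phi_rdual D Pd hV hF m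
  obtain ⟨a1, a2⟩ := hV.inv_fr Pd m
  obtain ⟨b1, b2⟩ := (D.lat_rdual hV hF).1.inv_fr Pd m
  unfold PreSurf.Phi at h1
  unfold PreSurf.Δ
  rw [a1, a2, b1, b2]
  linear_combination h1

end Crest.Agent.R169
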