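import Crest.Agent.R169.BG
import Crest.Agent.R169.Langer
import Crest.Agent.R169.PhiDual

/-! # task R169/Part4 -/

set_option autoImplicit false
open Filter Module IntermediateField

namespace Crest.Agent.R169

variable {k 𝕂 : Type} [Field k] [Field 𝕂] [Algebra k 𝕂] [IsAlgClosed k] {S : Surf k 𝕂}
  {p : ℕ} [Fact p.Prime] [CharP 𝕂 p]

theorem Part4_bound (D : Dua S.toPreSurf) (Pd : PData k S.Γ p) {C : ℕ} (θ : Derivs k S.Γ p C)
    {r : ℕ} (hp : (C + 1) * r ^ 2 + 2 ≤ p) {G : Fam k (Fin r → 𝕂)}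
    (hG : S.Lat G) (hF : Full 𝕂 G) (h0 : 0 < rk G)
    (hw : Window 𝕂 G (dg G / rk G - 2) (dg G / rk G + 2)) :
    ∀ᶠ m : ℕ in atTop, S.Δ (S.fr p m G) ≤ ((p : ℝ) ^ m) ^ 2 * (37 / 8 * rk G) := by
  have h1 := awin_of_dwin Pd θ hG hF (by rwa [Fintype.card_fin]) (S.window_iff_dwin.1 hw)
  have h2 := bg D Pd r hG hF h1 (ε := rk G / 8) (by positivity)
  have e : S.DD G / rk G = dg G / rk G + S.ctr := by
    unfold PreSurf.DD
    field_simp
  rw [e] at h2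
  refine h2.mono fun m hm => hm.trans_eq ?_
  ring

theorem part4 (D : Dua S.toPreSurf) (Pd : PData k S.Γ p) {C : ℕ} (θ : Derivs k S.Γ p C)
    (hκ : 5 ≤ S.κ) {r : ℕ} (hr : 0 < r) (hp : (C + 1) * r ^ 2 + 2 ≤ p) {G : Fam k (Fin r → 𝕂)}
    (hG : S.Lat G) (hF : Full 𝕂 G) (hc : -rk G / 8 ≤ cc G)
    (hw : Window 𝕂 G (dg G / rk G - 2) (dg G / rk G + 2)) : False := by
  have h0 : 0 < rk G := by
    rw [S.rk_full hG hF, Fintype.card_fin]
    exact mul_pos S.e_pos (by exact_mod_cast hr)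
  obtain ⟨l1, f1⟩ := D.lat_rdual hG hF
  obtain ⟨r1, d1, c1⟩ := D.inv_rdual hG hF
  have b1 := Part4_bound D Pd θ hp hG hF h0 hw
  have b2 := Part4_bound D Pd θ hp l1 f1 (r1 ▸ h0) (by
    have := D.window_rdual hG hF hw
    rw [r1, d1]
    convert this using 1 <;> ring)
  obtain ⟨m, hm1, hm2⟩ := (b1.and b2).exists
  have h3 := Δ_fr_add D Pd hG hF m
  have hq : 0 < ((p : ℝ) ^ m) ^ 2 := by
    have : (0 : ℝ) < p := by exact_mod_cast (Fact.out : p.Prime).pos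
    positivity
  have h4 : S.Δ G + S.Δ (D.rdual G) ≤ 37 / 4 * rk G := by
    refine le_of_mul_le_mul_left ?_ hq
    rw [← h3, r1] at *
    linarith
  have h5 : cc G ≤ cc (D.rdual G) := by
    unfold cc
    rw [r1, d1, neg_sq]
    linarith
  rw [PreSurf.Δ_eq h0.ne', PreSurf.Δ_eq (r1 ▸ h0.ne'), r1] at h4
  nlinarith

end Crest.Agent.R169
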