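import Crest.Agent.R169.LatBasic

/-! # Lattices are Noetherian (task R169/Noeth) -/

set_option autoImplicit false
open Filter Module

namespace Crest.Agent.R169

variable {k : Type} [Field k] {𝕃 : Type} [Field 𝕃] [Algebra k 𝕃] {y z : 𝕃}
  {E : Type} [AddCommGroup E] [Module k E] [Module 𝕃 E] [IsScalarTower k 𝕃 E] {V : Fam k E}

namespace Noeth
open Polynomial

variable (k) in
/-- The Rees algebra `k[X, yX, zX] ⊆ 𝕃[X]`. -/
noncomputable def rees (y z : 𝕃) : Subalgebra k 𝕃[X] :=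
  Algebra.adjoin k ({monomial 1 1, monomial 1 y, monomial 1 z} : Set 𝕃[X])

instance isNoeth (y z : 𝕃) : IsNoetherianRing (rees k y z) :=
  isNoetherianRing_of_fg (Subalgebra.fg_def.2 ⟨_, Set.toFinite _, rfl⟩)

theorem monomial_mem {m : ℕ} {r : 𝕃} (hr : r ∈ Apol k y z m) : monomial m r ∈ rees k y z := by
  induction hr using Submodule.span_induction with
  | mem w hw =>
    obtain ⟨a, b, hab, rfl⟩ := hw
    have hab' : a + b ≤ m := by exact_mod_cast hab
    have h1 : (monomial 1 (1 : 𝕃)) ∈ rees k y z := Algebra.subset_adjoin (by simp)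
    have hy : (monomial 1 y) ∈ rees k y z := Algebra.subset_adjoin (by simp)
    have hz : (monomial 1 z) ∈ rees k y z := Algebra.subset_adjoin (by simp)
    have := Subalgebra.mul_mem _ (Subalgebra.mul_mem _ (Subalgebra.pow_mem _ hy a)
      (Subalgebra.pow_mem _ hz b)) (Subalgebra.pow_mem _ h1 (m - (a + b)))
    simp only [monomial_pow, monomial_mul_monomial, one_mul, one_pow, mul_one] at this
    rwa [show a + b + (m - (a + b)) = m by omega] at this
  | zero => rw [map_zero]; exact Subalgebra.zero_mem _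
  | add a b _ _ ha hb => rw [map_add]; exact Subalgebra.add_mem _ ha hb
  | smul c a _ ha =>
    rw [← smul_monomial]; exact Subalgebra.smul_mem _ ha c

theorem smul_mem_aux {U : Fam k E} (hU : Stab (Apol k y z) U) (c : ℤ) {r : 𝕃[X]}
    (hr : r ∈ rees k y z) : ∀ f : PolynomialModule 𝕃 E, (∀ m : ℕ, f.coeff m ∈ U (m + c)) →
      ∀ m : ℕ, (r • f).coeff m ∈ U (m + c) := by
  induction hr using Algebra.adjoin_induction with
  | mem w hw =>
    intro f hf m
    have key : ∀ u ∈ Apol k y z 1, (monomial 1 u • f).coeff m ∈ U (m + c) := by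
      intro u hu
      rw [PolynomialModule.monomial_smul_apply]
      split_ifs with h
      · have := hU 1 _ u _ hu (hf (m - 1))
        rwa [show (1 : ℤ) + (((m - 1 : ℕ) : ℤ) + c) = m + c by omega] at this
      · exact Submodule.zero_mem _
    simp only [Set.mem_insert_iff, Set.mem_singleton_iff] at hw
    rcases hw with rfl | rfl | rfl
    · exact key _ (one_mem_Apol (by norm_num))
    · exact key _ y_mem_Apol
    · exact key _ z_mem_Apol
  | algebraMap a =>
    intro f hf m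
    rw [Polynomial.algebraMap_apply, ← monomial_zero_left, PolynomialModule.monomial_smul_apply,
      if_pos (Nat.zero_le m), Nat.sub_zero, algebraMap_smul]
    exact Submodule.smul_mem _ a (hf m)
  | add a b _ _ ha hb =>
    intro f hf m
    rw [add_smul, PolynomialModule.coeff_add, Finsupp.add_apply]
    exact Submodule.add_mem _ (ha f hf m) (hb f hf m)
  | mul a b _ _ ha hb =>
    intro f hf m
    rw [mul_smul]
    exact ha _ (hb f hf) m

/-- The Rees module of a stable family. -/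
def phi (U : Fam k E) (hU : Stab (Apol k y z) U) (c : ℤ) :
    Submodule (rees k y z) (PolynomialModule 𝕃 E) where
  carrier := {f | ∀ m : ℕ, f.coeff m ∈ U (m + c)}
  add_mem' := fun {a b} ha hb m => by
    rw [PolynomialModule.coeff_add, Finsupp.add_apply]
    exact Submodule.add_mem _ (ha m) (hb m)
  zero_mem' := fun m => by simp
  smul_mem' := fun r f hf => smul_mem_aux hU c r.2 f hf

theorem mem_phi {U : Fam k E} {hU : Stab (Apol k y z) U} {c : ℤ} {f : PolynomialModule 𝕃 E} :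
    f ∈ phi U hU c ↔ ∀ m : ℕ, f.coeff m ∈ U (m + c) := Iff.rfl

theorem single_mem_phi {U : Fam k E} {hU : Stab (Apol k y z) U} {c : ℤ} {m : ℕ} {v : E} :
    PolynomialModule.single 𝕃 m v ∈ phi U hU c ↔ v ∈ U (m + c) := by
  rw [mem_phi]
  constructor
  · intro h
    simpa using h m
  · intro h n
    rw [PolynomialModule.coeff_single, Finsupp.single_apply]
    split_ifs with hn
    · exact hn ▸ h
    · exact Submodule.zero_mem _

theorem iSup_apply_finset {ι : Type} (s : Finset ι) (F : ι → Fam k E) (m : ℤ) :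
    (⨆ i ∈ s, F i) m = ⨆ i ∈ s, F i m := by
  simp only [iSup_apply]

theorem phi_le {U : Fam k E} (hU : Stab (Apol k y z) U) {s : Finset E} {c : ℤ}
    (h : U ≤ ⨆ v ∈ s, cyc (Apol k y z) v c) :
    phi U hU c ≤ Submodule.span (rees k y z) ((PolynomialModule.single 𝕃 0) '' (s : Set E)) := by
  intro f hf
  have key : ∀ (m : ℕ) (w : E), w ∈ (⨆ v ∈ s, cyc (Apol k y z) v c) (m + c) →
      PolynomialModule.single 𝕃 m w ∈
        Submodule.span (rees k y z) ((PolynomialModule.single 𝕃 0) '' (s : Set E)) := by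
    intro m w hw
    rw [iSup_apply_finset, iSup_subtype'] at hw
    induction hw using Submodule.iSup_induction' with
    | mem v w hw =>
      obtain ⟨r, hr, rfl⟩ := mem_cyc.1 hw
      rw [add_sub_cancel_right] at hr
      have h1 : PolynomialModule.single 𝕃 0 (v : E) ∈
          Submodule.span (rees k y z) ((PolynomialModule.single 𝕃 0) '' (s : Set E)) :=
        Submodule.subset_span ⟨v, v.2, rfl⟩
      have h2 := Submodule.smul_mem _ (⟨_, monomial_mem hr⟩ : rees k y z) h1
      change monomial m r • PolynomialModule.single 𝕃 0 (v : E) ∈ _ at h2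
      rwa [PolynomialModule.monomial_smul_single, add_zero] at h2
    | zero => rw [PolynomialModule.single_zero]; exact Submodule.zero_mem _
    | add a b _ _ ha hb => rw [PolynomialModule.single_add]; exact Submodule.add_mem _ ha hb
  have e : f = ∑ m ∈ f.coeff.support, PolynomialModule.single 𝕃 m (f.coeff m) := by
    apply PolynomialModule.coeff_injective
    rw [PolynomialModule.coeff_sum]
    simp only [PolynomialModule.coeff_single]
    exact (Finsupp.sum_single f.coeff).symm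
  rw [e]
  exact Submodule.sum_mem _ fun m _ => key m _ (h _ (hf m))

theorem eq_bot_of_lt {U : Fam k E} {s : Finset E} {c : ℤ}
    (h : U ≤ ⨆ v ∈ s, cyc (Apol k y z) v c) {m : ℤ} (hm : m < c) : U m = ⊥ := by
  rw [eq_bot_iff]
  refine (h m).trans ?_
  rw [iSup_apply_finset]
  refine iSup₂_le fun v _ w hw => ?_
  obtain ⟨r, hr, rfl⟩ := mem_cyc.1 hw
  rw [Apol_neg (by omega), Submodule.mem_bot] at hr
  rw [hr, zero_smul]; exact Submodule.zero_mem _

theorem exists_maximal (hV : IsLat y z V) (𝒮 : Set (Fam k E)) (hne : 𝒮.Nonempty)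
    (h : ∀ U ∈ 𝒮, Stab (Apol k y z) U ∧ U ≤ V) : ∃ U ∈ 𝒮, ∀ U' ∈ 𝒮, U ≤ U' → U' = U := by
  obtain ⟨s, c, hs⟩ := hV.bdd
  set N := Submodule.span (rees k y z) ((PolynomialModule.single 𝕃 0) '' (s : Set E)) with hN
  have hfg : N.FG := Submodule.fg_span ((s.finite_toSet).image _)
  have hNoeth : IsNoetherian (rees k y z) N := isNoetherian_of_fg_of_noetherian N hfg
  obtain ⟨M, ⟨⟨U, hU⟩, rfl⟩, hM⟩ := set_has_maximal_iff_noetherian.2 hNoeth
    (Set.range fun U : 𝒮 => (phi U.1 (h U.1 U.2).1 c).comap N.subtype)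
    (by obtain ⟨U, hU⟩ := hne; exact ⟨_, ⟨U, hU⟩, rfl⟩)
  refine ⟨U, hU, fun U' hU' hle => ?_⟩
  have h1 : (phi U (h U hU).1 c).comap N.subtype ≤ (phi U' (h U' hU').1 c).comap N.subtype :=
    Submodule.comap_mono fun f hf m => hle _ (hf m)
  have h2 := eq_of_le_of_not_lt h1 (hM _ ⟨⟨U', hU'⟩, rfl⟩)
  refine le_antisymm (fun m v hv => ?_) hle
  by_cases hm : m < c
  · rw [eq_bot_of_lt ((h U' hU').2.trans hs) hm, Submodule.mem_bot] at hv
    rw [hv]; exact Submodule.zero_mem _
  · obtain ⟨n, rfl⟩ : ∃ n : ℕ, m = n + c := ⟨(m - c).toNat, by omega⟩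
    have h3 : PolynomialModule.single 𝕃 n v ∈ phi U' (h U' hU').1 c := single_mem_phi.2 hv
    have h4 : PolynomialModule.single 𝕃 n v ∈ N := phi_le _ ((h U' hU').2.trans hs) h3
    have h5 : (⟨_, h4⟩ : N) ∈ (phi U' (h U' hU').1 c).comap N.subtype := h3
    rw [← h2] at h5
    exact (single_mem_phi (hU := (h U hU).1)).1 h5

theorem smul_mem_of_large {U : Fam k E} (hU : Stab (Apol k y z) U) {v : E} {l : ℤ} {M : ℕ}
    (h : ∀ r ∈ Apol k y z M, r • v ∈ U (l + M)) (j : ℕ) :
    ∀ r ∈ Apol k y z (M + j), r • v ∈ U (l + (M + j)) := by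
  induction j with
  | zero => simpa using h
  | succ j ih =>
    intro r hr
    rw [Nat.cast_succ, ← add_assoc] at hr
    obtain ⟨a, ha, b, hb, c, hc, rfl⟩ := (Apol_succ (by positivity)).1 hr
    obtain ⟨h1, h2, h3⟩ := stab_Apol_iff.1 hU
    rw [show l + ((M : ℤ) + ((j + 1 : ℕ) : ℤ)) = l + (M + j) + 1 by push_cast; ring, add_smul, add_smul,
      mul_smul, mul_smul]
    exact Submodule.add_mem _ (Submodule.add_mem _ (h1 _ _ (ih a ha)) (h2 _ _ (ih b hb)))
      (h3 _ _ (ih c hc))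

end Noeth

/-- Hilbert basis theorem: a lattice is generated by finitely many of its own elements. -/
theorem IsLat.fg (hV : IsLat y z V) : ∃ s : Finset (E × ℤ), (∀ p ∈ s, p.1 ∈ V p.2) ∧
    V ≤ ⨆ p ∈ s, cyc (Apol k y z) p.1 p.2 := by
  classical
  obtain ⟨U, ⟨s, hs, rfl⟩, hmax⟩ := Noeth.exists_maximal hV
    {U | ∃ s : Finset (E × ℤ), (∀ p ∈ s, p.1 ∈ V p.2) ∧ U = ⨆ p ∈ s, cyc (Apol k y z) p.1 p.2}
    ⟨_, ∅, by simp, rfl⟩ (by
      rintro U ⟨s, hs, rfl⟩
      exact ⟨Stab.iSup fun p => Stab.iSup fun _ => stab_cyc stab_Apol _ _,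
        iSup₂_le fun p hp => hV.stab.cyc_le (hs p hp)⟩)
  refine ⟨s, hs, fun m v hv => ?_⟩
  have h1 := hmax (⨆ p ∈ insert (v, m) s, cyc (Apol k y z) p.1 p.2)
    ⟨insert (v, m) s, fun p hp => by
      rcases Finset.mem_insert.1 hp with rfl | hp
      · exact hv
      · exact hs p hp, rfl⟩
    (iSup₂_le fun p hp => le_iSup₂_of_le p (Finset.mem_insert_of_mem hp) le_rfl)
  rw [← h1]
  have h2 : cyc (Apol k y z) v m ≤ ⨆ p ∈ insert (v, m) s, cyc (Apol k y z) p.1 p.2 :=
    le_iSup₂_of_le (v, m) (Finset.mem_insert_self _ _) le_rfl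
  exact h2 m (mem_cyc_self (one_mem_Apol le_rfl) v m)

/-- The ascending chain condition for stable subfamilies of a lattice. -/
theorem IsLat.exists_maximal (hV : IsLat y z V) (𝒮 : Set (Fam k E)) (hne : 𝒮.Nonempty)
    (h : ∀ U ∈ 𝒮, Stab (Apol k y z) U ∧ U ≤ V) : ∃ U ∈ 𝒮, ∀ U' ∈ 𝒮, U ≤ U' → U' = U :=
  Noeth.exists_maximal hV 𝒮 hne h

/-- Indexed form of `IsLat.fg`. -/
theorem IsLat.fg' (hV : IsLat y z V) : ∃ (n : ℕ) (v : Fin n → E) (a : Fin n → ℤ),
    (∀ i, v i ∈ V (a i)) ∧ V = ⨆ i, cyc (Apol k y z) (v i) (a i) := by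
  obtain ⟨s, hs, hle⟩ := hV.fg
  refine ⟨s.card, fun i => (s.equivFin.symm i).1.1, fun i => (s.equivFin.symm i).1.2,
    fun i => hs _ (s.equivFin.symm i).2, le_antisymm (hle.trans (iSup₂_le fun p hp => ?_))
      (iSup_le fun i => hV.stab.cyc_le (hs _ (s.equivFin.symm i).2))⟩
  refine le_iSup_of_le (s.equivFin ⟨p, hp⟩) ?_
  simp only [Equiv.symm_apply_apply, le_refl]

/-- If every element of a lattice `V` is pushed into the stable family `U` by all polynomials of
some degree, then `V ≤ U` in large degrees. -/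
theorem IsLat.eventually_le (hV : IsLat y z V) {U : Fam k E} (hU : Stab (Apol k y z) U)
    (h : ∀ l, ∀ v ∈ V l, ∃ M : ℕ, ∀ r ∈ Apol k y z M, r • v ∈ U (l + M)) :
    ∀ᶠ m in atTop, V m ≤ U m := by
  obtain ⟨n, v, a, hv, hVe⟩ := hV.fg'
  choose M hM using fun i => h (a i) (v i) (hv i)
  have h1 : ∀ᶠ m in atTop, ∀ i, a i + M i ≤ m :=
    eventually_all.2 fun i => eventually_ge_atTop _
  filter_upwards [h1] with m hm
  rw [hVe, iSup_apply]
  refine iSup_le fun i w hw => ?_
  obtain ⟨r, hr, rfl⟩ := mem_cyc.1 hw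
  obtain ⟨j, hj⟩ : ∃ j : ℕ, m - a i = M i + j := ⟨(m - a i - M i).toNat, by have := hm i; omega⟩
  rw [hj] at hr
  have := Noeth.smul_mem_of_large hU (hM i) j r hr
  rwa [← hj, add_sub_cancel] at this

end Crest.Agent.R169
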