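import Crest.Agent.R169.Surf
import Crest.Agent.R169.Noeth
import Crest.Agent.R278.AbsLemmas

/-! # task R169/ReesT -/

set_option autoImplicit false
open Filter Module IntermediateField

namespace Crest.Agent.R169

namespace ReesT
open Polynomial

/-- a finite extension of the polynomial ring in which the variables generate a primary ideal -/
theorem height_eq {T : Type} [CommRing T] [Algebra (MvPolynomial (Fin 3) ℂ) T]
    [Algebra.IsIntegral (MvPolynomial (Fin 3) ℂ) T] [FaithfulSMul (MvPolynomial (Fin 3) ℂ) T]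
    (I : Ideal T) [I.IsMaximal]
    (h : I ≤ (Ideal.span (Set.range fun i : Fin 3 =>
      algebraMap (MvPolynomial (Fin 3) ℂ) T (MvPolynomial.X i))).radical) :
    ringKrullDim T = 3 ∧ (I.height : WithBot ℕ∞) = 3 := by
  have hd : ringKrullDim T = 3 := by
    rw [Crest.Agent.R278.ringKrullDim_eq_of_isIntegral (MvPolynomial (Fin 3) ℂ) T,
      MvPolynomial.ringKrullDim_of_isNoetherianRing, ringKrullDim_eq_zero_of_field]
    simp
  refine ⟨hd, le_antisymm (hd ▸ Ideal.height_le_ringKrullDim_of_isPrime) ?_⟩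
  let φ : ℕ → MvPolynomial (Fin 3) ℂ →ₐ[ℂ] MvPolynomial (Fin 3) ℂ := fun k =>
    MvPolynomial.aeval fun i => if (i : ℕ) < k then 0 else MvPolynomial.X i
  have hφ : ∀ k, (φ (k + 1)).comp (φ k) = φ (k + 1) := fun k => by
    refine MvPolynomial.algHom_ext fun i => ?_
    simp only [φ, AlgHom.comp_apply, MvPolynomial.aeval_X]
    split_ifs with h1 h2 h2
    · simp
    · omega
    · rw [MvPolynomial.aeval_X, if_pos h2]
    · rw [MvPolynomial.aeval_X, if_neg h2]
  let l : LTSeries (PrimeSpectrum (MvPolynomial (Fin 3) ℂ)) :=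
    { length := 3
      toFun := fun k => ⟨RingHom.ker (φ k), RingHom.ker_isPrime _⟩
      step := fun k => by
        change RingHom.ker (φ k.castSucc) < RingHom.ker (φ k.succ)
        refine lt_of_le_of_ne (fun f hf => ?_) fun e => ?_
        · rw [RingHom.mem_ker] at hf ⊢
          have := AlgHom.congr_fun (hφ k) f
          simp only [Fin.val_succ, Fin.val_castSucc] at hf ⊢
          rw [← this, AlgHom.comp_apply, hf, map_zero]
        · have h1 : MvPolynomial.X k ∈ RingHom.ker (φ k.succ) := by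
            simp [RingHom.mem_ker, φ]
          rw [← e] at h1
          simp [RingHom.mem_ker, φ] at h1 }
  obtain ⟨P, hP⟩ := Algebra.IsIntegral.comap_surjective (MvPolynomial (Fin 3) ℂ) T l.head
  have : P.asIdeal.LiesOver l.head.asIdeal := ⟨by rw [← hP]; rfl⟩
  obtain ⟨L, h1, -, h2⟩ := Ideal.exists_ltSeries_of_hasGoingUp l P.asIdeal
  have h3 : PrimeSpectrum.comap (algebraMap (MvPolynomial (Fin 3) ℂ) T) L.last = l.last := by
    have e1 := L.getLast_toList
    have e2 := l.getLast_toList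
    have e3 := List.getLast_map (f := PrimeSpectrum.comap (algebraMap (MvPolynomial (Fin 3) ℂ) T))
      (l := L.toList) (by simpa using L.toList_ne_nil)
    rw [← e1, ← e2, ← e3]
    simp only [h2]
  have h4 : I ≤ L.last.asIdeal := by
    refine h.trans ((Ideal.IsPrime.radical_le_iff L.last.isPrime).2 (Ideal.span_le.2 ?_))
    rintro _ ⟨i, rfl⟩
    have : MvPolynomial.X i ∈ l.last.asIdeal := by
      change MvPolynomial.X i ∈ RingHom.ker (φ (Fin.last 3 : ℕ))
      simp [RingHom.mem_ker, φ]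
    rw [← h3] at this
    exact this
  have h5 : I = L.last.asIdeal := Ideal.IsMaximal.eq_of_le inferInstance L.last.isPrime.ne_top h4
  rw [h5, PrimeSpectrum.height_eq_orderHeight]
  have := Order.length_le_height_last (p := L)
  rw [h1] at this
  exact WithBot.coe_le_coe.2 this

variable {𝕃 : Type} [Field 𝕃] [Algebra ℂ 𝕃] (S : PreSurf ℂ 𝕃)

/-- the graded ring -/
noncomputable def T : Subalgebra ℂ 𝕃[X] where
  carrier := {f | ∀ j : ℕ, f.coeff j ∈ S.R j}
  mul_mem' := fun {f g} hf hg j => by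
    rw [coeff_mul]
    refine Submodule.sum_mem _ fun p hp => ?_
    rw [← Finset.HasAntidiagonal.mem_antidiagonal.1 hp, Nat.cast_add]
    exact mul_mem_Rg (hf _) (hg _)
  add_mem' := fun {f g} hf hg j => by
    rw [coeff_add]; exact Submodule.add_mem _ (hf j) (hg j)
  algebraMap_mem' := fun c j => by
    rw [Polynomial.algebraMap_apply, coeff_C]
    split_ifs with h
    · subst h
      rw [Algebra.algebraMap_eq_smul_one]
      exact Submodule.smul_mem _ _ one_mem_Rg_zero
    · exact Submodule.zero_mem _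

theorem mon_mem {j : ℕ} {r : 𝕃} (h : r ∈ S.R j) : monomial j r ∈ T S := fun i => by
  rw [coeff_monomial]
  split_ifs with e
  · subst e; exact h
  · exact Submodule.zero_mem _

/-- the grading -/
def A (j : ℕ) : Submodule ℂ (T S) where
  carrier := {f | ∀ i, i ≠ j → (f : 𝕃[X]).coeff i = 0}
  add_mem' := fun {f g} hf hg i hi => by
    rw [Subalgebra.coe_add, coeff_add, hf i hi, hg i hi, add_zero]
  zero_mem' := fun i _ => by simp
  smul_mem' := fun c f hf i hi => by
    rw [Subalgebra.coe_smul, coeff_smul, hf i hi, smul_zero]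

theorem mon_mem_A {j : ℕ} {r : 𝕃} (h : r ∈ S.R j) : (⟨monomial j r, mon_mem S h⟩ : T S) ∈ A S j :=
  fun i hi => by simp [coeff_monomial, hi.symm]

theorem eq_mon {j : ℕ} {f : T S} (hf : f ∈ A S j) :
    (f : 𝕃[X]) = monomial j ((f : 𝕃[X]).coeff j) := by
  ext i
  rw [coeff_monomial]
  split_ifs with e
  · rw [e]
  · exact hf i (Ne.symm e)

instance : SetLike.GradedMonoid (A S) where
  one_mem := fun i hi => by simp [coeff_one, hi]
  mul_mem := fun {i j f g} hf hg k hk => by
    rw [Subalgebra.coe_mul, eq_mon S hf, eq_mon S hg, monomial_mul_monomial, coeff_monomial,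
      if_neg (Ne.symm hk)]

theorem coeff_coe (x : DirectSum ℕ fun j => A S j) (j : ℕ) :
    ((DirectSum.coeAddMonoidHom (A S) x : T S) : 𝕃[X]).coeff j = ((x j : T S) : 𝕃[X]).coeff j := by
  induction x using DirectSum.induction_on with
  | zero => simp
  | of i y =>
    rw [DirectSum.coeAddMonoidHom_of]
    by_cases h : j = i
    · subst h; rw [DirectSum.of_eq_same]
    · rw [DirectSum.of_eq_of_ne _ _ _ h, y.2 j h]; simp
  | add a b ha hb =>
    rw [map_add, Subalgebra.coe_add, coeff_add, ha, hb, DirectSum.add_apply, Submodule.coe_add,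
      Subalgebra.coe_add, coeff_add]

theorem eq_sum (f : T S) : f = ∑ j ∈ (f : 𝕃[X]).support,
    (⟨monomial j ((f : 𝕃[X]).coeff j), mon_mem S (f.2 j)⟩ : T S) := by
  apply Subtype.ext
  rw [AddSubmonoidClass.coe_finsetSum]
  exact (f : 𝕃[X]).as_sum_support

theorem isInternal : DirectSum.IsInternal (A S) := by
  constructor
  · intro x y hx
    ext j : 1
    apply Subtype.ext
    apply Subtype.ext
    have := coeff_coe S x j
    rw [hx, coeff_coe] at this
    rw [eq_mon S (x j).2, ← this, ← eq_mon S (y j).2]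
  · intro f
    refine ⟨∑ j ∈ (f : 𝕃[X]).support, DirectSum.of (fun j => A S j) j ⟨_, mon_mem_A S (f.2 j)⟩, ?_⟩
    rw [map_sum]
    simp only [DirectSum.coeAddMonoidHom_of]
    exact (eq_sum S f).symm

noncomputable instance : GradedAlgebra (A S) :=
  { (isInternal S).chooseDecomposition, (inferInstance : SetLike.GradedMonoid (A S)) with }

theorem mem_irr (f : T S) :
    f ∈ (HomogeneousIdeal.irrelevant (A S)).toIdeal ↔ (f : 𝕃[X]).coeff 0 = 0 := by
  have h1 := coeff_coe S (DirectSum.decompose (A S) f) 0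
  have h2 : DirectSum.coeAddMonoidHom (A S) (DirectSum.decompose (A S) f) = f :=
    (DirectSum.decompose (A S)).symm_apply_apply f
  rw [h2] at h1
  rw [HomogeneousIdeal.mem_iff, HomogeneousIdeal.mem_irrelevant_iff, GradedRing.proj_apply, h1]
  constructor
  · intro h; rw [h]; simp
  · intro h
    apply Subtype.ext
    rw [eq_mon S (DirectSum.decompose (A S) f 0).2, h]
    simp

theorem bij : Function.Bijective
    (algebraMap ℂ (T S ⧸ (HomogeneousIdeal.irrelevant (A S)).toIdeal)) := by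
  have : Nontrivial (T S ⧸ (HomogeneousIdeal.irrelevant (A S)).toIdeal) := by
    rw [Ideal.Quotient.nontrivial_iff, Ideal.ne_top_iff_one, mem_irr]
    simp
  refine ⟨RingHom.injective _, fun q => ?_⟩
  obtain ⟨f, rfl⟩ := Ideal.Quotient.mk_surjective q
  have := f.2 0
  rw [Nat.cast_zero, PreSurf.R, Rg_zero, Submodule.mem_span_singleton] at this
  obtain ⟨c, hc⟩ := this
  refine ⟨c, ?_⟩
  rw [← Ideal.Quotient.mk_algebraMap, Ideal.Quotient.eq, mem_irr]
  simp [← hc, Algebra.algebraMap_eq_smul_one]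

instance : (HomogeneousIdeal.irrelevant (A S)).toIdeal.IsMaximal :=
  Ideal.Quotient.maximal_of_isField _
    ((RingEquiv.ofBijective _ (bij S)).symm.toMulEquiv.isField (Field.toIsField ℂ))

theorem one_mem : (1 : 𝕃) ∈ S.R (1 : ℕ) := mem_Rg_one S.one_mem

/-- the linear system of parameters -/
noncomputable def x : Fin 3 → T S :=
  ![⟨monomial 1 1, mon_mem S (one_mem S)⟩, ⟨monomial 1 S.y, mon_mem S (j := 1) S.y_mem⟩,
    ⟨monomial 1 S.z, mon_mem S (j := 1) S.z_mem⟩]

theorem coe_x (i : Fin 3) : (x S i : 𝕃[X]) = monomial 1 (![1, S.y, S.z] i) := by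
  fin_cases i <;> rfl

theorem coe_aeval {f : MvPolynomial (Fin 3) ℂ} {d : ℕ} (hf : f.IsHomogeneous d) :
    ((MvPolynomial.aeval (x S) f : T S) : 𝕃[X]) =
      monomial d (MvPolynomial.aeval ![1, S.y, S.z] f) := by
  have h1 : ((MvPolynomial.aeval (x S) f : T S) : 𝕃[X]) =
      MvPolynomial.aeval (fun i => monomial 1 (![1, S.y, S.z] i)) f := by
    have := MvPolynomial.comp_aeval_apply (x S) (T S).val f
    simp only [Subalgebra.coe_val, coe_x] at this
    exact this
  rw [h1, MvPolynomial.aeval_def, MvPolynomial.aeval_def, MvPolynomial.eval₂_eq',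
    MvPolynomial.eval₂_eq', map_sum]
  refine Finset.sum_congr rfl fun e he => ?_
  rw [Fin.prod_univ_three, Fin.prod_univ_three, ← degree_of_homog hf he,
    Polynomial.algebraMap_apply]
  simp only [monomial_pow, monomial_mul_monomial, one_mul, C_mul_monomial]

theorem aeval_inj : Function.Injective (MvPolynomial.aeval (R := ℂ) (x S)) := by
  rw [injective_iff_map_eq_zero]
  intro f hf
  rw [← f.sum_homogeneousComponent]
  refine Finset.sum_eq_zero fun d hd => ?_
  by_contra h0
  apply aeval_ne_zero_of_homog S.ind (MvPolynomial.homogeneousComponent_isHomogeneous d f) h0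
  have h1 := congrArg (fun g : T S => (g : 𝕃[X]).coeff d) hf
  rw [← f.sum_homogeneousComponent, map_sum] at h1
  simp only [AddSubmonoidClass.coe_finsetSum,
    coe_aeval S (MvPolynomial.homogeneousComponent_isHomogeneous _ f), finsetSum_coeff,
    coeff_monomial, Finset.sum_ite_eq', if_pos hd] at h1
  simpa using h1

theorem exists_gen : ∃ (n : ℕ) (g : Fin n → T S) (a : Fin n → ℕ), ∀ (M : AddSubmonoid (T S))
    (j : ℕ), (∀ i (d : ℕ) (f : MvPolynomial (Fin 3) ℂ), f.IsHomogeneous d → d + a i = j →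
      MvPolynomial.aeval (x S) f * g i ∈ M) → ∀ f ∈ A S j, f ∈ M := by
  have hL : IsLat S.y S.z S.R := by
    refine ⟨fun i j r v hr hv => mul_mem_Rg ?_ hv, S.bdd⟩
    simpa using Apol_le_Rg (n := 1) S.one_mem S.y_mem S.z_mem i hr
  obtain ⟨n, v, a, hv, hR⟩ := hL.fg'
  have hv' : ∀ i, v i ∈ S.R ((a i).toNat : ℕ) := fun i =>
    Rg_mono S.one_mem (Int.self_le_toNat _) (hv i)
  refine ⟨n, fun i => ⟨monomial (a i).toNat (v i), mon_mem S (hv' i)⟩, fun i => (a i).toNat,
    fun M j hM f hf => ?_⟩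
  have key : ∀ r ∈ (⨆ i, cyc (Apol ℂ S.y S.z) (v i) (a i) j), ∃ t ∈ M, (t : 𝕃[X]) = monomial j r := by
    intro r hr
    induction hr using Submodule.iSup_induction' with
    | mem i r hr =>
      obtain ⟨w, hw, rfl⟩ := mem_cyc.1 hr
      rcases lt_or_ge (a i) 0 with h1 | h1
      · have := hv i
        rw [PreSurf.R, Rg_neg h1, Submodule.mem_bot] at this
        exact ⟨0, zero_mem _, by simp [this]⟩
      rcases lt_or_ge ((j : ℤ) - a i) 0 with h2 | h2
      · rw [Apol_neg h2, Submodule.mem_bot] at hw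
        exact ⟨0, zero_mem _, by simp [hw]⟩
      have h3 : (j : ℤ) - a i = ((j - (a i).toNat : ℕ) : ℤ) := by omega
      rw [h3, mem_Apol_iff_homog] at hw
      obtain ⟨p, hp, rfl⟩ := hw
      refine ⟨_, hM i _ p hp (by simp only; omega), ?_⟩
      rw [Subalgebra.coe_mul, coe_aeval S hp, monomial_mul_monomial, smul_eq_mul]
      congr 2
      omega
    | zero => exact ⟨0, zero_mem _, by simp⟩
    | add r r' _ _ h h' =>
      obtain ⟨t, ht, e⟩ := h
      obtain ⟨t', ht', e'⟩ := h'
      exact ⟨t + t', add_mem ht ht', by rw [Subalgebra.coe_add, e, e', map_add]⟩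
  have h1 := f.2 j
  rw [hR, iSup_apply] at h1
  obtain ⟨t, ht, e⟩ := key _ h1
  rwa [show f = t from Subtype.ext ((eq_mon S hf).trans e.symm)]

theorem finite : (MvPolynomial.aeval (R := ℂ) (x S)).toRingHom.Finite := by
  classical
  obtain ⟨n, g, a, h⟩ := exists_gen S
  letI := (MvPolynomial.aeval (R := ℂ) (x S)).toRingHom.toAlgebra
  refine ⟨⟨Finset.univ.image g, ?_⟩⟩
  rw [eq_top_iff]
  intro f _
  rw [eq_sum S f]
  refine Submodule.sum_mem _ fun j _ => ?_
  refine h (Submodule.span (MvPolynomial (Fin 3) ℂ) _).toAddSubmonoid j (fun i d p _ _ => ?_) _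
    (mon_mem_A S (f.2 j))
  exact Submodule.smul_mem _ p (Submodule.subset_span (by simp))

theorem aeval_mem_span {f : MvPolynomial (Fin 3) ℂ} {d : ℕ} (hf : f.IsHomogeneous d) (hd : 0 < d) :
    MvPolynomial.aeval (x S) f ∈ Ideal.span (Set.range (x S)) := by
  rw [MvPolynomial.aeval_def, MvPolynomial.eval₂_eq']
  refine Submodule.sum_mem _ fun e he => Ideal.mul_mem_left _ _ ?_
  have h1 := degree_of_homog hf he
  obtain ⟨i, hi⟩ : ∃ i, e i ≠ 0 := by
    by_contra hc
    push Not at hc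
    simp only [hc] at h1
    omega
  exact Ideal.mem_of_dvd _ (Finset.dvd_prod_of_mem _ (Finset.mem_univ i))
    (Ideal.pow_mem_of_mem _ (Ideal.subset_span (Set.mem_range_self i)) _ (Nat.pos_of_ne_zero hi))

theorem irr_le : (HomogeneousIdeal.irrelevant (A S)).toIdeal ≤
    (Ideal.span (Set.range (x S))).radical := by
  obtain ⟨n, g, a, h⟩ := exists_gen S
  rw [HomogeneousIdeal.toIdeal_irrelevant_le]
  intro j hj f hf
  refine ⟨∑ i, a i + 1, h (Ideal.span (Set.range (x S))).toAddSubmonoid ((∑ i, a i + 1) • j)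
    (fun i d p hp hd => Ideal.mul_mem_right _ _ (aeval_mem_span S hp ?_)) _
    (SetLike.pow_mem_graded _ hf)⟩
  have h1 : a i ≤ ∑ i, a i := Finset.single_le_sum (fun _ _ => Nat.zero_le _) (Finset.mem_univ i)
  have h2 : ∑ i, a i + 1 ≤ (∑ i, a i + 1) • j := Nat.le_mul_of_pos_right _ hj
  omega

end ReesT

open Polynomial in
/-- The graded ring `T = ⨁ R j · X ^ j ⊆ 𝕃[X]` of a `PreSurf`. -/
theorem exists_reesT {𝕃 : Type} [Field 𝕃] [Algebra ℂ 𝕃] (S : PreSurf ℂ 𝕃) :
    ∃ (T : Type) (_ : CommRing T) (_ : Algebra ℂ T) (𝒜 : ℕ → Submodule ℂ T) (_ : GradedAlgebra 𝒜)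
      (_ : (HomogeneousIdeal.irrelevant 𝒜).toIdeal.IsMaximal),
      Algebra.FiniteType ℂ T ∧ IsDomain T ∧ ringKrullDim T = 3 ∧
      Function.Bijective (algebraMap ℂ (T ⧸ (HomogeneousIdeal.irrelevant 𝒜).toIdeal)) ∧
      ringKrullDim (Localization.AtPrime (HomogeneousIdeal.irrelevant 𝒜).toIdeal) = 3 ∧
      ∃ (ι : T →ₐ[ℂ] 𝕃[X]) (x : Fin 3 → T), Function.Injective ι ∧
        (∀ γ ∈ S.Γ, ∃ t : T, ι t = C γ * X) ∧
        ι (x 0) = X ∧ ι (x 1) = C S.y * X ∧ ι (x 2) = C S.z * X ∧
        (MvPolynomial.aeval (R := ℂ) x).toRingHom.Finite ∧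
        Function.Injective (MvPolynomial.aeval (R := ℂ) x) ∧
        (∀ i, x i ∈ (HomogeneousIdeal.irrelevant 𝒜).toIdeal) ∧
        (HomogeneousIdeal.irrelevant 𝒜).toIdeal ≤ (Ideal.span (Set.range x)).radical := by
  letI := (MvPolynomial.aeval (R := ℂ) (ReesT.x S)).toRingHom.toAlgebra
  have hfin : Module.Finite (MvPolynomial (Fin 3) ℂ) (ReesT.T S) := ReesT.finite S
  have : IsScalarTower ℂ (MvPolynomial (Fin 3) ℂ) (ReesT.T S) :=
    IsScalarTower.of_algebraMap_eq fun c =>
      ((MvPolynomial.aeval (R := ℂ) (ReesT.x S)).commutes c).symm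
  have : FaithfulSMul (MvPolynomial (Fin 3) ℂ) (ReesT.T S) :=
    (faithfulSMul_iff_algebraMap_injective _ _).2 (ReesT.aeval_inj S)
  have hx : (fun i : Fin 3 => algebraMap (MvPolynomial (Fin 3) ℂ) (ReesT.T S) (MvPolynomial.X i)) =
      ReesT.x S := funext fun i => MvPolynomial.aeval_X _ i
  obtain ⟨h1, h2⟩ := ReesT.height_eq (HomogeneousIdeal.irrelevant (ReesT.A S)).toIdeal
    (hx ▸ ReesT.irr_le S)
  refine ⟨ReesT.T S, inferInstance, inferInstance, ReesT.A S, inferInstance, inferInstance,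
    Algebra.FiniteType.trans (S := MvPolynomial (Fin 3) ℂ) inferInstance inferInstance,
    inferInstance, h1, ReesT.bij S, ?_, (ReesT.T S).val, ReesT.x S, Subtype.val_injective,
    fun γ hγ => ⟨⟨monomial 1 γ, ReesT.mon_mem S (j := 1) (mem_Rg_one hγ)⟩, ?_⟩, ?_, ?_, ?_,
    ReesT.finite S, ReesT.aeval_inj S, fun i => ?_, ReesT.irr_le S⟩
  · rw [IsLocalization.AtPrime.ringKrullDim_eq_height
      (HomogeneousIdeal.irrelevant (ReesT.A S)).toIdeal, h2]
  · exact C_mul_X_eq_monomial.symm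
  · exact monomial_one_one_eq_X
  · exact C_mul_X_eq_monomial.symm
  · exact C_mul_X_eq_monomial.symm
  · rw [ReesT.mem_irr, ReesT.coe_x, coeff_monomial, if_neg one_ne_zero]

end Crest.Agent.R169
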