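import Crest.Agent.R169.Petersen

/-! # task R169/Moment -/

set_option autoImplicit false
open Filter Module IntermediateField

namespace Crest.Agent.R169

theorem nu_pos {n : ℕ} (hn : 0 < n) : 0 < nu n := by
  refine Finset.card_pos.2 ⟨0, ?_⟩
  simp [Zs, deg, hn]

section aux

/-- The group of residue classes. -/
noncomputable def moZ (n : ℕ) [NeZero n] : Finset (Ed → ZMod n) :=
  open Classical in
  Finset.univ.filter fun η => (∀ i, η s(i, i) = 0) ∧ ∀ i, deg η i = 0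

theorem mo_deg_cast {n : ℕ} (ε : Ed → ℕ) (i : Fin 5) :
    deg (fun x => (ε x : ZMod n)) i = ((deg ε i : ℕ) : ZMod n) := by
  simp [deg]

theorem mo_sum_eq {n : ℕ} [NeZero n] (F : (Ed → ℕ) → ℝ) :
    ∑ ε ∈ Zs n, F ε = ∑ η ∈ moZ n, F fun x => (η x).val := by
  symm
  refine Finset.sum_nbij' (fun η x => (η x).val) (fun ε x => (ε x : ZMod n)) ?_ ?_ ?_ ?_ ?_
  · intro η hη
    simp only [moZ, Finset.mem_filter, Finset.mem_univ, true_and] at hη
    simp only [Zs, Finset.mem_filter, Fintype.mem_piFinset, Finset.mem_range]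
    refine ⟨fun x => ZMod.val_lt _, fun i => by rw [hη.1 i, ZMod.val_zero], fun i => ?_⟩
    rw [← ZMod.natCast_eq_zero_iff, ← mo_deg_cast]
    simpa using hη.2 i
  · intro ε hε
    simp only [Zs, Finset.mem_filter, Fintype.mem_piFinset, Finset.mem_range] at hε
    simp only [moZ, Finset.mem_filter, Finset.mem_univ, true_and]
    refine ⟨fun i => by rw [hε.2.1 i, Nat.cast_zero], fun i => ?_⟩
    rw [mo_deg_cast, ZMod.natCast_eq_zero_iff]
    exact hε.2.2 i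
  · intro η _
    funext x
    simp
  · intro ε hε
    simp only [Zs, Finset.mem_filter, Fintype.mem_piFinset, Finset.mem_range] at hε
    funext x
    exact ZMod.val_cast_of_lt (hε.1 x)
  · intro η _
    rfl

theorem mo_shift {n : ℕ} [NeZero n] (v : Ed → ZMod n) (hv : v ∈ moZ n) (F : (Ed → ZMod n) → ℝ) :
    ∑ η ∈ moZ n, F (η + v) = ∑ η ∈ moZ n, F η := by
  simp only [moZ, Finset.mem_filter, Finset.mem_univ, true_and] at hv
  refine Finset.sum_nbij' (fun η => η + v) (fun η => η - v) ?_ ?_ ?_ ?_ ?_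
  · intro η hη
    simp only [moZ, Finset.mem_filter, Finset.mem_univ, true_and] at hη ⊢
    refine ⟨fun i => by simp [hη.1 i, hv.1 i], fun i => ?_⟩
    have h1 := hη.2 i
    have h2 := hv.2 i
    simp only [deg, Pi.add_apply, Finset.sum_add_distrib] at h1 h2 ⊢
    rw [h1, h2, add_zero]
  · intro η hη
    simp only [moZ, Finset.mem_filter, Finset.mem_univ, true_and] at hη ⊢
    refine ⟨fun i => by simp [hη.1 i, hv.1 i], fun i => ?_⟩
    have h1 := hη.2 i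
    have h2 := hv.2 i
    simp only [deg, Pi.sub_apply, Finset.sum_sub_distrib] at h1 h2 ⊢
    rw [h1, h2, sub_zero]
  · intro η _; simp
  · intro η _; simp
  · intro η _; rfl

/-- Two edges whose residues are independent. -/
def moInd (e e' : Ed) : Prop :=
  ∃ u : Ed → ℤ, (∀ i, u s(i, i) = 0) ∧ (∀ i, deg u i = 0) ∧ u e = 1 ∧ u e' = 0

theorem mo_ind {n : ℕ} [NeZero n] {e e' : Ed} (h : moInd e e') (f g : ℕ → ℝ) :
    (n : ℝ) * ∑ ε ∈ Zs n, f (ε e) * g (ε e') =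
      (∑ t ∈ Finset.range n, f t) * ∑ ε ∈ Zs n, g (ε e') := by
  obtain ⟨u, h1, h2, h3, h4⟩ := h
  rw [mo_sum_eq, mo_sum_eq]
  have hv : ∀ t : ZMod n, (fun x => t * (u x : ZMod n)) ∈ moZ n := by
    intro t
    simp only [moZ, Finset.mem_filter, Finset.mem_univ, true_and]
    refine ⟨fun i => by simp [h1 i], fun i => ?_⟩
    have := congrArg (Int.cast : ℤ → ZMod n) (h2 i)
    simp only [deg, Int.cast_sum, Int.cast_zero] at this ⊢
    rw [← Finset.mul_sum, this, mul_zero]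
  have key : ∀ t : ZMod n, ∑ η ∈ moZ n, f (η e).val * g (η e').val =
      ∑ η ∈ moZ n, f (η e + t).val * g (η e').val := by
    intro t
    rw [← mo_shift _ (hv t) fun η => f (η e).val * g (η e').val]
    simp [h3, h4]
  have hf : ∀ a : ZMod n, ∑ t : ZMod n, f (a + t).val = ∑ t ∈ Finset.range n, f t := by
    intro a
    refine (Equiv.sum_comp (Equiv.addLeft a) fun t => f t.val).trans ?_
    obtain ⟨m, rfl⟩ := Nat.exists_eq_succ_of_ne_zero (NeZero.ne n)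
    exact Fin.sum_univ_eq_sum_range f (m + 1)
  calc (n : ℝ) * ∑ η ∈ moZ n, f (η e).val * g (η e').val
      = ∑ t : ZMod n, ∑ η ∈ moZ n, f (η e).val * g (η e').val := by
        rw [Finset.sum_const, Finset.card_univ, ZMod.card, nsmul_eq_mul]
    _ = ∑ t : ZMod n, ∑ η ∈ moZ n, f (η e + t).val * g (η e').val :=
        Finset.sum_congr rfl fun t _ => key t
    _ = _ := by
        rw [Finset.sum_comm, Finset.mul_sum]
        refine Finset.sum_congr rfl fun η _ => ?_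
        rw [← Finset.sum_mul, hf]

theorem mo_range1 (n : ℕ) : ∑ t ∈ Finset.range n, (t : ℝ) = n * (n - 1) / 2 := by
  induction n with
  | zero => simp
  | succ n ih => rw [Finset.sum_range_succ, ih]; push_cast; ring

theorem mo_range2 (n : ℕ) : ∑ t ∈ Finset.range n, (t : ℝ) ^ 2 = n * (n - 1) * (2 * n - 1) / 6 := by
  induction n with
  | zero => simp
  | succ n ih => rw [Finset.sum_range_succ, ih]; push_cast; ring

theorem mo_m1 {n : ℕ} (hn : 0 < n) {e e' : Ed} (h : moInd e e') :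
    ∑ ε ∈ Zs n, (ε e : ℝ) = (n - 1) / 2 * nu n := by
  have : NeZero n := ⟨hn.ne'⟩
  have := mo_ind (n := n) h (fun t => (t : ℝ)) fun _ => 1
  rw [mo_range1] at this
  simp only [mul_one, Finset.sum_const, nsmul_eq_mul] at this
  have hn' : (n : ℝ) ≠ 0 := by positivity
  apply mul_left_cancel₀ hn'
  rw [this, nu]
  ring

theorem mo_m2 {n : ℕ} (hn : 0 < n) {e e' : Ed} (h : moInd e e') :
    ∑ ε ∈ Zs n, (ε e : ℝ) ^ 2 = (n - 1) * (2 * n - 1) / 6 * nu n := by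
  have : NeZero n := ⟨hn.ne'⟩
  have := mo_ind (n := n) h (fun t => (t : ℝ) ^ 2) fun _ => 1
  rw [mo_range2] at this
  simp only [mul_one, Finset.sum_const, nsmul_eq_mul] at this
  have hn' : (n : ℝ) ≠ 0 := by positivity
  apply mul_left_cancel₀ hn'
  rw [this, nu]
  ring

theorem mo_m11 {n : ℕ} (hn : 0 < n) {e e' : Ed} (h : moInd e e') (h' : moInd e' e) :
    ∑ ε ∈ Zs n, (ε e : ℝ) * ε e' = (n - 1) ^ 2 / 4 * nu n := by
  have : NeZero n := ⟨hn.ne'⟩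
  have := mo_ind (n := n) h (fun t => (t : ℝ)) fun t => (t : ℝ)
  rw [mo_range1, mo_m1 hn h'] at this
  have hn' : (n : ℝ) ≠ 0 := by positivity
  apply mul_left_cancel₀ hn'
  rw [this]
  ring

/-- The cross-ratio vector `ab + cv - ac - bv`. -/
def moU (a b c v : Fin 5) : Ed → ℤ := fun x =>
  (if x = s(a, b) then 1 else 0) + (if x = s(c, v) then 1 else 0) -
    (if x = s(a, c) then 1 else 0) - (if x = s(b, v) then 1 else 0)

theorem moU_spec : ∀ a b c d : Fin 5, a ≠ b → a ≠ c → a ≠ d → b ≠ c → b ≠ d → c ≠ d →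
    ∃ v, (∀ i, moU a b c v s(i, i) = 0) ∧ (∀ i, deg (moU a b c v) i = 0) ∧
      moU a b c v s(a, b) = 1 ∧ moU a b c v s(c, d) = 0 := by
  decide +kernel

theorem mo_disj (a b c d : Fin 5) (h : a ≠ b ∧ a ≠ c ∧ a ≠ d ∧ b ≠ c ∧ b ≠ d ∧ c ≠ d) :
    moInd s(a, b) s(c, d) := by
  obtain ⟨h1, h2, h3, h4, h5, h6⟩ := h
  obtain ⟨v, hv⟩ := moU_spec a b c d h1 h2 h3 h4 h5 h6
  exact ⟨_, hv⟩

theorem mo_pair {n : ℕ} (hn : 0 < n) (a b c d : Fin 5)
    (h : a ≠ b ∧ a ≠ c ∧ a ≠ d ∧ b ≠ c ∧ b ≠ d ∧ c ≠ d) :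
    ∑ ε ∈ Zs n, (ε s(a, b) : ℝ) * ε s(c, d) = (n - 1) ^ 2 / 4 * nu n := by
  refine mo_m11 hn (mo_disj a b c d h) (mo_disj c d a b ?_)
  obtain ⟨h1, h2, h3, h4, h5, h6⟩ := h
  exact ⟨h6, h2.symm, h4.symm, h3.symm, h5.symm, h1⟩

theorem mo_exists : ∀ a b : Fin 5, a ≠ b →
    ∃ c d, a ≠ b ∧ a ≠ c ∧ a ≠ d ∧ b ≠ c ∧ b ≠ d ∧ c ≠ d := by
  decide

theorem mo_one {n : ℕ} (hn : 0 < n) (a b : Fin 5) (h : a ≠ b) :
    ∑ ε ∈ Zs n, (ε s(a, b) : ℝ) = (n - 1) / 2 * nu n := by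
  obtain ⟨c, d, h⟩ := mo_exists a b h
  exact mo_m1 hn (mo_disj a b c d h)

theorem mo_two {n : ℕ} (hn : 0 < n) (a b : Fin 5) (h : a ≠ b) :
    ∑ ε ∈ Zs n, (ε s(a, b) : ℝ) ^ 2 = (n - 1) * (2 * n - 1) / 6 * nu n := by
  obtain ⟨c, d, h⟩ := mo_exists a b h
  exact mo_m2 hn (mo_disj a b c d h)

theorem mo_expand {n : ℕ} (hn : 0 < n) (j : ℝ) (ε : Ed → ℕ) (hε : ε ∈ Zs n) :
    chiPl (fun i => 2 * j - ((deg ε i : ℕ) : ℝ) / n) =
      (1 + (5 * j ^ 2 + 5 * j) / 2) +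
      (-(2 * j + 1) / (2 * n)) * ((ε s(0, 1) : ℝ) + ε s(0, 2) + ε s(0, 3) + ε s(0, 4) + ε s(1, 2) +
        ε s(1, 3) + ε s(1, 4) + ε s(2, 3) + ε s(2, 4) + ε s(3, 4)) +
      (-1 / (2 * n ^ 2)) * ((ε s(0, 1) : ℝ) ^ 2 + (ε s(0, 2) : ℝ) ^ 2 + (ε s(0, 3) : ℝ) ^ 2 +
        (ε s(0, 4) : ℝ) ^ 2 + (ε s(1, 2) : ℝ) ^ 2 + (ε s(1, 3) : ℝ) ^ 2 + (ε s(1, 4) : ℝ) ^ 2 +
        (ε s(2, 3) : ℝ) ^ 2 + (ε s(2, 4) : ℝ) ^ 2 + (ε s(3, 4) : ℝ) ^ 2) +
      (1 / n ^ 2) * ((ε s(0, 1) : ℝ) * ε s(2, 3) + ε s(0, 1) * ε s(2, 4) + ε s(0, 1) * ε s(3, 4) +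
        ε s(0, 2) * ε s(1, 3) + ε s(0, 2) * ε s(1, 4) + ε s(0, 2) * ε s(3, 4) +
        ε s(0, 3) * ε s(1, 2) + ε s(0, 3) * ε s(1, 4) + ε s(0, 3) * ε s(2, 4) +
        ε s(0, 4) * ε s(1, 2) + ε s(0, 4) * ε s(1, 3) + ε s(0, 4) * ε s(2, 3) +
        ε s(1, 2) * ε s(3, 4) + ε s(1, 3) * ε s(2, 4) + ε s(1, 4) * ε s(2, 3)) := by
  have hd : ∀ i, ε s(i, i) = 0 := by
    simp only [Zs, Finset.mem_filter] at hε
    exact hε.2.1
  obtain ⟨d0, d1, d2, d3, d4⟩ := deg_expand ε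
  have hn' : (n : ℝ) ≠ 0 := by positivity
  simp only [chiPl, Fin.sum_univ_five, d0, d1, d2, d3, d4, hd]
  push_cast
  field_simp
  ring

end aux

theorem sum_chiPl {n : ℕ} (hn : 0 < n) (j : ℝ) :
    ∑ ε ∈ Zs n, chiPl (fun i => 2 * j - ((deg ε i : ℕ) : ℝ) / n) = PhiR n (n * j) := by
  rw [Finset.sum_congr rfl (mo_expand hn j)]
  simp only [Finset.sum_add_distrib, ← Finset.mul_sum, Finset.sum_const, nsmul_eq_mul]
  rw [mo_one hn 0 1 (by decide), mo_one hn 0 2 (by decide), mo_one hn 0 3 (by decide),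
    mo_one hn 0 4 (by decide), mo_one hn 1 2 (by decide), mo_one hn 1 3 (by decide),
    mo_one hn 1 4 (by decide), mo_one hn 2 3 (by decide), mo_one hn 2 4 (by decide),
    mo_one hn 3 4 (by decide),
    mo_two hn 0 1 (by decide), mo_two hn 0 2 (by decide), mo_two hn 0 3 (by decide),
    mo_two hn 0 4 (by decide), mo_two hn 1 2 (by decide), mo_two hn 1 3 (by decide),
    mo_two hn 1 4 (by decide), mo_two hn 2 3 (by decide), mo_two hn 2 4 (by decide),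
    mo_two hn 3 4 (by decide),
    mo_pair hn 0 1 2 3 (by decide), mo_pair hn 0 1 2 4 (by decide), mo_pair hn 0 1 3 4 (by decide),
    mo_pair hn 0 2 1 3 (by decide), mo_pair hn 0 2 1 4 (by decide), mo_pair hn 0 2 3 4 (by decide),
    mo_pair hn 0 3 1 2 (by decide), mo_pair hn 0 3 1 4 (by decide), mo_pair hn 0 3 2 4 (by decide),
    mo_pair hn 0 4 1 2 (by decide), mo_pair hn 0 4 1 3 (by decide), mo_pair hn 0 4 2 3 (by decide),
    mo_pair hn 1 2 3 4 (by decide), mo_pair hn 1 3 2 4 (by decide), mo_pair hn 1 4 2 3 (by decide)]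
  have hn' : (n : ℝ) ≠ 0 := by positivity
  simp only [PhiR, eR, nu]
  field_simp
  ring

end Crest.Agent.R169
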