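import Crest.Agent.R169.Model

/-! # Row 169: forms in the differences and independence of the vanishing conditions -/

set_option autoImplicit false
open Module MvPolynomial

namespace Crest.Agent.R169.PlUpper

variable (k : Type) [Field k]

/-- forms in the differences -/
noncomputable def kap : MvPolynomial (Fin 3) k →ₐ[k] MvPolynomial (Fin 4) k :=
  aeval fun a => X a.succ - X 0

/-- forms of degree `n` in the differences -/
noncomputable def H (n : ℕ) : Submodule k (MvPolynomial (Fin 4) k) :=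
  (homogeneousSubmodule (Fin 3) k n).map (kap k).toLinearMap

instance (n : ℕ) : FiniteDimensional k (H k n) :=
  Module.Finite.iff_fg.2 ((homogeneousSubmodule_fg (Fin 3) k n).map _)

theorem finrank_hom (n : ℕ) :
    finrank k (homogeneousSubmodule (Fin 3) k n) ≤ (n + 2).choose 2 := by
  classical
  let s : Finset (MvPolynomial (Fin 3) k) :=
    ((Finset.univ : Finset (Fin 3)).finsuppAntidiag n).image fun d => monomial d 1
  have h1 : homogeneousSubmodule (Fin 3) k n ≤ Submodule.span k (s : Set _) := by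
    intro p hp
    rw [p.as_sum]
    refine Submodule.sum_mem _ fun d hd => ?_
    have : monomial d (coeff d p) = coeff d p • monomial d (1 : k) := by
      rw [smul_monomial, smul_eq_mul, mul_one]
    rw [this]
    refine Submodule.smul_mem _ _ (Submodule.subset_span ?_)
    refine Finset.mem_coe.2 (Finset.mem_image_of_mem _ ?_)
    rw [Finset.mem_finsuppAntidiag]
    refine ⟨?_, Finset.subset_univ _⟩
    have := hp (mem_support_iff.1 hd)
    rw [← Finsupp.degree_eq_sum, Finsupp.degree_eq_weight_one]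
    exact this
  refine (Submodule.finrank_mono h1).trans ((finrank_span_finset_le_card s).trans
    (Finset.card_image_le.trans ?_))
  rw [Finset.card_finsuppAntidiag_nat_eq_choose, Finset.card_univ, Fintype.card_fin,
    show 3 + n - 1 = n + 2 by omega, Nat.choose_symm_add]

theorem finrank_H (n : ℕ) : (finrank k (H k n) : ℝ) ≤ ((n : ℝ) + 2) * (n + 1) / 2 := by
  have : FiniteDimensional k (homogeneousSubmodule (Fin 3) k n) :=
    Module.Finite.iff_fg.2 (homogeneousSubmodule_fg (Fin 3) k n)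
  have h := (Submodule.finrank_map_le (kap k).toLinearMap _).trans (finrank_hom k n)
  have h2 : (((n + 2).choose 2 : ℕ) : ℝ) = ((n : ℝ) + 2) * (n + 1) / 2 := by
    rw [Nat.cast_choose_two]; push_cast; ring
  rw [← h2]
  exact_mod_cast h

variable {k}

theorem H_mul {m n : ℕ} {x y : MvPolynomial (Fin 4) k} (hx : x ∈ H k m) (hy : y ∈ H k n) :
    x * y ∈ H k (m + n) := by
  obtain ⟨x, hx, rfl⟩ := hx
  obtain ⟨y, hy, rfl⟩ := hy
  exact ⟨x * y, IsHomogeneous.mul hx hy, map_mul (kap k) x y⟩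

theorem H_diff (a b : Fin 4) (n : ℕ) : (X a - X b : MvPolynomial (Fin 4) k) ^ n ∈ H k n := by
  have h : ∀ a : Fin 4, ∃ y : MvPolynomial (Fin 3) k, y.IsHomogeneous 1 ∧ kap k y = X a - X 0 :=
    fun a => Fin.cases ⟨0, isHomogeneous_zero _ _ _, by simp⟩
      (fun a => ⟨X a, isHomogeneous_X _ _, by simp [kap]⟩) a
  obtain ⟨x, hx, hx'⟩ := h a
  obtain ⟨y, hy, hy'⟩ := h b
  refine ⟨(x - y) ^ n, by simpa using (hx.sub hy).pow n, ?_⟩
  change kap k _ = _
  rw [map_pow, map_sub, hx', hy', sub_sub_sub_cancel_right]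

variable (k) in
/-- the chart at the point where the variables other than `i` agree -/
noncomputable def psi (i : Fin 4) : MvPolynomial (Fin 4) k →ₐ[k] MvPolynomial (Fin 2) k :=
  aeval fun a => (![1, 0, X 0, X 1] : Fin 4 → MvPolynomial (Fin 2) k) (a - i)

variable (k) in
/-- the ideal of that point -/
noncomputable def PI (i : Fin 4) : Ideal (MvPolynomial (Fin 4) k) :=
  (idealOfVars (Fin 2) k).comap (psi k i)

theorem X_mem (a : Fin 2) : (X a : MvPolynomial (Fin 2) k) ∈ idealOfVars (Fin 2) k :=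
  Ideal.subset_span ⟨a, rfl⟩

theorem X_mem_PI {i a : Fin 4} (h : a ≠ i) : (X a : MvPolynomial (Fin 4) k) ∈ PI k i := by
  have h' : a - i ≠ 0 := sub_ne_zero.2 h
  rw [PI, Ideal.mem_comap, psi, aeval_X]
  generalize a - i = c at h'
  fin_cases c
  · exact absurd rfl h'
  · exact zero_mem _
  · exact X_mem 0
  · exact X_mem 1

theorem diff_mem_PI {i a b : Fin 4} (ha : a ≠ i) (hb : b ≠ i) (n : ℕ) :
    (X a - X b : MvPolynomial (Fin 4) k) ^ n ∈ PI k i ^ n :=
  Ideal.pow_mem_pow (sub_mem (X_mem_PI ha) (X_mem_PI hb)) n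

theorem mul_mem_pow {A : Type} [CommRing A] {I : Ideal A} {m n : ℕ} {x y : A} (hx : x ∈ I ^ m)
    (hy : y ∈ I ^ n) : x * y ∈ I ^ (m + n) := by
  rw [pow_add]; exact Ideal.mul_mem_mul hx hy

theorem mem_pow_zero {A : Type} [CommRing A] {I : Ideal A} (x : A) : x ∈ I ^ 0 := by simp

theorem cancel_unit {A : Type} [CommRing A] {I : Ideal A} {m : ℕ} {x w : A} (hw : 1 - w ∈ I)
    (h : x * w ∈ I ^ m) : x ∈ I ^ m := by
  have e : x = x * w * ∑ i ∈ Finset.range m, (1 - w) ^ i + x * (1 - w) ^ m := by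
    have := mul_neg_geom_sum (1 - w) m
    rw [sub_sub_cancel] at this
    rw [mul_assoc, this]; ring
  rw [e]
  exact add_mem (Ideal.mul_mem_right _ _ h) (Ideal.mul_mem_left _ _ (Ideal.pow_mem_pow hw m))

/-- exponents of total degree less than `m` -/
abbrev Tri (m : ℕ) : Type := Σ s : Fin m, Fin (s + 1)

theorem card_Tri (m : ℕ) : (Fintype.card (Tri m) : ℝ) = (m : ℝ) * (m + 1) / 2 := by
  rw [Fintype.card_sigma]
  simp only [Fintype.card_fin]
  rw [Fin.sum_univ_eq_sum_range (fun s => s + 1)]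
  induction m with
  | zero => simp
  | succ m ih => rw [Finset.sum_range_succ]; push_cast at ih ⊢; rw [ih]; ring

/-- the exponent vector -/
noncomputable def ex {m : ℕ} (t : Tri m) : Fin 2 →₀ ℕ :=
  Finsupp.single 0 (t.2 : ℕ) + Finsupp.single 1 (t.1 - t.2 : ℕ)

theorem ex_inj {m : ℕ} : Function.Injective (ex (m := m)) := by
  rintro ⟨s, t⟩ ⟨s', t'⟩ h
  have h0 := DFunLike.congr_fun h 0
  have h1 := DFunLike.congr_fun h 1
  simp [ex] at h0 h1
  have := t.2
  have := t'.2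
  obtain rfl : s = s' := Fin.ext (by omega)
  rw [Fin.ext h0]

theorem ex_degree {m : ℕ} (t : Tri m) : (ex t).degree < m := by
  have := t.1.2
  have := t.2.2
  simp only [ex, map_add, Finsupp.degree_single]
  omega

variable (k) in
/-- the test forms -/
noncomputable def Cc (n b : ℕ) (i : Fin 4) (α β : ℕ) : MvPolynomial (Fin 4) k :=
  (X (i + 2) - X (i + 1)) ^ α * (X (i + 3) - X (i + 1)) ^ β *
    (X i - X (i + 1)) ^ (n - α - β - 2 * b) * (X i - X (i + 2)) ^ b * (X i - X (i + 3)) ^ b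

theorem Cc_mem_H {n b α β : ℕ} (i : Fin 4) (h : α + β + 2 * b ≤ n) : Cc k n b i α β ∈ H k n := by
  have := H_mul (H_mul (H_mul (H_mul (H_diff (k := k) (i + 2) (i + 1) α) (H_diff (i + 3) (i + 1) β))
    (H_diff i (i + 1) (n - α - β - 2 * b))) (H_diff i (i + 2) b)) (H_diff i (i + 3) b)
  rwa [show α + β + (n - α - β - 2 * b) + b + b = n by omega] at this

theorem psi_Cc (n b : ℕ) (i : Fin 4) (α β : ℕ) : psi k i (Cc k n b i α β) =
    monomial (Finsupp.single 0 α + Finsupp.single 1 β) 1 * ((1 - X 0) ^ b * (1 - X 1) ^ b) := by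
  simp [psi, Cc, monomial_add_single, ← X_pow_eq_monomial, mul_assoc]

theorem Cc_mem_PI {n b α β m : ℕ} {i i' : Fin 4} (hi : i' ≠ i) (h : α + β + 2 * b ≤ n)
    (h1 : m ≤ 2 * b) (h2 : m + α + b ≤ n) (h3 : m + β + b ≤ n) : Cc k n b i α β ∈ PI k i' ^ m := by
  have hc : ∀ i i' : Fin 4, i' ≠ i →
      (i ≠ i' ∧ i + 2 ≠ i' ∧ i + 3 ≠ i') ∨ (i ≠ i' ∧ i + 1 ≠ i' ∧ i + 3 ≠ i') ∨
        (i ≠ i' ∧ i + 1 ≠ i' ∧ i + 2 ≠ i') := by decide
  rcases hc i i' hi with ⟨a0, a2, a3⟩ | ⟨a0, a1, a3⟩ | ⟨a0, a1, a2⟩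
  · exact Ideal.pow_le_pow_right (by omega) (mul_mem_pow (mul_mem_pow (mem_pow_zero _)
      (diff_mem_PI a0 a2 _)) (diff_mem_PI a0 a3 _))
  · exact Ideal.pow_le_pow_right (by omega) (mul_mem_pow (mul_mem_pow (mul_mem_pow (mul_mem_pow
      (mem_pow_zero _) (diff_mem_PI a3 a1 _)) (diff_mem_PI a0 a1 _)) (mem_pow_zero _))
      (diff_mem_PI a0 a3 _))
  · exact Ideal.pow_le_pow_right (by omega) (mul_mem_pow (mul_mem_pow (mul_mem_pow (mul_mem_pow
      (diff_mem_PI a2 a1 _) (mem_pow_zero _)) (diff_mem_PI a0 a1 _)) (diff_mem_PI a0 a2 _))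
      (mem_pow_zero _))

theorem indep {n b : ℕ} {m : Fin 4 → ℕ} (h1 : ∀ i, m i ≤ 2 * b) (h2 : ∀ i, m i + 2 * b ≤ n + 1)
    (h3 : ∀ i i', m i + m i' + b ≤ n + 1) (c : (Σ i, Tri (m i)) → k)
    (h : ∀ i, ∑ t, c t • Cc k n b t.1 t.2.2 (t.2.1 - t.2.2) ∈ PI k i ^ m i) : c = 0 := by
  classical
  funext ⟨i, t₀⟩
  have h4 : ∑ t : Tri (m i), c ⟨i, t⟩ • Cc k n b i t.2 (t.1 - t.2) ∈ PI k i ^ m i := by
    have := h i
    rw [Fintype.sum_sigma, ← Finset.add_sum_erase _ _ (Finset.mem_univ i)] at this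
    refine (Ideal.add_mem_iff_left _ (Ideal.sum_mem _ fun i' hi' => Ideal.sum_mem _ fun t _ =>
      ?_)).1 this
    have a1 := t.1.2
    have a2 := t.2.2
    have a3 := h2 i'
    have a4 := h3 i i'
    rw [smul_eq_C_mul]
    dsimp only
    exact Ideal.mul_mem_left _ _ (Cc_mem_PI (Finset.ne_of_mem_erase hi').symm (by omega) (h1 i)
      (by omega) (by omega))
  have h5 := Ideal.le_comap_pow _ (m i) h4
  rw [Ideal.mem_comap, map_sum] at h5
  simp only [map_smul, psi_Cc, ← smul_mul_assoc, ← Finset.sum_mul] at h5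
  have hw : 1 - (1 - X 0) ^ b * (1 - X 1) ^ b ∈ idealOfVars (Fin 2) k := by
    rw [← Ideal.Quotient.eq_zero_iff_mem]
    simp [Ideal.Quotient.eq_zero_iff_mem.2 (X_mem (k := k) _)]
  have h6 := (mem_pow_idealOfVars_iff' _ _).1 (cancel_unit hw h5) (ex t₀) (ex_degree t₀)
  rw [coeff_sum, Finset.sum_eq_single t₀] at h6
  · simpa [ex] using h6
  · intro t _ ht
    rw [coeff_smul, coeff_monomial, if_neg (fun h => ht (ex_inj (by exact h))), smul_zero]
  · simp

theorem finrank_le {n b : ℕ} {m : Fin 4 → ℕ} (h1 : ∀ i, m i ≤ 2 * b)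
    (h2 : ∀ i, m i + 2 * b ≤ n + 1) (h3 : ∀ i i', m i + m i' + b ≤ n + 1)
    {W : Submodule k (MvPolynomial (Fin 4) k)} (hW : W ≤ H k n)
    (hW' : ∀ x ∈ W, ∀ i, x ∈ PI k i ^ m i) :
    (finrank k W : ℝ) + ∑ i, (m i : ℝ) * (m i + 1) / 2 ≤ ((n : ℝ) + 2) * (n + 1) / 2 := by
  classical
  have : FiniteDimensional k W := Submodule.finiteDimensional_of_le hW
  let Φ : (W × ((Σ i, Tri (m i)) → k)) →ₗ[k] MvPolynomial (Fin 4) k := W.subtype.coprod
    (Fintype.linearCombination k fun t : Σ i, Tri (m i) => Cc k n b t.1 t.2.2 (t.2.1 - t.2.2))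
  have hΦ : ∀ p, Φ p = p.1 + ∑ t, p.2 t • Cc k n b t.1 t.2.2 (t.2.1 - t.2.2) := fun p => rfl
  have hinj : Function.Injective Φ := by
    rw [injective_iff_map_eq_zero]
    rintro ⟨x, c⟩ h
    rw [hΦ] at h
    obtain rfl : c = 0 := indep h1 h2 h3 c fun i => by
      rw [eq_neg_of_add_eq_zero_right h]
      exact neg_mem (hW' _ x.2 i)
    simpa using h
  have hr : LinearMap.range Φ ≤ H k n := by
    rintro _ ⟨p, rfl⟩
    rw [hΦ]
    refine add_mem (hW p.1.2) (Submodule.sum_mem _ fun t _ => Submodule.smul_mem _ _ ?_)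
    have a1 := t.2.1.2
    have a2 := t.2.2.2
    have a3 := h2 t.1
    exact Cc_mem_H _ (by omega)
  have h4 := Submodule.finrank_mono hr
  rw [LinearMap.finrank_range_of_inj hinj, finrank_prod, finrank_fintype_fun_eq_card,
    Fintype.card_sigma] at h4
  refine le_trans ?_ (finrank_H k n)
  simp only [← card_Tri]
  exact_mod_cast h4

end Crest.Agent.R169.PlUpper
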