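import Crest.Agent.R169.Petersen
import Crest.Agent.R169.PlUpperAux

/-! # task R169/PlUpper -/

set_option autoImplicit false
open Filter Module IntermediateField

namespace Crest.Agent.R169

namespace PlUpper
open MvPolynomial

variable {k : Type} [Field k]

theorem mon_pp (f : Ed → ℕ) : mon (pp (X : Fin 4 → MvPolynomial (Fin 4) k)) f =
    (X 0 - X 1) ^ f s(0, 1) * (X 0 - X 2) ^ f s(0, 2) * (X 0 - X 3) ^ f s(0, 3) *
      (X 1 - X 2) ^ f s(1, 2) * (X 1 - X 3) ^ f s(1, 3) * (X 2 - X 3) ^ f s(2, 3) := by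
  have e : ∀ a b : Fin 5, pp (X : Fin 4 → MvPolynomial (Fin 4) k) s(a, b) =
      if a = b ∨ a = 4 ∨ b = 4 then 1 else
        (![X 0, X 1, X 2, X 3, 0] : Fin 5 → MvPolynomial (Fin 4) k) (min a b) -
          ![X 0, X 1, X 2, X 3, 0] (max a b) := fun _ _ => rfl
  rw [mon, prod_Ed]
  simp only [e]
  simp (decide := true) only [if_true, if_false, one_pow, mul_one, one_mul]
  rfl

theorem degs {f : Ed → ℕ} {d : Fin 5 → ℕ} (h0 : ∀ i, f s(i, i) = 0) (h : ∀ i, deg f i = d i) :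
    f s(0, 1) + f s(0, 2) + f s(0, 3) + f s(0, 4) = d 0 ∧
    f s(0, 1) + f s(1, 2) + f s(1, 3) + f s(1, 4) = d 1 ∧
    f s(0, 2) + f s(1, 2) + f s(2, 3) + f s(2, 4) = d 2 ∧
    f s(0, 3) + f s(1, 3) + f s(2, 3) + f s(3, 4) = d 3 ∧
    f s(0, 4) + f s(1, 4) + f s(2, 4) + f s(3, 4) = d 4 := by
  have := deg_expand f
  simp only [h, h0] at this
  omega

theorem Pl_le_H (d : Fin 5 → ℕ) : Pl k d ≤ H k ((d 0 + d 1 + d 2 + d 3 - d 4) / 2) := by
  refine Submodule.span_le.2 ?_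
  rintro _ ⟨f, h0, h, rfl⟩
  have := degs h0 h
  rw [mon_pp, show (d 0 + d 1 + d 2 + d 3 - d 4) / 2 =
    f s(0, 1) + f s(0, 2) + f s(0, 3) + f s(1, 2) + f s(1, 3) + f s(2, 3) by omega]
  exact H_mul (H_mul (H_mul (H_mul (H_mul (H_diff _ _ _) (H_diff _ _ _)) (H_diff _ _ _))
    (H_diff _ _ _)) (H_diff _ _ _)) (H_diff _ _ _)

theorem Pl_PI (d : Fin 5 → ℕ) {x : MvPolynomial (Fin 4) k} (hx : x ∈ Pl k d) (i : Fin 4) :
    x ∈ PI k i ^ ((d 0 + d 1 + d 2 + d 3 - d 4) / 2 - d i.castSucc) := by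
  refine (Submodule.span_le (p := Submodule.restrictScalars k
    (PI k i ^ ((d 0 + d 1 + d 2 + d 3 - d 4) / 2 - d i.castSucc)))).2 ?_ hx
  rintro _ ⟨f, h0, h, rfl⟩
  have := degs h0 h
  have z := @mem_pow_zero (MvPolynomial (Fin 4) k) _ (PI k i)
  rw [mon_pp]
  fin_cases i
  · exact Ideal.pow_le_pow_right (show _ - d 0 ≤ _ by omega) (mul_mem_pow (mul_mem_pow
      (mul_mem_pow (z _) (diff_mem_PI (by decide) (by decide) _))
      (diff_mem_PI (by decide) (by decide) _)) (diff_mem_PI (by decide) (by decide) _))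
  · exact Ideal.pow_le_pow_right (show _ - d 1 ≤ _ by omega) (mul_mem_pow (mul_mem_pow
      (mul_mem_pow (mul_mem_pow (mul_mem_pow (z _) (diff_mem_PI (by decide) (by decide) _))
      (diff_mem_PI (by decide) (by decide) _)) (z _)) (z _))
      (diff_mem_PI (by decide) (by decide) _))
  · exact Ideal.pow_le_pow_right (show _ - d 2 ≤ _ by omega) (mul_mem_pow (mul_mem_pow
      (mul_mem_pow (mul_mem_pow (mul_mem_pow (diff_mem_PI (by decide) (by decide) _) (z _))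
      (diff_mem_PI (by decide) (by decide) _)) (z _)) (diff_mem_PI (by decide) (by decide) _))
      (z _))
  · exact Ideal.pow_le_pow_right (show _ - d 3 ≤ _ by omega) (mul_mem_pow (mul_mem_pow
      (mul_mem_pow (mul_mem_pow (mul_mem_pow (diff_mem_PI (by decide) (by decide) _)
      (diff_mem_PI (by decide) (by decide) _)) (z _)) (diff_mem_PI (by decide) (by decide) _))
      (z _)) (z _))

end PlUpper

open PlUpper

theorem fd_Pl (k : Type) [Field k] (d : Fin 5 → ℕ) : FiniteDimensional k (Pl k d) :=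
  Submodule.finiteDimensional_of_le (Pl_le_H d)

theorem finrank_Pl_le : ∃ j0 : ℕ, ∀ (k : Type) [Field k], ∀ j ≥ j0, ∀ d : Fin 5 → ℕ,
    (∀ i, 2 * j ≤ d i + 3 ∧ d i ≤ 2 * j) → Even (∑ i, d i) →
      (finrank k (Pl k d) : ℝ) ≤ chiPl fun i => d i := by
  refine ⟨13, fun k _ j hj d hd he => ?_⟩
  obtain ⟨D, hD⟩ := he
  rw [Fin.sum_univ_five] at hD
  have h0 := hd 0
  have h1 := hd 1
  have h2 := hd 2
  have h3 := hd 3
  have h4 := hd 4
  obtain ⟨n, hn⟩ : ∃ n, (d 0 + d 1 + d 2 + d 3 - d 4) / 2 = n := ⟨_, rfl⟩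
  have hm : ∀ i : Fin 4, n - d i.castSucc ≤ j + 3 := by
    intro i
    fin_cases i
    exacts [show _ - d 0 ≤ _ by omega, show _ - d 1 ≤ _ by omega, show _ - d 2 ≤ _ by omega,
      show _ - d 3 ≤ _ by omega]
  have key := finrank_le (k := k) (n := n) (b := j - 5) (m := fun i => n - d i.castSucc)
    (fun i => by have := hm i; omega) (fun i => by have := hd i.castSucc; omega)
    (fun i i' => by have := hd i.castSucc; have := hm i'; omega) (hn ▸ Pl_le_H d)
    fun x hx i => hn ▸ Pl_PI d hx i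
  rw [Fin.sum_univ_four] at key
  have e0 : ((n - d (Fin.castSucc 0) : ℕ) : ℝ) = n - d 0 := Nat.cast_sub (show d 0 ≤ n by omega)
  have e1 : ((n - d (Fin.castSucc 1) : ℕ) : ℝ) = n - d 1 := Nat.cast_sub (show d 1 ≤ n by omega)
  have e2 : ((n - d (Fin.castSucc 2) : ℕ) : ℝ) = n - d 2 := Nat.cast_sub (show d 2 ≤ n by omega)
  have e3 : ((n - d (Fin.castSucc 3) : ℕ) : ℝ) = n - d 3 := Nat.cast_sub (show d 3 ≤ n by omega)
  have e4 : (d 4 : ℝ) = d 0 + d 1 + d 2 + d 3 - 2 * n := by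
    have : d 4 + 2 * n = d 0 + d 1 + d 2 + d 3 := by omega
    have := congrArg (Nat.cast : ℕ → ℝ) this
    push_cast at this
    linarith
  rw [e0, e1, e2, e3] at key
  simp only [chiPl, Fin.sum_univ_five, e4]
  linarith

end Crest.Agent.R169
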