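import Crest.Agent.R169.ModelBasic
import Crest.Agent.R169.PlUpper
import Crest.Agent.R169.Moment

/-! # task R169/HfUpper -/

set_option autoImplicit false
open Filter Module IntermediateField

namespace Crest.Agent.R169

theorem HfUpper_finrank_sup {k E ι : Type} [Field k] [AddCommGroup E] [Module k E] (s : Finset ι)
    (U : ι → Submodule k E) [∀ i, FiniteDimensional k (U i)] :
    finrank k ↥(s.sup U) ≤ ∑ i ∈ s, finrank k (U i) := by
  classical
  induction s using Finset.induction_on with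
  | empty => simp
  | insert a s ha ih =>
    rw [Finset.sup_insert, Finset.sum_insert ha]
    exact (Submodule.finrank_add_le_finrank_add_finrank _ _).trans (by gcongr)

theorem HfUpper_deg_le {n : ℕ} {ε : Ed → ℕ} (h : ε ∈ Zs n) (i : Fin 5) : deg ε i / n ≤ 3 := by
  obtain ⟨h1, h2, -⟩ := Finset.mem_filter.1 h
  have h3 : ∀ x, ε x < n := fun x => Finset.mem_range.1 (Fintype.mem_piFinset.1 h1 x)
  have hn : 0 < n := lt_of_le_of_lt (Nat.zero_le _) (h3 s(0, 0))
  have h4 : deg ε i < 4 * n := by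
    have e := Finset.add_sum_erase Finset.univ (fun j => ε s(i, j)) (Finset.mem_univ i)
    have b : ∑ j ∈ Finset.univ.erase i, ε s(i, j) ≤ (Finset.univ.erase i).card • (n - 1) :=
      Finset.sum_le_card_nsmul _ _ _ fun j _ => Nat.le_sub_one_of_lt (h3 _)
    rw [Finset.card_erase_of_mem (Finset.mem_univ i), Finset.card_univ, Fintype.card_fin,
      smul_eq_mul] at b
    rw [h2 i, zero_add] at e
    rw [deg, ← e]
    omega
  exact Nat.le_of_lt_succ ((Nat.div_lt_iff_lt_mul hn).2 h4)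

theorem HfUpper_even {ε : Ed → ℕ} (h : ∀ i, ε s(i, i) = 0) : Even (∑ i, deg ε i) := by
  simp only [deg, Fin.sum_univ_five, h]
  rw [Sym2.eq_swap (a := 1) (b := 0), Sym2.eq_swap (a := 2) (b := 0),
    Sym2.eq_swap (a := 3) (b := 0), Sym2.eq_swap (a := 4) (b := 0),
    Sym2.eq_swap (a := 2) (b := 1), Sym2.eq_swap (a := 3) (b := 1),
    Sym2.eq_swap (a := 4) (b := 1), Sym2.eq_swap (a := 3) (b := 2),
    Sym2.eq_swap (a := 4) (b := 2), Sym2.eq_swap (a := 4) (b := 3), Nat.even_iff]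
  omega

namespace Model
variable {k 𝕂 : Type} [Field k] [Field 𝕂] [Algebra k 𝕂] {n : ℕ} (M : Model k 𝕂 n)

theorem hf_le (hn : Odd n) :
    ∀ᶠ j : ℤ in atTop, hf (Rg k M.Γ) (n * j) ≤ PhiR n (n * j) := by
  obtain ⟨j0, hj0⟩ := finrank_Pl_le
  have hn0 : 0 < n := hn.pos
  filter_upwards [eventually_ge_atTop ((max j0 2 : ℕ) : ℤ)] with j hj
  lift j to ℕ using le_trans (Int.natCast_nonneg _) hj
  have hj' : max j0 2 ≤ j := by exact_mod_cast hj
  let d : (Ed → ℕ) → Fin 5 → ℕ := fun ε i => 2 * j - deg ε i / n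
  let φ : (Ed → ℕ) → MvPolynomial (Fin 4) k →ₗ[k] 𝕂 := fun ε =>
    (LinearMap.mulLeft k (mon M.w ε / M.x ^ (n * j))) ∘ₗ (MvPolynomial.aeval M.t).toLinearMap
  have hfd : ∀ ε, FiniteDimensional k (Pl k (d ε)) := fun ε => fd_Pl k _
  have hle : Rg k M.Γ (n * j : ℕ) ≤ (Zs n).sup fun ε => (Pl k (d ε)).map (φ ε) := by
    rw [Γ, Rg_Gam, Submodule.span_le]
    rintro _ ⟨e, he, rfl⟩
    have hdeg : ∀ i, deg (fun x => e x % n) i + n * deg (fun x => e x / n) i = 2 * (n * j) := by
      intro i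
      rw [← he.deg i, deg, deg, deg, Finset.mul_sum, ← Finset.sum_add_distrib]
      exact Finset.sum_congr rfl fun x _ => Nat.mod_add_div _ _
    have hdvd : ∀ i, n ∣ deg (fun x => e x % n) i := by
      intro i
      have h1 : n ∣ deg (fun x => e x % n) i + n * deg (fun x => e x / n) i := by
        rw [hdeg i]
        exact Dvd.dvd.mul_left (Dvd.intro _ rfl) 2
      exact (Nat.dvd_add_left (Dvd.intro _ rfl)).1 h1
    have hε : (fun x => e x % n) ∈ Zs n :=
      Finset.mem_filter.2 ⟨Fintype.mem_piFinset.2 fun x => Finset.mem_range.2 (Nat.mod_lt _ hn0),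
        fun i => by simp [he.diag i], hdvd⟩
    refine (Finset.le_sup (f := fun ε => (Pl k (d ε)).map (φ ε)) hε) ?_
    refine ⟨mon (pp MvPolynomial.X) fun x => e x / n,
      Submodule.subset_span ⟨_, fun i => by simp [he.diag i], fun i => ?_, rfl⟩, ?_⟩
    · obtain ⟨q, hq⟩ := hdvd i
      have h1 := hdeg i
      simp only [d]
      rw [hq] at h1 ⊢
      rw [Nat.mul_div_cancel_left _ hn0]
      have h2 : n * (q + deg (fun x => e x / n) i) = n * (2 * j) := by rw [mul_add, h1]; ring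
      have h3 := Nat.eq_of_mul_eq_mul_left hn0 h2
      omega
    · have h1 : MvPolynomial.aeval M.t
          (mon (pp (MvPolynomial.X : Fin 4 → MvPolynomial (Fin 4) k)) fun x => e x / n) =
          mon M.w (fun x => e x / n) ^ n := by
        rw [M.mon_pow, mon, mon, map_prod]
        simp only [map_pow, M.aeval_pp]
      have h2 : mon M.w e = mon M.w (fun x => e x % n) * mon M.w (fun x => e x / n) ^ n := by
        rw [mon, mon, mon, ← Finset.prod_pow, ← Finset.prod_mul_distrib]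
        refine Finset.prod_congr rfl fun x _ => ?_
        rw [← pow_mul, ← pow_add, Nat.mod_add_div']
      simp only [φ, LinearMap.comp_apply, AlgHom.toLinearMap_apply, LinearMap.mulLeft_apply]
      rw [h1, h2]
      ring
  have h1 : finrank k (Rg k M.Γ (n * j : ℕ)) ≤ ∑ ε ∈ Zs n, finrank k (Pl k (d ε)) :=
    (Submodule.finrank_mono hle).trans ((HfUpper_finrank_sup _ _).trans
      (Finset.sum_le_sum fun ε _ => Submodule.finrank_map_le _ _))
  have h2 : hf (Rg k M.Γ) (n * j) ≤ ∑ ε ∈ Zs n, (finrank k (Pl k (d ε)) : ℝ) := by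
    rw [hf]
    exact_mod_cast h1
  refine h2.trans ?_
  rw [Int.cast_natCast, ← sum_chiPl hn0]
  refine Finset.sum_le_sum fun ε hε => ?_
  have h3 := HfUpper_deg_le hε
  obtain ⟨-, hε1, hε2⟩ := Finset.mem_filter.1 hε
  have h4 : Even (∑ i, d ε i) := by
    have h5 := HfUpper_even hε1
    have h6 : ∑ i, deg ε i = n * ∑ i, deg ε i / n := by
      rw [Finset.mul_sum]
      exact Finset.sum_congr rfl fun i _ => (Nat.mul_div_cancel' (hε2 i)).symm
    rw [h6, Nat.even_mul] at h5
    have h7 := h5.resolve_left (Nat.not_even_iff_odd.2 hn)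
    simp only [d, Fin.sum_univ_five, Nat.even_iff] at h7 ⊢
    have := h3 0
    have := h3 1
    have := h3 2
    have := h3 3
    have := h3 4
    omega
  refine (hj0 k j (le_of_max_le_left hj') (d ε) (fun i => ?_) h4).trans (le_of_eq ?_)
  · have := h3 i
    simp only [d]
    generalize deg ε i / n = q at this ⊢
    omega
  · congr 1
    funext i
    have := h3 i
    simp only [d]
    rw [Nat.cast_sub (by omega), Nat.cast_div (hε2 i) (by exact_mod_cast hn0.ne')]
    push_cast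
    ring

theorem exists_hf_le (hn : Odd n) :
    ∃ C : ℝ, ∀ᶠ j : ℤ in atTop, hf (Rg k M.Γ) j ≤ C * (j : ℝ) ^ 2 := by
  refine ⟨eR n * ((2 * n + 1) ^ 2 / 2 + 1), ?_⟩
  filter_upwards [M.hf_le hn, eventually_ge_atTop (1 : ℤ)] with j h1 h2
  have hn1 : (1 : ℤ) ≤ n := by exact_mod_cast hn.pos
  have h3 : hf (Rg k M.Γ) j ≤ hf (Rg k M.Γ) (n * j) :=
    Nat.cast_le.2 (Submodule.finrank_mono (Rg_mono M.one_mem (by nlinarith)))
  refine h3.trans (h1.trans ?_)
  have he : 0 ≤ eR n := by unfold eR; positivity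
  have hj : (1 : ℝ) ≤ j := by exact_mod_cast h2
  have hn' : (1 : ℝ) ≤ n := by exact_mod_cast hn1
  have h4 : ((n : ℝ) * j - (n - 2) / 2) ^ 2 ≤ ((2 * n + 1) * j) ^ 2 :=
    sq_le_sq' (by nlinarith) (by nlinarith)
  have h5 : -(((n : ℝ) ^ 2 - 10) / 120) ≤ (j : ℝ) ^ 2 := by nlinarith
  have h6 := mul_le_mul_of_nonneg_left h4 he
  have h7 := mul_le_mul_of_nonneg_left h5 he
  unfold PhiR
  linarith

theorem e_le (hn : Odd n) (hR : Good (Rg k M.Γ)) : rk (Rg k M.Γ) ≤ eR n := by
  have H := hR.hasHP.vero hn.pos 0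
  have H' := hasHP_poly ((n : ℝ) ^ 2 * eR n) (-(eR n * n * ((n - 2) / 2)))
    (eR n * ((n - 2) / 2) ^ 2 / 2 - eR n * (((n : ℝ) ^ 2 - 10) / 120))
  have h := (H.le H' ((M.hf_le hn).mono fun j hj => by
    rw [add_zero]
    refine hj.trans (le_of_eq ?_)
    unfold PhiR
    ring)).1
  have hn' : (0 : ℝ) < n := by exact_mod_cast hn.pos
  exact le_of_mul_le_mul_left h (by positivity)

end Model

end Crest.Agent.R169
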