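import Crest.Agent.R169.Model

/-! # task R169/Kummer -/

set_option autoImplicit false
open Filter Module IntermediateField

namespace Crest.Agent.R169

open Polynomial in
theorem Kummer_minpoly {F K : Type} [Field F] [Field K] [Algebra F K] {n : ℕ} (hn : n.Prime)
    {c : F} (hc : ∀ b : F, b ^ n ≠ c) {β : K} (hβ : β ^ n = algebraMap F K c) :
    minpoly F β = X ^ n - C c :=
  (minpoly.eq_of_irreducible_of_monic (X_pow_sub_C_irreducible_of_prime hn hc) (by simp [hβ])
    (monic_X_pow_sub_C c hn.ne_zero)).symm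

open Polynomial in
theorem Kummer_trace {F K : Type} [Field F] [Field K] [Algebra F K] [FiniteDimensional F K] {n : ℕ}
    (hn : n.Prime) {c : F} (hc : ∀ b : F, b ^ n ≠ c) {β : K} (hβ : β ^ n = algebraMap F K c) :
    Algebra.trace F K β = 0 := by
  have h2 := hn.two_le
  rw [trace_eq_finrank_mul_minpoly_nextCoeff, Kummer_minpoly hn hc hβ, nextCoeff,
    natDegree_X_pow_sub_C, if_neg hn.ne_zero, coeff_sub, coeff_X_pow, coeff_C,
    if_neg (by omega), if_neg (by omega)]
  simp

/-- Kummer theory for a prime exponent without roots of unity: if no nontrivial monomial in the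
`a i` is an `n`-th power then the monomials in `n`-th roots of the `a i` are independent. -/
theorem kummer_linearIndependent {F L : Type} [Field F] [Field L] [Algebra F L] {n : ℕ}
    (hn : n.Prime) (hF : (n : F) ≠ 0) {m : ℕ} (a : Fin m → F) (ha0 : ∀ i, a i ≠ 0)
    (ha : ∀ c : Fin m → Fin n, (∃ b : F, b ^ n = ∏ i, a i ^ (c i : ℕ)) → ∀ i, (c i : ℕ) = 0)
    (s : Fin m → L) (hs : ∀ i, s i ^ n = algebraMap F L (a i)) :
    LinearIndependent F fun ε : Fin m → Fin n => ∏ i, s i ^ (ε i : ℕ) := by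
  induction m generalizing F with
  | zero =>
    refine linearIndependent_unique_iff.2 ?_
    simp
  | succ m ih =>
    have h2 := hn.two_le
    have ha1 : ∀ b : F, b ^ n ≠ a 0 := fun b hb => by
      have := ha (Fin.cons ⟨1, by omega⟩ fun _ => ⟨0, by omega⟩)
        ⟨b, by simp [Fin.prod_univ_succ, hb]⟩ 0
      simp at this
    have hmin := Kummer_minpoly hn ha1 (hs 0)
    have hint : IsIntegral F (s 0) :=
      ⟨_, Polynomial.monic_X_pow_sub_C (a 0) hn.ne_zero, by simp [hs 0]⟩
    let pb := IntermediateField.adjoin.powerBasis hint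
    have hdim : pb.dim = n := by
      rw [IntermediateField.adjoin.powerBasis_dim, hmin, Polynomial.natDegree_X_pow_sub_C]
    have hgen : (pb.gen : L) = s 0 := by
      rw [IntermediateField.adjoin.powerBasis_gen]; rfl
    have hgen' : pb.gen ^ n = algebraMap F F⟮s 0⟯ (a 0) := by
      apply Subtype.ext
      rw [IntermediateField.coe_pow, hgen, hs 0]; rfl
    have := pb.finite
    have hinj := (algebraMap F F⟮s 0⟯).injective
    have hF1 : (n : F⟮s 0⟯) ≠ 0 := fun h => hF (hinj (by rw [map_natCast, h, map_zero]))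
    have key := ih (F := F⟮s 0⟯) hF1 (fun i => algebraMap F F⟮s 0⟯ (a i.succ))
      (fun i h => ha0 _ (hinj (by rw [h, map_zero]))) ?_ (fun i => s i.succ)
      (fun i => by rw [hs]; rfl)
    · have hb : LinearIndependent F fun j : Fin n => pb.gen ^ (j : ℕ) := by
        have := pb.basis.linearIndependent.comp (Fin.cast hdim.symm) (Fin.cast_injective _)
        have e : pb.basis ∘ Fin.cast hdim.symm = fun j : Fin n => pb.gen ^ (j : ℕ) := by
          funext j; simp
        rwa [e] at this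
      have h3 := (linearIndependent_smul hb key).comp
        (fun ε : Fin (m + 1) → Fin n => (ε 0, fun i : Fin m => ε i.succ)) (fun ε ε' h => by
          funext i
          refine Fin.cases (congrArg Prod.fst h) (fun i => congrFun (congrArg Prod.snd h) i) i)
      have e : ((fun p : Fin n × (Fin m → Fin n) =>
          pb.gen ^ (p.1 : ℕ) • ∏ i : Fin m, s i.succ ^ (p.2 i : ℕ)) ∘
          fun ε : Fin (m + 1) → Fin n => (ε 0, fun i : Fin m => ε i.succ)) =
          fun ε : Fin (m + 1) → Fin n => ∏ i, s i ^ (ε i : ℕ) := by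
        funext ε
        rw [Fin.prod_univ_succ, Function.comp_apply, IntermediateField.smul_def, smul_eq_mul,
          IntermediateField.coe_pow, hgen]
      rwa [e] at h3
    · rintro c ⟨β, hβ⟩ i
      by_contra hci
      have hβ0 : β ≠ 0 := by
        rintro rfl
        rw [zero_pow hn.ne_zero] at hβ
        exact Finset.prod_ne_zero_iff.2
          (fun i _ => pow_ne_zero _ fun h => ha0 _ (hinj (by rw [h, map_zero]))) hβ.symm
      have htr : (Algebra.trace F F⟮s 0⟯).comp (LinearMap.mulLeft F β) = 0 := by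
        refine pb.basis.ext fun j => ?_
        rw [pb.coe_basis, LinearMap.comp_apply, LinearMap.mulLeft_apply, LinearMap.zero_apply]
        refine Kummer_trace hn (c := a 0 ^ (j : ℕ) * ∏ i : Fin m, a i.succ ^ (c i : ℕ))
          (fun b hb => hci ?_) ?_
        · have := ha (Fin.cons (Fin.cast hdim j) c) ⟨b, by simp [Fin.prod_univ_succ, hb]⟩ i.succ
          simpa using this
        · rw [mul_pow, hβ, ← pow_mul, mul_comm (j : ℕ) n, pow_mul, hgen', map_mul, map_prod, map_pow,
            mul_comm]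
          simp only [map_pow]
      have h4 := LinearMap.congr_fun htr β⁻¹
      rw [LinearMap.comp_apply, LinearMap.mulLeft_apply, mul_inv_cancel₀ hβ0, LinearMap.zero_apply,
        ← map_one (algebraMap F F⟮s 0⟯), Algebra.trace_algebraMap, pb.finrank, hdim, nsmul_one] at h4
      exact hF h4

theorem Kummer_dvd {R ι : Type} [CommRing R] [IsDomain R] [WfDvdMonoid R] [Fintype ι] {p : ι → R}
    (hp : ∀ i, Prime (p i)) (hd : ∀ i j, i ≠ j → ¬ p i ∣ p j) {n : ℕ} (hn : n ≠ 0) {r s : R}
    (hs : s ≠ 0) {c : ι → ℕ} (h : r ^ n = s ^ n * ∏ j, p j ^ c j) (i : ι) : n ∣ c i := by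
  have hr : r ≠ 0 := by
    rintro rfl
    rw [zero_pow hn] at h
    exact mul_ne_zero (pow_ne_zero _ hs)
      (Finset.prod_ne_zero_iff.2 fun j _ => pow_ne_zero _ (hp j).ne_zero) h.symm
  have h1 := congrArg (emultiplicity (p i)) h
  rw [emultiplicity_mul (hp i), emultiplicity_pow (hp i), emultiplicity_pow (hp i),
    Finset.emultiplicity_prod (hp i), Finset.sum_eq_single i
      (fun j _ hj => by rw [emultiplicity_pow (hp i), emultiplicity_eq_zero.2 (hd i j hj.symm),
        mul_zero]) (by simp), emultiplicity_pow_self_of_prime (hp i),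
    (FiniteMultiplicity.of_prime_left (hp i) hr).emultiplicity_eq_multiplicity,
    (FiniteMultiplicity.of_prime_left (hp i) hs).emultiplicity_eq_multiplicity] at h1
  have h2 : n * multiplicity (p i) r = n * multiplicity (p i) s + c i := by exact_mod_cast h1
  exact (Nat.dvd_add_right (dvd_mul_right _ _)).1 (h2 ▸ dvd_mul_right _ _)

section
open MvPolynomial
variable (k : Type) [Field k]

/-- The five linear forms. -/
noncomputable def Kummer_P : Fin 5 → MvPolynomial (Fin 2) k :=
  ![-X 0, -X 1, -1 - X 0, -1 - X 1, X 0 - X 1]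

variable {k} in
theorem Kummer_prime_of_invol (f : Fin 2 → MvPolynomial (Fin 2) k) (h : ∀ i, aeval f (f i) = X i)
    (i : Fin 2) : Prime (f i) := by
  have e : (aeval f : MvPolynomial (Fin 2) k →ₐ[k] _).comp (aeval f) = AlgHom.id k _ :=
    algHom_ext fun i => by rw [AlgHom.comp_apply, aeval_X, h, AlgHom.id_apply]
  have := (MulEquiv.prime_iff (AlgEquiv.ofAlgHom (aeval f) (aeval f) e e)).2
    (X_prime (R := k) (i := i))
  simpa using this

theorem Kummer_P_prime (i : Fin 5) : Prime (Kummer_P k i) := by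
  have h1 := Kummer_prime_of_invol (k := k) (fun i => -1 - X i) (fun i => by simp)
  have h2 := Kummer_prime_of_invol (k := k) ![X 0 - X 1, -X 1] (fun i => by fin_cases i <;> simp)
  fin_cases i
  · exact X_prime.neg
  · exact X_prime.neg
  · exact h1 0
  · exact h1 1
  · exact h2 0

theorem Kummer_P_not_dvd (i j : Fin 5) (hij : i ≠ j) : ¬ Kummer_P k i ∣ Kummer_P k j := by
  have key : ∀ (x : Fin 2 → k), eval x (Kummer_P k i) = 0 → eval x (Kummer_P k j) ≠ 0 →
      ¬ Kummer_P k i ∣ Kummer_P k j := fun x h0 h1 h => by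
    have := map_dvd (eval x) h
    rw [h0, zero_dvd_iff] at this
    exact h1 this
  fin_cases i <;> fin_cases j <;>
    first
    | exact absurd rfl hij
    | (refine key ![0, 0] ?_ ?_ <;> simp [Kummer_P] <;> done)
    | (refine key ![0, -1] ?_ ?_ <;> simp [Kummer_P] <;> done)
    | (refine key ![-1, 0] ?_ ?_ <;> simp [Kummer_P] <;> done)
    | (refine key ![-1, -1] ?_ ?_ <;> simp [Kummer_P])

variable {k} in
theorem Kummer_ind {𝕂 : Type} [Field 𝕂] [Algebra k 𝕂] {n : ℕ} (hn : n.Prime) (hk : (n : k) ≠ 0)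
    {y z : 𝕂} (hT : AlgebraicIndependent k ![y, z]) {σ : Fin 5 → 𝕂}
    (hσ : ∀ i, σ i ^ n = aeval ![y, z] (Kummer_P k i)) :
    LinearIndependent k⟮y, z⟯ fun ε : Fin 5 → Fin n => ∏ i, σ i ^ (ε i : ℕ) := by
  have hr : Set.range ![y, z] = {y, z} := by
    rw [Matrix.range_cons, Matrix.range_cons, Matrix.range_empty, Set.union_empty]; rfl
  have hmem : ∀ x : 𝕂, x ∈ k⟮y, z⟯ ↔ ∃ r s : MvPolynomial (Fin 2) k,
      x = aeval ![y, z] r / aeval ![y, z] s := fun x => by
    rw [← mem_adjoin_range_iff, hr]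
  have hinj : Function.Injective (aeval ![y, z] : MvPolynomial (Fin 2) k →ₐ[k] 𝕂) := hT
  have hne : ∀ i, aeval ![y, z] (Kummer_P k i) ≠ 0 := fun i h =>
    (Kummer_P_prime k i).ne_zero (hinj (by rw [h, map_zero]))
  refine kummer_linearIndependent hn ?_
    (fun i => ⟨aeval ![y, z] (Kummer_P k i), (hmem _).2 ⟨Kummer_P k i, 1, by simp⟩⟩)
    (fun i h => hne i (congrArg Subtype.val h)) ?_ σ hσ
  · intro h
    exact hk ((algebraMap k k⟮y, z⟯).injective (by rw [map_natCast, h, map_zero]))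
  · rintro c ⟨⟨b, hb⟩, h⟩ i
    have h1 : b ^ n = ∏ i, aeval ![y, z] (Kummer_P k i) ^ (c i : ℕ) := by
      simpa using congrArg Subtype.val h
    obtain ⟨r, s, rfl⟩ := (hmem b).1 hb
    have hs : aeval ![y, z] s ≠ 0 := fun h0 => by
      rw [h0, div_zero, zero_pow hn.ne_zero] at h1
      exact Finset.prod_ne_zero_iff.2 (fun i _ => pow_ne_zero _ (hne i)) h1.symm
    rw [div_pow, div_eq_iff (pow_ne_zero _ hs)] at h1
    have h2 : r ^ n = s ^ n * ∏ j, Kummer_P k j ^ (c j : ℕ) := hinj (by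
      simp only [map_pow, map_mul, map_prod]
      rw [h1, mul_comm])
    exact Nat.eq_zero_of_dvd_of_lt (Kummer_dvd (Kummer_P_prime k) (Kummer_P_not_dvd k) hn.ne_zero
      (fun h0 => hs (by rw [h0, map_zero])) h2 i) (c i).2

variable {k} in
theorem Kummer_model {𝕂 : Type} [Field 𝕂] [Algebra k 𝕂] {n : ℕ} (hn : n.Prime) (hk : (n : k) ≠ 0)
    {y z : 𝕂} (hT : AlgebraicIndependent k ![y, z]) {σ : Fin 5 → 𝕂}
    (hσ : ∀ i, σ i ^ n = aeval ![y, z] (Kummer_P k i))
    (hgen : IntermediateField.adjoin k (Set.range σ) = ⊤) : Nonempty (Model k 𝕂 n) := by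
  let W : Fin 5 → Fin 5 → 𝕂 := ![![1, 1, σ 0, σ 1, 1], ![1, 1, σ 2, σ 3, 1],
    ![σ 0, σ 2, 1, σ 4, 1], ![σ 1, σ 3, σ 4, 1, 1], ![1, 1, 1, 1, 1]]
  have hW : ∀ i j, W i j = W j i := fun i j => by fin_cases i <;> fin_cases j <;> rfl
  have h0 : σ 0 ^ n = -y := by simpa [Kummer_P] using hσ 0
  have h1 : σ 1 ^ n = -z := by simpa [Kummer_P] using hσ 1
  have h2 : σ 2 ^ n = -1 - y := by simpa [Kummer_P] using hσ 2
  have h3 : σ 3 ^ n = -1 - z := by simpa [Kummer_P] using hσ 3
  have h4 : σ 4 ^ n = y - z := by simpa [Kummer_P] using hσ 4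
  refine ⟨⟨![0, -1, y, z], Sym2.lift ⟨W, hW⟩, rfl, rfl, fun e => ?_, fun i => ?_, fun i => ?_, rfl,
    hT, ?_, ?_⟩⟩
  · induction e using Sym2.ind with
    | h i j =>
      fin_cases i <;> fin_cases j <;> simp +decide [W, pp, h0, h1, h2, h3, h4]
  · fin_cases i <;> rfl
  · fin_cases i <;> rfl
  · have := Kummer_ind hn hk hT hσ
    simp only [Fin.prod_univ_five] at this
    exact this
  · rw [eq_top_iff, ← hgen]
    refine IntermediateField.adjoin.mono _ _ _ ?_
    rintro _ ⟨i, rfl⟩
    fin_cases i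
    · exact ⟨s(0, 2), rfl⟩
    · exact ⟨s(0, 3), rfl⟩
    · exact ⟨s(1, 2), rfl⟩
    · exact ⟨s(1, 3), rfl⟩
    · exact ⟨s(2, 3), rfl⟩

end

theorem exists_model (k : Type) [Field k] {n : ℕ} (hn : n.Prime) (hk : (n : k) ≠ 0) :
    ∃ (𝕂 : Type) (_ : Field 𝕂) (_ : Algebra k 𝕂), Nonempty (Model k 𝕂 n) := by
  let Ω := AlgebraicClosure (FractionRing (MvPolynomial (Fin 2) k))
  let ι : MvPolynomial (Fin 2) k →ₐ[k] Ω := IsScalarTower.toAlgHom k _ Ω
  have hι : Function.Injective ι :=
    (algebraMap (FractionRing (MvPolynomial (Fin 2) k)) Ω).injective.comp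
      (IsFractionRing.injective (MvPolynomial (Fin 2) k) (FractionRing (MvPolynomial (Fin 2) k)))
  choose s hs using fun i => IsAlgClosed.exists_pow_nat_eq (ι (Kummer_P k i)) hn.pos
  let 𝕂 := IntermediateField.adjoin k (Set.range s)
  let σ : Fin 5 → 𝕂 := fun i => ⟨s i, subset_adjoin k _ ⟨i, rfl⟩⟩
  have hc : 𝕂.val.comp (MvPolynomial.aeval ![-σ 0 ^ n, -σ 1 ^ n]) = ι :=
    MvPolynomial.algHom_ext fun i => by
      have h0 := hs 0
      have h1 := hs 1
      fin_cases i
      · simp [σ, h0, Kummer_P]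
        exact neg_neg _
      · simp [σ, h1, Kummer_P]
        exact neg_neg _
  have hc' : ∀ f, ((MvPolynomial.aeval ![-σ 0 ^ n, -σ 1 ^ n] f : 𝕂) : Ω) = ι f :=
    fun f => AlgHom.congr_fun hc f
  refine ⟨𝕂, inferInstance, inferInstance,
    Kummer_model hn hk (y := -σ 0 ^ n) (z := -σ 1 ^ n) (σ := σ) ?_ (fun i => ?_) ?_⟩
  · intro f g h
    exact hι (by rw [← hc', ← hc', h])
  · apply Subtype.ext
    rw [hc', ← hs i]; rfl
  · apply lift_injective
    rw [lift_adjoin, IntermediateField.lift_top, ← Set.range_comp]; rfl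

end Crest.Agent.R169
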