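import Crest.Agent.R169.Lat

/-! # Calculus of Hilbert polynomials (task R169/HP) -/

set_option autoImplicit false
open Filter Module

namespace Crest.Agent.R169

section numeric
variable {h h' : ℤ → ℝ} {N d s N' d' s' : ℝ}

theorem HP_quad_nonneg {a b c : ℝ} (e : ∀ᶠ m : ℤ in atTop, 0 ≤ a * (m : ℝ) ^ 2 / 2 + b * m + c) :
    0 ≤ a ∧ (a = 0 → 0 ≤ b ∧ (b = 0 → 0 ≤ c)) := by
  have big : ∀ R : ℝ, ∃ x : ℝ, R < x ∧ 1 ≤ x ∧ 0 ≤ a * x ^ 2 / 2 + b * x + c := by
    intro R
    have h1 : ∀ᶠ m : ℤ in atTop, R < (m : ℝ) :=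
      (tendsto_intCast_atTop_atTop (R := ℝ)).eventually (eventually_gt_atTop R)
    have h2 : ∀ᶠ m : ℤ in atTop, (1 : ℝ) ≤ (m : ℝ) :=
      (tendsto_intCast_atTop_atTop (R := ℝ)).eventually (eventually_ge_atTop 1)
    obtain ⟨m, hm⟩ := (e.and (h1.and h2)).exists
    exact ⟨m, hm.2.1, hm.2.2, hm.1⟩
  refine ⟨?_, fun ha => ⟨?_, fun hb => ?_⟩⟩
  · by_contra ha
    push Not at ha
    obtain ⟨x, hx, hx1, h0⟩ := big (2 * (|b| + |c|) / (-a))
    rw [div_lt_iff₀ (by linarith)] at hx
    have h1 : b * x ≤ |b| * x := mul_le_mul_of_nonneg_right (le_abs_self b) (by linarith)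
    have h2 : c ≤ |c| * x := (le_abs_self c).trans (le_mul_of_one_le_right (abs_nonneg c) hx1)
    nlinarith
  · by_contra hb
    push Not at hb
    obtain ⟨x, hx, hx1, h0⟩ := big (c / (-b))
    rw [div_lt_iff₀ (by linarith)] at hx
    rw [ha] at h0
    nlinarith
  · obtain ⟨x, hx, hx1, h0⟩ := big 0
    rw [ha, hb] at h0
    linarith

theorem HP_quad_le (e : ∀ᶠ m : ℤ in atTop,
    N * (m : ℝ) ^ 2 / 2 + d * m + s ≤ N' * (m : ℝ) ^ 2 / 2 + d' * m + s') :
    N ≤ N' ∧ (N = N' → d ≤ d' ∧ (d = d' → s ≤ s')) := by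
  have := HP_quad_nonneg (a := N' - N) (b := d' - d) (c := s' - s) (e.mono fun m hm => by linarith)
  refine ⟨by linarith [this.1], fun hN => ⟨by linarith [(this.2 (by linarith)).1], fun hd => ?_⟩⟩
  linarith [(this.2 (by linarith)).2 (by linarith)]

theorem HasHP.unique (H : HasHP h N d s) (H' : HasHP h N' d' s') : N = N' ∧ d = d' ∧ s = s' := by
  have h1 := HP_quad_le (N := N) (d := d) (s := s) (N' := N') (d' := d') (s' := s')
    ((H.and H').mono fun m hm => by rw [← hm.1, ← hm.2])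
  have h2 := HP_quad_le (N := N') (d := d') (s := s') (N' := N) (d' := d) (s' := s)
    ((H.and H').mono fun m hm => by rw [← hm.1, ← hm.2])
  have hN : N = N' := le_antisymm h1.1 h2.1
  have hd : d = d' := le_antisymm (h1.2 hN).1 (h2.2 hN.symm).1
  exact ⟨hN, hd, le_antisymm ((h1.2 hN).2 hd) ((h2.2 hN.symm).2 hd.symm)⟩

theorem HasHP.congr (H : HasHP h N d s) (e : ∀ᶠ m in atTop, h m = h' m) : HasHP h' N d s := by
  exact (Filter.Eventually.and H e).mono fun m hm => by rw [← hm.2, hm.1]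

theorem HasHP.add (H : HasHP h N d s) (H' : HasHP h' N' d' s') :
    HasHP (fun m => h m + h' m) (N + N') (d + d') (s + s') := by
  exact (Filter.Eventually.and H H').mono fun m hm => by
    simp only [hm.1, hm.2]; ring

theorem HasHP.sub (H : HasHP h N d s) (H' : HasHP h' N' d' s') :
    HasHP (fun m => h m - h' m) (N - N') (d - d') (s - s') := by
  exact (Filter.Eventually.and H H').mono fun m hm => by
    simp only [hm.1, hm.2]; ring

theorem HasHP.const_mul (H : HasHP h N d s) (c : ℝ) :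
    HasHP (fun m => c * h m) (c * N) (c * d) (c * s) := by
  exact Filter.Eventually.mono H fun m hm => by
    simp only [hm]; ring

theorem HasHP.sum {ι : Type} (t : Finset ι) {h : ι → ℤ → ℝ} {N d s : ι → ℝ}
    (H : ∀ i ∈ t, HasHP (h i) (N i) (d i) (s i)) :
    HasHP (fun m => ∑ i ∈ t, h i m) (∑ i ∈ t, N i) (∑ i ∈ t, d i) (∑ i ∈ t, s i) := by
  classical
  induction t using Finset.induction_on with
  | empty => exact Filter.Eventually.of_forall fun m => by simp
  | insert a t ha ih =>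
    simp only [Finset.sum_insert ha]
    exact (H a (Finset.mem_insert_self a t)).add
      (ih fun i hi => H i (Finset.mem_insert_of_mem hi))

theorem HasHP.shift (H : HasHP h N d s) (l : ℤ) :
    HasHP (fun m => h (m + l)) N (d + N * l) (N * (l : ℝ) ^ 2 / 2 + d * l + s) := by
  have ht : Tendsto (fun m : ℤ => m + l) atTop atTop := tendsto_atTop_add_const_right _ _ tendsto_id
  exact (ht.eventually H).mono fun m hm => by
    simp only [hm]; push_cast; ring

theorem HasHP.vero (H : HasHP h N d s) {n : ℕ} (hn : 0 < n) (i : ℤ) :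
    HasHP (fun j => h (n * j + i)) ((n : ℝ) ^ 2 * N) (n * (d + N * i))
      (N * (i : ℝ) ^ 2 / 2 + d * i + s) := by
  have hn' : (0 : ℤ) < n := by exact_mod_cast hn
  have ht : Tendsto (fun j : ℤ => (n : ℤ) * j + i) atTop atTop :=
    tendsto_atTop_add_const_right _ _ (Tendsto.const_mul_atTop' hn' tendsto_id)
  exact (ht.eventually H).mono fun m hm => by
    simp only [hm]; push_cast; ring

/-- Lexicographic comparison of the coefficients. -/
theorem HasHP.le (H : HasHP h N d s) (H' : HasHP h' N' d' s') (e : ∀ᶠ m in atTop, h m ≤ h' m) :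
    N ≤ N' ∧ (N = N' → d ≤ d' ∧ (d = d' → s ≤ s')) := by
  exact HP_quad_le (((Filter.Eventually.and H H').and e).mono fun m hm => by
    rw [← hm.1.1, ← hm.1.2]; exact hm.2)

/-- A bounded error term does not change the two leading coefficients. -/
theorem HasHP.eq_of_bounded (H : HasHP h N d s) (H' : HasHP h' N' d' s') (C : ℝ)
    (e : ∀ᶠ m in atTop, |h m - h' m| ≤ C) : N = N' ∧ d = d' := by
  have h1 := HP_quad_le (N := N) (d := d) (s := s) (N' := N') (d' := d') (s' := s' + C)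
    (((Filter.Eventually.and H H').and e).mono fun m hm => by
      have := (abs_le.1 hm.2).2
      rw [hm.1.1, hm.1.2] at this; linarith)
  have h2 := HP_quad_le (N := N') (d := d') (s := s') (N' := N) (d' := d) (s' := s + C)
    (((Filter.Eventually.and H H').and e).mono fun m hm => by
      have := (abs_le.1 hm.2).1
      rw [hm.1.1, hm.1.2] at this; linarith)
  have hN : N = N' := le_antisymm h1.1 h2.1
  exact ⟨hN, le_antisymm (h1.2 hN).1 (h2.2 hN.symm).1⟩

theorem hasHP_poly (N d s : ℝ) : HasHP (fun m => N * (m : ℝ) ^ 2 / 2 + d * m + s) N d s := by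
  exact Filter.Eventually.of_forall fun m => rfl

end numeric

section fam
variable {k : Type} [Field k] {E : Type} [AddCommGroup E] [Module k E]
  {E' : Type} [AddCommGroup E'] [Module k E'] {E'' : Type} [AddCommGroup E''] [Module k E'']

theorem HP_hasHP_of_ex {V : Fam k E} (h : ∃ t : ℝ × ℝ × ℝ, HasHP (hf V) t.1 t.2.1 t.2.2) :
    HasHP (hf V) (rk V) (dg V) (ch V) := by
  simp only [rk, dg, ch, hp, dif_pos h]
  exact h.choose_spec

/-- `piF` as a product of subspaces. -/
def HP_piEquiv (ι : Type) (V : Fam k E) (m : ℤ) : piF ι V m ≃ₗ[k] (ι → V m) where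
  toFun := fun v i => ⟨v.1 i, mem_piF.1 v.2 i⟩
  invFun := fun v => ⟨fun i => v i, mem_piF.2 fun i => (v i).2⟩
  map_add' := fun _ _ => rfl
  map_smul' := fun _ _ => rfl
  left_inv := fun _ => rfl
  right_inv := fun _ => rfl

theorem Good.hasHP {V : Fam k E} (h : Good V) : HasHP (hf V) (rk V) (dg V) (ch V) := by
  obtain ⟨N, d, s, H⟩ := h.ex
  exact HP_hasHP_of_ex ⟨(N, d, s), H⟩

theorem HasHP.eq_inv {V : Fam k E} {N d s : ℝ} (h : HasHP (hf V) N d s) :
    rk V = N ∧ dg V = d ∧ ch V = s := by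
  exact (HP_hasHP_of_ex ⟨(N, d, s), h⟩).unique h

theorem Good.hf_eq {V : Fam k E} (h : Good V) : ∀ᶠ m : ℤ in atTop, hf V m = HP V m := by
  exact h.hasHP

/-- Families with eventually equal Hilbert functions have the same invariants. -/
theorem inv_congr {U : Fam k E} {V : Fam k E'} (e : ∀ᶠ m in atTop, hf U m = hf V m) :
    rk U = rk V ∧ dg U = dg V ∧ ch U = ch V := by
  by_cases h : ∃ t : ℝ × ℝ × ℝ, HasHP (hf U) t.1 t.2.1 t.2.2
  · have h1 := (HP_hasHP_of_ex h).congr e
    have h2 := h1.eq_inv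
    exact ⟨h2.1.symm, h2.2.1.symm, h2.2.2.symm⟩
  · have h' : ¬ ∃ t : ℝ × ℝ × ℝ, HasHP (hf V) t.1 t.2.1 t.2.2 := by
      rintro ⟨t, ht⟩
      exact h ⟨t, ht.congr (e.mono fun m hm => hm.symm)⟩
    simp only [rk, dg, ch, hp, dif_neg h, dif_neg h', and_self]

theorem inv_congr' {U V : Fam k E} (e : ∀ᶠ m in atTop, U m = V m) :
    rk U = rk V ∧ dg U = dg V ∧ ch U = ch V := by
  exact inv_congr (e.mono fun m hm => by unfold hf; rw [hm])

theorem inv_add {U : Fam k E} {V : Fam k E'} {W : Fam k E''} (hU : Good U) (hV : Good V)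
    (e : ∀ᶠ m in atTop, hf W m = hf U m + hf V m) :
    rk W = rk U + rk V ∧ dg W = dg U + dg V ∧ ch W = ch U + ch V := by
  exact ((hU.hasHP.add hV.hasHP).congr (e.mono fun m hm => hm.symm)).eq_inv

theorem inv_le {U : Fam k E} {V : Fam k E'} (hU : Good U) (hV : Good V)
    (e : ∀ᶠ m in atTop, hf U m ≤ hf V m) :
    rk U ≤ rk V ∧ (rk U = rk V → dg U ≤ dg V ∧ (dg U = dg V → ch U ≤ ch V)) := by
  exact hU.hasHP.le hV.hasHP e

theorem hf_nonneg (V : Fam k E) (m : ℤ) : 0 ≤ hf V m := by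
  exact Nat.cast_nonneg _

theorem hf_mono {U V : Fam k E} {m : ℤ} [FiniteDimensional k (V m)] (h : U m ≤ V m) :
    hf U m ≤ hf V m := by
  exact Nat.cast_le.2 (Submodule.finrank_mono h)

theorem inv_mono {U V : Fam k E} (hU : Good U) (hV : Good V) (h : U ≤ V) :
    rk U ≤ rk V ∧ (rk U = rk V → dg U ≤ dg V ∧ (dg U = dg V → ch U ≤ ch V)) := by
  exact inv_le hU hV (Filter.Eventually.of_forall fun m => by
    have := hV.fd m
    exact hf_mono (h m))

theorem hf_bot (m : ℤ) : hf (⊥ : Fam k E) m = 0 := by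
  simp [hf]

theorem good_bot : Good (⊥ : Fam k E) := by
  refine ⟨fun m => ?_, 0, 0, 0, Filter.Eventually.of_forall fun m => by simp [hf_bot]⟩
  change FiniteDimensional k (⊥ : Submodule k E)
  infer_instance

theorem inv_bot : rk (⊥ : Fam k E) = 0 ∧ dg (⊥ : Fam k E) = 0 ∧ ch (⊥ : Fam k E) = 0 := by
  exact HasHP.eq_inv (Filter.Eventually.of_forall fun m => by simp [hf_bot])

theorem rk_nonneg (V : Fam k E) : 0 ≤ rk V := by
  by_cases h : ∃ t : ℝ × ℝ × ℝ, HasHP (hf V) t.1 t.2.1 t.2.2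
  · exact ((hasHP_poly 0 0 0).le (HP_hasHP_of_ex h)
      (Filter.Eventually.of_forall fun m => by simpa using hf_nonneg V m)).1
  · simp only [rk, hp, dif_neg h]; exact le_rfl

theorem hf_sup_add_inf (U V : Fam k E) (m : ℤ) [FiniteDimensional k (U m)]
    [FiniteDimensional k (V m)] : hf (U ⊔ V) m + hf (U ⊓ V) m = hf U m + hf V m := by
  have := Submodule.finrank_sup_add_finrank_inf_eq (U m) (V m)
  simp only [hf]
  exact_mod_cast this

theorem Good.shift {V : Fam k E} (h : Good V) (l : ℤ) : Good (shift V l) := by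
  exact ⟨fun m => h.fd (m + l), _, _, _, h.hasHP.shift l⟩

theorem inv_shift {V : Fam k E} (h : Good V) (l : ℤ) :
    rk (shift V l) = rk V ∧ dg (shift V l) = dg V + rk V * l ∧ ch (shift V l) = HP V l := by
  exact HasHP.eq_inv (V := Crest.Agent.R169.shift V l) (h.hasHP.shift l)

theorem Good.vero {V : Fam k E} (h : Good V) {n : ℕ} (hn : 0 < n) (i : ℤ) : Good (vero V n i) := by
  exact ⟨fun m => h.fd (n * m + i), _, _, _, h.hasHP.vero hn i⟩

theorem inv_vero {V : Fam k E} (h : Good V) {n : ℕ} (hn : 0 < n) (i : ℤ) :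
    rk (vero V n i) = (n : ℝ) ^ 2 * rk V ∧ dg (vero V n i) = n * (dg V + rk V * i) ∧
      ch (vero V n i) = HP V i := by
  exact HasHP.eq_inv (V := Crest.Agent.R169.vero V n i) (h.hasHP.vero hn i)

theorem hf_piF (ι : Type) [Fintype ι] (V : Fam k E) (m : ℤ) [FiniteDimensional k (V m)] :
    hf (piF ι V) m = Fintype.card ι * hf V m := by
  simp only [hf]
  rw [(HP_piEquiv ι V m).finrank_eq, Module.finrank_pi_fintype]
  simp

theorem Good.piF (ι : Type) [Fintype ι] {V : Fam k E} (h : Good V) : Good (piF ι V) := by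
  refine ⟨fun m => ?_, _, _, _, (h.hasHP.const_mul (Fintype.card ι)).congr
    (Filter.Eventually.of_forall fun m => ?_)⟩
  · have := h.fd m
    exact (HP_piEquiv ι V m).symm.finiteDimensional
  · have := h.fd m
    exact (hf_piF ι V m).symm

theorem inv_piF (ι : Type) [Fintype ι] {V : Fam k E} (h : Good V) :
    rk (piF ι V) = Fintype.card ι * rk V ∧ dg (piF ι V) = Fintype.card ι * dg V ∧
      ch (piF ι V) = Fintype.card ι * ch V := by
  refine HasHP.eq_inv ((h.hasHP.const_mul (Fintype.card ι)).congr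
    (Filter.Eventually.of_forall fun m => ?_))
  have := h.fd m
  exact (hf_piF ι V m).symm

theorem cc_le_HP {V : Fam k E} (h : 0 < rk V) (m : ℝ) : cc V ≤ HP V m := by
  have e : HP V m - cc V = (rk V * m + dg V) ^ 2 / (2 * rk V) := by
    simp only [HP, cc]; field_simp; ring
  have : 0 ≤ (rk V * m + dg V) ^ 2 / (2 * rk V) := by positivity
  linarith

theorem cc_eq_HP {V : Fam k E} (h : 0 < rk V) : cc V = HP V (-dg V / rk V) := by
  simp only [HP, cc]; field_simp; ring

/-- The increments of an eventually polynomial Hilbert function which vanishes in very negative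
degree grow at most linearly. -/
theorem Good.exists_diff_bound {V : Fam k E} (h : Good V) (h0 : ∃ m0, ∀ m < m0, V m = ⊥) (n : ℕ) :
    ∃ C : ℝ, ∀ m : ℤ, hf V (m + n) - hf V m ≤ C * (|(m : ℝ)| + 1) := by
  obtain ⟨m0, hm0⟩ := h0
  obtain ⟨M, hM⟩ := eventually_atTop.1 h.hasHP
  set S : ℝ := ∑ j ∈ Finset.Icc (m0 - n) M, hf V (j + n) with hS
  have hS0 : 0 ≤ S := Finset.sum_nonneg fun j _ => hf_nonneg V _
  have hr := rk_nonneg V
  have hn0 : (0 : ℝ) ≤ n := Nat.cast_nonneg n
  set A : ℝ := rk V * n with hA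
  set B : ℝ := rk V * n ^ 2 / 2 + |dg V| * n with hB
  have hA0 : 0 ≤ A := by positivity
  have hB0 : 0 ≤ B := by positivity
  refine ⟨A + B + S, fun m => ?_⟩
  have ha : 0 ≤ |(m : ℝ)| := abs_nonneg _
  by_cases h1 : M ≤ m
  · rw [hM m h1, hM (m + n) (by omega)]
    push_cast
    have e : rk V * ((m : ℝ) + n) ^ 2 / 2 + dg V * ((m : ℝ) + n) + ch V -
        (rk V * (m : ℝ) ^ 2 / 2 + dg V * m + ch V) = A * m + (rk V * n ^ 2 / 2 + dg V * n) := by
      rw [hA]; ring
    rw [e]
    have h2 : A * m ≤ A * |(m : ℝ)| := mul_le_mul_of_nonneg_left (le_abs_self _) hA0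
    have h3 : dg V * n ≤ |dg V| * n := mul_le_mul_of_nonneg_right (le_abs_self _) hn0
    nlinarith [mul_nonneg hB0 ha, mul_nonneg hS0 ha]
  · by_cases h2 : m < m0 - n
    · have e1 : hf V (m + n) = 0 := by
        unfold hf; rw [hm0 (m + n) (by omega)]; simp
      have := hf_nonneg V m
      rw [e1]
      have : 0 ≤ (A + B + S) * (|(m : ℝ)| + 1) :=
        mul_nonneg (add_nonneg (add_nonneg hA0 hB0) hS0) (by linarith)
      linarith
    · have h3 : hf V (m + n) ≤ S :=
        Finset.single_le_sum (f := fun j => hf V (j + n)) (fun j _ => hf_nonneg V _)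
          (Finset.mem_Icc.2 ⟨by omega, by omega⟩)
      have := hf_nonneg V m
      nlinarith [mul_nonneg hB0 ha, mul_nonneg hS0 ha, mul_nonneg hA0 ha]

end fam

section maps
variable {k : Type} [Field k] {𝕃 : Type} [Field 𝕃] [Algebra k 𝕃]
  {E : Type} [AddCommGroup E] [Module k E] [Module 𝕃 E] [IsScalarTower k 𝕃 E]
  {E' : Type} [AddCommGroup E'] [Module k E'] [Module 𝕃 E'] [IsScalarTower k 𝕃 E']

theorem HP_mem_iSup_cyc {ι : Type} [Fintype ι] (S : Fam k 𝕃) (v : ι → E) (a : ι → ℤ) (m : ℤ)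
    (w : E) :
    w ∈ (⨆ i, cyc S (v i) (a i)) m ↔
      ∃ r : ι → 𝕃, (∀ i, r i ∈ S (m - a i)) ∧ w = ∑ i, r i • v i := by
  classical
  rw [iSup_apply]
  constructor
  · intro hw
    refine Submodule.iSup_induction (motive := fun w =>
      ∃ r : ι → 𝕃, (∀ i, r i ∈ S (m - a i)) ∧ w = ∑ i, r i • v i) _ hw ?_ ?_ ?_
    · intro i x hx
      obtain ⟨r, hr, rfl⟩ := mem_cyc.1 hx
      refine ⟨Pi.single i r, fun j => ?_, ?_⟩
      · by_cases hj : j = i
        · subst hj; simpa using hr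
        · simp [Pi.single_eq_of_ne hj]
      · rw [Finset.sum_eq_single i]
        · simp
        · intro j _ hj; simp [Pi.single_eq_of_ne hj]
        · simp
    · exact ⟨0, fun i => Submodule.zero_mem _, by simp⟩
    · rintro x y ⟨r, hr, rfl⟩ ⟨r', hr', rfl⟩
      exact ⟨r + r', fun i => Submodule.add_mem _ (hr i) (hr' i), by
        simp [add_smul, Finset.sum_add_distrib]⟩
  · rintro ⟨r, hr, rfl⟩
    exact Submodule.sum_mem _ fun i _ =>
      Submodule.mem_iSup_of_mem i (mem_cyc.2 ⟨r i, hr i, rfl⟩)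

theorem hf_mapF_add_cut (φ : E →ₗ[𝕃] E') (V : Fam k E) (m : ℤ) [FiniteDimensional k (V m)] :
    hf V m = hf (mapF φ V) m + hf (cut V (LinearMap.ker φ)) m := by
  have h := LinearMap.finrank_range_add_finrank_ker ((φ.restrictScalars k).domRestrict (V m))
  rw [LinearMap.range_domRestrict, LinearMap.ker_domRestrict] at h
  have e : finrank k (Submodule.comap (V m).subtype (LinearMap.ker (φ.restrictScalars k))) =
      finrank k (cut V (LinearMap.ker φ) m) := by
    rw [← Submodule.finrank_map_subtype_eq, Submodule.map_comap_subtype]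
    rfl
  rw [e] at h
  simp only [hf]
  exact_mod_cast h.symm

theorem hf_mapF_of_injOn (φ : E →ₗ[𝕃] E') (V : Fam k E) (m : ℤ)
    (h : ∀ v ∈ V m, φ v = 0 → v = 0) : hf (mapF φ V) m = hf V m := by
  have hi : Function.Injective ((φ.restrictScalars k).domRestrict (V m)) := by
    rw [← LinearMap.ker_eq_bot, LinearMap.ker_eq_bot']
    intro v hv
    exact Subtype.ext (h v v.2 hv)
  have e := (LinearEquiv.ofInjective _ hi).finrank_eq
  rw [LinearMap.range_domRestrict] at e
  simp only [hf]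
  exact_mod_cast e.symm

theorem hf_comapF (φ : E →ₗ[𝕃] E') (hφ : Function.Injective φ) (V : Fam k E') (m : ℤ) :
    hf (comapF φ V) m = hf (cut V (LinearMap.range φ)) m := by
  rw [← hf_mapF_of_injOn φ (comapF φ V) m fun v _ hv => hφ (by rw [hv, map_zero])]
  have : mapF φ (comapF φ V) m = cut V (LinearMap.range φ) m := by
    ext w
    rw [mem_mapF, mem_cut]
    constructor
    · rintro ⟨v, hv, rfl⟩
      exact ⟨hv, v, rfl⟩
    · rintro ⟨hw, v, rfl⟩
      exact ⟨v, hw, rfl⟩
  unfold hf; rw [this]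

theorem hf_cyc (S : Fam k 𝕃) {v : E} (hv : v ≠ 0) (l m : ℤ) : hf (cyc S v l) m = hf S (m - l) := by
  have hi : Function.Injective ((LinearMap.toSpanSingleton 𝕃 E v).restrictScalars k) :=
    fun a b hab => smul_left_injective 𝕃 hv hab
  exact congrArg (Nat.cast : ℕ → ℝ)
    (Submodule.equivMapOfInjective _ hi (S (m - l))).finrank_eq.symm

/-- The Hilbert function of a free family. -/
theorem hf_iSup_cyc {ι : Type} [Fintype ι] (S : Fam k 𝕃) (hS : ∀ m, FiniteDimensional k (S m))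
    {v : ι → E} (hv : LinearIndependent 𝕃 v) (a : ι → ℤ) (m : ℤ) :
    hf (⨆ i, cyc S (v i) (a i)) m = ∑ i, hf S (m - a i) := by
  let f : (∀ i, S (m - a i)) →ₗ[k] E :=
    { toFun := fun r => ∑ i, (r i : 𝕃) • v i
      map_add' := fun r r' => by simp [add_smul, Finset.sum_add_distrib]
      map_smul' := fun c r => by simp [Finset.smul_sum, smul_assoc] }
  have hi : Function.Injective f := by
    rw [← LinearMap.ker_eq_bot, LinearMap.ker_eq_bot']
    intro r hr
    funext i
    exact Subtype.ext (Fintype.linearIndependent_iff.1 hv (fun i => (r i : 𝕃)) hr i)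
  have hr : LinearMap.range f = (⨆ i, cyc S (v i) (a i)) m := by
    ext w
    rw [HP_mem_iSup_cyc]
    constructor
    · rintro ⟨r, rfl⟩
      exact ⟨fun i => r i, fun i => (r i).2, rfl⟩
    · rintro ⟨r, hr, rfl⟩
      exact ⟨fun i => ⟨r i, hr i⟩, rfl⟩
  have e := (LinearEquiv.ofInjective _ hi).finrank_eq
  have := fun i => hS (m - a i)
  rw [hr, Module.finrank_pi_fintype] at e
  simp only [hf]
  exact_mod_cast e.symm

theorem mem_iSup_cyc {ι : Type} [Fintype ι] (S : Fam k 𝕃) (v : ι → E) (a : ι → ℤ) (m : ℤ) (w : E) :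
    w ∈ (⨆ i, cyc S (v i) (a i)) m ↔ ∃ r : ι → 𝕃, (∀ i, r i ∈ S (m - a i)) ∧ w = ∑ i, r i • v i := by
  exact HP_mem_iSup_cyc S v a m w

theorem cut_top (V : Fam k E) : cut V (⊤ : Submodule 𝕃 E) = V := by
  funext m
  simp [cut]

theorem cut_bot (V : Fam k E) : cut V (⊥ : Submodule 𝕃 E) = ⊥ := by
  funext m
  simp [cut]

end maps

end Crest.Agent.R169
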