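import Crest.Agent.R169.LatBasic
import Crest.Agent.R169.HP

/-! # task R169/NoethNorm -/

set_option autoImplicit false
open Filter Module IntermediateField

namespace Crest.Agent.R169

namespace NoethNorm
variable {𝕃 : Type} [Field 𝕃] [CharZero 𝕃]

/-- `W` is a reduction of `V`. -/
def Red (V W : Submodule ℚ 𝕃) : Prop := ∃ E : ℕ, V ^ (E + 1) ≤ W * V ^ E

/-- The span of `1` and a family. -/
def Wl {ι : Type} (l : ι → 𝕃) : Submodule ℚ 𝕃 := Submodule.span ℚ (insert 1 (Set.range l))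

theorem one_mem_Wl {ι : Type} (l : ι → 𝕃) : (1 : 𝕃) ∈ Wl l :=
  Submodule.subset_span (Set.mem_insert _ _)

theorem mem_Wl {ι : Type} (l : ι → 𝕃) (i : ι) : l i ∈ Wl l :=
  Submodule.subset_span (Set.mem_insert_of_mem _ ⟨i, rfl⟩)

theorem Wl_le {ι : Type} {l : ι → 𝕃} {V : Submodule ℚ 𝕃} (h1 : (1 : 𝕃) ∈ V) (h : ∀ i, l i ∈ V) :
    Wl l ≤ V := by
  refine Submodule.span_le.2 ?_
  rintro _ (rfl | ⟨i, rfl⟩)
  · exact h1
  · exact h i

theorem Red.trans {V W W' : Submodule ℚ 𝕃} (h : Red V W) (h' : Red W W') (hWV : W ≤ V) :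
    Red V W' := by
  obtain ⟨b, hb⟩ := h
  obtain ⟨a, ha⟩ := h'
  have key : ∀ a : ℕ, V ^ (b + a) ≤ W ^ a * V ^ b := by
    intro a
    induction a with
    | zero => simp
    | succ a ih =>
      calc V ^ (b + (a + 1)) = V ^ (b + a) * V := pow_succ _ _
        _ ≤ W ^ a * V ^ b * V := mul_le_mul_left ih _
        _ = W ^ a * V ^ (b + 1) := by rw [pow_succ, mul_assoc]
        _ ≤ W ^ a * (W * V ^ b) := mul_le_mul_right hb _
        _ = W ^ (a + 1) * V ^ b := by rw [pow_succ, mul_assoc]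
  refine ⟨b + a, (key (a + 1)).trans ?_⟩
  calc W ^ (a + 1) * V ^ b ≤ W' * W ^ a * V ^ b := mul_le_mul_left ha _
    _ ≤ W' * V ^ a * V ^ b := by
        gcongr
    _ = W' * V ^ (b + a) := by rw [mul_assoc, ← pow_add, add_comm]

theorem red_step {W W' : Submodule ℚ 𝕃} {u : 𝕃} (hu : u ∈ W) (hW : W ≤ W' ⊔ Submodule.span ℚ {u})
    {d : ℕ} (hd : u ^ (d + 1) ∈ W' * W ^ d) : Red W W' := by
  have key : ∀ e : ℕ, W ^ (e + 1) ≤ W' * W ^ e ⊔ Submodule.span ℚ {u ^ (e + 1)} := by
    intro e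
    induction e with
    | zero => simpa using hW
    | succ e ih =>
      calc W ^ (e + 1 + 1) = W ^ (e + 1) * W := pow_succ _ _
        _ ≤ (W' * W ^ e ⊔ Submodule.span ℚ {u ^ (e + 1)}) * W := mul_le_mul_left ih _
        _ = W' * W ^ (e + 1) ⊔ Submodule.span ℚ {u ^ (e + 1)} * W := by
            rw [Submodule.sup_mul, mul_assoc, ← pow_succ]
        _ ≤ W' * W ^ (e + 1) ⊔ Submodule.span ℚ {u ^ (e + 1)} * (W' ⊔ Submodule.span ℚ {u}) :=
            sup_le_sup_left (mul_le_mul_right hW _) _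
        _ ≤ _ := by
            rw [Submodule.mul_sup, Submodule.span_mul_span, Set.singleton_mul_singleton,
              ← pow_succ, ← sup_assoc]
            refine sup_le_sup_right (sup_le le_rfl ?_) _
            rw [mul_comm]
            exact mul_le_mul_right ((Submodule.span_singleton_le_iff_mem _ _).2
              (Submodule.pow_mem_pow _ hu _)) _
  exact ⟨d, (key d).trans (sup_le le_rfl ((Submodule.span_singleton_le_iff_mem _ _).2 hd))⟩

/-- The part of `W ^ e` coming from `W'`. -/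
def Jf (W W' : Submodule ℚ 𝕃) : ℕ → Submodule ℚ 𝕃
  | 0 => ⊥
  | e + 1 => W' * W ^ e

theorem mul_mem_Jf {W W' : Submodule ℚ 𝕃} {u a : 𝕃} (hu : u ∈ W) :
    ∀ {e : ℕ}, a ∈ Jf W W' e → u * a ∈ Jf W W' (e + 1)
  | 0, h => by
    rw [(Submodule.mem_bot ℚ).1 h, mul_zero]
    exact zero_mem _
  | e + 1, h => by
    have := Submodule.mul_mem_mul hu h
    change u * a ∈ W * (W' * W ^ e) at this
    change u * a ∈ W' * W ^ (e + 1)
    rwa [pow_succ', mul_left_comm]

open MvPolynomial in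
theorem homog_mem {σ : Type} {W W' : Submodule ℚ 𝕃} {u : 𝕃} (hu : u ∈ W) (l : σ → 𝕃)
    (q : σ → ℚ) (hl : ∀ i, l i ∈ W) (hq : ∀ i, l i - q i • u ∈ W') {e : ℕ}
    {F : MvPolynomial σ ℚ} (hF : F.IsHomogeneous e) :
    aeval l F ∈ W ^ e ∧ aeval l F - eval q F • u ^ e ∈ Jf W W' e := by
  have hF' : F ∈ homogeneousSubmodule σ ℚ 1 ^ e := by rwa [homogeneousSubmodule_one_pow]
  clear hF
  induction hF' using Submodule.pow_induction_on_left' with
  | algebraMap r =>
    refine ⟨?_, ?_⟩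
    · rw [pow_zero, AlgHom.commutes]
      exact Submodule.algebraMap_mem r
    · simp [Algebra.smul_def]
  | add a b i _ _ ha hb =>
    refine ⟨?_, ?_⟩
    · rw [map_add]
      exact add_mem ha.1 hb.1
    · rw [map_add, map_add, add_smul, add_sub_add_comm]
      exact add_mem ha.2 hb.2
  | mem_mul m hm i a _ ha =>
    have hm' : aeval l m ∈ W ∧ aeval l m - eval q m • u ∈ W' := by
      rw [homogeneousSubmodule_one_eq_span_X] at hm
      induction hm using Submodule.span_induction with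
      | mem x hx =>
        obtain ⟨i, rfl⟩ := hx
        simpa using ⟨hl i, hq i⟩
      | zero => simp
      | add x y _ _ hx hy =>
        refine ⟨?_, ?_⟩
        · rw [map_add]
          exact add_mem hx.1 hy.1
        · rw [map_add, map_add, add_smul, add_sub_add_comm]
          exact add_mem hx.2 hy.2
      | smul c x _ hx =>
        refine ⟨?_, ?_⟩
        · rw [map_smul]
          exact Submodule.smul_mem _ c hx.1
        · rw [map_smul, smul_eval, mul_smul, ← smul_sub]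
          exact Submodule.smul_mem _ c hx.2
    refine ⟨?_, ?_⟩
    · rw [map_mul, pow_succ']
      exact Submodule.mul_mem_mul hm'.1 ha.1
    · have e1 : aeval l (m * a) - eval q (m * a) • u ^ (i + 1) =
          (aeval l m - eval q m • u) * aeval l a +
            eval q m • (u * (aeval l a - eval q a • u ^ i)) := by
        simp only [map_mul, Algebra.smul_def]
        ring
      rw [e1]
      exact add_mem (Submodule.mul_mem_mul hm'.2 ha.1)
        (Submodule.smul_mem _ _ (mul_mem_Jf hu ha.2))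

theorem pow_mono {W : Submodule ℚ 𝕃} (h1 : (1 : 𝕃) ∈ W) {a b : ℕ} (h : a ≤ b) : W ^ a ≤ W ^ b := by
  obtain ⟨c, rfl⟩ := Nat.exists_eq_add_of_le h
  intro x hx
  rw [pow_add]
  simpa using Submodule.mul_mem_mul hx (Submodule.pow_mem_pow W h1 c)

open MvPolynomial in
/-- One step of Noether normalisation. -/
theorem exists_red {s : ℕ} (l : Fin (s + 1) → 𝕃) (hl : ¬ AlgebraicIndependent ℚ l) :
    ∃ a b : Fin s → ℤ, Red (Wl l) (Wl fun i => a i • l i.succ - b i • l 0) := by
  rw [algebraicIndependent_iff] at hl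
  push Not at hl
  obtain ⟨f, hf, hf0⟩ := hl
  set d := f.totalDegree with hd
  have htop : homogeneousComponent d f ≠ 0 := by
    obtain ⟨m, hm, hmd⟩ := Finset.exists_mem_eq_sup f.support (support_nonempty.2 hf0)
      (fun s => s.sum fun _ e => e)
    intro h0
    have := congrArg (coeff m) h0
    rw [coeff_homogeneousComponent, if_pos (by rw [hd, totalDegree, hmd]; rfl), coeff_zero] at this
    exact mem_support_iff.1 hm this
  obtain ⟨q, hq⟩ : ∃ q : Fin (s + 1) → ℚ, eval q (homogeneousComponent d f * X 0) ≠ 0 := by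
    by_contra h
    push Not at h
    exact mul_ne_zero htop (X_ne_zero 0) (MvPolynomial.funext fun q => by rw [h q, map_zero])
  rw [map_mul, eval_X] at hq
  have hq0 : q 0 ≠ 0 := right_ne_zero_of_mul hq
  have hq1 : eval q (homogeneousComponent d f) ≠ 0 := left_ne_zero_of_mul hq
  refine ⟨fun i => (q i.succ / q 0).den, fun i => (q i.succ / q 0).num, ?_⟩
  set W' := Wl fun i : Fin s => (((q i.succ / q 0).den : ℤ) • l i.succ - (q i.succ / q 0).num • l 0)
  set u : 𝕃 := (q 0)⁻¹ • l 0 with hu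
  have huW : u ∈ Wl l := Submodule.smul_mem _ _ (mem_Wl l 0)
  have hq' : ∀ i, l i - q i • u ∈ W' := by
    refine Fin.cases ?_ fun i => ?_
    · rw [hu, smul_smul, mul_inv_cancel₀ hq0, one_smul, sub_self]
      exact zero_mem _
    · have h1 := Submodule.smul_mem W' (((q i.succ / q 0).den : ℚ)⁻¹) (mem_Wl _ i)
      convert h1 using 1
      have hden : ((q i.succ / q 0).den : ℚ) ≠ 0 := Nat.cast_ne_zero.2 (Rat.den_ne_zero _)
      rw [smul_sub, ← Int.cast_smul_eq_zsmul ℚ, ← Int.cast_smul_eq_zsmul ℚ, smul_smul, smul_smul,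
        Int.cast_natCast, inv_mul_cancel₀ hden, one_smul, smul_smul, ← div_eq_inv_mul,
        Rat.num_div_den, div_eq_mul_inv]
  have hW : Wl l ≤ W' ⊔ Submodule.span ℚ {u} := by
    refine Wl_le (Submodule.mem_sup_left (one_mem_Wl _)) fun i => ?_
    rw [← sub_add_cancel (l i) (q i • u)]
    exact Submodule.add_mem_sup (hq' i)
      (Submodule.smul_mem _ _ (Submodule.mem_span_singleton_self u))
  have hsum : aeval l (homogeneousComponent d f) =
      -∑ i ∈ Finset.range d, aeval l (homogeneousComponent i f) := by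
    rw [eq_neg_iff_add_eq_zero, add_comm, ← Finset.sum_range_succ, ← map_sum,
      sum_homogeneousComponent, hf]
  have hmem : eval q (homogeneousComponent d f) • u ^ d ∈ Jf (Wl l) W' d := by
    have h1 := (homog_mem huW l q (mem_Wl l) hq' (homogeneousComponent_isHomogeneous d f)).2
    have h2 : aeval l (homogeneousComponent d f) ∈ Jf (Wl l) W' d := by
      rw [hsum]
      refine neg_mem (Submodule.sum_mem _ fun i hi => ?_)
      obtain ⟨e, he⟩ : ∃ e, d = e + 1 := ⟨d - 1, by have := Finset.mem_range.1 hi; omega⟩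
      have h3 := (homog_mem huW l q (mem_Wl l) hq' (homogeneousComponent_isHomogeneous i f)).1
      have h4 := pow_mono (one_mem_Wl l) (show i ≤ e by have := Finset.mem_range.1 hi; omega) h3
      rw [he]
      have h5 := Submodule.mul_mem_mul (one_mem_Wl _ : (1 : 𝕃) ∈ W') h4
      rwa [one_mul] at h5
    simpa using sub_mem h2 h1
  have hmem' : u ^ d ∈ Jf (Wl l) W' d := by
    have := Submodule.smul_mem _ (eval q (homogeneousComponent d f))⁻¹ hmem
    rwa [smul_smul, inv_mul_cancel₀ hq1, one_smul] at this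
  clear_value d
  cases d with
  | zero => simp [Jf] at hmem'
  | succ d => exact red_step huW hW hmem'

open MvPolynomial in
theorem not_algInd {Γ : Finset 𝕃} (h1 : (1 : 𝕃) ∈ Γ) (C : ℝ)
    (hgrow : ∀ᶠ j : ℤ in atTop, hf (Rg ℚ Γ) j ≤ C * (j : ℝ) ^ 2) (l : Fin 3 → 𝕃)
    (hl : ∀ i, l i ∈ Rg ℚ Γ 1) : ¬ AlgebraicIndependent ℚ l := by
  intro hind
  obtain ⟨j0, hj0⟩ := eventually_atTop.1 hgrow
  obtain ⟨m, hm⟩ := exists_nat_gt (max (9 * C) (max j0 0))
  have hm1 : 9 * C < m := lt_of_le_of_lt (le_max_left _ _) hm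
  have hm2 : (j0 : ℝ) < m := lt_of_le_of_lt ((le_max_left _ _).trans (le_max_right _ _)) hm
  have hm3 : (0 : ℝ) < m := lt_of_le_of_lt ((le_max_right _ _).trans (le_max_right _ _)) hm
  have hm2' : j0 < m := by exact_mod_cast hm2
  have h2 := hj0 (3 * m) (by omega)
  let ex : (Fin 3 → Fin m) → (Fin 3 →₀ ℕ) := fun e =>
    Finsupp.equivFunOnFinite.symm fun i => (e i : ℕ)
  have hex : Function.Injective ex := fun e e' h =>
    funext fun i => Fin.ext (congrFun (Finsupp.equivFunOnFinite.symm.injective h) i)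
  have hli := (((basisMonomials (Fin 3) ℚ).linearIndependent.comp ex hex).map'
    (aeval l).toLinearMap (LinearMap.ker_eq_bot.2 hind))
  have hmem : ∀ e, ((aeval l).toLinearMap ∘ (basisMonomials (Fin 3) ℚ) ∘ ex) e ∈
      Rg ℚ Γ (3 * m) := by
    intro e
    simp only [Function.comp_apply, coe_basisMonomials, AlgHom.toLinearMap_apply, aeval_monomial,
      map_one, one_mul]
    rw [Finsupp.prod_fintype _ _ fun _ => pow_zero _, Fin.prod_univ_three]
    refine Rg_mono h1 ?_ (mul_mem_Rg (mul_mem_Rg (pow_mem_Rg (hl 0) _) (pow_mem_Rg (hl 1) _))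
      (pow_mem_Rg (hl 2) _))
    have := (e 0).2
    have := (e 1).2
    have := (e 2).2
    simp only [ex, Finsupp.equivFunOnFinite_symm_apply_apply]
    omega
  have hli' : LinearIndependent ℚ fun e => (⟨_, hmem e⟩ : Rg ℚ Γ (3 * m)) :=
    LinearIndependent.of_comp (Rg ℚ Γ (3 * m)).subtype hli
  have h3 := hli'.fintype_card_le_finrank
  simp only [Fintype.card_pi, Fintype.card_fin, Finset.prod_const, Finset.card_univ] at h3
  have h4 : (m : ℝ) ^ 3 ≤ hf (Rg ℚ Γ) (3 * m) := by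
    rw [hf]
    exact_mod_cast h3
  push_cast at h2
  have h5 : (m : ℝ) * m ^ 2 ≤ 9 * C * m ^ 2 := by nlinarith
  have h6 := le_of_mul_le_mul_right h5 (by positivity)
  linarith

open MvPolynomial in
theorem aeval_mem_Wl {G : Type} (g : G → 𝕃) {y : MvPolynomial G ℤ} (hy : y.IsHomogeneous 1) :
    aeval g y ∈ Wl g := by
  have hy' : y ∈ homogeneousSubmodule G ℤ 1 := hy
  rw [homogeneousSubmodule_one_eq_span_X] at hy'
  clear hy
  induction hy' using Submodule.span_induction with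
  | mem x hx =>
    obtain ⟨i, rfl⟩ := hx
    simpa using mem_Wl g i
  | zero => simp
  | add x y _ _ hx hy =>
    rw [map_add]
    exact add_mem hx hy
  | smul c x _ hx =>
    rw [map_zsmul]
    exact zsmul_mem hx c

open MvPolynomial in
theorem exists_two {G : Type} (g : G → 𝕃)
    (H : ∀ l : Fin 3 → 𝕃, (∀ i, l i ∈ Wl g) → ¬ AlgebraicIndependent ℚ l) (t : ℕ) :
    ∀ Y : Fin (t + 2) → MvPolynomial G ℤ, (∀ i, (Y i).IsHomogeneous 1) →
      Red (Wl g) (Wl fun i => aeval g (Y i)) →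
      ∃ Y' : Fin 2 → MvPolynomial G ℤ, (∀ i, (Y' i).IsHomogeneous 1) ∧
        Red (Wl g) (Wl fun i => aeval g (Y' i)) := by
  induction t with
  | zero => exact fun Y h1 h2 => ⟨Y, h1, h2⟩
  | succ t ih =>
    intro Y h1 h2
    have hdep : ¬ AlgebraicIndependent ℚ fun i => aeval g (Y i) := fun hind =>
      H _ (fun i => aeval_mem_Wl g (h1 _))
        (hind.comp (Fin.castLE (show 3 ≤ t + 1 + 2 by omega)) (Fin.castLE_injective _))
    obtain ⟨a, b, hab⟩ := exists_red _ hdep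
    refine ih (fun i => a i • Y i.succ - b i • Y 0) (fun i => ?_) ?_
    · exact ((homogeneousSubmodule G ℤ 1).smul_mem (a i) (h1 i.succ) :).sub
        ((homogeneousSubmodule G ℤ 1).smul_mem (b i) (h1 0))
    · simp only [map_sub, map_zsmul]
      exact h2.trans hab (Wl_le (one_mem_Wl g) fun i => aeval_mem_Wl g (h1 i))

open MvPolynomial in
/-- Linear Noether normalisation with integral coefficients, keeping `x = 1` fixed. -/
theorem main {G : Type} [Fintype G] (g : G → 𝕃)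
    (Γ : Finset 𝕃) (h1 : (1 : 𝕃) ∈ Γ) (hΓ : ∀ γ, g γ ∈ Γ) (C : ℝ)
    (hgrow : ∀ᶠ j : ℤ in atTop, hf (Rg ℚ Γ) j ≤ C * (j : ℝ) ^ 2) :
    ∃ (y z : MvPolynomial G ℤ) (Di : ℕ) (n0 : ℤ) (c : G → Fin Di → MvPolynomial (Fin 3) ℤ),
      y.IsHomogeneous 1 ∧ z.IsHomogeneous 1 ∧ n0 ≠ 0 ∧
      (∀ γ i, (c γ i).IsHomogeneous (Di - i)) ∧
      ∀ γ, (n0 : 𝕃) * g γ ^ Di = ∑ i, MvPolynomial.aeval
        ![1, MvPolynomial.aeval g y, MvPolynomial.aeval g z] (c γ i) * g γ ^ (i : ℕ) := by
  classical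
  have hWΓ : Wl g ≤ Rg ℚ Γ 1 := Wl_le (mem_Rg_one h1) fun γ => mem_Rg_one (hΓ γ)
  let e := Fintype.equivFin G
  obtain ⟨Y, hY, E, hE⟩ := exists_two g
    (fun l hl => not_algInd h1 C hgrow l fun i => hWΓ (hl i)) (Fintype.card G)
    (fun i => if h : i.1 < Fintype.card G then X (e.symm ⟨i.1, h⟩) else 0)
    (fun i => by
      split_ifs
      · exact isHomogeneous_X _ _
      · exact isHomogeneous_zero _ _ _)
    ⟨0, by
      rw [zero_add, pow_one, pow_zero, mul_one]
      refine Wl_le (one_mem_Wl _) fun γ => ?_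
      have := mem_Wl (fun i : Fin (Fintype.card G + 2) => aeval g
        (if h : i.1 < Fintype.card G then (X (e.symm ⟨i.1, h⟩) : MvPolynomial G ℤ) else 0))
        (e γ).castSucc.castSucc
      simpa using this⟩
  set L : Fin 3 → 𝕃 := ![1, aeval g (Y 0), aeval g (Y 1)] with hL
  have hWL : (Wl fun i => aeval g (Y i)) ≤ Submodule.span ℚ (Set.range L) := by
    refine Wl_le (Submodule.subset_span ⟨0, rfl⟩) fun i => ?_
    fin_cases i
    · exact Submodule.subset_span ⟨1, rfl⟩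
    · exact Submodule.subset_span ⟨2, rfl⟩
  have hfg : (Wl g ^ E).FG :=
    Submodule.FG.pow (Submodule.fg_span ((Set.finite_range g).insert 1)) _
  obtain ⟨N, v, hv⟩ := Submodule.fg_iff_exists_fin_generating_family.1 hfg
  have hv0 : v ≠ 0 := by
    intro h0
    have h2 : (1 : 𝕃) ∈ Wl g ^ E := by simpa using Submodule.pow_mem_pow _ (one_mem_Wl g) E
    rw [← hv, Submodule.span_eq_bot.2 (by rintro _ ⟨i, rfl⟩; simp [h0])] at h2
    simp at h2
  have hco : ∀ γ i, ∃ w : Fin 3 × Fin N → ℚ, ∑ p, w p • (L p.1 * v p.2) = g γ * v i := by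
    intro γ i
    have h2 : g γ * v i ∈ Wl g ^ (E + 1) := by
      rw [pow_succ']
      exact Submodule.mul_mem_mul (mem_Wl g γ) (hv ▸ Submodule.subset_span ⟨i, rfl⟩)
    have h3 := (hE.trans (mul_le_mul_left hWL _)) h2
    rw [← hv, Submodule.span_mul_span] at h3
    refine (Submodule.mem_span_range_iff_exists_fun ℚ).1 (Submodule.span_mono ?_ h3)
    rintro _ ⟨_, ⟨a, rfl⟩, _, ⟨b, rfl⟩, rfl⟩
    exact ⟨(a, b), rfl⟩
  choose w hw using hco
  obtain ⟨m, hm⟩ := IsLocalization.exist_integer_multiples_of_finite (nonZeroDivisors ℤ)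
    (fun p : G × Fin N × (Fin 3 × Fin N) => w p.1 p.2.1 p.2.2)
  choose z hz using hm
  have hm0 : (m : ℤ) ≠ 0 := nonZeroDivisors.coe_ne_zero m
  let A : G → Matrix (Fin N) (Fin N) (MvPolynomial (Fin 3) ℤ) := fun γ =>
    Matrix.of fun i j => ∑ a, MvPolynomial.C (z (γ, i, (a, j))) * X a
  have hA : ∀ γ i j, (A γ i j).IsHomogeneous 1 := fun γ i j =>
    IsHomogeneous.sum Finset.univ (fun a => MvPolynomial.C (z (γ, i, (a, j))) * X a) 1
      fun a _ => isHomogeneous_C_mul_X _ _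
  have hAc : ∀ γ (i : Fin N), ((A γ).charpoly.coeff i).IsHomogeneous (N - i) := by
    intro γ i
    have h2 := Matrix.charpoly.univ_coeff_eval₂Hom (Fin N)
      (MvPolynomial.C : ℤ →+* MvPolynomial (Fin 3) ℤ) (fun p => A γ p.1 p.2) i
    have h3 := (Matrix.charpoly.univ_coeff_isHomogeneous ℤ (Fin N) i (N - i)
      (by rw [Fintype.card_fin]; omega)).eval₂ (MvPolynomial.C : ℤ →+* MvPolynomial (Fin 3) ℤ)
      (fun p => A γ p.1 p.2) (fun r => isHomogeneous_C _ r) (fun p => hA γ p.1 p.2)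
    rw [one_mul, ← coe_eval₂Hom, h2] at h3
    exact h3
  refine ⟨Y 0, Y 1, N, m ^ N, fun γ i => -(MvPolynomial.C ((m : ℤ) ^ (i : ℕ)) *
    (A γ).charpoly.coeff i), hY 0, hY 1, pow_ne_zero _ hm0,
    fun γ i => ((hAc γ i).C_mul _).neg, fun γ => ?_⟩
  let B : Matrix (Fin N) (Fin N) 𝕃 := (A γ).map (aeval L : MvPolynomial (Fin 3) ℤ →ₐ[ℤ] 𝕃)
  have hB : B.mulVec v = (((m : ℤ) : 𝕃) * g γ) • v := by
    funext i
    have h2 : ∀ a j, ((z (γ, i, (a, j)) : ℤ) : 𝕃) = ((m : ℤ) : 𝕃) * algebraMap ℚ 𝕃 (w γ i (a, j)) := by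
      intro a j
      have h3 := congrArg (algebraMap ℚ 𝕃) (hz (γ, i, (a, j)))
      simpa using h3
    simp only [B, A, Matrix.mulVec, dotProduct, Matrix.map_apply, Matrix.of_apply, map_sum,
      map_mul, aeval_X, Pi.smul_apply, smul_eq_mul, eq_intCast, map_intCast, h2]
    rw [mul_assoc, ← hw γ i, Fintype.sum_prod_type_right, Finset.mul_sum]
    refine Finset.sum_congr rfl fun j _ => ?_
    rw [Finset.sum_mul, Finset.mul_sum]
    refine Finset.sum_congr rfl fun a _ => ?_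
    rw [Algebra.smul_def]
    ring
  have hroot : B.charpoly.eval (((m : ℤ) : 𝕃) * g γ) = 0 := by
    rw [Matrix.eval_charpoly]
    refine Matrix.exists_mulVec_eq_zero_iff.1 ⟨v, hv0, ?_⟩
    rw [Matrix.sub_mulVec, hB]
    funext i
    simp
  have hdeg : B.charpoly.natDegree = N := by
    rw [Matrix.charpoly_natDegree_eq_dim, Fintype.card_fin]
  have hlead : B.charpoly.coeff N = 1 := by
    have := B.charpoly_monic.coeff_natDegree
    rwa [hdeg] at this
  have hcoef : ∀ i, B.charpoly.coeff i = aeval L ((A γ).charpoly.coeff i) := by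
    intro i
    have := Matrix.charpoly_map (A γ) (aeval L : MvPolynomial (Fin 3) ℤ →ₐ[ℤ] 𝕃).toRingHom
    change B.charpoly = _ at this
    rw [this, Polynomial.coeff_map]
    rfl
  rw [Polynomial.eval_eq_sum_range, hdeg, Finset.sum_range_succ, hlead, one_mul,
    Finset.sum_range, add_comm, ← eq_neg_iff_add_eq_zero, ← Finset.sum_neg_distrib] at hroot
  rw [Int.cast_pow, ← mul_pow, hroot]
  refine Finset.sum_congr rfl fun i _ => ?_
  rw [hcoef]
  simp only [map_neg, map_mul, map_pow, eq_intCast, map_intCast]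
  ring

end NoethNorm

/-- Linear Noether normalisation with integral coefficients, keeping `x = 1` fixed. -/
theorem exists_linear_sop {𝕃 : Type} [Field 𝕃] [Algebra ℚ 𝕃] {G : Type} [Fintype G] (g : G → 𝕃)
    (Γ : Finset 𝕃) (h1 : (1 : 𝕃) ∈ Γ) (hΓ : ∀ γ, g γ ∈ Γ) (C : ℝ)
    (hgrow : ∀ᶠ j : ℤ in atTop, hf (Rg ℚ Γ) j ≤ C * (j : ℝ) ^ 2) :
    ∃ (y z : MvPolynomial G ℤ) (Di : ℕ) (n0 : ℤ) (c : G → Fin Di → MvPolynomial (Fin 3) ℤ),
      y.IsHomogeneous 1 ∧ z.IsHomogeneous 1 ∧ n0 ≠ 0 ∧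
      (∀ γ i, (c γ i).IsHomogeneous (Di - i)) ∧
      ∀ γ, (n0 : 𝕃) * g γ ^ Di = ∑ i, MvPolynomial.aeval
        ![1, MvPolynomial.aeval g y, MvPolynomial.aeval g z] (c γ i) * g γ ^ (i : ℕ) := by
  have : CharZero 𝕃 := algebraRat.charZero 𝕃
  obtain rfl : ‹Algebra ℚ 𝕃› = DivisionRing.toRatAlgebra := Subsingleton.elim _ _
  exact NoethNorm.main g Γ h1 hΓ C hgrow

end Crest.Agent.R169
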