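import Crest.Agent.R169.ModelBasic

/-! # task R169/Transfer -/

set_option autoImplicit false
open Filter Module IntermediateField

namespace Crest.Agent.R169

open MvPolynomial

/-- The universal roots. -/
noncomputable def Transfer_W : Ed → MvPolynomial (Fin 5) ℤ := fun e =>
  if e = s(0, 2) then X 0 else if e = s(0, 3) then X 1 else if e = s(1, 2) then X 2 else
    if e = s(1, 3) then X 3 else if e = s(2, 3) then X 4 else 1

/-- The five inner edges. -/
def Transfer_ed : Fin 5 → Ed := ![s(0, 2), s(0, 3), s(1, 2), s(1, 3), s(2, 3)]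

/-- The universal points. -/
noncomputable def Transfer_T : Fin 4 → MvPolynomial (Fin 2) ℤ := ![0, -1, X 0, X 1]

section model
variable {k 𝕂 : Type} [Field k] [Field 𝕂] [Algebra k 𝕂] {n : ℕ} (M : Model k 𝕂 n)

theorem Transfer_aeval_W (e : Ed) :
    aeval (fun i => M.w (Transfer_ed i)) (Transfer_W e) = M.w e := by
  induction e using ModelBasic_cases with
  | hd i => rw [M.w_diag]; fin_cases i <;> simp [Transfer_W]
  | h4 i => rw [M.w_last]; fin_cases i <;> simp [Transfer_W]
  | h01 => rw [M.w_01]; simp [Transfer_W]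
  | h02 => simp [Transfer_W, Transfer_ed]
  | h03 => simp [Transfer_W, Transfer_ed]
  | h12 => simp [Transfer_W, Transfer_ed]
  | h13 => simp [Transfer_W, Transfer_ed]
  | h23 => simp [Transfer_W, Transfer_ed]

theorem Transfer_aeval_T (e : Ed) : aeval ![M.t 2, M.t 3] (pp Transfer_T e) = pp M.t e := by
  rw [ModelBasic_map_pp]
  congr 1
  funext i
  fin_cases i <;> simp [Transfer_T, M.t0, M.t1]

/-- Clearing the denominator `x ^ j`. -/
theorem Transfer_homog {F : MvPolynomial Gen ℤ} {j : ℕ} (hF : F.IsHomogeneous j) :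
    aeval M.g F * M.x ^ j = aeval (fun i => M.w (Transfer_ed i))
      (aeval (fun γ : Gen => mon Transfer_W γ.1) F) := by
  rw [← AlgHom.comp_apply, comp_aeval]
  simp only [ModelBasic_map_mon, Transfer_aeval_W]
  rw [aeval_def, aeval_def, eval₂_eq', eval₂_eq', Finset.sum_mul]
  refine Finset.sum_congr rfl fun d hd => ?_
  have h1 : ∑ γ, d γ = j := by
    by_contra h
    refine mem_support_iff.1 hd (hF.coeff_eq_zero ?_)
    rwa [Finsupp.degree_eq_sum]
  rw [mul_assoc, ← h1, ← Finset.prod_pow_eq_pow_sum, ← Finset.prod_mul_distrib]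
  congr 1
  refine Finset.prod_congr rfl fun γ _ => ?_
  rw [← mul_pow, Model.g, div_mul_cancel₀ _ M.x_ne]

end model

/-- A normal form valid in every model. -/
theorem Transfer_nf {n : ℕ} (hn : 0 < n) (G : MvPolynomial (Fin 5) ℤ) :
    ∃ N : (Fin 5 → Fin n) → MvPolynomial (Fin 2) ℤ,
      ∀ (k 𝕂 : Type) [Field k] [Field 𝕂] [Algebra k 𝕂] (M : Model k 𝕂 n),
        aeval (fun i => M.w (Transfer_ed i)) G =
          ∑ ε, aeval ![M.t 2, M.t 3] (N ε) * ∏ i, M.w (Transfer_ed i) ^ (ε i : ℕ) := by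
  classical
  induction G using MvPolynomial.induction_on' with
  | monomial d c =>
    refine ⟨Pi.single (fun i => ⟨d i % n, Nat.mod_lt _ hn⟩)
      (C c * ∏ i, pp Transfer_T (Transfer_ed i) ^ (d i / n)), fun k 𝕂 _ _ _ M => ?_⟩
    rw [Finset.sum_eq_single (fun i => (⟨d i % n, Nat.mod_lt _ hn⟩ : Fin n))]
    · rw [Pi.single_eq_same, aeval_monomial, Finsupp.prod_fintype _ _ fun _ => pow_zero _, map_mul,
        aeval_C, map_prod, mul_assoc, ← Finset.prod_mul_distrib]
      congr 1
      refine Finset.prod_congr rfl fun i _ => ?_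
      rw [map_pow, Transfer_aeval_T, ← M.w_pow, ← pow_mul, ← pow_add, Nat.div_add_mod]
    · intro ε _ hε
      rw [Pi.single_eq_of_ne hε, map_zero, zero_mul]
    · exact fun h => (h (Finset.mem_univ _)).elim
  | add G G' hG hG' =>
    obtain ⟨N, hN⟩ := hG
    obtain ⟨N', hN'⟩ := hG'
    refine ⟨N + N', fun k 𝕂 _ _ _ M => ?_⟩
    rw [map_add, hN k 𝕂 M, hN' k 𝕂 M, ← Finset.sum_add_distrib]
    simp only [Pi.add_apply, map_add, add_mul]

/-- A homogeneous relation among the generators in characteristic zero holds universally. -/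
theorem rel_of_charZero {k 𝕂 : Type} [Field k] [Field 𝕂] [Algebra k 𝕂] [CharZero k] {n : ℕ}
    (M : Model k 𝕂 n) {F : MvPolynomial Gen ℤ} {j : ℕ} (hF : F.IsHomogeneous j)
    (h : MvPolynomial.aeval M.g F = 0) : Rel n F := by
  obtain ⟨N, hN⟩ := Transfer_nf M.n_pos (aeval (fun γ : Gen => mon Transfer_W γ.1) F)
  have h1 := Transfer_homog M hF
  rw [h, zero_mul, hN k 𝕂 M] at h1
  have hmap : ∀ P : MvPolynomial (Fin 2) ℤ, aeval ![M.t 2, M.t 3] P =
      aeval ![M.t 2, M.t 3] (map (Int.castRingHom k) P) := fun P =>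
    (aeval_map_algebraMap k ![M.t 2, M.t 3] P).symm
  have hmem : ∀ P : MvPolynomial (Fin 2) ℤ, aeval ![M.t 2, M.t 3] P ∈ k⟮M.t 2, M.t 3⟯ := by
    intro P
    induction P using MvPolynomial.induction_on with
    | C a => rw [aeval_C]; exact intCast_mem _ a
    | add p q hp hq => rw [map_add]; exact add_mem hp hq
    | mul_X p i hp =>
      rw [map_mul, aeval_X]
      refine mul_mem hp ?_
      fin_cases i
      · exact M.ModelBasic_t_mem 2
      · exact M.ModelBasic_t_mem 3
  have h2 := Fintype.linearIndependent_iff.1 M.kummer (fun ε => ⟨_, hmem (N ε)⟩) (by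
    rw [h1]
    refine Finset.sum_congr rfl fun ε _ => ?_
    rw [Fin.prod_univ_five]
    rfl)
  have h3 : ∀ ε, N ε = 0 := by
    intro ε
    have h4 : aeval ![M.t 2, M.t 3] (N ε) = 0 := congrArg Subtype.val (h2 ε)
    rw [hmap] at h4
    exact map_injective (Int.castRingHom k) Int.cast_injective
      (((algebraicIndependent_iff.1 M.ind) _ h4).trans (map_zero _).symm)
  intro k' 𝕂' _ _ _ M'
  have h5 := Transfer_homog M' hF
  rw [hN k' 𝕂' M'] at h5
  simp only [h3, map_zero, zero_mul, Finset.sum_const_zero] at h5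
  exact (mul_eq_zero.1 h5).resolve_right (pow_ne_zero _ M'.x_ne)

end Crest.Agent.R169
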