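import Crest.Agent.R169.TabA
import Crest.Agent.R169.BRing
import Crest.Agent.R169.HfUpper
import Crest.Agent.R169.NoethNorm
import Crest.Agent.R169.Transfer
import Crest.Agent.R169.Kummer

/-! # task R169/TableEx -/

set_option autoImplicit false
open Filter Module IntermediateField

namespace Crest.Agent.R169

open MvPolynomial in
/-- Clearing the denominators of a rational polynomial. -/
theorem TableEx_clear {σ : Type} (f : MvPolynomial σ ℚ) :
    ∃ N : ℤ, N ≠ 0 ∧ ∃ F : MvPolynomial σ ℤ, map (algebraMap ℤ ℚ) F = C (N : ℚ) * f := by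
  induction f using MvPolynomial.induction_on with
  | C a =>
    refine ⟨a.den, by exact_mod_cast a.den_nz, C a.num, ?_⟩
    rw [map_C, ← C_mul]
    congr 1
    simp [Rat.den_mul_eq_num]
  | add p q hp hq =>
    obtain ⟨N, hN, F, hF⟩ := hp
    obtain ⟨N', hN', F', hF'⟩ := hq
    refine ⟨N * N', mul_ne_zero hN hN', C N' * F + C N * F', ?_⟩
    rw [map_add, map_mul, map_mul, hF, hF', map_C, map_C]
    simp only [algebraMap_int_eq, eq_intCast, Int.cast_mul, C_mul]
    ring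
  | mul_X p i hp =>
    obtain ⟨N, hN, F, hF⟩ := hp
    exact ⟨N, hN, F * X i, by rw [map_mul, hF, map_X, mul_assoc]⟩

open MvPolynomial in
/-- Clearing the denominators of finitely many rational polynomials at once. -/
theorem TableEx_clear_family {σ ι : Type} [Finite ι] (f : ι → MvPolynomial σ ℚ) :
    ∃ N : ℤ, N ≠ 0 ∧ ∃ F : ι → MvPolynomial σ ℤ,
      ∀ i, map (algebraMap ℤ ℚ) (F i) = C (N : ℚ) * f i := by
  classical
  have := Fintype.ofFinite ι
  choose N hN F hF using fun i => TableEx_clear (f i)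
  refine ⟨∏ i, N i, Finset.prod_ne_zero_iff.2 fun i _ => hN i,
    fun i => C (∏ j ∈ Finset.univ.erase i, N j) * F i, fun i => ?_⟩
  rw [map_mul, hF, map_C, ← mul_assoc, ← C_mul, ← Finset.prod_erase_mul _ _ (Finset.mem_univ i)]
  simp

open MvPolynomial in
theorem TableEx_homog {σ : Type} {F : MvPolynomial σ ℤ} {f : MvPolynomial σ ℚ} {N : ℤ} {j : ℕ}
    (h : map (algebraMap ℤ ℚ) F = C (N : ℚ) * f) (hf : f.IsHomogeneous j) : F.IsHomogeneous j := by
  refine IsHomogeneous.of_map (f := algebraMap ℤ ℚ) (algebraMap ℤ ℚ).injective_int ?_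
  rw [h]
  exact hf.C_mul _

open MvPolynomial in
theorem TableEx_aeval {σ 𝕂 : Type} [Field 𝕂] [Algebra ℚ 𝕂] {F : MvPolynomial σ ℤ}
    {f : MvPolynomial σ ℚ} {N : ℤ} (h : map (algebraMap ℤ ℚ) F = C (N : ℚ) * f) (v : σ → 𝕂) :
    aeval v F = (N : 𝕂) * aeval v f := by
  rw [← aeval_map_algebraMap ℚ v F, h, map_mul, aeval_C]
  simp

open MvPolynomial in
/-- An integer multiple of an element of the ring is an integral form in the generators. -/
theorem TableEx_exists_form {𝕂 : Type} [Field 𝕂] [Algebra ℚ 𝕂] {n : ℕ} (M : Model ℚ 𝕂 n) (j : ℕ)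
    (w : 𝕂) (hw : w ∈ Rg ℚ M.Γ j) :
    ∃ N : ℤ, N ≠ 0 ∧ ∃ F : MvPolynomial Gen ℤ, F.IsHomogeneous j ∧ aeval M.g F = (N : 𝕂) * w := by
  have h : ∃ f : MvPolynomial Gen ℚ, f.IsHomogeneous j ∧ aeval M.g f = w := by
    refine Rg_induction (P := fun j w => ∃ f : MvPolynomial Gen ℚ,
      f.IsHomogeneous j ∧ aeval M.g f = w) ?_ ?_ ?_ ?_ ?_ j w hw
    · exact ⟨1, isHomogeneous_one _ _, map_one _⟩
    · exact fun j => ⟨0, isHomogeneous_zero _ _ _, map_zero _⟩
    · rintro j _ _ ⟨f, hf, rfl⟩ ⟨g, hg, rfl⟩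
      exact ⟨f + g, hf.add hg, map_add _ f g⟩
    · rintro j c _ ⟨f, hf, rfl⟩
      exact ⟨c • f, (homogeneousSubmodule Gen ℚ j).smul_mem c hf, map_smul _ c f⟩
    · rintro j _ γ hγ ⟨f, hf, rfl⟩
      obtain ⟨γ', rfl⟩ := M.mem_Γ.1 hγ
      refine ⟨X γ' * f, ?_, by rw [map_mul, aeval_X]⟩
      rw [add_comm]
      exact (isHomogeneous_X _ _).mul hf
  obtain ⟨f, hf, rfl⟩ := h
  obtain ⟨N, hN, F, hF⟩ := TableEx_clear f
  exact ⟨N, hN, F, TableEx_homog hF hf, TableEx_aeval hF _⟩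

open MvPolynomial in
theorem TableEx_subs_homog {y z : MvPolynomial Gen ℤ} (hy : y.IsHomogeneous 1)
    (hz : z.IsHomogeneous 1) {f : MvPolynomial (Fin 3) ℤ} {j : ℕ} (hf : f.IsHomogeneous j) :
    (subs y z f).IsHomogeneous j := by
  have := hf.aeval (S := ℤ) (n := 1) ![X γ0, y, z] fun i => by
    fin_cases i
    · exact isHomogeneous_X _ _
    · exact hy
    · exact hz
  rwa [one_mul] at this

open MvPolynomial in
theorem TableEx_aeval_subs {k 𝕂 : Type} [Field k] [Field 𝕂] [Algebra k 𝕂] {n : ℕ}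
    (M : Model k 𝕂 n) (y z : MvPolynomial Gen ℤ) (f : MvPolynomial (Fin 3) ℤ) :
    aeval M.g (subs y z f) = aeval ![1, aeval M.g y, aeval M.g z] f := by
  have : (aeval M.g).comp (subs y z) = aeval ![1, aeval M.g y, aeval M.g z] := by
    refine MvPolynomial.algHom_ext fun i => ?_
    fin_cases i <;> simp [subs, M.g_γ0]
  exact congrArg (fun φ : MvPolynomial (Fin 3) ℤ →ₐ[ℤ] 𝕂 => φ f) this

open MvPolynomial in
theorem exists_table {n : ℕ} (hn : n.Prime) (hodd : Odd n) : Nonempty (Table n) := by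
  classical
  obtain ⟨𝕂, _, _, ⟨M⟩⟩ := exists_model ℚ hn (by exact_mod_cast hn.ne_zero)
  have : CharZero 𝕂 := algebraRat.charZero 𝕂
  obtain ⟨C0, hC0⟩ := M.exists_hf_le hodd
  obtain ⟨y, z, Di, n0, c, hy, hz, hn0, hc, hrel⟩ :=
    exists_linear_sop M.g M.Γ M.one_mem M.g_mem C0 hC0
  have hn0' : (n0 : 𝕂) ≠ 0 := by exact_mod_cast hn0
  have hint : ∀ γ, ∃ c : Fin Di → 𝕂, (∀ i : Fin Di, c i ∈
      Apol ℚ (aeval M.g y) (aeval M.g z) (Di - i : ℕ)) ∧
        M.g γ ^ Di = ∑ i, c i * M.g γ ^ (i : ℕ) := fun γ => by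
    refine ⟨fun i => algebraMap ℚ 𝕂 (n0 : ℚ)⁻¹ * aeval ![1, aeval M.g y, aeval M.g z] (c γ i),
      fun i => ?_, ?_⟩
    · beta_reduce
      rw [← Algebra.smul_def]
      exact Submodule.smul_mem _ _ (mem_Apol_iff_homog.2
        ⟨map (algebraMap ℤ ℚ) (c γ i), (hc γ i).map _, aeval_map_algebraMap ℚ _ _⟩)
    · simp only [mul_assoc]
      rw [← Finset.mul_sum, ← hrel γ, map_inv₀, map_intCast, inv_mul_cancel_left₀ hn0']
  set S : Surf ℚ 𝕂 := M.surfOf y z hy hz Di hint with hS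
  obtain ⟨D, θ0, hθ0, hprim0⟩ := S.exists_primitive
  obtain ⟨N1, hN1, θ, hθ, hθe⟩ := TableEx_exists_form M D θ0 hθ0
  have hN1' : (N1 : 𝕂) ≠ 0 := by exact_mod_cast hN1
  have hprim : (ℚ⟮S.y, S.z⟯)⟮aeval M.g θ⟯ = ⊤ := by
    rw [eq_top_iff, ← hprim0, adjoin_simple_le_iff]
    have e : θ0 = aeval M.g θ / (N1 : 𝕂) := by rw [hθe]; field_simp
    rw [e]
    exact div_mem (mem_adjoin_simple_self _ _) (intCast_mem _ _)
  obtain ⟨e, dδ, δ, a, a', he, hδ, hδ0, hD, ha, ha', hr1, hr2⟩ :=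
    S.exists_equations D (aeval M.g θ) hprim
  obtain ⟨N, hN, F, hF⟩ := TableEx_clear_family (σ := Fin 3) (ι := Option (Option Gen × Fin e))
    fun o => o.elim δ fun p => p.1.elim (a p.2) fun γ => a' (M.g γ) p.2
  have hFδ : map (algebraMap ℤ ℚ) (F none) = C (N : ℚ) * δ := hF none
  have hFa : ∀ l, map (algebraMap ℤ ℚ) (F (some (none, l))) = C (N : ℚ) * a l :=
    fun l => hF (some (none, l))
  have hFa' : ∀ γ l, map (algebraMap ℤ ℚ) (F (some (some γ, l))) = C (N : ℚ) * a' (M.g γ) l :=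
    fun γ l => hF (some (some γ, l))
  have hev : ∀ {G : MvPolynomial (Fin 3) ℤ} {g : MvPolynomial (Fin 3) ℚ},
      map (algebraMap ℤ ℚ) G = C (N : ℚ) * g → aeval M.g (subs y z G) = (N : 𝕂) * S.ev g :=
    fun h => by rw [TableEx_aeval_subs, TableEx_aeval h]; rfl
  refine ⟨{ y := y, z := z, θ := θ, e := e, D := D, dδ := dδ, Di := Di, δ := F none,
            a := fun l => F (some (none, l)), a' := fun γ l => F (some (some γ, l)),
            n0 := n0, c := c, hy := hy, hz := hz, hθ := hθ, hδ := TableEx_homog hFδ hδ,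
            δ_ne := ?_, hD := hD, ha := fun l => TableEx_homog (hFa l) (ha l),
            ha' := fun γ l => TableEx_homog (hFa' γ l) (ha' _ l), n0_ne := hn0, hc := hc,
            he := ?_, relθ := ?_, relγ := fun γ => ?_, reli := fun γ => ?_ }⟩
  · intro h
    rw [h, map_zero] at hFδ
    exact mul_ne_zero (C_ne_zero.2 (by exact_mod_cast hN)) hδ0 hFδ.symm
  · rw [he]
    exact M.e_le hodd S.lat_R.good
  · refine rel_of_charZero M (j := dδ + D * e) (IsHomogeneous.sub ?_ ?_) ?_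
    · exact (TableEx_subs_homog hy hz (TableEx_homog hFδ hδ)).mul (hθ.pow e)
    · refine IsHomogeneous.sum _ _ _ fun l _ => ?_
      have := (TableEx_subs_homog hy hz (TableEx_homog (hFa l) (ha l))).mul (hθ.pow l)
      rwa [add_assoc, ← mul_add, Nat.sub_add_cancel l.2.le] at this
    · rw [map_sub, map_sum, map_mul, map_pow, hev hFδ, mul_assoc, hr1, Finset.mul_sum, sub_eq_zero]
      refine Finset.sum_congr rfl fun l _ => ?_
      rw [map_mul, map_pow, hev (hFa l), mul_assoc]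
  · refine rel_of_charZero M (j := dδ + 1) (IsHomogeneous.sub ?_ ?_) ?_
    · exact (TableEx_subs_homog hy hz (TableEx_homog hFδ hδ)).mul (isHomogeneous_X _ _)
    · refine IsHomogeneous.sum _ _ _ fun l _ => ?_
      have := (TableEx_subs_homog hy hz (TableEx_homog (hFa' γ l) (ha' _ l))).mul (hθ.pow l)
      have hl : D * l ≤ dδ + 1 :=
        (Nat.mul_le_mul_left D l.2.le).trans (hD.trans (Nat.le_succ _))
      rwa [Nat.sub_add_cancel hl] at this
    · rw [map_sub, map_sum, map_mul, aeval_X, hev hFδ, mul_assoc, hr2 _ (M.g_mem γ),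
        Finset.mul_sum, sub_eq_zero]
      refine Finset.sum_congr rfl fun l _ => ?_
      rw [map_mul, map_pow, hev (hFa' γ l), mul_assoc]
  · refine rel_of_charZero M (j := Di) (IsHomogeneous.sub ?_ ?_) ?_
    · exact (isHomogeneous_X_pow γ Di).C_mul _
    · refine IsHomogeneous.sum _ _ _ fun i _ => ?_
      have := (TableEx_subs_homog hy hz (hc γ i)).mul (isHomogeneous_X_pow γ i)
      rwa [Nat.sub_add_cancel i.2.le] at this
    · rw [map_sub, map_sum, map_mul, map_pow, aeval_X, aeval_C, sub_eq_zero]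
      simp only [map_mul, map_pow, aeval_X, TableEx_aeval_subs]
      rw [← hrel γ]
      simp

end Crest.Agent.R169
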