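import Crest.Agent.R169.Part2
import Crest.Agent.R169.Part4
import Crest.Agent.R169.Lam
import Crest.Agent.R169.LogDer
import Crest.Agent.R169.LogC
import Crest.Agent.R169.TableEx
import Crest.Agent.R169.Lefschetz
import Crest.Agent.R169.FreeMat
import Crest.Agent.R169.ReesT
import Crest.Agent.R169.Complete

/-! # Row 169: assembly -/

set_option autoImplicit false
open Filter Module IntermediateField MvPolynomial

namespace Crest.Agent.R169

theorem aeval_subs {k A : Type} [CommRing k] [CommRing A] [Algebra k A] (g : Gen → A)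
    (y z : MvPolynomial Gen ℤ) (f : MvPolynomial (Fin 3) ℤ) :
    aeval g (subs y z f) =
      aeval ![g γ0, aeval g y, aeval g z] (map (Int.castRingHom k) f) := by
  have h1 : aeval ![g γ0, aeval g y, aeval g z] (map (Int.castRingHom k) f) =
      aeval ![g γ0, aeval g y, aeval g z] f := by
    rw [← algebraMap_int_eq, aeval_map_algebraMap]
  rw [h1, subs, ← AlgHom.comp_apply, comp_aeval]
  congr 2
  funext i
  fin_cases i <;> simp

theorem subs_homog {y z : MvPolynomial Gen ℤ} (hy : y.IsHomogeneous 1) (hz : z.IsHomogeneous 1)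
    {f : MvPolynomial (Fin 3) ℤ} {j : ℕ} (hf : f.IsHomogeneous j) :
    (subs y z f).IsHomogeneous j := by
  have := hf.aeval (g := ![X γ0, y, z]) (n := 1) (fun i => by
    fin_cases i
    · exact isHomogeneous_X _ _
    · exact hy
    · exact hz)
  simpa [subs] using this

namespace Table
variable {n : ℕ} (τ : Table n)

theorem homogθ : (subs τ.y τ.z τ.δ * τ.θ ^ τ.e -
    ∑ l, subs τ.y τ.z (τ.a l) * τ.θ ^ (l : ℕ)).IsHomogeneous (τ.dδ + τ.D * τ.e) := by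
  refine IsHomogeneous.sub ((subs_homog τ.hy τ.hz τ.hδ).mul (τ.hθ.pow _)) ?_
  refine IsHomogeneous.sum _ _ _ fun l _ => ?_
  have h := (subs_homog τ.hy τ.hz (τ.ha l)).mul (τ.hθ.pow (l : ℕ))
  have e : τ.dδ + τ.D * (τ.e - l) + τ.D * l = τ.dδ + τ.D * τ.e := by
    rw [add_assoc, ← mul_add, Nat.sub_add_cancel l.2.le]
  rwa [e] at h

theorem homogγ (γ : Gen) : (subs τ.y τ.z τ.δ * X γ -
    ∑ l, subs τ.y τ.z (τ.a' γ l) * τ.θ ^ (l : ℕ)).IsHomogeneous (τ.dδ + 1) := by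
  refine IsHomogeneous.sub ((subs_homog τ.hy τ.hz τ.hδ).mul (isHomogeneous_X _ _)) ?_
  refine IsHomogeneous.sum _ _ _ fun l _ => ?_
  have h := (subs_homog τ.hy τ.hz (τ.ha' γ l)).mul (τ.hθ.pow (l : ℕ))
  have e : τ.dδ + 1 - τ.D * l + τ.D * l = τ.dδ + 1 := by
    have h1 : τ.D * l ≤ τ.D * τ.e := Nat.mul_le_mul_left _ l.2.le
    have := τ.hD
    omega
  rwa [e] at h

variable {k 𝕂 : Type} [Field k] [Field 𝕂] [Algebra k 𝕂] (M : Model k 𝕂 n)

theorem hint (h : (τ.n0 : k) ≠ 0) (γ : Gen) : ∃ c : Fin τ.Di → 𝕂, (∀ i : Fin τ.Di, c i ∈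
    Apol k (aeval M.g τ.y) (aeval M.g τ.z) (τ.Di - i : ℕ)) ∧
      M.g γ ^ τ.Di = ∑ i, c i * M.g γ ^ (i : ℕ) := by
  refine ⟨fun i => (τ.n0 : k)⁻¹ • aeval ![1, aeval M.g τ.y, aeval M.g τ.z]
    (map (Int.castRingHom k) (τ.c γ i)), fun i => Submodule.smul_mem _ _
      (mem_Apol_iff_homog.2 ⟨_, (τ.hc γ i).map _, rfl⟩), ?_⟩
  have h1 := τ.reli γ k 𝕂 M
  simp only [map_sub, map_mul, map_pow, map_sum, aeval_X, aeval_C, aeval_subs (k := k),
    M.g_γ0] at h1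
  simp only [smul_mul_assoc]
  rw [← Finset.smul_sum, ← sub_eq_zero.1 h1, Algebra.smul_def, ← mul_assoc, map_inv₀,
    map_intCast, eq_intCast, inv_mul_cancel₀, one_mul]
  rw [← map_intCast (algebraMap k 𝕂)]
  exact (map_ne_zero _).2 h

/-- The surface of the table. -/
noncomputable def surf (h : (τ.n0 : k) ≠ 0) : Surf k 𝕂 :=
  M.surfOf τ.y τ.z τ.hy τ.hz τ.Di (τ.hint M h)

theorem surf_Γ (h : (τ.n0 : k) ≠ 0) : (τ.surf M h).Γ = M.Γ := rfl
theorem surf_y (h : (τ.n0 : k) ≠ 0) : (τ.surf M h).y = aeval M.g τ.y := rfl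
theorem surf_z (h : (τ.n0 : k) ≠ 0) : (τ.surf M h).z = aeval M.g τ.z := rfl

theorem surf_ev (h : (τ.n0 : k) ≠ 0) (f : MvPolynomial (Fin 3) ℤ) :
    (τ.surf M h).ev (map (Int.castRingHom k) f) = aeval M.g (subs τ.y τ.z f) := by
  rw [aeval_subs (k := k), M.g_γ0]
  rfl

theorem ptable (hn : Odd n) (h : (τ.n0 : k) ≠ 0) (hδ : map (Int.castRingHom k) τ.δ ≠ 0)
    {N Sp : ℕ} (hM : τ.Mats k N Sp) :
    Nonempty (PTable (τ.surf M h).toPreSurf τ.e τ.D τ.dδ N Sp) := by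
  obtain ⟨Bθ, B, h1, h2⟩ := hM
  refine ⟨{
    θ := aeval M.g τ.θ
    δ := map (Int.castRingHom k) τ.δ
    a := fun l => map (Int.castRingHom k) (τ.a l)
    Bθ := Bθ
    he := ?_
    hδ := τ.hδ.map _
    δ_ne := hδ
    hD := τ.hD
    ha := fun l => (τ.ha l).map _
    relθ := ?_
    matθ := h1
    gen := ?_ }⟩
  · rw [(M.inv_R hn _ (τ.surf_Γ M h)).1]
    exact τ.he
  · have h3 := τ.relθ k 𝕂 M
    simp only [map_sub, map_mul, map_pow, map_sum] at h3
    simp only [τ.surf_ev M h]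
    exact sub_eq_zero.1 h3
  · intro a ha
    obtain ⟨γ, rfl⟩ := M.mem_Γ.1 ha
    refine ⟨B γ, fun l => map (Int.castRingHom k) (τ.a' γ l), fun l => (τ.ha' γ l).map _, ?_,
      h2 γ⟩
    have h3 := τ.relγ γ k 𝕂 M
    simp only [map_sub, map_mul, map_pow, map_sum, aeval_X] at h3
    simp only [τ.surf_ev M h]
    exact sub_eq_zero.1 h3

end Table

theorem intCast_ne_zero_of_lt (k : Type) [Field k] {p : ℕ} [CharP k p] {a : ℤ} (ha : a ≠ 0)
    (h : a.natAbs < p) : (a : k) ≠ 0 := by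
  rw [Ne, CharP.intCast_eq_zero_iff k p]
  intro hd
  have := Nat.le_of_dvd (Int.natAbs_pos.2 ha) (Int.natCast_dvd.1 hd)
  omega

/-- There are no matrices satisfying the equations of the table to high order. -/
theorem no_mats (τ : Table 29) (N : ℕ) (hN : 0 < N) : ∃ Sp, ¬ τ.Mats ℂ N Sp := by
  obtain ⟨Sp, hSp⟩ := part2 τ.e τ.D τ.dδ N hN
  refine ⟨Sp, fun h => ?_⟩
  obtain ⟨d0, hd0⟩ : ∃ d, coeff d τ.δ ≠ 0 := ne_zero_iff.1 τ.δ_ne
  obtain ⟨p, k, _, hp, hp0, hchar, hac, hM⟩ :=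
    h.charP ((2 * 29 + 1) * N ^ 2 + 2 + 29 + τ.n0.natAbs + (coeff d0 τ.δ).natAbs)
  have := Fact.mk hp
  have hp29 : ¬ p ∣ 29 := fun hd => by
    have := Nat.le_of_dvd (by norm_num) hd
    omega
  have hk29 : ((29 : ℕ) : k) ≠ 0 := by
    rw [Ne, CharP.cast_eq_zero_iff k p]
    exact hp29
  obtain ⟨𝕂, _, _, ⟨M⟩⟩ := exists_model k (n := 29) (by norm_num) hk29
  have : CharP 𝕂 p := charP_of_injective_algebraMap (algebraMap k 𝕂).injective p
  have hn0 : (τ.n0 : k) ≠ 0 := intCast_ne_zero_of_lt k τ.n0_ne (by omega)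
  have hδ : map (Int.castRingHom k) τ.δ ≠ 0 := by
    refine ne_zero_iff.2 ⟨d0, ?_⟩
    rw [coeff_map]
    exact intCast_ne_zero_of_lt k hd0 (by omega)
  have hodd : Odd 29 := by decide
  obtain ⟨pt⟩ := τ.ptable M hodd hn0 hδ hM
  obtain ⟨r, G, hr, hrN, hG, hF, hc, hw⟩ := hSp k 𝕂 (τ.surf M hn0) pt
  obtain ⟨-, hctr, hκ⟩ := M.inv_R hodd _ (τ.surf_Γ M hn0)
  obtain ⟨D⟩ := M.exists_dua _ (τ.surf_Γ M hn0) hctr
  let Cv : Cover k (τ.surf M hn0).Γ := M.symFam.toCover M.n_pos M.x_ne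
  have L : ∀ c, LogChart k (τ.surf M hn0).Γ 29 (2 * 29) (Cv.u c) (Cv.u' c) := fun c =>
    (M.symFam.logChart M.x_ne c).some
  obtain ⟨Pd⟩ := exists_pdata p (τ.surf M hn0) Cv hp29 L
  obtain ⟨θ⟩ := exists_derivs p (τ.surf M hn0) (L (1 : Equiv.Perm (Fin 5))) (Cv.u_mem _)
    (Cv.u'_mem _) (Cv.u_ne _) (Cv.u'_ne _) hp29
  refine part4 D Pd θ (by rw [hκ]; norm_num) hr ?_ hG hF hc hw
  have : r ^ 2 ≤ N ^ 2 := Nat.pow_le_pow_left hrN 2
  omega

/-- A matrix representation of a ring in which the equations of the table hold. -/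
theorem mats_of_rep {n : ℕ} (τ : Table n) {O : Type} [CommRing O] [Algebra ℂ O] (G : Gen → O)
    (hG : ∀ (F : MvPolynomial Gen ℤ) (j : ℕ), F.IsHomogeneous j → Rel n F → aeval G F = 0)
    {N Sp : ℕ} (β : O →+* Matrix (Fin N) (Fin N)
      (MvPolynomial (Fin 3) ℂ ⧸ idealOfVars (Fin 3) ℂ ^ Sp))
    (hβ : ∀ f, β (aeval ![G γ0, aeval G τ.y, aeval G τ.z] f) =
      Matrix.scalar (Fin N) (Ideal.Quotient.mk _ f)) : τ.Mats ℂ N Sp := by
  have lift : ∀ a : O, ∃ B : Matrix (Fin N) (Fin N) (MvPolynomial (Fin 3) ℂ),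
      (Ideal.Quotient.mk (idealOfVars (Fin 3) ℂ ^ Sp)).mapMatrix B = β a := fun a => by
    choose B hB using fun i j => Ideal.Quotient.mk_surjective (β a i j)
    exact ⟨Matrix.of B, Matrix.ext hB⟩
  choose B hB using lift
  have hs : ∀ (f : MvPolynomial (Fin 3) ℤ) (X : Matrix (Fin N) (Fin N) (MvPolynomial (Fin 3) ℂ)),
      (Ideal.Quotient.mk (idealOfVars (Fin 3) ℂ ^ Sp)).mapMatrix
        (map (Int.castRingHom ℂ) f • X) = β (aeval G (subs τ.y τ.z f)) *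
          (Ideal.Quotient.mk (idealOfVars (Fin 3) ℂ ^ Sp)).mapMatrix X := by
    intro f X
    rw [aeval_subs (k := ℂ), hβ, Matrix.scalar_apply, ← Matrix.smul_eq_diagonal_mul]
    ext i j
    simp
  have key : ∀ X : Matrix (Fin N) (Fin N) (MvPolynomial (Fin 3) ℂ),
      (Ideal.Quotient.mk (idealOfVars (Fin 3) ℂ ^ Sp)).mapMatrix X = 0 →
        ∀ i j, X i j ∈ idealOfVars (Fin 3) ℂ ^ Sp := fun X hX i j =>
    Ideal.Quotient.eq_zero_iff_mem.1 (congrFun (congrFun hX i) j)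
  refine ⟨B (aeval G τ.θ), fun γ => B (G γ), key _ ?_, fun γ => key _ ?_⟩
  · have h := congrArg β (hG _ _ τ.homogθ τ.relθ)
    simp only [map_sub, map_mul, map_pow, map_sum, map_zero] at h
    simp only [map_sub, map_sum, hs, map_pow, hB]
    exact h
  · have h := congrArg β (hG _ _ (τ.homogγ γ) (τ.relγ γ))
    simp only [map_sub, map_mul, map_pow, map_sum, map_zero, aeval_X] at h
    simp only [map_sub, map_sum, hs, map_pow, hB]
    exact h

open IsLocalRing in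
theorem no_mcm (τ : Table 29) {O : Type} [CommRing O] [IsLocalRing O] [IsNoetherianRing O]
    [Algebra ℂ O] (hres : Function.Surjective (algebraMap ℂ (ResidueField O))) (G : Gen → O)
    (hG : ∀ (F : MvPolynomial Gen ℤ) (j : ℕ), F.IsHomogeneous j → Rel 29 F → aeval G F = 0)
    (x : Fin 3 → O) (hxG : x = ![G γ0, aeval G τ.y, aeval G τ.z])
    (hx : ∀ i, x i ∈ maximalIdeal O) (hrad : maximalIdeal O ≤ (Ideal.span (Set.range x)).radical)
    (M : Type) [AddCommGroup M] [Module O M] (_ : Module.Finite O M) (_ : Nontrivial M)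
    (rs : List O) (hl : rs.length = 3) (hm : ∀ r ∈ rs, r ∈ maximalIdeal O) :
    ¬ RingTheory.Sequence.IsRegular M rs := fun hreg => by
  obtain ⟨N, hN, h⟩ := exists_matrix_rep ℂ hres x hx hrad M rs hl hm hreg
  obtain ⟨Sp, hSp⟩ := no_mats τ N hN
  obtain ⟨β, hβ⟩ := h Sp
  exact hSp (mats_of_rep τ G hG β (by rw [← hxG]; exact hβ))

theorem aeval_C_mul_X {σ 𝕃 : Type} [Field 𝕃] (g : σ → 𝕃) {F : MvPolynomial σ ℤ} {j : ℕ}
    (hF : F.IsHomogeneous j) :
    aeval (fun γ => Polynomial.C (g γ) * Polynomial.X) F =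
      Polynomial.C (aeval g F) * Polynomial.X ^ j := by
  conv_lhs => rw [F.as_sum]
  conv_rhs => rw [F.as_sum]
  rw [map_sum, map_sum, map_sum, Finset.sum_mul]
  refine Finset.sum_congr rfl fun d hd => ?_
  have hdeg : ∑ i ∈ d.support, d i = j := (hF.degree_eq_sum_deg_support hd).symm
  rw [aeval_monomial, aeval_monomial, map_mul, Finsupp.prod, Finsupp.prod, map_prod, ← hdeg,
    ← Finset.prod_pow_eq_pow_sum, mul_assoc, ← Finset.prod_mul_distrib]
  simp [mul_pow]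

theorem aeval_map_int {σ T O : Type} [CommRing T] [CommRing O] (ψ : T →+* O) (t : σ → T)
    (F : MvPolynomial σ ℤ) : aeval (fun γ => ψ (t γ)) F = ψ (aeval t F) := by
  have := congrArg (fun φ : MvPolynomial σ ℤ →ₐ[ℤ] O => φ F) (comp_aeval t ψ.toIntAlgHom)
  simpa using this.symm

/-- The graded ring together with everything the two statements need. -/
theorem exists_T : ∃ (τ : Table 29) (T : Type) (_ : CommRing T) (_ : Algebra ℂ T)
    (𝒜 : ℕ → Submodule ℂ T) (_ : GradedAlgebra 𝒜)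
    (_ : (HomogeneousIdeal.irrelevant 𝒜).toIdeal.IsMaximal),
      Algebra.FiniteType ℂ T ∧ IsDomain T ∧ ringKrullDim T = 3 ∧
      Function.Bijective (algebraMap ℂ (T ⧸ (HomogeneousIdeal.irrelevant 𝒜).toIdeal)) ∧
      ringKrullDim (Localization.AtPrime (HomogeneousIdeal.irrelevant 𝒜).toIdeal) = 3 ∧
      ∃ (t : Gen → T) (x : Fin 3 → T), x = ![t γ0, aeval t τ.y, aeval t τ.z] ∧
        (∀ (F : MvPolynomial Gen ℤ) (j : ℕ), F.IsHomogeneous j → Rel 29 F → aeval t F = 0) ∧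
        (aeval (R := ℂ) x).toRingHom.Finite ∧ Function.Injective (aeval (R := ℂ) x) ∧
        (∀ i, x i ∈ (HomogeneousIdeal.irrelevant 𝒜).toIdeal) ∧
        (HomogeneousIdeal.irrelevant 𝒜).toIdeal ≤ (Ideal.span (Set.range x)).radical := by
  obtain ⟨τ⟩ := exists_table (n := 29) (by norm_num) (by decide)
  obtain ⟨𝕂, _, _, ⟨M⟩⟩ := exists_model ℂ (n := 29) (by norm_num) (by norm_num)
  have hn0 : (τ.n0 : ℂ) ≠ 0 := Int.cast_ne_zero.2 τ.n0_ne
  obtain ⟨T, _, _, 𝒜, _, _, h1, h2, h3, h4, h5, ι, x, hι, ht, hx0, hx1, hx2, h6, h7, h8, h9⟩ :=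
    exists_reesT (τ.surf M hn0).toPreSurf
  choose t ht using fun γ : Gen => ht (M.g γ) (M.g_mem γ)
  have hev : ∀ (F : MvPolynomial Gen ℤ) (j : ℕ), F.IsHomogeneous j →
      ι (aeval t F) = Polynomial.C (aeval M.g F) * Polynomial.X ^ j := by
    intro F j hF
    rw [← aeval_C_mul_X M.g hF]
    have := aeval_map_int (ι : T →+* Polynomial 𝕂) t F
    simp only [RingHom.coe_coe, ht] at this
    exact this.symm
  refine ⟨τ, T, inferInstance, inferInstance, 𝒜, inferInstance, inferInstance, h1, h2, h3, h4, h5,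
    t, x, ?_, ?_, h6, h7, h8, h9⟩
  · funext i
    apply hι
    fin_cases i
    · simp [hx0, ht, M.g_γ0]
    · simp [hx1, hev _ _ τ.hy, τ.surf_y]
    · simp [hx2, hev _ _ τ.hz, τ.surf_z]
  · intro F j hF hR
    apply hι
    rw [hev F j hF, hR ℂ 𝕂 M]
    simp

end Crest.Agent.R169
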