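import Crest.Agent.R169.RRank

/-! # task R169/FrobPre -/

set_option autoImplicit false
set_option linter.unusedSectionVars false
open Filter Module IntermediateField

namespace Crest.Agent.R169

section general
variable {k 𝕂 : Type} [Field k] [Field 𝕂] [Algebra k 𝕂] [IsAlgClosed k]
  {E₁ : Type} [AddCommGroup E₁] [Module k E₁] [Module 𝕂 E₁] [IsScalarTower k 𝕂 E₁]
  {E₁' : Type} [AddCommGroup E₁'] [Module k E₁'] [Module 𝕂 E₁'] [IsScalarTower k 𝕂 E₁']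
  {E₂ : Type} [AddCommGroup E₂] [Module k E₂] [Module 𝕂 E₂] [IsScalarTower k 𝕂 E₂]
  {E₂' : Type} [AddCommGroup E₂'] [Module k E₂'] [Module 𝕂 E₂'] [IsScalarTower k 𝕂 E₂']
  {S : PreSurf k 𝕂}

omit [IsAlgClosed k] in
theorem FrobPre_gen (φ : E₁ →+ E₁') (q : ℕ) {V : Fam k E₁} {l m : ℤ} {v : E₁} {r : 𝕂}
    (hv : v ∈ V l) (hr : r ∈ S.R (m - q * l)) : r • φ v ∈ frobF S.Γ φ q V m :=
  Submodule.subset_span ⟨l, v, r, hv, hr, rfl⟩

omit [IsAlgClosed k] in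
theorem FrobPre_le (φ : E₁ →+ E₁') (q : ℕ) {V : Fam k E₁} {m : ℤ} {T : Submodule k E₁'}
    (h : ∀ (l : ℤ) (v : E₁) (r : 𝕂), v ∈ V l → r ∈ S.R (m - q * l) → r • φ v ∈ T) :
    frobF S.Γ φ q V m ≤ T := by
  refine Submodule.span_le.2 ?_
  rintro _ ⟨l, v, r, hv, hr, rfl⟩
  exact h l v r hv hr

/-- Multiplication by a scalar of the big field as a `k`-linear map. -/
def FrobPre_mul (k : Type) [Field k] {𝕂 : Type} [Field 𝕂] [Algebra k 𝕂] (E : Type)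
    [AddCommGroup E] [Module k E] [Module 𝕂 E] [IsScalarTower k 𝕂 E] (a : 𝕂) : E →ₗ[k] E :=
  (a • (LinearMap.id : E →ₗ[𝕂] E)).restrictScalars k

omit [IsAlgClosed k] in
theorem FrobPre_mul_apply (a : 𝕂) (v : E₁) : FrobPre_mul k E₁ a v = a • v := rfl

omit [IsAlgClosed k] in
theorem stab_frobF (φ : E₁ →+ E₁') (q : ℕ) (V : Fam k E₁) : Stab S.R (frobF S.Γ φ q V) := by
  intro i j a w ha hw
  have : frobF S.Γ φ q V j ≤ (frobF S.Γ φ q V (i + j)).comap (FrobPre_mul k E₁' a) := by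
    refine FrobPre_le φ q fun l v r hv hr => ?_
    rw [Submodule.mem_comap, FrobPre_mul_apply, smul_smul]
    refine FrobPre_gen φ q hv ?_
    have := mul_mem_Rg ha hr
    rwa [← add_sub_assoc] at this
  exact this hw

omit [IsAlgClosed k] in
theorem frobF_mono (φ : E₁ →+ E₁') (q : ℕ) {U V : Fam k E₁} (h : U ≤ V) :
    frobF S.Γ φ q U ≤ frobF S.Γ φ q V := by
  exact fun _ => FrobPre_le φ q fun l _ _ hv hr => FrobPre_gen φ q (h l hv) hr

omit [IsAlgClosed k] in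
theorem mem_frobF (φ : E₁ →+ E₁') (q : ℕ) {V : Fam k E₁} {l : ℤ} {v : E₁} (h : v ∈ V l) :
    φ v ∈ frobF S.Γ φ q V (q * l) := by
  have := FrobPre_gen (S := S) (m := q * l) (r := 1) φ q h (by
    rw [sub_self]; exact one_mem_Rg_zero)
  rwa [one_smul] at this

omit [IsAlgClosed k] in
theorem frobF_bot (φ : E₁ →+ E₁') (q : ℕ) : frobF S.Γ φ q (⊥ : Fam k E₁) = ⊥ := by
  refine le_bot_iff.1 fun m => FrobPre_le φ q fun l v r hv _ => ?_
  have h0 : v = 0 := hv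
  rw [h0, map_zero, smul_zero]
  exact Submodule.zero_mem _

omit [IsAlgClosed k] in
theorem frobF_sup (φ : E₁ →+ E₁') (q : ℕ) (U V : Fam k E₁) :
    frobF S.Γ φ q (U ⊔ V) = frobF S.Γ φ q U ⊔ frobF S.Γ φ q V := by
  refine le_antisymm (fun m => FrobPre_le φ q fun l v r hv hr => ?_)
    (sup_le (frobF_mono φ q le_sup_left) (frobF_mono φ q le_sup_right))
  obtain ⟨a, ha, b, hb, rfl⟩ := Submodule.mem_sup.1 (show v ∈ U l ⊔ V l from hv)
  rw [map_add, smul_add]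
  exact Submodule.add_mem_sup (FrobPre_gen φ q ha hr) (FrobPre_gen φ q hb hr)

omit [IsAlgClosed k] in
theorem frobF_cyc {φ : E₁ →+ E₁'} {q : ℕ} (hφ : ∀ (a : 𝕂) (v : E₁), φ (a • v) = a ^ q • φ v)
    (v : E₁) (l : ℤ) : frobF S.Γ φ q (cyc S.R v l) = cyc S.R (φ v) (q * l) := by
  refine le_antisymm (fun m => FrobPre_le φ q fun l' w r hw hr => ?_)
    ((stab_frobF φ q _).cyc_le (mem_frobF φ q (mem_cyc_self one_mem_Rg_zero v l)))
  obtain ⟨a, ha, rfl⟩ := mem_cyc.1 hw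
  refine mem_cyc.2 ⟨r * a ^ q, ?_, by rw [hφ, smul_smul]⟩
  have := mul_mem_Rg hr (pow_mem_Rg ha q)
  convert this using 2
  ring

omit [IsAlgClosed k] in
theorem lat_frobF {φ : E₁ →+ E₁'} {q : ℕ} (hφ : ∀ (a : 𝕂) (v : E₁), φ (a • v) = a ^ q • φ v)
    {V : Fam k E₁} (hV : S.Lat V) : S.Lat (frobF S.Γ φ q V) := by
  obtain ⟨n, v, a, -, hVe⟩ := hV.fg
  refine ⟨stab_frobF φ q V, Bdd.of_le (V := ⨆ i, cyc S.R (φ (v i)) (q * a i))
    (Bdd.iSup fun i => S.bdd.cyc _ _) fun m => FrobPre_le φ q fun l w r hw hr => ?_⟩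
  rw [hVe] at hw
  obtain ⟨b, hb, rfl⟩ := (mem_iSup_cyc _ _ _ _ _).1 hw
  refine (mem_iSup_cyc _ _ _ _ _).2 ⟨fun i => r * b i ^ q, fun i => ?_, ?_⟩
  · have := mul_mem_Rg hr (pow_mem_Rg (hb i) q)
    convert this using 2
    ring
  · rw [map_sum, Finset.smul_sum]
    exact Finset.sum_congr rfl fun i _ => by rw [hφ, smul_smul]

omit [IsAlgClosed k] in
theorem frobF_mapF (φ₁ : E₁ →+ E₁') (φ₂ : E₂ →+ E₂') (q : ℕ) (ψ : E₁ →ₗ[𝕂] E₂) (ψ' : E₁' →ₗ[𝕂] E₂')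
    (h : ∀ v, ψ' (φ₁ v) = φ₂ (ψ v)) (V : Fam k E₁) :
    frobF S.Γ φ₂ q (mapF ψ V) = mapF ψ' (frobF S.Γ φ₁ q V) := by
  funext m
  refine le_antisymm (FrobPre_le φ₂ q fun l w r hw hr => ?_) ?_
  · obtain ⟨v, hv, rfl⟩ := mem_mapF.1 hw
    exact mem_mapF.2 ⟨r • φ₁ v, FrobPre_gen φ₁ q hv hr, by rw [map_smul, h]⟩
  · refine Submodule.map_le_iff_le_comap.2 (FrobPre_le φ₁ q fun l v r hv hr => ?_)
    rw [Submodule.mem_comap, LinearMap.restrictScalars_apply, map_smul, h]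
    exact FrobPre_gen φ₂ q (mem_mapF.2 ⟨v, hv, rfl⟩) hr

omit [IsAlgClosed k] in
theorem FrobPre_shift (φ : E₁ →+ E₁') (q : ℕ) (V : Fam k E₁) (l : ℤ) :
    frobF S.Γ φ q (shift V l) = shift (frobF S.Γ φ q V) (q * l) := by
  funext m
  refine le_antisymm (FrobPre_le φ q fun l' v r hv hr => ?_)
    (FrobPre_le (m := m + q * l) φ q fun l' v r hv hr => ?_)
  · refine FrobPre_gen (l := l' + l) (m := m + q * l) φ q hv ?_
    convert hr using 2
    ring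
  · refine FrobPre_gen (l := l' - l) φ q (show v ∈ V (l' - l + l) by rwa [sub_add_cancel]) ?_
    convert hr using 2
    ring

omit [IsAlgClosed k] in
theorem FrobPre_loc_pow {u u' : 𝕂} (hu : u ∈ S.Γ) (hu' : u' ∈ S.Γ) {a : 𝕂}
    (ha : a ∈ loc u u' S.R 0) (n : ℕ) : a ^ n ∈ loc u u' S.R 0 := by
  induction n with
  | zero => rw [pow_zero]; exact loc_of_mem one_mem_Rg_zero
  | succ n ih =>
    have := loc_smul hu hu' stab_Rg ih ha
    rwa [add_zero, smul_eq_mul, ← pow_succ] at this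

omit [IsAlgClosed k] in
theorem FrobPre_loc_frob {u u' : 𝕂} {q : ℕ} {φ : E₁ →+ E₁'}
    (hφ : ∀ (a : 𝕂) (v : E₁), φ (a • v) = a ^ q • φ v) {V : Fam k E₁} {v : E₁}
    (hv : v ∈ loc u u' V 0) : φ v ∈ loc u u' (frobF S.Γ φ q V) 0 := by
  obtain ⟨M, hM⟩ := hv
  refine ⟨M * q, ?_⟩
  have := mem_frobF (S := S) φ q hM
  rw [hφ, ← pow_mul] at this
  convert this using 2
  push_cast
  ring

variable {p : ℕ} [Fact p.Prime] [CharP 𝕂 p]

/-- Description of the Frobenius pull-back on a chart. -/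
theorem mem_loc_frobF (P : PData k S.Γ p) (c : P.ι) {m : ℕ} {φ : E₁ →+ E₁'}
    (hφ : ∀ (a : 𝕂) (v : E₁), φ (a • v) = a ^ p ^ m • φ v) {V : Fam k E₁} (hV : Stab S.R V)
    (w : E₁') : w ∈ loc (P.u c) (P.u' c) (frobF S.Γ φ (p ^ m) V) 0 ↔
      ∃ f : Fin (p ^ m) × Fin (p ^ m) → E₁, (∀ i, f i ∈ loc (P.u c) (P.u' c) V 0) ∧
        w = ∑ i, (P.σ c 0 ^ (i.1 : ℕ) * P.σ c 1 ^ (i.2 : ℕ)) • φ (f i) := by
  have hu := P.u_mem c
  have hu' := P.u'_mem c
  have h0 := P.u_ne c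
  have h0' := P.u'_ne c
  have hq : 0 < p ^ m := pow_pos (Fact.out : p.Prime).pos m
  constructor
  · rintro ⟨M, hM⟩
    let T : Submodule k E₁' :=
      { carrier := {w | ∃ f : Fin (p ^ m) × Fin (p ^ m) → E₁,
          (∀ i, f i ∈ loc (P.u c) (P.u' c) V 0) ∧
            w = ∑ i, (P.σ c 0 ^ (i.1 : ℕ) * P.σ c 1 ^ (i.2 : ℕ)) • φ (f i)}
        add_mem' := by
          rintro _ _ ⟨f, hf, rfl⟩ ⟨g, hg, rfl⟩
          refine ⟨f + g, fun i => loc_add hu hu' hV (hf i) (hg i), ?_⟩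
          rw [← Finset.sum_add_distrib]
          exact Finset.sum_congr rfl fun i _ => by rw [Pi.add_apply, map_add, smul_add]
        zero_mem' := ⟨0, fun _ => loc_zero 0, by simp⟩
        smul_mem' := by
          rintro a _ ⟨f, hf, rfl⟩
          obtain ⟨d, rfl⟩ := IsAlgClosed.exists_pow_nat_eq a hq
          refine ⟨fun i => d • f i, fun i => loc_ksmul d (hf i), ?_⟩
          rw [Finset.smul_sum]
          refine Finset.sum_congr rfl fun i _ => ?_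
          show _ = _ • φ (d • f i)
          rw [← algebraMap_smul 𝕂 d (f i), hφ, ← map_pow, ← algebraMap_smul 𝕂 (d ^ p ^ m),
            smul_comm] }
    have hg : (P.u c * P.u' c) ^ M ≠ 0 := pow_ne_zero _ (mul_ne_zero h0 h0')
    have key : frobF S.Γ φ (p ^ m) V (0 + 2 * M) ≤
        T.comap (FrobPre_mul k E₁' ((P.u c * P.u' c) ^ M)⁻¹) := by
      refine FrobPre_le φ _ fun l v r hv hr => ?_
      rw [Submodule.mem_comap, FrobPre_mul_apply]
      have hv' : P.u c ^ (-l) • v ∈ loc (P.u c) (P.u' c) V 0 := by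
        have := (loc_zpow_smul hu hu' hV h0 h0' (m := l) (v := v) (-l)).2 (loc_of_mem hv)
        rwa [add_neg_cancel] at this
      have ht : ((P.u c * P.u' c) ^ M)⁻¹ * (P.u c ^ (((p ^ m : ℕ) : ℤ) * l) * r) ∈
          loc (P.u c) (P.u' c) S.R 0 := by
        obtain ⟨M', hM'⟩ := (loc_zpow_smul hu hu' stab_Rg h0 h0' (v := r)
          (((p ^ m : ℕ) : ℤ) * l)).2 (loc_of_mem hr)
        refine ⟨M' + M, ?_⟩
        rw [smul_eq_mul, pow_add, mul_assoc, mul_inv_cancel_left₀ hg]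
        rw [smul_eq_mul, smul_eq_mul] at hM'
        convert hM' using 2
        push_cast
        ring
      obtain ⟨a, ha, hta⟩ := P.span c m _ ht
      refine ⟨fun i => a i • P.u c ^ (-l) • v, fun i => ?_, ?_⟩
      · have := loc_smul hu hu' hV (ha i) hv'
        rwa [add_zero] at this
      · have e : ∀ i : Fin (p ^ m) × Fin (p ^ m),
            (P.σ c 0 ^ (i.1 : ℕ) * P.σ c 1 ^ (i.2 : ℕ)) • φ (a i • P.u c ^ (-l) • v) =
              (P.σ c 0 ^ (i.1 : ℕ) * P.σ c 1 ^ (i.2 : ℕ) * a i ^ p ^ m) •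
                φ (P.u c ^ (-l) • v) := fun i => by rw [hφ, smul_smul]
        simp only [e]
        rw [← Finset.sum_smul, ← hta, hφ, smul_smul, smul_smul]
        congr 1
        have e2 : P.u c ^ (((p ^ m : ℕ) : ℤ) * l) * (P.u c ^ (-l)) ^ p ^ m = 1 := by
          rw [← zpow_natCast, ← zpow_mul, ← zpow_add₀ h0]
          rw [show ((p ^ m : ℕ) : ℤ) * l + -l * ((p ^ m : ℕ) : ℤ) = 0 by ring, zpow_zero]
        linear_combination (-((P.u c * P.u' c) ^ M)⁻¹ * r) * e2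
    have := key hM
    rw [Submodule.mem_comap, FrobPre_mul_apply, smul_smul, inv_mul_cancel₀ hg, one_smul] at this
    exact this
  · rintro ⟨f, hf, rfl⟩
    refine loc_sum hu hu' (stab_frobF φ _ V) _ fun i _ => ?_
    have h1 := loc_smul hu hu' stab_Rg (FrobPre_loc_pow hu hu' (P.σ_mem c 0) i.1)
      (FrobPre_loc_pow hu hu' (P.σ_mem c 1) i.2)
    rw [add_zero, smul_eq_mul] at h1
    have h2 := loc_smul hu hu' (stab_frobF φ (p ^ m) V) h1 (FrobPre_loc_frob hφ (hf i))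
    rwa [add_zero] at h2

/-- Flatness of Frobenius: pull-back commutes with preimages in large degrees. -/
theorem frobF_comapF (P : PData k S.Γ p) {m : ℕ} {φ₁ : E₁ →+ E₁'} {φ₂ : E₂ →+ E₂'}
    (hφ₁ : ∀ (a : 𝕂) (v : E₁), φ₁ (a • v) = a ^ p ^ m • φ₁ v) (hφ₂ : IsFrob 𝕂 (p ^ m) φ₂)
    (ψ : E₁ →ₗ[𝕂] E₂) (ψ' : E₁' →ₗ[𝕂] E₂') (h : ∀ v, ψ' (φ₁ v) = φ₂ (ψ v))
    {V₁ : Fam k E₁} {V₂ : Fam k E₂} (h₁ : S.Lat V₁) (h₂ : Stab S.R V₂) :
    ∀ᶠ j in atTop, frobF S.Γ φ₁ (p ^ m) (V₁ ⊓ comapF ψ V₂) j =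
      (frobF S.Γ φ₁ (p ^ m) V₁ ⊓ comapF ψ' (frobF S.Γ φ₂ (p ^ m) V₂)) j := by
  have hL : S.Lat (frobF S.Γ φ₁ (p ^ m) (V₁ ⊓ comapF ψ V₂)) :=
    lat_frobF hφ₁ (h₁.inf (h₂.comapF ψ))
  filter_upwards [hL.glue P.toCover] with j hj
  refine le_antisymm (le_inf (frobF_mono φ₁ _ inf_le_left j)
    (FrobPre_le φ₁ _ fun l v r hv hr => ?_)) fun w hw => hj w fun c => ?_
  · rw [mem_comapF, map_smul, h]
    exact FrobPre_gen φ₂ _ hv.2 hr
  · have hu := P.u_mem c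
    have hu' := P.u'_mem c
    have h0 := P.u_ne c
    have h0' := P.u'_ne c
    have hw1 : w ∈ frobF S.Γ φ₁ (p ^ m) V₁ j := hw.1
    have hw2 : ψ' w ∈ frobF S.Γ φ₂ (p ^ m) V₂ j := hw.2
    have a1 := (loc_zpow_smul hu hu' (stab_frobF φ₁ (p ^ m) V₁) h0 h0' (-j)).2 (loc_of_mem hw1)
    have a2 := (loc_zpow_smul hu hu' (stab_frobF φ₂ (p ^ m) V₂) h0 h0' (-j)).2 (loc_of_mem hw2)
    rw [add_neg_cancel] at a1 a2
    obtain ⟨f, hf, e1⟩ := (mem_loc_frobF P c hφ₁ h₁.stab _).1 a1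
    obtain ⟨g, hg, e2⟩ := (mem_loc_frobF P c hφ₂.smul h₂ _).1 a2
    have e3 : (fun i => ψ (f i) - g i) = 0 := by
      refine hφ₂.ind (fun i : Fin (p ^ m) × Fin (p ^ m) =>
        P.σ c 0 ^ (i.1 : ℕ) * P.σ c 1 ^ (i.2 : ℕ)) (P.ind c m) _ ?_
      simp only [map_sub, smul_sub, Finset.sum_sub_distrib]
      rw [← e2, ← map_smul, e1, map_sum]
      simp only [map_smul, h, sub_self]
    have hf' : ∀ i, f i ∈ loc (P.u c) (P.u' c) (V₁ ⊓ comapF ψ V₂) 0 := fun i => by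
      rw [loc_inf hu hu' (h₂.comapF ψ) h₁.stab]
      refine ⟨hf i, ?_⟩
      obtain ⟨M, hM⟩ := hg i
      refine ⟨M, ?_⟩
      rw [mem_comapF, map_smul, sub_eq_zero.1 (congrFun e3 i)]
      exact hM
    have a3 := (mem_loc_frobF P c hφ₁ (h₁.stab.inf (h₂.comapF ψ)) _).2 ⟨f, hf', e1⟩
    refine (loc_zpow_smul hu hu' hL.stab h0 h0' (-j)).1 ?_
    rwa [add_neg_cancel]

end general

section coord
variable {k 𝕂 : Type} [Field k] [Field 𝕂] [Algebra k 𝕂] {S : PreSurf k 𝕂}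
  {p : ℕ} [Fact p.Prime] [CharP 𝕂 p] {ι : Type} [Fintype ι]

theorem isFrob_fr1 (m : ℕ) : IsFrob 𝕂 (p ^ m) (fr1 𝕂 p m) := by
  refine ⟨fun a v => by simp [mul_pow], fun c hc w hw => hc w ?_⟩
  simpa using hw

omit [Fintype ι] in
theorem isFrob_frv (m : ℕ) : IsFrob 𝕂 (p ^ m) (frv 𝕂 p ι m) := by
  refine ⟨fun a v => by ext i; simp [mul_pow], fun c hc w hw => ?_⟩
  funext i j
  have := hc (fun i => w i j) (by simpa using congrFun hw j)
  exact congrFun this i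

omit [Fintype ι] in
theorem PreSurf.Lat.fr {V : Fam k (ι → 𝕂)} (hV : S.Lat V) (m : ℕ) : S.Lat (S.fr p m V) :=
  lat_frobF (isFrob_frv m).smul hV

theorem PreSurf.Lat.fri {P : Fam k 𝕂} (hP : S.Lat P) (m : ℕ) : S.Lat (S.fri p m P) :=
  lat_frobF (isFrob_fr1 m).smul hP

theorem PreSurf.fri_R (m : ℕ) : S.fri p m S.R = S.R := by
  funext j
  refine le_antisymm (FrobPre_le _ _ fun l v r hv hr => ?_) fun r hr => ?_
  · have := mul_mem_Rg hr (pow_mem_Rg hv (p ^ m))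
    rwa [sub_add_cancel] at this
  · have := FrobPre_gen (S := S) (l := 0) (m := j) (r := r) (fr1 𝕂 p m) (p ^ m)
      (one_mem_Rg_zero (k := k) (Γ := S.Γ)) (by rwa [mul_zero, sub_zero])
    rwa [fr1_apply, one_pow, smul_eq_mul, mul_one] at this

omit [Fintype ι] in
theorem PreSurf.fr_zero {V : Fam k (ι → 𝕂)} (hV : Stab S.R V) : S.fr p 0 V = V := by
  have e : ∀ v : ι → 𝕂, frv 𝕂 p ι 0 v = v := fun v => by ext i; simp
  funext j
  refine le_antisymm (FrobPre_le _ _ fun l v r hv hr => ?_) fun v hv => ?_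
  · have := hV _ _ r v hr hv
    rw [e]
    simpa using this
  · have := mem_frobF (S := S) (frv 𝕂 p ι 0) (p ^ 0) hv
    rw [e, show ((p ^ 0 : ℕ) : ℤ) * j = j by simp] at this
    exact this

omit [Fintype ι] in
theorem PreSurf.fr_fr (a b : ℕ) (V : Fam k (ι → 𝕂)) :
    S.fr p a (S.fr p b V) = S.fr p (a + b) V := by
  have e : ∀ v : ι → 𝕂, frv 𝕂 p ι a (frv 𝕂 p ι b v) = frv 𝕂 p ι (a + b) v := fun v => by
    ext i
    simp only [frv_apply]
    rw [← pow_mul, ← pow_add, add_comm]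
  funext j
  refine le_antisymm (FrobPre_le _ _ fun l w r hw hr => ?_)
    (FrobPre_le _ _ fun l v r hv hr => ?_)
  · induction hw using Submodule.span_induction with
    | mem x hx =>
      obtain ⟨l', v, r', hv, hr', rfl⟩ := hx
      rw [(isFrob_frv a).smul, e, smul_smul]
      refine FrobPre_gen _ _ hv ?_
      have := mul_mem_Rg hr (pow_mem_Rg hr' (p ^ a))
      convert this using 2
      push_cast
      ring
    | zero => rw [map_zero, smul_zero]; exact Submodule.zero_mem _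
    | add x y _ _ hx hy => rw [map_add, smul_add]; exact Submodule.add_mem _ hx hy
    | smul c x _ hx =>
      rw [← algebraMap_smul 𝕂 c x, (isFrob_frv a).smul, ← map_pow, smul_comm, algebraMap_smul]
      exact Submodule.smul_mem _ _ hx
  · rw [← e]
    refine FrobPre_gen _ _ (mem_frobF _ _ hv) ?_
    convert hr using 2
    push_cast
    ring

omit [Fintype ι] in
theorem FrobPre_frv_single [DecidableEq ι] (m : ℕ) (i : ι) (c : 𝕂) :
    frv 𝕂 p ι m (Pi.single i c) = Pi.single i (c ^ p ^ m) := by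
  ext j
  by_cases h : j = i
  · subst h
    simp
  · simp [Pi.single_eq_of_ne h, (Fact.out : p.Prime).ne_zero]

theorem PreSurf.fr_piF_cyc (m : ℕ) (c : 𝕂) (l : ℤ) :
    S.fr p m (piF ι (cyc S.R c l)) = piF ι (cyc S.R (c ^ p ^ m) ((p ^ m : ℕ) * l)) := by
  classical
  funext j
  refine le_antisymm (FrobPre_le _ _ fun l' v r hv hr => mem_piF.2 fun i => ?_) fun w hw => ?_
  · obtain ⟨a, ha, hav⟩ := mem_cyc.1 (mem_piF.1 hv i)
    refine mem_cyc.2 ⟨r * a ^ p ^ m, ?_, ?_⟩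
    · have := mul_mem_Rg hr (pow_mem_Rg ha (p ^ m))
      convert this using 2
      ring
    · rw [Pi.smul_apply, frv_apply, ← hav]
      simp only [smul_eq_mul, mul_pow, mul_assoc]
  · rw [← Finset.univ_sum_single w]
    refine Submodule.sum_mem _ fun i _ => ?_
    obtain ⟨r, hr, hrw⟩ := mem_cyc.1 (mem_piF.1 hw i)
    have h1 : (Pi.single i c : ι → 𝕂) ∈ piF ι (cyc S.R c l) l := by
      refine mem_piF.2 fun i' => ?_
      by_cases h : i' = i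
      · subst h
        rw [Pi.single_eq_same]
        exact mem_cyc_self one_mem_Rg_zero c l
      · rw [Pi.single_eq_of_ne h]
        exact Submodule.zero_mem _
    have := FrobPre_gen (frv 𝕂 p ι m) (p ^ m) h1 hr
    rwa [FrobPre_frv_single, ← Pi.single_smul, hrw] at this

theorem frS_top (m : ℕ) : frS p m (⊤ : Submodule 𝕂 (ι → 𝕂)) = ⊤ := by
  classical
  refine top_le_iff.1 fun w _ => ?_
  rw [← Finset.univ_sum_single w]
  refine Submodule.sum_mem _ fun i _ => ?_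
  have h1 : (Pi.single i 1 : ι → 𝕂) ∈ frS p m (⊤ : Submodule 𝕂 (ι → 𝕂)) :=
    Submodule.subset_span ⟨Pi.single i 1, trivial, by rw [FrobPre_frv_single, one_pow]⟩
  have := Submodule.smul_mem _ (w i) h1
  rwa [← Pi.single_smul, smul_eq_mul, mul_one] at this

omit [Fintype ι] in
theorem PreSurf.spanF_fr (m : ℕ) (V : Fam k (ι → 𝕂)) :
    spanF 𝕂 (S.fr p m V) = frS p m (spanF 𝕂 V) := by
  refine le_antisymm (Submodule.span_le.2 (Set.iUnion_subset fun j => ?_))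
    (Submodule.span_le.2 ?_)
  · have : S.fr p m V j ≤ (frS p m (spanF 𝕂 V)).restrictScalars k :=
      FrobPre_le _ _ fun l v r hv _ =>
        Submodule.smul_mem (frS p m (spanF 𝕂 V)) r (Submodule.subset_span ⟨v, mem_spanF hv, rfl⟩)
    exact this
  · rintro _ ⟨v, hv, rfl⟩
    induction hv using Submodule.span_induction with
    | mem x hx =>
      obtain ⟨l, hl⟩ := Set.mem_iUnion.1 hx
      exact mem_spanF (mem_frobF _ _ hl)
    | zero => rw [map_zero]; exact Submodule.zero_mem _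
    | add x y _ _ hx hy => rw [map_add]; exact Submodule.add_mem _ hx hy
    | smul c x _ hx => rw [(isFrob_frv m).smul]; exact Submodule.smul_mem _ _ hx

theorem PreSurf.full_fr {V : Fam k (ι → 𝕂)} (hF : Full 𝕂 V) (m : ℕ) : Full 𝕂 (S.fr p m V) := by
  unfold Full at hF ⊢
  rw [PreSurf.spanF_fr, hF, frS_top]

theorem FrobPre_twist {ι' : Type} [Fintype ι'] (m : ℕ) (ψ : (ι → 𝕂) →ₗ[𝕂] (ι' → 𝕂)) :
    ∃ ψ' : (ι → 𝕂) →ₗ[𝕂] (ι' → 𝕂), ∀ v, ψ' (frv 𝕂 p ι m v) = frv 𝕂 p ι' m (ψ v) := by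
  classical
  refine ⟨Matrix.toLin' ((LinearMap.toMatrix' ψ).map (iterateFrobenius 𝕂 p m)), fun v => ?_⟩
  ext i
  have := RingHom.map_mulVec (iterateFrobenius 𝕂 p m) (LinearMap.toMatrix' ψ) v i
  rw [LinearMap.toMatrix'_mulVec] at this
  rw [Matrix.toLin'_apply]
  exact this.symm

theorem FrobPre_range {ι' : Type} (m : ℕ) (ψ ψ' : (ι → 𝕂) →ₗ[𝕂] (ι' → 𝕂))
    (h : ∀ v, ψ' (frv 𝕂 p ι m v) = frv 𝕂 p ι' m (ψ v)) :
    LinearMap.range ψ' = frS p m (LinearMap.range ψ) := by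
  rw [LinearMap.range_eq_map, ← frS_top (p := p) m, frS, frS, Submodule.map_span]
  congr 1
  ext w
  constructor
  · rintro ⟨_, ⟨v, -, rfl⟩, rfl⟩
    exact ⟨ψ v, ⟨v, rfl⟩, (h v).symm⟩
  · rintro ⟨_, ⟨v, rfl⟩, rfl⟩
    exact ⟨_, ⟨v, trivial, rfl⟩, h v⟩

/-- The Frobenius twist of a linear map between coordinate spaces. -/
theorem exists_twist {ι' : Type} [Fintype ι'] (m : ℕ) (ψ : (ι → 𝕂) →ₗ[𝕂] (ι' → 𝕂)) :
    ∃ ψ' : (ι → 𝕂) →ₗ[𝕂] (ι' → 𝕂), (∀ v, ψ' (frv 𝕂 p ι m v) = frv 𝕂 p ι' m (ψ v)) ∧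
      LinearMap.ker ψ' = frS p m (LinearMap.ker ψ) ∧
      LinearMap.range ψ' = frS p m (LinearMap.range ψ) := by
  obtain ⟨ψ', h⟩ := FrobPre_twist (p := p) m ψ
  refine ⟨ψ', h, le_antisymm ?_ (Submodule.span_le.2 ?_), FrobPre_range m ψ ψ' h⟩
  · obtain ⟨g, hg⟩ := ψ.rangeRestrict.exists_rightInverse_of_surjective ψ.range_rangeRestrict
    obtain ⟨χ, hχ⟩ := g.exists_extend
    have hinv : ∀ v, ψ (χ (ψ v)) = ψ v := fun v => by
      have e1 : χ (ψ v) = g ⟨ψ v, v, rfl⟩ := LinearMap.congr_fun hχ ⟨ψ v, v, rfl⟩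
      have e2 := congrArg Subtype.val (LinearMap.congr_fun hg ⟨ψ v, v, rfl⟩)
      rw [e1]
      exact e2
    obtain ⟨χ', h'⟩ := FrobPre_twist (p := p) m χ
    have hr := FrobPre_range (p := p) m (LinearMap.id - χ ∘ₗ ψ) (LinearMap.id - χ' ∘ₗ ψ')
      fun v => by simp only [LinearMap.sub_apply, LinearMap.id_apply, LinearMap.comp_apply, h, h',
        map_sub]
    intro w hw
    have h1 : w ∈ LinearMap.range (LinearMap.id - χ' ∘ₗ ψ') :=
      ⟨w, by simp [LinearMap.mem_ker.1 hw]⟩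
    rw [hr] at h1
    refine Submodule.span_mono (Set.image_mono ?_) h1
    rintro _ ⟨v, rfl⟩
    simp [hinv]
  · rintro _ ⟨v, hv, rfl⟩
    have hv0 : ψ v = 0 := hv
    show ψ' _ = 0
    rw [h, hv0, map_zero]

variable [IsAlgClosed k]

theorem PreSurf.fr_cut (P : PData k S.Γ p) {V : Fam k (ι → 𝕂)} (hV : S.Lat V) (m : ℕ)
    (F : Submodule 𝕂 (ι → 𝕂)) :
    ∀ᶠ j in atTop, S.fr p m (cut V F) j = cut (S.fr p m V) (frS p m F) j := by
  obtain ⟨G, hG⟩ := F.exists_isCompl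
  obtain ⟨ψ, hψ⟩ : ∃ ψ : (ι → 𝕂) →ₗ[𝕂] (ι → 𝕂), LinearMap.ker ψ = F :=
    ⟨G.subtype ∘ₗ G.projectionOnto F hG.symm, by
      rw [LinearMap.ker_comp, Submodule.ker_subtype, Submodule.comap_bot,
        Submodule.ker_projectionOnto]⟩
  obtain ⟨ψ', h, hk, -⟩ := exists_twist (p := p) m ψ
  have e1 : ∀ (χ : (ι → 𝕂) →ₗ[𝕂] (ι → 𝕂)) (U : Fam k (ι → 𝕂)),
      cut U (LinearMap.ker χ) = U ⊓ comapF χ ⊥ := fun χ U => rfl
  have := frobF_comapF P (isFrob_frv m).smul (isFrob_frv m) ψ ψ' h hV stab_bot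
  rw [frobF_bot, ← e1, ← e1, hk, hψ] at this
  exact this

omit [Fintype ι] in
/-- The Frobenius pull-back of an elementary extension. -/
theorem PreSurf.hf_fr_step (P : PData k S.Γ p) {W : Fam k (ι → 𝕂)} (hW : S.Lat W) (m : ℕ)
    (v : ι → 𝕂) (l : ℤ) :
    ∀ᶠ j in atTop, hf (S.fr p m (W ⊔ cyc S.R v l)) j = hf (S.fr p m W) j +
      hf S.R (j - (p ^ m : ℕ) * l) - hf (S.fri p m (S.colon W v l)) (j - (p ^ m : ℕ) * l) := by
  have e1 : ∀ (U : Fam k (ι → 𝕂)) (w : ι → 𝕂) (a : ℤ), S.colon U w a =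
      S.R ⊓ comapF (LinearMap.toSpanSingleton 𝕂 (ι → 𝕂) w) (shift U a) := fun U w a => rfl
  have h1 := frobF_comapF P (isFrob_fr1 m).smul (isFrob_frv (ι := ι) m)
    (LinearMap.toSpanSingleton 𝕂 (ι → 𝕂) v)
    (LinearMap.toSpanSingleton 𝕂 (ι → 𝕂) (frv 𝕂 p ι m v))
    (fun a => by
      rw [LinearMap.toSpanSingleton_apply, LinearMap.toSpanSingleton_apply, (isFrob_frv m).smul,
        fr1_apply]) S.lat_R (hW.stab.shift l)
  have h2 : frobF S.Γ (fr1 𝕂 p m) (p ^ m) S.R = S.R := PreSurf.fri_R m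
  rw [FrobPre_shift, h2, ← e1, ← e1] at h1
  have h3 := (tendsto_atTop_add_const_right atTop (-(((p ^ m : ℕ) : ℤ) * l))
    (tendsto_id (α := ℤ))).eventually h1
  filter_upwards [h3] with j hj
  have h4 : S.fr p m (W ⊔ cyc S.R v l) =
      S.fr p m W ⊔ cyc S.R (frv 𝕂 p ι m v) (((p ^ m : ℕ) : ℤ) * l) := by
    unfold PreSurf.fr
    rw [frobF_sup, frobF_cyc (isFrob_frv m).smul]
  rw [h4, PreSurf.hf_step (hW.fr m)]
  congr 1
  rw [id, ← sub_eq_add_neg] at hj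
  unfold hf
  rw [show S.fri p m (S.colon W v l) (j - ((p ^ m : ℕ) : ℤ) * l) = _ from hj]
  rfl

end coord

end Crest.Agent.R169
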