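import Crest.Agent.R169.PrimeScale

/-! # task R169/FrobScale -/

set_option autoImplicit false
open Filter Module IntermediateField

namespace Crest.Agent.R169

section step
variable {k 𝕂 : Type} [Field k] [Field 𝕂] [Algebra k 𝕂] {S : PreSurf k 𝕂}
  {E : Type} [AddCommGroup E] [Module k E]

theorem FrobScale_ctr (S : PreSurf k 𝕂) : S.ctr * S.e = -dg S.R := by
  have h := S.DD_R
  unfold PreSurf.DD at h
  change dg S.R + S.ctr * S.e = 0 at h
  linarith

/-- Invariants of an elementary extension in terms of those of the colon ideal. -/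
theorem FrobScale_step {W W' : Fam k E} {P : Fam k 𝕂} (hW : Good W) (hP : Good P) (l : ℤ)
    (e : ∀ᶠ j in atTop, hf W' j = hf W j + hf S.R (j - l) - hf P (j - l)) :
    rk W' = rk W + S.e - rk P ∧ dg W' = dg W + (dg S.R - l * S.e) - (dg P - l * rk P) ∧
      S.SS W' = S.SS W + (l : ℝ) ^ 2 * S.e / 2 -
        (S.SS P - l * S.DD P + (l : ℝ) ^ 2 * rk P / 2) := by
  have h1 := ((hW.hasHP.add (S.lat_R.good.hasHP.shift (-l))).sub (hP.hasHP.shift (-l))).congr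
    (h' := hf W') (e.mono fun j hj => by rw [hj]; simp only [sub_eq_add_neg])
  obtain ⟨h2, h3, h4⟩ := h1.eq_inv
  have h5 := S.SS_R
  have h6 := S.DD_R
  push_cast at h3 h4
  refine ⟨h2, by rw [h3]; unfold PreSurf.e; ring, ?_⟩
  unfold PreSurf.SS PreSurf.DD HP PreSurf.e at *
  rw [h2, h3, h4]
  linear_combination h5 - (l : ℝ) * h6

theorem FrobScale_step_bot {W W' : Fam k E} (hW : Good W) (l : ℤ)
    (e : ∀ᶠ j in atTop, hf W' j = hf W j + hf S.R (j - l) - hf (⊥ : Fam k 𝕂) (j - l)) :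
    rk W' = rk W + S.e ∧ S.DD W' = S.DD W - l * S.e := by
  obtain ⟨h1, h2, -⟩ := FrobScale_step hW good_bot l e
  obtain ⟨h3, h4, -⟩ := inv_bot (k := k) (E := 𝕂)
  have h5 := FrobScale_ctr S
  rw [h3] at h1
  rw [h3, h4] at h2
  refine ⟨by linarith, ?_⟩
  unfold PreSurf.DD
  rw [h1, h2]
  linear_combination h5

theorem FrobScale_step_ne {W W' : Fam k E} {P : Fam k 𝕂} (hW : Good W) (hP : Good P)
    (hrk : rk P = S.e) (l : ℤ)
    (e : ∀ᶠ j in atTop, hf W' j = hf W j + hf S.R (j - l) - hf P (j - l)) :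
    rk W' = rk W ∧ dg W' - dg W = dg S.R - dg P ∧
      S.SS W' - S.SS W = -S.SS P - l * (dg S.R - dg P) := by
  obtain ⟨h1, h2, h3⟩ := FrobScale_step hW hP l e
  have h5 := FrobScale_ctr S
  unfold PreSurf.DD at h3
  rw [hrk] at h1 h2 h3
  refine ⟨by linarith, by linarith, ?_⟩
  rw [h3]
  linear_combination (l : ℝ) * h5

theorem FrobScale_SS_piF (ι : Type) [Fintype ι] {V : Fam k E} (h : Good V) :
    S.SS (piF ι V) = Fintype.card ι * S.SS V := by
  obtain ⟨h1, h2, h3⟩ := inv_piF ι h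
  unfold PreSurf.SS HP
  rw [h1, h2, h3]
  ring

end step

variable {k 𝕂 : Type} [Field k] [Field 𝕂] [Algebra k 𝕂] [IsAlgClosed k] {S : PreSurf k 𝕂}
  {p : ℕ} [Fact p.Prime] [CharP 𝕂 p] {ι : Type} (Pd : PData k S.Γ p)

namespace PreSurf
include Pd

theorem Lat.inv_fr {V : Fam k (ι → 𝕂)} (hV : S.Lat V) (m : ℕ) :
    rk (S.fr p m V) = rk V ∧ S.DD (S.fr p m V) = (p : ℝ) ^ m * S.DD V := by
  refine deviss stab_bot hV bot_le
    (fun W => rk (S.fr p m W) = rk W ∧ S.DD (S.fr p m W) = (p : ℝ) ^ m * S.DD W) ?_ ?_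
  · have h : S.fr p m (⊥ : Fam k (ι → 𝕂)) = ⊥ := frobF_bot _ _
    obtain ⟨h3, h4, -⟩ := inv_bot (k := k) (E := ι → 𝕂)
    rw [h]
    unfold PreSurf.DD
    rw [h3, h4]
    simp
  · rintro W v l hWs - hWV - hP ⟨h1, h2⟩
    have hW := hV.of_le hWs hWV
    have e1 := Eventually.of_forall (f := atTop) fun j => hf_step hW v l j
    have e2 := hf_fr_step Pd hW m v l
    by_cases hne : S.colon W v l = ⊥
    · have h : S.fri p m (⊥ : Fam k 𝕂) = ⊥ := frobF_bot _ _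
      rw [hne] at e1 e2
      rw [h] at e2
      obtain ⟨a1, a2⟩ := FrobScale_step_bot hW.good l e1
      obtain ⟨b1, b2⟩ := FrobScale_step_bot (hW.fr m).good _ e2
      push_cast at b2
      refine ⟨by rw [a1, b1, h1], ?_⟩
      rw [a2, b2, h2]
      ring
    · obtain ⟨c1, c2, -⟩ := hP.scale Pd hne m
      obtain ⟨a1, a2, -⟩ := FrobScale_step_ne hW.good hP.lat.good
        (rk_ideal hP.stab hP.le hne) l e1
      obtain ⟨b1, b2, -⟩ := FrobScale_step_ne (hW.fr m).good (hP.lat.fri m).good c1 _ e2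
      refine ⟨by rw [a1, b1, h1], ?_⟩
      unfold PreSurf.DD at h2 ⊢
      rw [a1, b1]
      linear_combination h2 + b2 + c2 - (p : ℝ) ^ m * a2

theorem Phi_step {W : Fam k (ι → 𝕂)} (hW : S.Lat W) (m : ℕ) (v : ι → 𝕂) (l : ℤ)
    (hP : S.PrimeF (S.colon W v l)) (hne : S.colon W v l ≠ ⊥) :
    rk (W ⊔ cyc S.R v l) = rk W ∧
      dg (W ⊔ cyc S.R v l) - dg W = dg S.R - dg (S.colon W v l) ∧
      S.Phi p m (W ⊔ cyc S.R v l) - S.Phi p m W = -S.Phi1 p m (S.colon W v l) := by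
  have e1 := Eventually.of_forall (f := atTop) fun j => hf_step hW v l j
  have e2 := hf_fr_step Pd hW m v l
  obtain ⟨c1, c2, -⟩ := hP.scale Pd hne m
  obtain ⟨a1, a2, a3⟩ := FrobScale_step_ne hW.good hP.lat.good (rk_ideal hP.stab hP.le hne) l e1
  obtain ⟨-, -, b3⟩ := FrobScale_step_ne (hW.fr m).good (hP.lat.fri m).good c1 _ e2
  refine ⟨a1, a2, ?_⟩
  push_cast at b3
  unfold PreSurf.Phi PreSurf.Phi1
  linear_combination b3 - ((p : ℝ) ^ m) ^ 2 * a3 - (p : ℝ) ^ m * l * c2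

theorem PrimeF.Phi1_eq_zero {P : Fam k 𝕂} (hP : S.PrimeF P) (hne : P ≠ ⊥) (h : dg P = dg S.R)
    (m : ℕ) : S.Phi1 p m P = 0 := by
  obtain ⟨c1, c2, c3⟩ := hP.scale Pd hne m
  have c4 := c3 h
  have h1 := rk_ideal hP.stab hP.le hne
  have h5 := S.SS_R
  have c5 : dg (S.fri p m P) = dg S.R := by rw [h, sub_self, mul_zero] at c2; linarith
  unfold PreSurf.Phi1
  unfold PreSurf.SS HP at h5 ⊢
  change S.e * _ / 2 + _ + _ + S.κ * S.e = 0 at h5
  rw [c1, c5, h1, h]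
  linear_combination (1 - ((p : ℝ) ^ m) ^ 2) * h5 - c4

/-- `Phi` does not see points. -/
theorem Phi_congr {U V : Fam k (ι → 𝕂)} (hU : S.Lat U) (hV : S.Lat V) (h : U ≤ V)
    (hrk : rk U = rk V) (hdg : dg U = dg V) (m : ℕ) : S.Phi p m U = S.Phi p m V := by
  have sq : ∀ W : Fam k (ι → 𝕂), S.Lat W → U ≤ W → W ≤ V → rk W = rk V ∧ dg W = dg V := by
    intro W hW h1 h2
    obtain ⟨a1, a2⟩ := inv_mono hU.good hW.good h1
    obtain ⟨b1, b2⟩ := inv_mono hW.good hV.good h2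
    have c1 : rk W = rk V := le_antisymm b1 (hrk ▸ a1)
    exact ⟨c1, le_antisymm (b2 c1).1 (hdg ▸ (a2 (hrk.trans c1.symm)).1)⟩
  refine deviss hU.stab hV h (fun W => S.Phi p m U = S.Phi p m W) rfl ?_
  intro W v l hWs hUW hWV hv hP hQ
  have hW := hV.of_le hWs hWV
  obtain ⟨a1, a2⟩ := sq W hW hUW hWV
  obtain ⟨b1, b2⟩ := sq (W ⊔ cyc S.R v l) (hW.sup (lat_cyc v l)) (hUW.trans le_sup_left)
    (sup_le hWV (hV.stab.cyc_le hv))
  have hne : S.colon W v l ≠ ⊥ := fun h0 => by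
    have e1 := Eventually.of_forall (f := atTop) fun j => hf_step hW v l j
    rw [h0] at e1
    have := (FrobScale_step_bot hW.good l e1).1
    linarith [S.e_pos]
  obtain ⟨-, c2, c3⟩ := Phi_step Pd hW m v l hP hne
  rw [hP.Phi1_eq_zero Pd hne (by linarith) m] at c3
  linarith

/-- For a quotient killed by a nonzero prime, `Phi` is proportional to the degree. -/
theorem Phi_killed {U V : Fam k (ι → 𝕂)} (hU : S.Lat U) (hV : S.Lat V) (h : U ≤ V)
    {P : Fam k 𝕂} (hP : S.PrimeF P) (hne : P ≠ ⊥)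
    (hk : ∀ (i j : ℤ) (r : 𝕂) (v : ι → 𝕂), r ∈ P i → v ∈ V j → r • v ∈ U (i + j))
    (hdg : dg V - dg U = dg S.R - dg P) (m : ℕ) :
    S.Phi p m V - S.Phi p m U = -S.Phi1 p m P := by
  have key : rk V = rk U ∧ (dg S.R - dg P) * (S.Phi p m V - S.Phi p m U) =
      -(dg V - dg U) * S.Phi1 p m P := by
    refine deviss hU.stab hV h (fun W => rk W = rk U ∧ (dg S.R - dg P) *
      (S.Phi p m W - S.Phi p m U) = -(dg W - dg U) * S.Phi1 p m P) ⟨rfl, by ring⟩ ?_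
    rintro W v l hWs hUW hWV hv hP' ⟨h1, h2⟩
    have hW := hV.of_le hWs hWV
    have hle : P ≤ S.colon W v l := fun i r hr =>
      (S.mem_colon).2 ⟨hP.le i hr, hUW _ (hk i l r v hr hv)⟩
    have hne' : S.colon W v l ≠ ⊥ := fun h0 => hne (le_bot_iff.1 (h0 ▸ hle))
    obtain ⟨c1, c2, c3⟩ := Phi_step Pd hW m v l hP' hne'
    refine ⟨c1.trans h1, ?_⟩
    rcases hle.eq_or_lt with heq | hlt
    · rw [← heq] at c2 c3
      linear_combination h2 + (dg S.R - dg P) * c3 + S.Phi1 p m P * c2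
    · have d1 := hP.dg_eq_of_lt hne hP'.stab hP'.le hlt
      rw [hP'.Phi1_eq_zero Pd hne' d1 m] at c3
      rw [d1] at c2
      linear_combination h2 + (dg S.R - dg P) * c3 + S.Phi1 p m P * c2
  by_cases h0 : dg S.R - dg P = 0
  · rw [hP.Phi1_eq_zero Pd hne (by linarith) m,
      Phi_congr Pd hU hV h key.1.symm (by linarith) m]
    ring
  · refine mul_left_cancel₀ h0 ?_
    rw [key.2, hdg]
    ring

omit Pd [IsAlgClosed k] in
theorem Phi_piF_cyc [Fintype ι] {c : 𝕂} (hc : c ≠ 0) (l : ℤ) (m : ℕ) :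
    S.Phi p m (piF ι (cyc S.R c l)) = 0 := by
  unfold PreSurf.Phi
  rw [fr_piF_cyc, FrobScale_SS_piF ι (lat_cyc _ _).good, FrobScale_SS_piF ι (lat_cyc _ _).good,
    (S.inv_cyc hc l).2.2, (S.inv_cyc (pow_ne_zero _ hc) _).2.2]
  push_cast
  ring

end PreSurf

end Crest.Agent.R169
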