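import Crest.Agent.R169.Noeth
import Crest.Agent.R169.HP

/-! # Hilbert–Serre theorem for lattices (task R169/HS) -/

set_option autoImplicit false
open Filter Module

namespace Crest.Agent.R169

variable {k : Type} [Field k] {𝕃 : Type} [Field 𝕃] [Algebra k 𝕃] {y z : 𝕃}
  {E : Type} [AddCommGroup E] [Module k E] [Module 𝕃 E] [IsScalarTower k 𝕃 E] {V : Fam k E}

namespace HS

/-- The `t`-th difference of `h` vanishes eventually. -/
def EvP : ℕ → (ℤ → ℝ) → Prop
  | 0, h => ∀ᶠ m in atTop, h m = 0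
  | t + 1, h => EvP t fun m => h (m + 1) - h m

theorem EvP.sub_shift : ∀ {t : ℕ} {h h' : ℤ → ℝ}, EvP t h → EvP t h' →
    EvP t fun m => h (m + 1) - h' m
  | 0, h, h', H, H' => by
    have H1 : ∀ᶠ m in atTop, h (m + 1) = 0 := (tendsto_atTop_add_const_right _ 1 tendsto_id).eventually H
    have H2 : ∀ᶠ m in atTop, h' m = 0 := H'
    change ∀ᶠ m in atTop, _
    filter_upwards [H1, H2] with m h1 h2
    rw [h1, h2, sub_zero]
  | t + 1, h, h', H, H' => by
    have := EvP.sub_shift (t := t) H H'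
    change EvP t _
    convert this using 2 with m
    ring

theorem exists_const {h g : ℤ → ℝ} (H : ∀ᶠ m in atTop, h (m + 1) - h m = g (m + 1) - g m) :
    ∃ c, ∀ᶠ m in atTop, h m = g m + c := by
  obtain ⟨m0, hm0⟩ := eventually_atTop.1 H
  refine ⟨h m0 - g m0, eventually_atTop.2 ⟨m0, fun m hm => ?_⟩⟩
  induction m, hm using Int.leInduction with
  | base => ring
  | succ m hm ih => have := hm0 m hm; linarith

theorem EvP.one {h : ℤ → ℝ} (H : EvP 1 h) : ∃ N, ∀ᶠ m in atTop, h m = N := by
  have H1 : ∀ᶠ m in atTop, h (m + 1) - h m = 0 := H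
  obtain ⟨c, hc⟩ := exists_const (h := h) (g := fun _ => 0) (by simpa using H1)
  exact ⟨c, by simpa using hc⟩

theorem EvP.two {h : ℤ → ℝ} (H : EvP 2 h) : ∃ N d : ℝ, ∀ᶠ m : ℤ in atTop, h m = N * m + d := by
  obtain ⟨N, hN⟩ := EvP.one (h := fun m => h (m + 1) - h m) H
  obtain ⟨c, hc⟩ := exists_const (h := h) (g := fun m => N * m) (by
    filter_upwards [hN] with m hm
    rw [hm]; push_cast; ring)
  exact ⟨N, c, hc⟩

theorem EvP.three {h : ℤ → ℝ} (H : EvP 3 h) : ∃ N d s : ℝ, HasHP h N d s := by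
  obtain ⟨N, d, hN⟩ := EvP.two (h := fun m => h (m + 1) - h m) H
  obtain ⟨c, hc⟩ := exists_const (h := h) (g := fun m => N * (m : ℝ) ^ 2 / 2 + (d - N / 2) * m) (by
    filter_upwards [hN] with m hm
    rw [hm]; push_cast; ring)
  exact ⟨N, d - N / 2, c, hc⟩

theorem finrank_map_add (f : E →ₗ[k] E) (A : Submodule k E) [FiniteDimensional k A] :
    finrank k (A.map f) + finrank k (A ⊓ LinearMap.ker f : Submodule k E) = finrank k A := by
  have := LinearMap.finrank_range_add_finrank_ker (f.domRestrict A)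
  rw [LinearMap.range_domRestrict, LinearMap.ker_domRestrict] at this
  rw [← this, ← Submodule.map_comap_subtype, Submodule.finrank_map_subtype_eq]

theorem finrank_key (f : E →ₗ[k] E) (A B : Submodule k E) [FiniteDimensional k A]
    [FiniteDimensional k B] :
    finrank k A + finrank k B =
      finrank k (B ⊔ A.map f : Submodule k E) + finrank k (A ⊓ B.comap f : Submodule k E) := by
  have h1 := Submodule.finrank_sup_add_finrank_inf_eq B (A.map f)
  have h2 := finrank_map_add f A
  have h3 := finrank_map_add f (A ⊓ B.comap f)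
  rw [← Submodule.map_inf_eq_map_inf_comap, inf_comm (A.map f) B,
    show A ⊓ B.comap f ⊓ LinearMap.ker f = A ⊓ LinearMap.ker f by
      rw [inf_assoc, inf_eq_right.2 (LinearMap.ker_le_comap f)]] at h3
  omega

variable (y z) in
/-- The statement proved by induction on the number of operators. -/
def Claim (K : Set 𝕃) (t : ℕ) : Prop :=
  ∀ U V : Fam k E, IsLat y z V → Stab (Apol k y z) U → U ≤ V →
    (∀ u ∈ K, ∀ m, ∀ v ∈ V m, u • v ∈ U (m + 1)) → EvP t fun m => hf V m - hf U m

theorem claim_base : Claim (k := k) (E := E) y z {1, y, z} 0 := by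
  intro U V hV hU hUV hK
  have h := hV.eventually_le hU fun l v hv => ⟨1, fun r hr => by
    rw [Nat.cast_one, ← zero_add (1 : ℤ)] at hr
    obtain ⟨a, ha, b, hb, c, hc, rfl⟩ := (Apol_succ le_rfl).1 hr
    have e : ∀ a ∈ Apol k y z 0, a • v ∈ V l := fun a ha => by
      simpa using hV.stab 0 l a v ha hv
    rw [add_smul, add_smul, mul_smul, mul_smul, Nat.cast_one]
    refine Submodule.add_mem _ (Submodule.add_mem _ ?_ (hK y (by simp) _ _ (e b hb)))
      (hK z (by simp) _ _ (e c hc))
    simpa using hK 1 (by simp) _ _ (e a ha)⟩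
  change ∀ᶠ m in atTop, _
  filter_upwards [h] with m hm
  have : V m = U m := le_antisymm hm (hUV m)
  simp only [hf]
  rw [this, sub_self]

theorem claim_step {K : Set 𝕃} {t : ℕ} {w : 𝕃} (hw : w ∈ Apol k y z 1)
    (ih : Claim (k := k) (E := E) y z (insert w K) t) : Claim (k := k) (E := E) y z K (t + 1) := by
  intro U V hV hU hUV hK
  set φ : E →ₗ[𝕃] E := LinearMap.lsmul 𝕃 E w with hφ
  have hwV : ∀ (W : Fam k E), Stab (Apol k y z) W → ∀ m, ∀ v ∈ W m, w • v ∈ W (m + 1) :=
    fun W hW m v hv => by simpa [add_comm] using hW 1 m w v hw hv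
  have h1 := ih (U ⊔ shift (mapF φ V) (-1)) V hV (hU.sup ((hV.stab.mapF φ).shift _))
    (sup_le hUV fun m v hv => by
      obtain ⟨v', hv', rfl⟩ := mem_mapF.1 hv
      simpa [hφ] using hwV V hV.stab _ v' hv')
    (by
      intro u hu m v hv
      rcases hu with rfl | hu
      · refine Submodule.mem_sup_right (mem_mapF.2 ⟨v, ?_, rfl⟩)
        simpa using hv
      · exact Submodule.mem_sup_left (hK u hu m v hv))
  have hst : Stab (Apol k y z) (V ⊓ comapF φ (shift U 1)) := hV.stab.inf ((hU.shift _).comapF φ)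
  have h2 := ih U (V ⊓ comapF φ (shift U 1)) (hV.of_le hst inf_le_left) hU
    (le_inf hUV fun m v hv => hwV U hU m v hv)
    (by
      intro u hu m v hv
      rcases hu with rfl | hu
      · exact hv.2
      · exact hK u hu m v hv.1)
  have h3 := h1.sub_shift h2
  change EvP t _
  convert h3 using 2 with m
  have := hV.bdd.fd m
  have := (hV.bdd.of_le hUV).fd (m + 1)
  have key := finrank_key (φ.restrictScalars k) (V m) (U (m + 1))
  have e1 : (U ⊔ shift (mapF φ V) (-1)) (m + 1) = U (m + 1) ⊔ (V m).map (φ.restrictScalars k) := by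
    simp [shift, mapF]
  have e2 : (V ⊓ comapF φ (shift U 1)) m = V m ⊓ (U (m + 1)).comap (φ.restrictScalars k) := rfl
  simp only [hf]
  rw [e1, e2]
  have key' := congrArg (Nat.cast : ℕ → ℝ) key
  push_cast at key'
  linarith

end HS

theorem IsLat.good (hV : IsLat y z V) : Good V := by
  refine ⟨hV.bdd.fd, ?_⟩
  have h1 : HS.Claim (k := k) (E := E) y z {y, z} 1 :=
    HS.claim_step (one_mem_Apol (by norm_num)) HS.claim_base
  have h2 : HS.Claim (k := k) (E := E) y z {z} 2 := HS.claim_step y_mem_Apol h1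
  have h3 : HS.Claim (k := k) (E := E) y z ∅ 3 := HS.claim_step z_mem_Apol (by simpa using h2)
  have h4 := h3 ⊥ V hV stab_bot bot_le (by simp)
  obtain ⟨N, d, s, h5⟩ := h4.three
  exact ⟨N, d, s, by simpa only [hf_bot, sub_zero] using h5⟩

end Crest.Agent.R169
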