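import Mathlib

/-!
# Row 169 (no small maximal Cohen–Macaulay module): lattices and Hilbert polynomials

Everything is *dehomogenised*: a graded torsion-free module over a graded domain containing a linear
form `x` is recorded by the increasing family of subspaces `V m = x^{-m} V_m` of a fixed vector space.
`Apol k y z j` is the degree `j` part of `k[x,y,z]` (polynomials of degree `≤ j` in `y, z`).
-/

set_option autoImplicit false
open Filter Module

namespace Crest.Agent.R169

/-- A family of `k`-subspaces indexed by the degree. -/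
abbrev Fam (k E : Type) [Field k] [AddCommGroup E] [Module k E] := ℤ → Submodule k E

section rings
variable (k : Type) [Field k] {𝕃 : Type} [Field 𝕃] [Algebra k 𝕃]

/-- Polynomials of degree `≤ j` in `y, z` (zero for `j < 0`). -/
def Apol (y z : 𝕃) : Fam k 𝕃 := fun j =>
  Submodule.span k {w | ∃ a b : ℕ, ((a + b : ℕ) : ℤ) ≤ j ∧ w = y ^ a * z ^ b}

/-- The filtered ring generated by `Γ` in degree one: the span of products of `j` elements of `Γ`. -/
def Rg (Γ : Finset 𝕃) : Fam k 𝕃 := fun j =>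
  if 0 ≤ j then (Submodule.span k (Γ : Set 𝕃)) ^ j.toNat else ⊥

/-- `K = k(y, z)` is a rational function field in `y, z`. -/
structure RatFn (y z : 𝕃) : Prop where
  ind : AlgebraicIndependent k ![y, z]
  gen : IntermediateField.adjoin k {y, z} = ⊤

end rings

section fam
variable {k : Type} [Field k] {𝕃 : Type} [Field 𝕃] [Algebra k 𝕃]
  {E : Type} [AddCommGroup E] [Module k E] [Module 𝕃 E] [IsScalarTower k 𝕃 E]
  {E' : Type} [AddCommGroup E'] [Module k E'] [Module 𝕃 E'] [IsScalarTower k 𝕃 E']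

/-- `V` is a graded module over the filtered ring `S`. -/
def Stab (S : Fam k 𝕃) (V : Fam k E) : Prop :=
  ∀ (i j : ℤ) (r : 𝕃) (v : E), r ∈ S i → v ∈ V j → r • v ∈ V (i + j)

/-- The cyclic family `S · v` with `v` placed in degree `l`. -/
def cyc (S : Fam k 𝕃) (v : E) (l : ℤ) : Fam k E := fun m =>
  (S (m - l)).map ((LinearMap.toSpanSingleton 𝕃 E v).restrictScalars k)

/-- `V` is contained in a finitely generated `k[x,y,z]`-module. -/
def Bdd (y z : 𝕃) (V : Fam k E) : Prop :=
  ∃ (s : Finset E) (c : ℤ), V ≤ ⨆ v ∈ s, cyc (Apol k y z) v c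

/-- A lattice: a finitely generated graded `k[x,y,z]`-module (see `IsLat.fg`). -/
structure IsLat (y z : 𝕃) (V : Fam k E) : Prop where
  stab : Stab (Apol k y z) V
  bdd : Bdd y z V

/-- Intersection with an `𝕃`-subspace. -/
def cut (V : Fam k E) (F : Submodule 𝕃 E) : Fam k E := fun m => V m ⊓ F.restrictScalars k

/-- Image under an `𝕃`-linear map. -/
def mapF (φ : E →ₗ[𝕃] E') (V : Fam k E) : Fam k E' := fun m => (V m).map (φ.restrictScalars k)

/-- Preimage under an `𝕃`-linear map. -/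
def comapF (φ : E →ₗ[𝕃] E') (V : Fam k E') : Fam k E := fun m => (V m).comap (φ.restrictScalars k)

variable (𝕃) in
/-- The `𝕃`-span of all members of the family. -/
def spanF (V : Fam k E) : Submodule 𝕃 E := Submodule.span 𝕃 (⋃ m, (V m : Set E))

variable (𝕃) in
/-- The family spans the ambient space. -/
def Full (V : Fam k E) : Prop := spanF 𝕃 V = ⊤

/-- Elements which lie in `V` (in degree `m`) after inverting `u * u'` (an element of degree two). -/
def loc (u u' : 𝕃) (V : Fam k E) (m : ℤ) : Set E :=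
  {v | ∃ M : ℕ, (u * u') ^ M • v ∈ V (m + 2 * M)}

/-- The annihilator of a subspace under a bilinear pairing. -/
def perp (B : E' →ₗ[𝕃] E →ₗ[𝕃] 𝕃) (F : Submodule 𝕃 E') : Submodule 𝕃 E where
  carrier := {v | ∀ φ ∈ F, B φ v = 0}
  add_mem' := fun {a b} ha hb φ hφ => by rw [map_add, ha φ hφ, hb φ hφ, add_zero]
  zero_mem' := fun φ _ => map_zero _
  smul_mem' := fun c a ha φ hφ => by rw [map_smul, ha φ hφ, smul_zero]

/-- The dual lattice `Hom_A(V, A(-3))` with respect to a pairing `B`. -/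
def dualF (y z : 𝕃) (B : E' →ₗ[𝕃] E →ₗ[𝕃] 𝕃) (V : Fam k E) : Fam k E' := fun m =>
  { carrier := {φ | ∀ (l : ℤ), ∀ v ∈ V l, B φ v ∈ Apol k y z (m + l - 3)}
    add_mem' := fun {a b} ha hb l v hv => by
      rw [map_add, LinearMap.add_apply]; exact Submodule.add_mem _ (ha l v hv) (hb l v hv)
    zero_mem' := fun l v _ => by rw [map_zero, LinearMap.zero_apply]; exact Submodule.zero_mem _
    smul_mem' := fun c a ha l v hv => by
      have : B (c • a) v = c • B a v := by
        rw [← algebraMap_smul 𝕃 c a, map_smul, LinearMap.smul_apply, algebraMap_smul]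
      rw [this]; exact Submodule.smul_mem _ c (ha l v hv) }

theorem mem_cyc {S : Fam k 𝕃} {v w : E} {l m : ℤ} :
    w ∈ cyc S v l m ↔ ∃ r ∈ S (m - l), r • v = w := by
  simp [cyc, LinearMap.toSpanSingleton_apply]

theorem mem_cut {V : Fam k E} {F : Submodule 𝕃 E} {m : ℤ} {v : E} :
    v ∈ cut V F m ↔ v ∈ V m ∧ v ∈ F := Iff.rfl

theorem mem_mapF {φ : E →ₗ[𝕃] E'} {V : Fam k E} {m : ℤ} {w : E'} :
    w ∈ mapF φ V m ↔ ∃ v ∈ V m, φ v = w := Iff.rfl

theorem mem_comapF {φ : E →ₗ[𝕃] E'} {V : Fam k E'} {m : ℤ} {v : E} :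
    v ∈ comapF φ V m ↔ φ v ∈ V m := Iff.rfl

omit [Algebra k 𝕃] [IsScalarTower k 𝕃 E] in
theorem mem_loc {u u' : 𝕃} {V : Fam k E} {m : ℤ} {v : E} :
    v ∈ loc u u' V m ↔ ∃ M : ℕ, (u * u') ^ M • v ∈ V (m + 2 * M) := Iff.rfl

theorem mem_perp {B : E' →ₗ[𝕃] E →ₗ[𝕃] 𝕃} {F : Submodule 𝕃 E'} {v : E} :
    v ∈ perp B F ↔ ∀ φ ∈ F, B φ v = 0 := Iff.rfl

omit [IsScalarTower k 𝕃 E] in
theorem mem_dualF {y z : 𝕃} {B : E' →ₗ[𝕃] E →ₗ[𝕃] 𝕃} {V : Fam k E} {m : ℤ} {φ : E'} :
    φ ∈ dualF y z B V m ↔ ∀ (l : ℤ), ∀ v ∈ V l, B φ v ∈ Apol k y z (m + l - 3) := Iff.rfl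

omit [Algebra k 𝕃] [IsScalarTower k 𝕃 E] in
theorem mem_spanF {V : Fam k E} {m : ℤ} {v : E} (h : v ∈ V m) : v ∈ spanF 𝕃 V :=
  Submodule.subset_span (Set.mem_iUnion.2 ⟨m, h⟩)

end fam

section hilbert
variable {k : Type} [Field k] {E : Type} [AddCommGroup E] [Module k E]

/-- The twist `V(l)`. -/
def shift (V : Fam k E) (l : ℤ) : Fam k E := fun m => V (m + l)

/-- The Veronese piece `j ↦ V (n j + i)`. -/
def vero (V : Fam k E) (n : ℕ) (i : ℤ) : Fam k E := fun j => V (n * j + i)

/-- The direct sum of copies of `V`. -/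
def piF (ι : Type) (V : Fam k E) : Fam k (ι → E) := fun m => Submodule.pi Set.univ fun _ => V m

theorem mem_piF {ι : Type} {V : Fam k E} {m : ℤ} {v : ι → E} :
    v ∈ piF ι V m ↔ ∀ i, v i ∈ V m := by simp [piF, Submodule.mem_pi]

/-- The Hilbert function. -/
noncomputable def hf (V : Fam k E) (m : ℤ) : ℝ := (finrank k (V m) : ℝ)

/-- `h` is eventually the polynomial `N m² / 2 + d m + s`. -/
def HasHP (h : ℤ → ℝ) (N d s : ℝ) : Prop :=
  ∀ᶠ m : ℤ in atTop, h m = N * (m : ℝ) ^ 2 / 2 + d * m + s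

/-- Finite-dimensional pieces and an eventually polynomial Hilbert function. -/
structure Good (V : Fam k E) : Prop where
  fd : ∀ m, FiniteDimensional k (V m)
  ex : ∃ N d s, HasHP (hf V) N d s

open Classical in
/-- The coefficients of the Hilbert polynomial (junk `0` if there is none). -/
noncomputable def hp (V : Fam k E) : ℝ × ℝ × ℝ :=
  if h : ∃ t : ℝ × ℝ × ℝ, HasHP (hf V) t.1 t.2.1 t.2.2 then h.choose else 0

/-- Rank (multiplicity): twice the leading coefficient. -/
noncomputable def rk (V : Fam k E) : ℝ := (hp V).1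
/-- Degree: the linear coefficient. -/
noncomputable def dg (V : Fam k E) : ℝ := (hp V).2.1
/-- Euler characteristic: the constant coefficient. -/
noncomputable def ch (V : Fam k E) : ℝ := (hp V).2.2
/-- The Hilbert polynomial. -/
noncomputable def HP (V : Fam k E) (m : ℝ) : ℝ := rk V * m ^ 2 / 2 + dg V * m + ch V
/-- The minimum value of the Hilbert polynomial (for positive rank). -/
noncomputable def cc (V : Fam k E) : ℝ := ch V - dg V ^ 2 / (2 * rk V)

end hilbert

section window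
variable {k : Type} [Field k] (𝕃 : Type) [Field 𝕃] [Algebra k 𝕃]
  {E : Type} [AddCommGroup E] [Module k E] [Module 𝕃 E] [IsScalarTower k 𝕃 E]

/-- All subobjects have slope `≤ β`, all quotients have slope `≥ α` (slope `= dg / rk`). -/
def Window (V : Fam k E) (α β : ℝ) : Prop :=
  ∀ F : Submodule 𝕃 E, dg (cut V F) ≤ β * rk (cut V F) ∧
    α * (rk V - rk (cut V F)) ≤ dg V - dg (cut V F)

end window

section adjoin
variable (k : Type) [Field k] {𝕃 : Type} [Field 𝕃] [Algebra k 𝕃]
open IntermediateField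

/-- `y` as an element of `k(y, z)`. -/
def yK (y z : 𝕃) : k⟮y, z⟯ := ⟨y, subset_adjoin k _ (by simp)⟩
/-- `z` as an element of `k(y, z)`. -/
def zK (y z : 𝕃) : k⟮y, z⟯ := ⟨z, subset_adjoin k _ (by simp)⟩

instance isScalarTower_intermediateField (K : IntermediateField k 𝕃) {E : Type} [AddCommGroup E]
    [Module k E] [Module 𝕃 E] [IsScalarTower k 𝕃 E] : IsScalarTower k K E :=
  ⟨fun c a v => by
    change ((c • a : K) : 𝕃) • v = c • (a : 𝕃) • v
    rw [IntermediateField.coe_smul, smul_assoc]⟩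

@[simp] theorem coe_yK (y z : 𝕃) : (yK k y z : 𝕃) = y := rfl
@[simp] theorem coe_zK (y z : 𝕃) : (zK k y z : 𝕃) = z := rfl

end adjoin

end Crest.Agent.R169
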