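import Crest.Agent.R169.Lat

/-! # Closure properties of lattices, basic facts on `Apol`, `Rg` (task R169/LatBasic) -/

set_option autoImplicit false
set_option linter.unusedSectionVars false
open Filter Module

namespace Crest.Agent.R169

section rings
variable {k : Type} [Field k] {𝕃 : Type} [Field 𝕃] [Algebra k 𝕃] {y z : 𝕃} {Γ : Finset 𝕃}

theorem Apol_def (j : ℤ) : Apol k y z j =
    Submodule.span k {w | ∃ a b : ℕ, ((a + b : ℕ) : ℤ) ≤ j ∧ w = y ^ a * z ^ b} := rfl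

theorem Rg_def (j : ℤ) : Rg k Γ j =
    if 0 ≤ j then (Submodule.span k (Γ : Set 𝕃)) ^ j.toNat else ⊥ := rfl

/-- Induction principle for elements of `Apol`. -/
theorem Apol_induction {j : ℤ} {P : 𝕃 → Prop}
    (hmon : ∀ a b : ℕ, ((a + b : ℕ) : ℤ) ≤ j → P (y ^ a * z ^ b)) (h0 : P 0)
    (hadd : ∀ a b, P a → P b → P (a + b)) (hsmul : ∀ (c : k) a, P a → P (c • a)) {w : 𝕃}
    (hw : w ∈ Apol k y z j) : P w := by
  rw [Apol_def] at hw
  induction hw using Submodule.span_induction with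
  | mem w hw =>
    obtain ⟨a, b, h, rfl⟩ := hw
    exact hmon a b h
  | zero => exact h0
  | add a b _ _ ha hb => exact hadd a b ha hb
  | smul c a _ ha => exact hsmul c a ha

theorem Apol_neg {j : ℤ} (h : j < 0) : Apol k y z j = ⊥ := by
  rw [Apol_def, Submodule.span_eq_bot]
  rintro w ⟨a, b, h1, -⟩
  omega

theorem Apol_mono {i j : ℤ} (h : i ≤ j) : Apol k y z i ≤ Apol k y z j :=
  Submodule.span_mono fun _ ⟨a, b, h1, h2⟩ => ⟨a, b, h1.trans h, h2⟩

theorem one_mem_Apol {j : ℤ} (h : 0 ≤ j) : (1 : 𝕃) ∈ Apol k y z j :=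
  Submodule.subset_span ⟨0, 0, by simpa using h, by simp⟩

theorem y_mem_Apol : y ∈ Apol k y z 1 :=
  Submodule.subset_span ⟨1, 0, by simp, by simp⟩

theorem z_mem_Apol : z ∈ Apol k y z 1 :=
  Submodule.subset_span ⟨0, 1, by simp, by simp⟩

theorem mon_mem_Apol {a b : ℕ} {j : ℤ} (h : ((a + b : ℕ) : ℤ) ≤ j) : y ^ a * z ^ b ∈ Apol k y z j :=
  Submodule.subset_span ⟨a, b, h, rfl⟩

theorem mul_mem_Apol {i j : ℤ} {a b : 𝕃} (ha : a ∈ Apol k y z i) (hb : b ∈ Apol k y z j) :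
    a * b ∈ Apol k y z (i + j) := by
  have h := Submodule.mul_mem_mul ha hb
  rw [Apol_def, Apol_def, Submodule.span_mul_span] at h
  refine Submodule.span_mono ?_ h
  rintro _ ⟨_, ⟨a, b, h1, rfl⟩, _, ⟨a', b', h2, rfl⟩, rfl⟩
  exact ⟨a + a', b + b', by omega, by ring⟩

theorem mem_Apol_iff {j : ℤ} {w : 𝕃} : w ∈ Apol k y z j ↔
    ∃ f : MvPolynomial (Fin 2) k, (f = 0 ∨ (f.totalDegree : ℤ) ≤ j) ∧
      MvPolynomial.aeval ![y, z] f = w := by
  constructor
  · intro hw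
    refine Apol_induction (P := fun w => ∃ f : MvPolynomial (Fin 2) k,
      (f = 0 ∨ (f.totalDegree : ℤ) ≤ j) ∧ MvPolynomial.aeval ![y, z] f = w) ?_ ?_ ?_ ?_ hw
    · intro a b h
      refine ⟨.X 0 ^ a * .X 1 ^ b, Or.inr ?_, by simp⟩
      have := MvPolynomial.totalDegree_mul (.X 0 ^ a : MvPolynomial (Fin 2) k) (.X 1 ^ b)
      rw [MvPolynomial.totalDegree_X_pow, MvPolynomial.totalDegree_X_pow] at this
      omega
    · exact ⟨0, Or.inl rfl, map_zero _⟩
    · rintro _ _ ⟨f, hf, rfl⟩ ⟨g, hg, rfl⟩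
      refine ⟨f + g, ?_, map_add _ _ _⟩
      rcases hf with rfl | hf
      · simpa using hg
      rcases hg with rfl | hg
      · exact Or.inr (by simpa using hf)
      have := MvPolynomial.totalDegree_add f g
      exact Or.inr (by omega)
    · rintro c _ ⟨f, hf, rfl⟩
      refine ⟨c • f, ?_, map_smul _ _ _⟩
      rcases hf with rfl | hf
      · simp
      have := MvPolynomial.totalDegree_smul_le c f
      exact Or.inr (by omega)
  · rintro ⟨f, rfl | hf, rfl⟩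
    · simp
    rw [MvPolynomial.aeval_def, MvPolynomial.eval₂_eq']
    refine Submodule.sum_mem _ fun d hd => ?_
    rw [← Algebra.smul_def, Fin.prod_univ_two]
    refine Submodule.smul_mem _ _ (mon_mem_Apol ?_)
    have := MvPolynomial.le_totalDegree hd
    rw [Finsupp.sum_fintype _ _ fun _ => rfl, Fin.sum_univ_two] at this
    omega

theorem degree_of_homog {f : MvPolynomial (Fin 3) k} {j : ℕ} (hf : f.IsHomogeneous j)
    {d : Fin 3 →₀ ℕ} (hd : d ∈ f.support) : d 0 + d 1 + d 2 = j := by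
  by_contra h
  refine MvPolynomial.mem_support_iff.1 hd (hf.coeff_eq_zero ?_)
  rwa [Finsupp.degree_eq_sum, Fin.sum_univ_three]

/-- Homogenisation: elements of `Apol j` are dehomogenised forms of degree `j`. -/
theorem mem_Apol_iff_homog {j : ℕ} {w : 𝕃} : w ∈ Apol k y z j ↔
    ∃ f : MvPolynomial (Fin 3) k, f.IsHomogeneous j ∧ MvPolynomial.aeval ![1, y, z] f = w := by
  constructor
  · intro hw
    refine Apol_induction (P := fun w => ∃ f : MvPolynomial (Fin 3) k,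
      f.IsHomogeneous j ∧ MvPolynomial.aeval ![1, y, z] f = w) ?_ ?_ ?_ ?_ hw
    · intro a b h
      refine ⟨.X 0 ^ (j - (a + b)) * (.X 1 ^ a * .X 2 ^ b), ?_, by simp⟩
      have := (MvPolynomial.isHomogeneous_X_pow (R := k) (0 : Fin 3) (j - (a + b))).mul
        ((MvPolynomial.isHomogeneous_X_pow 1 a).mul (MvPolynomial.isHomogeneous_X_pow 2 b))
      rwa [Nat.sub_add_cancel (by exact_mod_cast h)] at this
    · exact ⟨0, MvPolynomial.isHomogeneous_zero _ _ _, by simp⟩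
    · rintro _ _ ⟨f, hf, rfl⟩ ⟨g, hg, rfl⟩
      exact ⟨f + g, MvPolynomial.IsHomogeneous.add hf hg, map_add _ f g⟩
    · rintro c _ ⟨f, hf, rfl⟩
      exact ⟨c • f, (MvPolynomial.homogeneousSubmodule (Fin 3) k j).smul_mem c hf, map_smul _ c f⟩
  · rintro ⟨f, hf, rfl⟩
    rw [MvPolynomial.aeval_def, MvPolynomial.eval₂_eq']
    refine Submodule.sum_mem _ fun d hd => ?_
    rw [← Algebra.smul_def, Fin.prod_univ_three]
    refine Submodule.smul_mem _ _ ?_
    have := degree_of_homog hf hd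
    simpa using mon_mem_Apol (k := k) (y := y) (z := z) (a := d 1) (b := d 2) (j := j) (by omega)

/-- A nonzero form has nonzero dehomogenisation. -/
theorem aeval_ne_zero_of_homog (hind : AlgebraicIndependent k ![y, z]) {f : MvPolynomial (Fin 3) k}
    {j : ℕ} (hf : f.IsHomogeneous j) (h0 : f ≠ 0) : MvPolynomial.aeval ![1, y, z] f ≠ 0 := by
  classical
  intro h
  have h1 : MvPolynomial.aeval ![y, z]
      (∑ d ∈ f.support, MvPolynomial.monomial (Finsupp.tail d) (f.coeff d)) = 0 := by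
    rw [← h, map_sum, MvPolynomial.aeval_def ![1, y, z], MvPolynomial.eval₂_eq']
    refine Finset.sum_congr rfl fun d _ => ?_
    rw [MvPolynomial.aeval_monomial, Finsupp.prod_fintype _ _ fun _ => pow_zero _,
      Fin.prod_univ_two, Fin.prod_univ_three]
    simp [Finsupp.tail_apply]
  have h2 := (algebraicIndependent_iff.1 hind) _ h1
  obtain ⟨d, hd⟩ := MvPolynomial.support_nonempty.2 h0
  have h3 := congrArg (MvPolynomial.coeff (Finsupp.tail d)) h2
  rw [MvPolynomial.coeff_sum, Finset.sum_eq_single d, MvPolynomial.coeff_monomial, if_pos rfl,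
    MvPolynomial.coeff_zero] at h3
  · exact MvPolynomial.mem_support_iff.1 hd h3
  · intro d' hd' hne
    rw [MvPolynomial.coeff_monomial, if_neg]
    intro e
    have e1 : d' 1 = d 1 := DFunLike.congr_fun e 0
    have e2 : d' 2 = d 2 := DFunLike.congr_fun e 1
    have e3 := degree_of_homog hf hd
    have e4 := degree_of_homog hf hd'
    refine hne (Finsupp.ext fun i => ?_)
    fin_cases i
    · change d' 0 = d 0
      omega
    · exact e1
    · exact e2
  · exact fun h => (h hd).elim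

theorem Apol_succ {j : ℤ} (h : 0 ≤ j) {w : 𝕃} : w ∈ Apol k y z (j + 1) ↔
    ∃ a ∈ Apol k y z j, ∃ b ∈ Apol k y z j, ∃ c ∈ Apol k y z j, w = a + y * b + z * c := by
  constructor
  · intro hw
    refine Apol_induction (P := fun w => ∃ a ∈ Apol k y z j, ∃ b ∈ Apol k y z j,
      ∃ c ∈ Apol k y z j, w = a + y * b + z * c) ?_ ?_ ?_ ?_ hw
    · intro a b hab
      rcases a with _ | a
      · rcases b with _ | b
        · exact ⟨1, one_mem_Apol h, 0, zero_mem _, 0, zero_mem _, by simp⟩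
        · exact ⟨0, zero_mem _, 0, zero_mem _, y ^ 0 * z ^ b, mon_mem_Apol (by omega), by ring⟩
      · exact ⟨0, zero_mem _, y ^ a * z ^ b, mon_mem_Apol (by omega), 0, zero_mem _, by ring⟩
    · exact ⟨0, zero_mem _, 0, zero_mem _, 0, zero_mem _, by simp⟩
    · rintro _ _ ⟨a, ha, b, hb, c, hc, rfl⟩ ⟨a', ha', b', hb', c', hc', rfl⟩
      exact ⟨a + a', add_mem ha ha', b + b', add_mem hb hb', c + c', add_mem hc hc', by ring⟩
    · rintro t _ ⟨a, ha, b, hb, c, hc, rfl⟩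
      exact ⟨t • a, Submodule.smul_mem _ t ha, t • b, Submodule.smul_mem _ t hb, t • c,
        Submodule.smul_mem _ t hc, by simp [smul_add]⟩
  · rintro ⟨a, ha, b, hb, c, hc, rfl⟩
    refine add_mem (add_mem (Apol_mono (by omega) ha) ?_) ?_
    · exact add_comm 1 j ▸ mul_mem_Apol y_mem_Apol hb
    · exact add_comm 1 j ▸ mul_mem_Apol z_mem_Apol hc

instance fd_Apol (j : ℤ) : FiniteDimensional k (Apol k y z j) := by
  rw [Apol_def]
  refine FiniteDimensional.span_of_finite k (((Set.finite_Iic (j.toNat, j.toNat)).image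
    fun p : ℕ × ℕ => y ^ p.1 * z ^ p.2).subset ?_)
  rintro _ ⟨a, b, h, rfl⟩
  exact ⟨(a, b), ⟨by change a ≤ j.toNat; omega, by change b ≤ j.toNat; omega⟩, rfl⟩

theorem Rg_neg {j : ℤ} (h : j < 0) : Rg k Γ j = ⊥ := by
  rw [Rg_def, if_neg (not_le.2 h)]

theorem Rg_zero : Rg k Γ 0 = Submodule.span k {1} := by
  rw [Rg_def, if_pos le_rfl, Int.toNat_zero, pow_zero, Submodule.one_eq_span]

theorem Rg_one : Rg k Γ 1 = Submodule.span k (Γ : Set 𝕃) := by
  rw [Rg_def, if_pos zero_le_one, Int.toNat_one, pow_one]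

theorem Rg_nat (j : ℕ) : Rg k Γ j = (Submodule.span k (Γ : Set 𝕃)) ^ j := by
  rw [Rg_def, if_pos (Int.natCast_nonneg j), Int.toNat_natCast]

theorem one_mem_Rg_zero : (1 : 𝕃) ∈ Rg k Γ 0 := by
  rw [Rg_zero]
  exact Submodule.subset_span rfl

theorem mul_mem_Rg {i j : ℤ} {a b : 𝕃} (ha : a ∈ Rg k Γ i) (hb : b ∈ Rg k Γ j) :
    a * b ∈ Rg k Γ (i + j) := by
  rcases lt_or_ge i 0 with hi | hi
  · rw [Rg_neg hi, Submodule.mem_bot] at ha
    simp [ha]
  rcases lt_or_ge j 0 with hj | hj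
  · rw [Rg_neg hj, Submodule.mem_bot] at hb
    simp [hb]
  lift i to ℕ using hi
  lift j to ℕ using hj
  rw [← Nat.cast_add, Rg_nat, pow_add]
  rw [Rg_nat] at ha hb
  exact Submodule.mul_mem_mul ha hb

theorem pow_mem_Rg {i : ℤ} {a : 𝕃} (ha : a ∈ Rg k Γ i) (n : ℕ) : a ^ n ∈ Rg k Γ (n * i) := by
  induction n with
  | zero => simpa using one_mem_Rg_zero
  | succ n ih =>
    rw [pow_succ, Nat.cast_succ, add_mul, one_mul]
    exact mul_mem_Rg ih ha

theorem mem_Rg_one {γ : 𝕃} (h : γ ∈ Γ) : γ ∈ Rg k Γ 1 := by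
  rw [Rg_one]
  exact Submodule.subset_span h

theorem Rg_mono (h1 : (1 : 𝕃) ∈ Γ) {i j : ℤ} (h : i ≤ j) : Rg k Γ i ≤ Rg k Γ j := by
  intro a ha
  obtain ⟨n, rfl⟩ := Int.le.dest h
  simpa using mul_mem_Rg ha (pow_mem_Rg (mem_Rg_one h1) n)

theorem one_mem_Rg (h1 : (1 : 𝕃) ∈ Γ) {j : ℤ} (h : 0 ≤ j) : (1 : 𝕃) ∈ Rg k Γ j :=
  Rg_mono h1 h one_mem_Rg_zero

/-- Induction principle for elements of `Rg`. -/
theorem Rg_induction {P : ℕ → 𝕃 → Prop} (h1 : P 0 1) (h0 : ∀ j, P j 0)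
    (hadd : ∀ j a b, P j a → P j b → P j (a + b)) (hsmul : ∀ j (c : k) a, P j a → P j (c • a))
    (hmul : ∀ j a, ∀ γ ∈ Γ, P j a → P (j + 1) (γ * a)) (j : ℕ) (w : 𝕃) (hw : w ∈ Rg k Γ j) :
    P j w := by
  rw [Rg_nat] at hw
  induction hw using Submodule.pow_induction_on_left' with
  | algebraMap r =>
    rw [Algebra.algebraMap_eq_smul_one]
    exact hsmul _ _ _ h1
  | add a b i _ _ ha hb => exact hadd _ _ _ ha hb
  | mem_mul m hm i a _ ha =>
    induction hm using Submodule.span_induction with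
    | mem γ hγ => exact hmul _ _ _ hγ ha
    | zero => simpa using h0 _
    | add u v _ _ hu hv =>
      rw [add_mul]
      exact hadd _ _ _ hu hv
    | smul c u _ hu =>
      rw [smul_mul_assoc]
      exact hsmul _ _ _ hu

/-- `Rg j` is spanned by the monomials of degree `j` in `Γ`. -/
theorem Rg_eq_span (j : ℕ) : Rg k Γ j =
    Submodule.span k {w | ∃ c : 𝕃 → ℕ, ∑ γ ∈ Γ, c γ = j ∧ w = ∏ γ ∈ Γ, γ ^ c γ} := by
  classical
  refine le_antisymm (fun w hw => ?_) (Submodule.span_le.2 ?_)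
  · refine Rg_induction (P := fun j w => w ∈ Submodule.span k
      {w | ∃ c : 𝕃 → ℕ, ∑ γ ∈ Γ, c γ = j ∧ w = ∏ γ ∈ Γ, γ ^ c γ})
      (Submodule.subset_span ⟨0, by simp, by simp⟩) (fun _ => zero_mem _)
      (fun _ _ _ => add_mem) (fun _ c _ => Submodule.smul_mem _ c) ?_ j w hw
    intro j a γ hγ ha
    induction ha using Submodule.span_induction with
    | mem a ha =>
      obtain ⟨c, h1, rfl⟩ := ha
      refine Submodule.subset_span ⟨fun δ => (if δ = γ then 1 else 0) + c δ, ?_, ?_⟩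
      · rw [Finset.sum_add_distrib, h1, Finset.sum_ite_eq', if_pos hγ, add_comm]
      · simp only [pow_add, Finset.prod_mul_distrib]
        simp [hγ]
    | zero => simp
    | add u v _ _ hu hv =>
      rw [mul_add]
      exact add_mem hu hv
    | smul c u _ hu =>
      rw [mul_smul_comm]
      exact Submodule.smul_mem _ c hu
  · rintro _ ⟨c, rfl, rfl⟩
    have : ∀ s ⊆ Γ, ∏ γ ∈ s, γ ^ c γ ∈ Rg k Γ (∑ γ ∈ s, c γ : ℕ) := by
      intro s hs
      induction s using Finset.induction_on with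
      | empty => simpa using one_mem_Rg_zero
      | insert γ s hγ ih =>
        rw [Finset.prod_insert hγ, Finset.sum_insert hγ, Nat.cast_add]
        refine mul_mem_Rg ?_ (ih ((Finset.subset_insert _ _).trans hs))
        simpa using pow_mem_Rg (mem_Rg_one (k := k) (hs (Finset.mem_insert_self _ _))) (c γ)
    exact this Γ subset_rfl

instance fd_Rg (j : ℤ) : FiniteDimensional k (Rg k Γ j) := by
  rcases lt_or_ge j 0 with hj | hj
  · rw [Rg_neg hj]
    infer_instance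
  · rw [Rg_def, if_pos hj]
    exact Module.Finite.iff_fg.2 (Submodule.FG.pow ⟨Γ, rfl⟩ _)

theorem Apol_le_Rg (h1 : (1 : 𝕃) ∈ Γ) {n : ℕ} (hy : y ∈ Rg k Γ n) (hz : z ∈ Rg k Γ n) (j : ℤ) :
    Apol k y z j ≤ Rg k Γ (n * j) := by
  rw [Apol_def, Submodule.span_le]
  rintro _ ⟨a, b, h, rfl⟩
  refine Rg_mono h1 ?_ (mul_mem_Rg (pow_mem_Rg hy a) (pow_mem_Rg hz b))
  rw [← add_mul, mul_comm, ← Nat.cast_add]
  exact mul_le_mul_of_nonneg_left h (Int.natCast_nonneg n)

theorem stab_Rg : Stab (Rg k Γ) (Rg k Γ) :=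
  fun _ _ _ _ => mul_mem_Rg

theorem stab_Apol : Stab (Apol k y z) (Apol k y z) :=
  fun _ _ _ _ => mul_mem_Apol

end rings

section fam
variable {k : Type} [Field k] {𝕃 : Type} [Field 𝕃] [Algebra k 𝕃] {y z : 𝕃} {Γ : Finset 𝕃}
  {E : Type} [AddCommGroup E] [Module k E] [Module 𝕃 E] [IsScalarTower k 𝕃 E]
  {E' : Type} [AddCommGroup E'] [Module k E'] [Module 𝕃 E'] [IsScalarTower k 𝕃 E']
  {S : Fam k 𝕃} {U V W : Fam k E}

omit [Algebra k 𝕃] [IsScalarTower k 𝕃 E] in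
theorem pow_smul_mem {u : 𝕃} (h : ∀ m v, v ∈ V m → u • v ∈ V (m + 1)) (n : ℕ) {m : ℤ} {v : E}
    (hv : v ∈ V m) : u ^ n • v ∈ V (m + n) := by
  induction n with
  | zero => simpa using hv
  | succ n ih =>
    rw [pow_succ', mul_smul, Nat.cast_succ, ← add_assoc]
    exact h _ _ ih

theorem stab_Apol_iff : Stab (Apol k y z) V ↔
    (∀ m v, v ∈ V m → v ∈ V (m + 1)) ∧ (∀ m v, v ∈ V m → y • v ∈ V (m + 1)) ∧
      ∀ m v, v ∈ V m → z • v ∈ V (m + 1) := by
  constructor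
  · intro h
    refine ⟨fun m v hv => ?_, fun m v hv => ?_, fun m v hv => ?_⟩
    · simpa [add_comm] using h 1 m 1 v (one_mem_Apol zero_le_one) hv
    · simpa [add_comm] using h 1 m y v y_mem_Apol hv
    · simpa [add_comm] using h 1 m z v z_mem_Apol hv
  · rintro ⟨h1, h2, h3⟩ i j r v hr hv
    refine Apol_induction (P := fun r => r • v ∈ V (i + j)) ?_ ?_ ?_ ?_ hr
    · intro a b hab
      obtain ⟨n, hn⟩ := Int.le.dest hab
      have := pow_smul_mem (u := (1 : 𝕃)) (by simpa using h1) n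
        (pow_smul_mem h2 a (pow_smul_mem h3 b hv))
      rw [one_pow, one_smul, ← mul_smul] at this
      convert this using 2
      omega
    · simp
    · intro a b ha hb
      rw [add_smul]
      exact add_mem ha hb
    · intro c a ha
      rw [smul_assoc]
      exact Submodule.smul_mem _ c ha

theorem stab_Rg_iff : Stab (Rg k Γ) V ↔ ∀ γ ∈ Γ, ∀ m v, v ∈ V m → γ • v ∈ V (m + 1) := by
  constructor
  · intro h γ hγ m v hv
    simpa [add_comm] using h 1 m γ v (mem_Rg_one hγ) hv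
  · intro h i j r v hr hv
    rcases lt_or_ge i 0 with hi | hi
    · rw [Rg_neg hi, Submodule.mem_bot] at hr
      simp [hr]
    lift i to ℕ using hi
    refine Rg_induction (P := fun i r => r • v ∈ V (i + j)) (by simpa using hv) (by simp)
      ?_ ?_ ?_ i r hr
    · intro i a b ha hb
      rw [add_smul]
      exact add_mem ha hb
    · intro i c a ha
      rw [smul_assoc]
      exact Submodule.smul_mem _ c ha
    · intro i a γ hγ ha
      rw [mul_smul, Nat.cast_succ, add_right_comm]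
      exact h γ hγ _ _ ha

theorem Stab.mono_deg (h : Stab (Apol k y z) V) {i j : ℤ} (hij : i ≤ j) : V i ≤ V j := fun v hv => by
  simpa using h (j - i) i 1 v (one_mem_Apol (sub_nonneg.2 hij)) hv

theorem Stab.of_le {S' : Fam k 𝕃} (h : Stab S V) (hS : S' ≤ S) : Stab S' V :=
  fun i j r v hr hv => h i j r v (hS i hr) hv

theorem Stab.sup (hU : Stab S U) (hV : Stab S V) : Stab S (U ⊔ V) := by
  intro i j r v hr hv
  obtain ⟨a, ha, b, hb, rfl⟩ := Submodule.mem_sup.1 hv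
  rw [smul_add]
  exact Submodule.add_mem_sup (hU i j r a hr ha) (hV i j r b hr hb)

theorem Stab.inf (hU : Stab S U) (hV : Stab S V) : Stab S (U ⊓ V) :=
  fun i j r v hr hv => ⟨hU i j r v hr hv.1, hV i j r v hr hv.2⟩

theorem Stab.iSup {ι : Sort*} {V : ι → Fam k E} (h : ∀ i, Stab S (V i)) : Stab S (⨆ i, V i) := by
  intro i j r v hr hv
  rw [iSup_apply] at hv ⊢
  refine Submodule.iSup_induction (fun t => V t j) (motive := fun v => r • v ∈ ⨆ t, V t (i + j)) hv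
    (fun t v hv => Submodule.mem_iSup_of_mem t (h t i j r v hr hv)) (by simp) fun a b ha hb => ?_
  rw [smul_add]
  exact add_mem ha hb

theorem stab_bot : Stab S (⊥ : Fam k E) := by
  intro i j r v _ hv
  rw [(Submodule.mem_bot k).1 hv, smul_zero]
  exact zero_mem _

theorem Stab.cut (h : Stab S V) (F : Submodule 𝕃 E) : Stab S (cut V F) :=
  fun i j r v hr hv => ⟨h i j r v hr hv.1, F.smul_mem r hv.2⟩

theorem Stab.mapF (h : Stab S V) (φ : E →ₗ[𝕃] E') : Stab S (mapF φ V) := by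
  rintro i j r _ hr ⟨v, hv, rfl⟩
  exact ⟨r • v, h i j r v hr hv, φ.map_smul r v⟩

theorem Stab.comapF {V : Fam k E'} (h : Stab S V) (φ : E →ₗ[𝕃] E') : Stab S (comapF φ V) := by
  intro i j r v hr hv
  rw [mem_comapF, map_smul]
  exact h i j r _ hr hv

theorem Stab.shift (h : Stab S V) (l : ℤ) : Stab S (shift V l) := by
  intro i j r v hr hv
  have := h i (j + l) r v hr hv
  rwa [← add_assoc] at this

theorem Stab.piF (h : Stab S V) (ι : Type) : Stab S (piF ι V) :=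
  fun i j r v hr hv => mem_piF.2 fun t => h i j r (v t) hr (mem_piF.1 hv t)

theorem stab_cyc (hS : Stab S S) (v : E) (l : ℤ) : Stab S (cyc S v l) := by
  intro i j r w hr hw
  obtain ⟨a, ha, rfl⟩ := mem_cyc.1 hw
  exact mem_cyc.2 ⟨r * a, add_sub_assoc i j l ▸ hS i _ r a hr ha, mul_smul _ _ _⟩

theorem Stab.cyc_le (h : Stab S V) {v : E} {l : ℤ} (hv : v ∈ V l) : cyc S v l ≤ V := by
  intro m w hw
  obtain ⟨a, ha, rfl⟩ := mem_cyc.1 hw
  simpa using h _ l a v ha hv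

theorem mem_cyc_self (h1 : (1 : 𝕃) ∈ S 0) (v : E) (l : ℤ) : v ∈ cyc S v l l :=
  mem_cyc.2 ⟨1, by simpa using h1, one_smul _ _⟩

/-- A Veronese piece of an `Rg`-module is a module over the polynomial ring on degree `n`
elements. -/
theorem Stab.vero (h : Stab (Rg k Γ) V) (h1 : (1 : 𝕃) ∈ Γ) {n : ℕ} (hy : y ∈ Rg k Γ n)
    (hz : z ∈ Rg k Γ n) (i : ℤ) : Stab (Apol k y z) (vero V n i) := by
  intro a j r v hr hv
  have := h (n * a) (n * j + i) r v (Apol_le_Rg h1 hy hz a hr) hv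
  rwa [← add_assoc, ← mul_add] at this

theorem Bdd.of_le (h : Bdd y z V) (hU : U ≤ V) : Bdd y z U := by
  obtain ⟨s, c, hs⟩ := h
  exact ⟨s, c, hU.trans hs⟩

theorem cyc_Apol_anti (v : E) {a b : ℤ} (h : a ≤ b) :
    cyc (Apol k y z) v b ≤ cyc (Apol k y z) v a := fun _ =>
  Submodule.map_mono (Apol_mono (by omega))

theorem bdd_of_le_iSup {ι : Type} [Finite ι] (v : ι → E) (a : ι → ℤ)
    (h : V ≤ ⨆ i, cyc (Apol k y z) (v i) (a i)) : Bdd y z V := by
  classical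
  obtain ⟨c, hc⟩ := (Set.finite_range a).bddBelow
  refine ⟨(Set.finite_range v).toFinset, c, h.trans (iSup_le fun i => ?_)⟩
  exact (cyc_Apol_anti _ (hc ⟨i, rfl⟩)).trans
    (le_iSup₂_of_le (f := fun v (_ : v ∈ _) => cyc (Apol k y z) v c) (v i) (by simp) le_rfl)

theorem Bdd.iSup {ι : Type} [Finite ι] {V : ι → Fam k E} (h : ∀ i, Bdd y z (V i)) :
    Bdd y z (⨆ i, V i) := by
  choose s c hs using h
  refine bdd_of_le_iSup (ι := Σ i, s i) (fun t => t.2) (fun t => c t.1) (iSup_le fun i => ?_)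
  refine (hs i).trans (iSup₂_le fun v hv => ?_)
  exact le_iSup_of_le (⟨i, v, hv⟩ : Σ i, s i) le_rfl

theorem Bdd.sup (hU : Bdd y z U) (hV : Bdd y z V) : Bdd y z (U ⊔ V) := by
  rw [sup_eq_iSup]
  exact Bdd.iSup fun b => by cases b <;> assumption

theorem bdd_bot : Bdd y z (⊥ : Fam k E) :=
  ⟨∅, 0, bot_le⟩

theorem mapF_mono (φ : E →ₗ[𝕃] E') (h : U ≤ V) : mapF φ U ≤ mapF φ V :=
  fun m => Submodule.map_mono (h m)

theorem mapF_iSup (φ : E →ₗ[𝕃] E') {ι : Sort*} (V : ι → Fam k E) :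
    mapF φ (⨆ i, V i) = ⨆ i, mapF φ (V i) := by
  funext m
  rw [iSup_apply]
  change Submodule.map _ ((⨆ i, V i) m) = _
  rw [iSup_apply, Submodule.map_iSup]
  rfl

theorem mapF_cyc (φ : E →ₗ[𝕃] E') (v : E) (l : ℤ) : mapF φ (cyc S v l) = cyc S (φ v) l := by
  funext m
  ext w
  simp only [mem_mapF, mem_cyc]
  constructor
  · rintro ⟨_, ⟨r, hr, rfl⟩, rfl⟩
    exact ⟨r, hr, (map_smul _ _ _).symm⟩
  · rintro ⟨r, hr, rfl⟩
    exact ⟨_, ⟨r, hr, rfl⟩, map_smul _ _ _⟩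

theorem Bdd.mapF (h : Bdd y z V) (φ : E →ₗ[𝕃] E') : Bdd y z (mapF φ V) := by
  obtain ⟨s, c, hs⟩ := h
  refine bdd_of_le_iSup (ι := s) (fun t => φ t) (fun _ => c) ((mapF_mono φ hs).trans ?_)
  simp only [mapF_iSup, mapF_cyc]
  exact iSup₂_le fun v hv => le_iSup_of_le (⟨v, hv⟩ : s) le_rfl

theorem Bdd.comapF {V : Fam k E'} (h : Bdd y z V) (φ : E →ₗ[𝕃] E') (hφ : Function.Injective φ) :
    Bdd y z (comapF φ V) := by
  obtain ⟨ψ, hψ⟩ := φ.exists_leftInverse_of_injective (LinearMap.ker_eq_bot.2 hφ)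
  exact (h.mapF ψ).of_le fun m v hv => ⟨φ v, hv, LinearMap.congr_fun hψ v⟩

theorem Bdd.shift (h : Bdd y z V) (l : ℤ) : Bdd y z (shift V l) := by
  obtain ⟨s, c, hs⟩ := h
  refine ⟨s, c - l, fun m => (hs (m + l)).trans ?_⟩
  simp only [iSup_apply]
  exact iSup₂_mono fun v _ => Submodule.map_mono (Apol_mono (by omega))

theorem Bdd.piF (h : Bdd y z V) (ι : Type) [Finite ι] : Bdd y z (piF ι V) := by
  classical
  have := Fintype.ofFinite ι
  refine (Bdd.iSup fun i => h.mapF (LinearMap.single 𝕃 (fun _ : ι => E) i)).of_le fun m v hv => ?_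
  rw [← Finset.univ_sum_single v, iSup_apply]
  exact Submodule.sum_mem _ fun i _ => Submodule.mem_iSup_of_mem i ⟨v i, mem_piF.1 hv i, rfl⟩

theorem Bdd.cyc (hS : Bdd y z S) (v : E) (l : ℤ) : Bdd y z (cyc S v l) :=
  (hS.mapF (LinearMap.toSpanSingleton 𝕃 E v)).shift (-l)

theorem bdd_Apol : Bdd y z (Apol k y z) :=
  bdd_of_le_iSup (ι := Unit) (fun _ => 1) (fun _ => 0) (le_iSup_of_le () fun m w hw =>
    mem_cyc.2 ⟨w, by simpa using hw, by simp⟩)

theorem Bdd.fd (h : Bdd y z V) (m : ℤ) : FiniteDimensional k (V m) := by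
  obtain ⟨s, c, hs⟩ := h
  have h1 := hs m
  simp only [iSup_apply] at h1
  have : ∀ v : E, FiniteDimensional k (Crest.Agent.R169.cyc (Apol k y z) v c m) := fun v =>
    Module.Finite.map _ _
  rw [iSup_subtype'] at h1
  exact Submodule.finiteDimensional_of_le h1

theorem Bdd.exists_bot (h : Bdd y z V) : ∃ m0, ∀ m < m0, V m = ⊥ := by
  obtain ⟨s, c, hs⟩ := h
  refine ⟨c, fun m hm => le_bot_iff.1 ((hs m).trans ?_)⟩
  simp only [iSup_apply]
  refine iSup₂_le fun v _ w hw => ?_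
  obtain ⟨r, hr, rfl⟩ := mem_cyc.1 hw
  rw [Apol_neg (by omega), Submodule.mem_bot] at hr
  simp [hr]

theorem Bdd.fd_spanF (h : Bdd y z V) : FiniteDimensional 𝕃 (spanF 𝕃 V) := by
  obtain ⟨s, c, hs⟩ := h
  refine Submodule.finiteDimensional_of_le (S₂ := Submodule.span 𝕃 (s : Set E))
    (Submodule.span_le.2 (Set.iUnion_subset fun m => ?_))
  have : V m ≤ (Submodule.span 𝕃 (s : Set E)).restrictScalars k := by
    refine (hs m).trans ?_
    simp only [iSup_apply]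
    refine iSup₂_le fun v hv w hw => ?_
    obtain ⟨r, -, rfl⟩ := mem_cyc.1 hw
    exact Submodule.smul_mem (Submodule.span 𝕃 (s : Set E)) r (Submodule.subset_span hv)
  exact this

theorem IsLat.of_le (h : IsLat y z V) (hU : Stab (Apol k y z) U) (hUV : U ≤ V) : IsLat y z U :=
  ⟨hU, h.bdd.of_le hUV⟩

theorem IsLat.cut (h : IsLat y z V) (F : Submodule 𝕃 E) : IsLat y z (cut V F) :=
  h.of_le (h.stab.cut F) fun _ => inf_le_left

theorem IsLat.mapF (h : IsLat y z V) (φ : E →ₗ[𝕃] E') : IsLat y z (mapF φ V) :=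
  ⟨h.stab.mapF φ, h.bdd.mapF φ⟩

theorem IsLat.comapF {V : Fam k E'} (h : IsLat y z V) (φ : E →ₗ[𝕃] E')
    (hφ : Function.Injective φ) : IsLat y z (comapF φ V) :=
  ⟨h.stab.comapF φ, h.bdd.comapF φ hφ⟩

theorem IsLat.sup (hU : IsLat y z U) (hV : IsLat y z V) : IsLat y z (U ⊔ V) :=
  ⟨hU.stab.sup hV.stab, hU.bdd.sup hV.bdd⟩

theorem IsLat.shift (h : IsLat y z V) (l : ℤ) : IsLat y z (shift V l) :=
  ⟨h.stab.shift l, h.bdd.shift l⟩

theorem IsLat.piF (h : IsLat y z V) (ι : Type) [Finite ι] : IsLat y z (piF ι V) :=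
  ⟨h.stab.piF ι, h.bdd.piF ι⟩

theorem isLat_Apol : IsLat y z (Apol k y z) := ⟨stab_Apol, bdd_Apol⟩

theorem isLat_cyc (v : E) (l : ℤ) : IsLat y z (cyc (Apol k y z) v l) :=
  ⟨stab_cyc stab_Apol v l, bdd_Apol.cyc v l⟩

theorem isLat_bot : IsLat y z (⊥ : Fam k E) := ⟨stab_bot, bdd_bot⟩

theorem spanF_mono (h : U ≤ V) : spanF 𝕃 U ≤ spanF 𝕃 V :=
  Submodule.span_mono (Set.iUnion_mono fun m => h m)

theorem Full.mono (hU : Full 𝕃 U) (h : U ≤ V) : Full 𝕃 V :=
  top_le_iff.1 (hU.ge.trans (spanF_mono h))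

theorem eq_bot_of_spanF_eq_bot (h : spanF 𝕃 V = ⊥) : V = ⊥ := by
  refine le_bot_iff.1 fun m v hv => ?_
  have := mem_spanF (𝕃 := 𝕃) hv
  rwa [h] at this

theorem spanF_mapF (φ : E →ₗ[𝕃] E') (V : Fam k E) : spanF 𝕃 (mapF φ V) = (spanF 𝕃 V).map φ := by
  change Submodule.span 𝕃 _ = (Submodule.span 𝕃 _).map φ
  rw [Submodule.map_span, Set.image_iUnion]
  rfl

end fam

section adjoin
variable {k : Type} [Field k] {𝕃 : Type} [Field 𝕃] [Algebra k 𝕃] {y z : 𝕃}
  {E : Type} [AddCommGroup E] [Module k E] [Module 𝕃 E] [IsScalarTower k 𝕃 E] {V : Fam k E}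
open IntermediateField

theorem ratFn_adjoin (hind : AlgebraicIndependent k ![y, z]) : RatFn k (yK k y z) (zK k y z) := by
  refine ⟨AlgebraicIndependent.of_comp (k⟮y, z⟯).val ?_, lift_injective _ ?_⟩
  · convert hind using 1
    funext i
    fin_cases i <;> rfl
  · rw [lift_adjoin, IntermediateField.lift_top, Set.image_pair]
    rfl

theorem map_Apol_adjoin (j : ℤ) :
    (Apol k (yK k y z) (zK k y z) j).map (k⟮y, z⟯).val.toLinearMap = Apol k y z j := by
  rw [Apol_def, Apol_def, Submodule.map_span]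
  congr 1
  ext w
  constructor
  · rintro ⟨_, ⟨a, b, h, rfl⟩, rfl⟩
    exact ⟨a, b, h, by simp⟩
  · rintro ⟨a, b, h, rfl⟩
    exact ⟨_, ⟨a, b, h, rfl⟩, by simp⟩

theorem mem_Apol_adjoin {j : ℤ} {w : k⟮y, z⟯} :
    w ∈ Apol k (yK k y z) (zK k y z) j ↔ (w : 𝕃) ∈ Apol k y z j := by
  rw [← map_Apol_adjoin (y := y)]
  refine ⟨fun h => ⟨w, h, rfl⟩, fun ⟨w', h, e⟩ => ?_⟩
  rwa [← Subtype.ext e]

theorem exists_adjoin_of_mem_Apol {j : ℤ} {w : 𝕃} (h : w ∈ Apol k y z j) :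
    ∃ w' ∈ Apol k (yK k y z) (zK k y z) j, (w' : 𝕃) = w := by
  rwa [← map_Apol_adjoin] at h

theorem cyc_adjoin (v : E) (l : ℤ) :
    cyc (Apol k (yK k y z) (zK k y z)) v l = cyc (Apol k y z) v l := by
  funext m
  ext w
  simp only [mem_cyc]
  constructor
  · rintro ⟨r, hr, rfl⟩
    exact ⟨r, mem_Apol_adjoin.1 hr, rfl⟩
  · rintro ⟨r, hr, rfl⟩
    obtain ⟨r', hr', rfl⟩ := exists_adjoin_of_mem_Apol hr
    exact ⟨r', hr', rfl⟩

theorem stab_adjoin_iff : Stab (Apol k (yK k y z) (zK k y z)) V ↔ Stab (Apol k y z) V := by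
  rw [stab_Apol_iff, stab_Apol_iff]
  rfl

theorem bdd_adjoin_iff : Bdd (yK k y z) (zK k y z) V ↔ Bdd y z V := by
  change (∃ _ _, _) ↔ ∃ _ _, _
  simp only [cyc_adjoin]

theorem isLat_adjoin_iff : IsLat (yK k y z) (zK k y z) V ↔ IsLat y z V :=
  ⟨fun h => ⟨stab_adjoin_iff.1 h.stab, bdd_adjoin_iff.1 h.bdd⟩,
    fun h => ⟨stab_adjoin_iff.2 h.stab, bdd_adjoin_iff.2 h.bdd⟩⟩

theorem cut_restrictScalars (K : IntermediateField k 𝕃) (F : Submodule 𝕃 E) :
    cut V (F.restrictScalars K) = cut V F := rfl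

/-- Every element of a rational function field is a quotient of two elements of some `Apol j`. -/
theorem RatFn.exists_div (hK : RatFn k y z) (a : 𝕃) :
    ∃ (j : ℕ) (g : 𝕃), g ≠ 0 ∧ g ∈ Apol k y z j ∧ g * a ∈ Apol k y z j := by
  have ha : a ∈ adjoin k (Set.range ![y, z]) := by
    rw [Matrix.range_cons, Matrix.range_cons, Matrix.range_empty, Set.union_empty,
      Set.singleton_union, hK.gen]
    exact mem_top
  obtain ⟨r, s, rfl⟩ := (mem_adjoin_range_iff _ _ _).1 ha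
  by_cases hs : MvPolynomial.aeval ![y, z] s = 0
  · exact ⟨0, 1, one_ne_zero, one_mem_Apol le_rfl, by simp [hs]⟩
  refine ⟨max r.totalDegree s.totalDegree, _, hs, mem_Apol_iff.2 ⟨s, Or.inr (by simp), rfl⟩, ?_⟩
  rw [mul_div_cancel₀ _ hs]
  exact mem_Apol_iff.2 ⟨r, Or.inr (by simp), rfl⟩

/-- Common denominators. -/
theorem RatFn.exists_denom (hK : RatFn k y z) {ι : Type} [Finite ι] (a : ι → 𝕃) :
    ∃ (j : ℕ) (g : 𝕃), g ≠ 0 ∧ g ∈ Apol k y z j ∧ ∀ i, g * a i ∈ Apol k y z j := by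
  classical
  have := Fintype.ofFinite ι
  have key : ∀ s : Finset ι, ∃ (j : ℕ) (g : 𝕃), g ≠ 0 ∧ g ∈ Apol k y z j ∧
      ∀ i ∈ s, g * a i ∈ Apol k y z j := by
    intro s
    induction s using Finset.induction_on with
    | empty => exact ⟨0, 1, one_ne_zero, one_mem_Apol le_rfl, by simp⟩
    | insert i s _ ih =>
      obtain ⟨j, g, h0, h1, h2⟩ := ih
      obtain ⟨j', g', h0', h1', h2'⟩ := hK.exists_div (a i)
      refine ⟨j + j', g * g', mul_ne_zero h0 h0', Nat.cast_add (R := ℤ) j j' ▸ mul_mem_Apol h1 h1',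
        fun t ht => ?_⟩
      rw [Nat.cast_add]
      rcases Finset.mem_insert.1 ht with rfl | ht
      · rw [mul_assoc]
        exact mul_mem_Apol h1 h2'
      · rw [mul_right_comm]
        exact mul_mem_Apol (h2 t ht) h1'
  obtain ⟨j, g, h0, h1, h2⟩ := key Finset.univ
  exact ⟨j, g, h0, h1, fun i => h2 i (Finset.mem_univ i)⟩

/-- An element in the span of a stable family has a nonzero polynomial multiple in the family. -/
theorem RatFn.exists_smul_mem (hK : RatFn k y z) (hV : Stab (Apol k y z) V) {v : E}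
    (hv : v ∈ spanF 𝕃 V) : ∃ (j : ℕ) (l : ℤ) (g : 𝕃), g ≠ 0 ∧ g ∈ Apol k y z j ∧ g • v ∈ V l := by
  induction hv using Submodule.span_induction with
  | mem v hv =>
    obtain ⟨l, hl⟩ := Set.mem_iUnion.1 hv
    exact ⟨0, l, 1, one_ne_zero, one_mem_Apol le_rfl, by simpa using hl⟩
  | zero => exact ⟨0, 0, 1, one_ne_zero, one_mem_Apol le_rfl, by simp⟩
  | add v w _ _ hv hw =>
    obtain ⟨j, l, g, h0, h1, h2⟩ := hv
    obtain ⟨j', l', g', h0', h1', h2'⟩ := hw
    refine ⟨j + j', max (j' + l) (j + l'), g * g', mul_ne_zero h0 h0',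
      Nat.cast_add (R := ℤ) j j' ▸ mul_mem_Apol h1 h1', ?_⟩
    rw [smul_add]
    refine add_mem ?_ ?_
    · rw [mul_comm, mul_smul]
      exact hV.mono_deg (le_max_left _ _) (hV _ _ _ _ h1' h2)
    · rw [mul_smul]
      exact hV.mono_deg (le_max_right _ _) (hV _ _ _ _ h1 h2')
  | smul a v _ hv =>
    obtain ⟨j, l, g, h0, h1, h2⟩ := hv
    obtain ⟨j', g', h0', h1', h2'⟩ := hK.exists_div a
    refine ⟨j + j', j' + l, g * g', mul_ne_zero h0 h0',
      Nat.cast_add (R := ℤ) j j' ▸ mul_mem_Apol h1 h1', ?_⟩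
    rw [← mul_smul, show g * g' * a = g' * a * g by ring, mul_smul]
    exact hV _ _ _ _ h2' h2

theorem RatFn.spanF_cut (hK : RatFn k y z) (hV : Stab (Apol k y z) V) (F : Submodule 𝕃 E) :
    spanF 𝕃 (cut V F) = spanF 𝕃 V ⊓ F := by
  refine le_antisymm (le_inf (spanF_mono fun _ => inf_le_left)
    (Submodule.span_le.2 (Set.iUnion_subset fun m v hv => hv.2))) fun v hv => ?_
  obtain ⟨j, l, g, h0, -, h2⟩ := hK.exists_smul_mem hV hv.1
  have := Submodule.smul_mem _ g⁻¹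
    (mem_spanF (𝕃 := 𝕃) (V := cut V F) (m := l) ⟨h2, F.smul_mem g hv.2⟩)
  rwa [inv_smul_smul₀ h0] at this

end adjoin

end Crest.Agent.R169
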