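import Crest.Agent.R169.Surf

/-!
# Row 169: Hirzebruch's Kummer cover of the quintic del Pezzo surface (definitions)

Edges of `K₅` index `n`-th roots `w e` of the Plücker coordinates `pp t e` of five points
`t 0, …, t 3, ∞` on the line.  The ring is spanned in degree `j` by the monomials of `2j`-regular
multigraphs on five vertices, dehomogenised by the pentagon monomial `γ0`.
-/

set_option autoImplicit false
open Filter Module IntermediateField

namespace Crest.Agent.R169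

/-- Edges (and loops) of the complete graph on five vertices. -/
abbrev Ed : Type := Sym2 (Fin 5)

/-- The degree of a vertex in a weighted graph. -/
def deg {M : Type} [AddCommMonoid M] (e : Ed → M) (i : Fin 5) : M := ∑ j, e s(i, j)

/-- Loopless `2j`-regular multigraphs. -/
structure Reg (e : Ed → ℕ) (j : ℕ) : Prop where
  diag : ∀ i, e s(i, i) = 0
  deg : ∀ i, deg e i = 2 * j

/-- The 22 two-factors. -/
def Gen : Type := {γ : Ed → ℕ // Reg γ 1}

instance : Finite Gen := by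
  have h : ∀ γ : Gen, ∀ x, γ.1 x < 3 := by
    rintro ⟨γ, hγ⟩ x
    induction x using Sym2.ind with
    | h a b =>
      have h1 := hγ.deg a
      have h2 : γ s(a, b) ≤ deg γ a :=
        Finset.single_le_sum (f := fun j => γ s(a, j)) (fun _ _ => Nat.zero_le _) (Finset.mem_univ b)
      change γ s(a, b) < 3
      omega
  refine Finite.of_injective (fun γ : Gen => fun x => (⟨γ.1 x, h γ x⟩ : Fin 3)) ?_
  intro a b hab
  apply Subtype.ext
  funext x
  exact congrArg Fin.val (congrFun hab x)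

noncomputable instance : Fintype Gen := Fintype.ofFinite _

/-- The monomial of a multigraph. -/
def mon {C : Type} [CommMonoid C] (w : Ed → C) (e : Ed → ℕ) : C := ∏ x, w x ^ e x

/-- The Laurent monomial of an integer-weighted graph. -/
def zmon {C : Type} [Field C] (w : Ed → C) (e : Ed → ℤ) : C := ∏ x, w x ^ e x

/-- The multigraph with the given list of edges. -/
def ofList (l : List Ed) : Ed → ℕ := fun x => l.count x

theorem mon_ofList {C : Type} [CommMonoid C] (w : Ed → C) (l : List Ed) :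
    mon w (ofList l) = (l.map w).prod := by
  rw [mon, Finset.prod_list_map_count]
  refine (Finset.prod_subset (Finset.subset_univ _) fun x _ hx => ?_).symm
  simp only [List.mem_toFinset] at hx
  simp [ofList, List.count_eq_zero_of_not_mem hx]

theorem mon_add {C : Type} [CommMonoid C] (w : Ed → C) (e f : Ed → ℕ) :
    mon w (e + f) = mon w e * mon w f := by
  simp [mon, pow_add, Finset.prod_mul_distrib]

/-- The pentagon. -/
def γ0 : Gen := ⟨ofList [s(0, 1), s(1, 2), s(2, 3), s(3, 4), s(0, 4)], ⟨by decide, by decide⟩⟩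

/-- Plücker coordinates of the points `t 0, …, t 3, ∞` (and `1` on loops). -/
def pp {C : Type} [CommRing C] (t : Fin 4 → C) : Ed → C :=
  Sym2.lift ⟨fun i j => if i = j ∨ i = 4 ∨ j = 4 then 1 else
      (![t 0, t 1, t 2, t 3, 0] : Fin 5 → C) (min i j) - ![t 0, t 1, t 2, t 3, 0] (max i j),
    fun i j => by
      have : (i = j ∨ i = 4 ∨ j = 4) ↔ (j = i ∨ j = 4 ∨ i = 4) := by tauto
      simp only [this, min_comm i j, max_comm i j]⟩

section fam
variable (k : Type) [Field k] {𝕃 : Type} [Field 𝕃] [Algebra k 𝕃]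

/-- The `S₅`-symmetric properties of the family of roots. -/
structure SymFam (n : ℕ) (w : Ed → 𝕃) : Prop where
  ne : ∀ e, w e ≠ 0
  diag : ∀ i, w s(i, i) = 1
  pl : ∀ a b c d : Fin 5, a ≠ b → a ≠ c → a ≠ d → b ≠ c → b ≠ d → c ≠ d → ∃ ε₁ ε₂ : k,
    (w s(a, b) * w s(c, d)) ^ n =
      ε₁ • (w s(a, c) * w s(b, d)) ^ n + ε₂ • (w s(a, d) * w s(b, c)) ^ n

open Classical in
/-- The generators: two-factor monomials divided by `x`. -/
noncomputable def Gam (w : Ed → 𝕃) (x : 𝕃) : Finset 𝕃 :=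
  Finset.univ.image fun γ : Gen => mon w γ.1 / x

theorem mem_Gam {w : Ed → 𝕃} {x a : 𝕃} : a ∈ Gam w x ↔ ∃ γ : Gen, mon w γ.1 / x = a := by
  simp [Gam]

/-- The two pentagons avoiding the edges `π 0 π 1` and `π 2 π 3`. -/
def cu (w : Ed → 𝕃) (x : 𝕃) (π : Equiv.Perm (Fin 5)) : 𝕃 :=
  w s(π 4, π 0) * w s(π 0, π 2) * w s(π 2, π 1) * w s(π 1, π 3) * w s(π 3, π 4) / x

@[inherit_doc cu]
def cu' (w : Ed → 𝕃) (x : 𝕃) (π : Equiv.Perm (Fin 5)) : 𝕃 :=
  w s(π 4, π 1) * w s(π 1, π 3) * w s(π 3, π 0) * w s(π 0, π 2) * w s(π 2, π 4) / x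

end fam

/-- The function field of the Kummer cover with its distinguished elements. -/
structure Model (k 𝕂 : Type) [Field k] [Field 𝕂] [Algebra k 𝕂] (n : ℕ) where
  t : Fin 4 → 𝕂
  w : Ed → 𝕂
  t0 : t 0 = 0
  t1 : t 1 = -1
  w_pow : ∀ e, w e ^ n = pp t e
  w_diag : ∀ i, w s(i, i) = 1
  w_last : ∀ i, w s(i, 4) = 1
  w_01 : w s(0, 1) = 1
  ind : AlgebraicIndependent k ![t 2, t 3]
  kummer : LinearIndependent k⟮t 2, t 3⟯ fun ε : Fin 5 → Fin n =>
    w s(0, 2) ^ (ε 0 : ℕ) * w s(0, 3) ^ (ε 1 : ℕ) * w s(1, 2) ^ (ε 2 : ℕ) * w s(1, 3) ^ (ε 3 : ℕ) *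
      w s(2, 3) ^ (ε 4 : ℕ)
  gen : IntermediateField.adjoin k (Set.range w) = ⊤

namespace Model
variable {k 𝕂 : Type} [Field k] [Field 𝕂] [Algebra k 𝕂] {n : ℕ} (M : Model k 𝕂 n)

/-- The dehomogenising monomial. -/
def x : 𝕂 := mon M.w γ0.1
/-- The dehomogenised generators. -/
def g (γ : Gen) : 𝕂 := mon M.w γ.1 / M.x
/-- The set of generators. -/
noncomputable def Γ : Finset 𝕂 := Gam M.w M.x
/-- The generators of the del Pezzo ring `B`. -/
noncomputable def ΓB : Finset 𝕂 := Gam (pp M.t) (M.x ^ n)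
/-- The five cluster variables (triangle `i-1, i, i+1` plus the doubled opposite edge). -/
def Y (i : Fin 5) : 𝕂 :=
  pp M.t s(i - 1, i) * pp M.t s(i, i + 1) * pp M.t s(i - 1, i + 1) * pp M.t s(i + 2, i + 3) ^ 2 /
    M.x ^ n
/-- System of parameters of `B`. -/
def yB : 𝕂 := M.Y 0 + M.Y 2 - M.Y 1
@[inherit_doc yB]
def zB : 𝕂 := M.Y 2 + M.Y 4 - M.Y 3

end Model

/-- The residue classes of `2nj`-regular multigraphs modulo `n`. -/
def Zs (n : ℕ) : Finset (Ed → ℕ) :=
  (Fintype.piFinset fun _ : Ed => Finset.range n).filter fun ε =>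
    (∀ i, ε s(i, i) = 0) ∧ ∀ i, n ∣ deg ε i

/-- The number of classes (it is `n ^ 5` for odd `n`; this is never needed). -/
def nu (n : ℕ) : ℕ := (Zs n).card

/-- The degree `H²`. -/
noncomputable def eR (n : ℕ) : ℝ := 5 * nu n / (n : ℝ) ^ 2

/-- The Hilbert polynomial of the ring at `m`. -/
noncomputable def PhiR (n : ℕ) (m : ℝ) : ℝ :=
  eR n * (m - ((n : ℝ) - 2) / 2) ^ 2 / 2 - eR n * (((n : ℝ) ^ 2 - 10) / 120)

/-- Riemann–Roch on the quintic del Pezzo surface. -/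
noncomputable def chiPl (d : Fin 5 → ℝ) : ℝ :=
  1 + (((∑ i, d i) / 2) ^ 2 - ∑ i, d i ^ 2 + (∑ i, d i) / 2) / 2

section poly
variable (k : Type) [Field k]
open MvPolynomial

/-- The span of the Plücker monomials with degree vector `d`. -/
noncomputable def Pl (d : Fin 5 → ℕ) : Submodule k (MvPolynomial (Fin 4) k) :=
  Submodule.span k {F | ∃ f : Ed → ℕ, (∀ i, f s(i, i) = 0) ∧ (∀ i, deg f i = d i) ∧
    F = mon (pp X) f}

/-- The span of the products of `D` differences with at most `di` factors involving `i`. -/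
noncomputable def Wi (D : ℕ) (i : Fin 5) (di : ℕ) : Submodule k (MvPolynomial (Fin 4) k) :=
  Submodule.span k {F | ∃ f : Ed → ℕ, (∀ j, f s(j, j) = 0) ∧ (∀ j, f s(j, 4) = 0) ∧
    ∑ x, f x = D ∧ deg f i ≤ di ∧ F = mon (pp X) f}

/-- Forms of degree `D` with prescribed vanishing at the four triple points. -/
noncomputable def Wd (D : ℕ) (d : Fin 5 → ℕ) : Submodule k (MvPolynomial (Fin 4) k) :=
  ⨅ i : Fin 4, Wi k D i.castSucc (d i.castSucc)

end poly

section table
open MvPolynomial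

/-- Relations among the generators which hold in every characteristic. -/
def Rel (n : ℕ) (F : MvPolynomial Gen ℤ) : Prop :=
  ∀ (k 𝕂 : Type) [Field k] [Field 𝕂] [Algebra k 𝕂] (M : Model k 𝕂 n), aeval M.g F = 0

/-- Substitution of the linear system of parameters. -/
noncomputable def subs (y z : MvPolynomial Gen ℤ) : MvPolynomial (Fin 3) ℤ →ₐ[ℤ] MvPolynomial Gen ℤ :=
  aeval ![X γ0, y, z]

/-- A linear system of parameters `x, y, z`, a primitive element `θ` and their equations,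
over `ℤ`. -/
structure Table (n : ℕ) where
  y : MvPolynomial Gen ℤ
  z : MvPolynomial Gen ℤ
  θ : MvPolynomial Gen ℤ
  e : ℕ
  D : ℕ
  dδ : ℕ
  Di : ℕ
  δ : MvPolynomial (Fin 3) ℤ
  a : Fin e → MvPolynomial (Fin 3) ℤ
  a' : Gen → Fin e → MvPolynomial (Fin 3) ℤ
  n0 : ℤ
  c : Gen → Fin Di → MvPolynomial (Fin 3) ℤ
  hy : y.IsHomogeneous 1
  hz : z.IsHomogeneous 1
  hθ : θ.IsHomogeneous D
  hδ : δ.IsHomogeneous dδ
  δ_ne : δ ≠ 0
  hD : D * e ≤ dδ
  ha : ∀ l, (a l).IsHomogeneous (dδ + D * (e - l))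
  ha' : ∀ γ l, (a' γ l).IsHomogeneous (dδ + 1 - D * l)
  n0_ne : n0 ≠ 0
  hc : ∀ γ i, (c γ i).IsHomogeneous (Di - i)
  he : (e : ℝ) ≤ eR n
  relθ : Rel n (subs y z δ * θ ^ e - ∑ l, subs y z (a l) * θ ^ (l : ℕ))
  relγ : ∀ γ, Rel n (subs y z δ * X γ - ∑ l, subs y z (a' γ l) * θ ^ (l : ℕ))
  reli : ∀ γ, Rel n (C n0 * X γ ^ Di - ∑ i, subs y z (c γ i) * X γ ^ (i : ℕ))

/-- Matrices over `k[x,y,z]` satisfying the equations of the table modulo `𝔪 ^ Sp`. -/
def Table.Mats {n : ℕ} (τ : Table n) (k : Type) [CommRing k] (N Sp : ℕ) : Prop :=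
  ∃ (Bθ : Matrix (Fin N) (Fin N) (MvPolynomial (Fin 3) k))
    (B : Gen → Matrix (Fin N) (Fin N) (MvPolynomial (Fin 3) k)),
    (∀ i j, (map (Int.castRingHom k) τ.δ • Bθ ^ τ.e -
      ∑ l, map (Int.castRingHom k) (τ.a l) • Bθ ^ (l : ℕ)) i j ∈ idealOfVars (Fin 3) k ^ Sp) ∧
    ∀ γ i j, (map (Int.castRingHom k) τ.δ • B γ -
      ∑ l, map (Int.castRingHom k) (τ.a' γ l) • Bθ ^ (l : ℕ)) i j ∈ idealOfVars (Fin 3) k ^ Sp

end table

end Crest.Agent.R169
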