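import Crest.Agent.R169.HS

/-! # Rank, free lattices, sandwiching (task R169/Rank) -/

set_option autoImplicit false
open Filter Module

namespace Crest.Agent.R169

variable {k : Type} [Field k] {𝕃 : Type} [Field 𝕃] [Algebra k 𝕃] {y z : 𝕃}
  {E : Type} [AddCommGroup E] [Module k E] [Module 𝕃 E] [IsScalarTower k 𝕃 E] {V : Fam k E}

/-- Exponent pairs of total degree at most `n`. -/
def Rank_tri (n : ℕ) : Finset (ℕ × ℕ) :=
  (Finset.range (n + 1)).biUnion fun s => Finset.HasAntidiagonal.antidiagonal s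

theorem Rank_mem_tri {n : ℕ} {p : ℕ × ℕ} : p ∈ Rank_tri n ↔ p.1 + p.2 ≤ n := by
  simp only [Rank_tri, Finset.mem_biUnion, Finset.mem_range,
    Finset.HasAntidiagonal.mem_antidiagonal]
  constructor
  · rintro ⟨s, hs, h⟩; omega
  · intro h; exact ⟨p.1 + p.2, by omega, rfl⟩

theorem Rank_card_tri (n : ℕ) : ((Rank_tri n).card : ℝ) = ((n : ℝ) + 1) * (n + 2) / 2 := by
  have h : (Rank_tri n).card = ∑ s ∈ Finset.range (n + 1), (s + 1) := by
    rw [Rank_tri, Finset.card_biUnion]
    · simp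
    · intro s _ t _ hst
      rw [Function.onFun, Finset.disjoint_left]
      intro p hp hq
      rw [Finset.HasAntidiagonal.mem_antidiagonal] at hp hq
      exact hst (hp.symm.trans hq)
  rw [h]
  clear h
  induction n with
  | zero => simp
  | succ n ih => rw [Finset.sum_range_succ, Nat.cast_add, ih]; push_cast; ring

theorem Rank_linInd_mon (hind : AlgebraicIndependent k ![y, z]) :
    LinearIndependent k (fun p : ℕ × ℕ => y ^ p.1 * z ^ p.2) := by
  classical
  have h1 := (MvPolynomial.basisMonomials (Fin 2) k).linearIndependent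
  have h2 := h1.map' (MvPolynomial.aeval (R := k) ![y, z]).toLinearMap
    (LinearMap.ker_eq_bot.2 hind)
  let e : ℕ × ℕ → (Fin 2 →₀ ℕ) := fun p => Finsupp.single 0 p.1 + Finsupp.single 1 p.2
  have he : Function.Injective e := by
    intro p q h
    have h0 := DFunLike.congr_fun h 0
    have h1 := DFunLike.congr_fun h 1
    simp [e] at h0 h1
    exact Prod.ext h0 h1
  have h3 := h2.comp e he
  have e3 : ((MvPolynomial.aeval (R := k) ![y, z]).toLinearMap ∘
      MvPolynomial.basisMonomials (Fin 2) k) ∘ e = fun p : ℕ × ℕ => y ^ p.1 * z ^ p.2 := ?_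
  · rwa [e3] at h3
  funext p
  simp only [Function.comp, MvPolynomial.coe_basisMonomials, AlgHom.toLinearMap_apply,
    MvPolynomial.aeval_monomial, map_one, one_mul, e]
  rw [Finsupp.prod_add_index' (by simp) (by intro a b c; rw [pow_add])]
  simp

theorem hf_Apol (hind : AlgebraicIndependent k ![y, z]) (j : ℤ) :
    hf (Apol k y z) j = if 0 ≤ j then ((j : ℝ) + 1) * (j + 2) / 2 else 0 := by
  split_ifs with hj
  · obtain ⟨n, rfl⟩ := Int.eq_ofNat_of_zero_le hj
    have hli := (Rank_linInd_mon hind).comp (fun p : Rank_tri n => (p : ℕ × ℕ))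
      Subtype.val_injective
    have hsp : Apol k y z n = Submodule.span k (Set.range
        ((fun p : ℕ × ℕ => y ^ p.1 * z ^ p.2) ∘ fun p : Rank_tri n => (p : ℕ × ℕ))) := by
      unfold Apol
      congr 1
      ext w
      constructor
      · rintro ⟨a, b, hab, rfl⟩
        exact ⟨⟨(a, b), Rank_mem_tri.2 (by exact_mod_cast hab)⟩, rfl⟩
      · rintro ⟨⟨p, hp⟩, rfl⟩
        exact ⟨p.1, p.2, by exact_mod_cast Rank_mem_tri.1 hp, rfl⟩
    rw [hf, hsp, finrank_span_eq_card hli, Fintype.card_coe, Rank_card_tri]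
    push_cast
    rfl
  · rw [hf, Apol_neg (not_le.1 hj)]
    simp

theorem Rank_hasHP_Apol_sub (hind : AlgebraicIndependent k ![y, z]) (c : ℤ) :
    HasHP (fun m => hf (Apol k y z) (m - c)) 1 (3 / 2 - c) ((1 - c) * (2 - c) / 2) := by
  filter_upwards [eventually_ge_atTop c] with m hm
  rw [hf_Apol hind, if_pos (by omega)]
  push_cast
  ring

theorem inv_Apol (hind : AlgebraicIndependent k ![y, z]) :
    rk (Apol k y z) = 1 ∧ dg (Apol k y z) = 3 / 2 ∧ ch (Apol k y z) = 1 := by
  apply HasHP.eq_inv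
  filter_upwards [eventually_ge_atTop (0 : ℤ)] with m hm
  rw [hf_Apol hind, if_pos hm]
  ring

/-- Invariants of a free lattice. -/
theorem inv_free (hind : AlgebraicIndependent k ![y, z]) {ι : Type} [Fintype ι] {v : ι → E}
    (hv : LinearIndependent 𝕃 v) (c : ℤ) :
    rk (⨆ i, cyc (Apol k y z) (v i) c) = Fintype.card ι ∧
      dg (⨆ i, cyc (Apol k y z) (v i) c) = Fintype.card ι * (3 / 2 - c) := by
  have H := (Rank_hasHP_Apol_sub hind c).const_mul (Fintype.card ι : ℝ)
  have H' : HasHP (hf (⨆ i, cyc (Apol k y z) (v i) c)) _ _ _ := H.congr (by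
    refine Eventually.of_forall fun m => ?_
    rw [hf_iSup_cyc (Apol k y z) (fun m => fd_Apol m) hv (fun _ => c) m]
    simp)
  obtain ⟨h1, h2, -⟩ := H'.eq_inv
  exact ⟨by rw [h1, mul_one], h2⟩

theorem Rank_isLat_free {ι : Type} [Finite ι] (v : ι → E) (a : ι → ℤ) :
    IsLat y z (⨆ i, cyc (Apol k y z) (v i) (a i) : Fam k E) :=
  ⟨Stab.iSup fun i => (isLat_cyc (v i) (a i)).stab, Bdd.iSup fun i => (isLat_cyc (v i) (a i)).bdd⟩

/-- A finite linearly independent spanning family chosen from a set with finite-dimensional span. -/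
theorem Rank_exists_basis (s : Set E) [FiniteDimensional 𝕃 (Submodule.span 𝕃 s)] :
    ∃ (r : ℕ) (v : Fin r → E), LinearIndependent 𝕃 v ∧ (∀ i, v i ∈ s) ∧
      Submodule.span 𝕃 (Set.range v) = Submodule.span 𝕃 s := by
  obtain ⟨κ, a, -, hsp, hli⟩ := exists_linearIndependent' 𝕃 (fun x : s => (x : E))
  rw [Subtype.range_coe] at hsp
  have hfin : Finite κ := by
    have hli' : LinearIndependent 𝕃 (fun i : κ =>
        (⟨(a i : E), Submodule.subset_span (a i).2⟩ : Submodule.span 𝕃 s)) :=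
      LinearIndependent.of_comp (Submodule.span 𝕃 s).subtype hli
    exact hli'.finite_of_isNoetherian
  obtain ⟨r, ⟨e⟩⟩ := Finite.exists_equiv_fin κ
  refine ⟨r, fun i => (a (e.symm i) : E), hli.comp e.symm e.symm.injective, fun i => (a _).2, ?_⟩
  rw [← hsp]
  congr 1
  exact e.symm.surjective.range_comp ((fun x : s => (x : E)) ∘ a)

theorem Rank_spanF_le_of_le_free {S : Fam k 𝕃} {ι : Type} [Fintype ι] {v : ι → E} {a : ι → ℤ}
    (h : V ≤ ⨆ i, cyc S (v i) (a i)) : spanF 𝕃 V ≤ Submodule.span 𝕃 (Set.range v) := by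
  refine Submodule.span_le.2 fun w hw => ?_
  obtain ⟨m, hm⟩ := Set.mem_iUnion.1 hw
  obtain ⟨r, -, rfl⟩ := (mem_iSup_cyc S v a m w).1 (h m hm)
  exact Submodule.sum_mem _ fun i _ =>
    Submodule.smul_mem _ _ (Submodule.subset_span ⟨i, rfl⟩)

/-- Every lattice is sandwiched between two free lattices on proportional bases. -/
theorem IsLat.exists_free (hK : RatFn k y z) (hV : IsLat y z V) :
    ∃ (r : ℕ) (v : Fin r → E) (l c : ℤ) (g : 𝕃), LinearIndependent 𝕃 v ∧ g ≠ 0 ∧
      (∀ i, v i ∈ V l) ∧ V ≤ ⨆ i, cyc (Apol k y z) (g • v i) c := by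
  classical
  have : FiniteDimensional 𝕃 (Submodule.span 𝕃 (⋃ m, (V m : Set E))) := hV.bdd.fd_spanF
  obtain ⟨r, v, hli, hvs, hsp⟩ := Rank_exists_basis (𝕃 := 𝕃) (⋃ m, (V m : Set E))
  choose d hd using fun i => Set.mem_iUnion.1 (hvs i)
  obtain ⟨n, w, a, hw, hVe⟩ := hV.fg'
  have hws : ∀ j, ∃ c : Fin r → 𝕃, ∑ i, c i • v i = w j := fun j => by
    have : w j ∈ Submodule.span 𝕃 (Set.range v) := by
      rw [hsp]; exact mem_spanF (hw j)
    exact (Submodule.mem_span_range_iff_exists_fun 𝕃).1 this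
  choose c hc using hws
  obtain ⟨J, g, hg0, -, hg⟩ := hK.exists_denom (fun p : Fin n × Fin r => c p.1 p.2)
  refine ⟨r, v, ∑ i, |d i|, -(J : ℤ) - ∑ j, |a j|, g⁻¹, hli, inv_ne_zero hg0, fun i => ?_, ?_⟩
  · refine hV.stab.mono_deg ?_ (hd i)
    exact (le_abs_self _).trans
      (Finset.single_le_sum (f := fun i => |d i|) (fun i _ => abs_nonneg _) (Finset.mem_univ i))
  · rw [hVe]
    refine iSup_le fun j => ?_
    refine Stab.cyc_le (Stab.iSup fun i => stab_cyc stab_Apol _ _) ?_
    refine (mem_iSup_cyc (Apol k y z) (fun i => g⁻¹ • v i) (fun _ => -(J : ℤ) - ∑ j, |a j|)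
      (a j) (w j)).2 ⟨fun i => g * c j i, fun i => ?_, ?_⟩
    · refine Apol_mono ?_ (hg (j, i))
      have h1 : |a j| ≤ ∑ j, |a j| :=
        Finset.single_le_sum (f := fun j => |a j|) (fun i _ => abs_nonneg _) (Finset.mem_univ j)
      have h2 := neg_abs_le (a j)
      omega
    · rw [← hc j]
      refine Finset.sum_congr rfl fun i _ => ?_
      change _ = (g * c j i) • g⁻¹ • v i
      rw [smul_smul, mul_comm g, mul_assoc, mul_inv_cancel₀ hg0, mul_one]

/-- The rank is the dimension of the span. -/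
theorem IsLat.rk_eq (hK : RatFn k y z) (hV : IsLat y z V) :
    rk V = finrank 𝕃 (spanF 𝕃 V) := by
  obtain ⟨r, v, l, c, g, hli, hg, hv, hle⟩ := hV.exists_free hK
  have hli' : LinearIndependent 𝕃 (fun i => g • v i) :=
    hli.units_smul (fun _ => Units.mk0 g hg)
  have h1 : (⨆ i, cyc (Apol k y z) (v i) l : Fam k E) ≤ V := iSup_le fun i => hV.stab.cyc_le (hv i)
  have h2 := (inv_mono (Rank_isLat_free v fun _ => l).good hV.good h1).1
  have h3 := (inv_mono hV.good (Rank_isLat_free (fun i => g • v i) fun _ => c).good hle).1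
  rw [(inv_free hK.ind hli l).1] at h2
  rw [(inv_free hK.ind hli' c).1] at h3
  have hsp : spanF 𝕃 V = Submodule.span 𝕃 (Set.range v) := by
    refine le_antisymm ((Rank_spanF_le_of_le_free hle).trans ?_) ?_
    · refine Submodule.span_le.2 ?_
      rintro _ ⟨i, rfl⟩
      exact Submodule.smul_mem _ _ (Submodule.subset_span ⟨i, rfl⟩)
    · refine Submodule.span_le.2 ?_
      rintro _ ⟨i, rfl⟩
      exact mem_spanF (hv i)
  rw [hsp, finrank_span_eq_card hli]
  exact le_antisymm h3 h2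

/-- A subspace on which finitely many functionals are jointly injective is already detected by at
most `dim` of them. -/
theorem Rank_exists_coords {ι : Type} (F : Submodule 𝕃 E) [FiniteDimensional 𝕃 F]
    (π : E →ₗ[𝕃] (ι → 𝕃)) :
    ∃ (κ : Type) (_ : Fintype κ) (a : κ → ι), Fintype.card κ ≤ finrank 𝕃 F ∧
      ∀ w ∈ F, (∀ i, π w (a i) = 0) → π w = 0 := by
  let φ : ι → Module.Dual 𝕃 F := fun i => ((LinearMap.proj i).comp π).comp F.subtype
  obtain ⟨κ, a, -, hsp, hli⟩ := exists_linearIndependent' 𝕃 φ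
  have : Finite κ := hli.finite_of_isNoetherian
  have : Fintype κ := Fintype.ofFinite κ
  refine ⟨κ, inferInstance, a, ?_, fun w hw h => ?_⟩
  · have := hli.fintype_card_le_finrank
    rwa [Subspace.dual_finrank_eq] at this
  · funext i
    have hi : φ i ∈ Submodule.span 𝕃 (Set.range (φ ∘ a)) := by
      rw [hsp]; exact Submodule.subset_span ⟨i, rfl⟩
    have key : ∀ ψ ∈ Submodule.span 𝕃 (Set.range (φ ∘ a)), ψ ⟨w, hw⟩ = 0 := by
      intro ψ hψ
      induction hψ using Submodule.span_induction with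
      | mem x hx => obtain ⟨j, rfl⟩ := hx; exact h j
      | zero => rfl
      | add x y _ _ hx hy => rw [LinearMap.add_apply, hx, hy, add_zero]
      | smul c x _ hx => rw [LinearMap.smul_apply, hx, smul_zero]
    exact key _ hi

/-- A sublattice of a free lattice is no bigger than the free lattice of its own rank. -/
theorem IsLat.hf_le_of_le_free (hK : RatFn k y z) (hV : IsLat y z V) {ι : Type} [Fintype ι]
    {v : ι → E} (hv : LinearIndependent 𝕃 v) {c : ℤ} (h : V ≤ ⨆ i, cyc (Apol k y z) (v i) c)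
    (m : ℤ) : hf V m ≤ rk V * hf (Apol k y z) (m - c) := by
  classical
  have hinj : LinearMap.ker (Fintype.linearCombination 𝕃 v) = ⊥ :=
    LinearMap.ker_eq_bot.2 (linearIndependent_iff_injective_fintypeLinearCombination.1 hv)
  obtain ⟨π, hπ⟩ := LinearMap.exists_leftInverse_of_injective _ hinj
  have hπ' : ∀ r : ι → 𝕃, π (∑ i, r i • v i) = r := fun r => by
    have := LinearMap.congr_fun hπ r
    simpa [Fintype.linearCombination_apply] using this
  have := hV.bdd.fd_spanF
  obtain ⟨κ, _, a, hcard, hker⟩ := Rank_exists_coords (spanF 𝕃 V) π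
  let ψ : E →ₗ[𝕃] (κ → 𝕃) := (LinearMap.funLeft 𝕃 𝕃 a).comp π
  have e1 : hf (R169.mapF ψ V) m = hf V m := by
    refine hf_mapF_of_injOn ψ V m fun w hw h0 => ?_
    obtain ⟨r, -, rfl⟩ := (mem_iSup_cyc _ v (fun _ => c) m w).1 (h m hw)
    have := hker _ (mem_spanF hw) fun i => congrFun h0 i
    rw [hπ'] at this
    simp [this]
  have hW : IsLat y z (R169.piF κ (R169.shift (Apol k y z) (-c))) := (isLat_Apol.shift (-c)).piF κ
  have := hW.bdd.fd m
  have : FiniteDimensional k (R169.shift (Apol k y z) (-c) m) := fd_Apol _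
  have e2 : hf (R169.mapF ψ V) m ≤ hf (R169.piF κ (R169.shift (Apol k y z) (-c))) m := by
    refine hf_mono ?_
    rintro _ ⟨w, hw, rfl⟩
    obtain ⟨r, hr, rfl⟩ := (mem_iSup_cyc _ v (fun _ => c) m w).1 (h m hw)
    refine mem_piF.2 fun i => ?_
    have : (ψ.restrictScalars k) (∑ i, r i • v i) i = r (a i) := by
      change π (∑ i, r i • v i) (a i) = r (a i)
      rw [hπ']
    rw [this]
    have := hr (a i)
    rwa [sub_eq_add_neg] at this
  rw [hf_piF] at e2
  have e3 : hf (R169.shift (Apol k y z) (-c)) m = hf (Apol k y z) (m - c) := by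
    rw [sub_eq_add_neg]; rfl
  rw [← e1, hV.rk_eq hK, ← e3]
  refine e2.trans (mul_le_mul_of_nonneg_right ?_ (hf_nonneg _ _))
  exact_mod_cast hcard

theorem IsLat.dg_le_of_le_free (hK : RatFn k y z) (hV : IsLat y z V) {ι : Type} [Fintype ι]
    {v : ι → E} (hv : LinearIndependent 𝕃 v) {c : ℤ} (h : V ≤ ⨆ i, cyc (Apol k y z) (v i) c) :
    rk V ≤ Fintype.card ι ∧ dg V ≤ rk V * (3 / 2 - c) := by
  constructor
  · have h3 := (inv_mono hV.good (Rank_isLat_free v fun _ => c).good h).1
    rwa [(inv_free hK.ind hv c).1] at h3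
  · have H := (Rank_hasHP_Apol_sub hK.ind c).const_mul (rk V)
    have := hV.good.hasHP.le H (Eventually.of_forall fun m => hV.hf_le_of_le_free hK hv h m)
    exact (this.2 (mul_one _).symm).1

/-- A lattice spanned by its degree `b` part has slope at least that of `A(-b)`. -/
theorem IsLat.le_dg_of_span (hK : RatFn k y z) (hV : IsLat y z V) {b : ℤ}
    (h : spanF 𝕃 V ≤ Submodule.span 𝕃 (V b : Set E)) : rk V * (3 / 2 - b) ≤ dg V := by
  have hsp : Submodule.span 𝕃 (V b : Set E) = spanF 𝕃 V :=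
    le_antisymm (Submodule.span_le.2 fun w hw => mem_spanF hw) h
  have : FiniteDimensional 𝕃 (Submodule.span 𝕃 (V b : Set E)) := by
    rw [hsp]; exact hV.bdd.fd_spanF
  obtain ⟨r, v, hli, hvs, hsp'⟩ := Rank_exists_basis (𝕃 := 𝕃) (V b : Set E)
  have h1 : (⨆ i, cyc (Apol k y z) (v i) b : Fam k E) ≤ V :=
    iSup_le fun i => hV.stab.cyc_le (hvs i)
  have h2 := (inv_mono (Rank_isLat_free v fun _ => b).good hV.good h1).2
  have hr : rk V = Fintype.card (Fin r) := by
    rw [hV.rk_eq hK, ← hsp, ← hsp', finrank_span_eq_card hli]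
  obtain ⟨e1, e2⟩ := inv_free (k := k) hK.ind hli b
  have := (h2 (e1.trans hr.symm)).1
  rwa [e2, ← hr] at this

/-- Slopes of sublattices are bounded above. -/
theorem IsLat.exists_slope_bound (hK : RatFn k y z) (hV : IsLat y z V) :
    ∃ C : ℝ, ∀ U : Fam k E, Stab (Apol k y z) U → U ≤ V → dg U ≤ C * rk U := by
  obtain ⟨r, v, l, c, g, hli, hg, -, hle⟩ := hV.exists_free hK
  have hli' : LinearIndependent 𝕃 (fun i => g • v i) :=
    hli.units_smul (fun _ => Units.mk0 g hg)
  refine ⟨3 / 2 - c, fun U hU hUV => ?_⟩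
  rw [mul_comm]
  exact ((hV.of_le hU hUV).dg_le_of_le_free hK hli' (hUV.trans hle)).2

theorem IsLat.eq_bot_of_rk_eq_zero (hK : RatFn k y z) (hV : IsLat y z V) (h : rk V = 0) :
    V = ⊥ := by
  have := hV.bdd.fd_spanF
  rw [hV.rk_eq hK] at h
  exact eq_bot_of_spanF_eq_bot (Submodule.finrank_eq_zero.1 (by exact_mod_cast h))

end Crest.Agent.R169
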