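import Crest.Agent.R169.Petersen
import Crest.Agent.R169.Rank

/-! # task R169/ModelBasic -/

set_option autoImplicit false
open Filter Module IntermediateField

namespace Crest.Agent.R169

/-- Case analysis on the edges of `K₅`. -/
theorem ModelBasic_cases {P : Ed → Prop} (hd : ∀ i, P s(i, i)) (h4 : ∀ i, P s(i, 4))
    (h01 : P s(0, 1)) (h02 : P s(0, 2)) (h03 : P s(0, 3)) (h12 : P s(1, 2)) (h13 : P s(1, 3))
    (h23 : P s(2, 3)) (e : Ed) : P e := by
  induction e using Sym2.ind with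
  | h a b =>
    fin_cases a <;> fin_cases b <;>
      first
      | exact hd _
      | exact h4 _
      | assumption
      | (rw [Sym2.eq_swap]; first | exact h4 _ | assumption)

section pp
variable {C : Type} [CommRing C] (t : Fin 4 → C)

theorem ModelBasic_pp_diag (i : Fin 5) : pp t s(i, i) = 1 := by simp [pp]
theorem ModelBasic_pp_last (i : Fin 5) : pp t s(i, 4) = 1 := by simp [pp]
theorem ModelBasic_pp01 : pp t s(0, 1) = t 0 - t 1 := by simp [pp]
theorem ModelBasic_pp02 : pp t s(0, 2) = t 0 - t 2 := by simp [pp]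
theorem ModelBasic_pp03 : pp t s(0, 3) = t 0 - t 3 := by simp [pp]
theorem ModelBasic_pp12 : pp t s(1, 2) = t 1 - t 2 := by
  have : min (1 : Fin 5) 2 = 1 := by decide
  have : max (1 : Fin 5) 2 = 2 := by decide
  simp [pp, *]
theorem ModelBasic_pp13 : pp t s(1, 3) = t 1 - t 3 := by
  have : min (1 : Fin 5) 3 = 1 := by decide
  have : max (1 : Fin 5) 3 = 3 := by decide
  simp [pp, *]
theorem ModelBasic_pp23 : pp t s(2, 3) = t 2 - t 3 := by
  have : min (2 : Fin 5) 3 = 2 := by decide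
  have : max (2 : Fin 5) 3 = 3 := by decide
  simp [pp, *]

/-- The Plücker coordinates commute with ring homomorphisms. -/
theorem ModelBasic_map_pp {C' F : Type} [CommRing C'] [FunLike F C C'] [RingHomClass F C C'] (f : F)
    (e : Ed) : f (pp t e) = pp (fun i => f (t i)) e := by
  induction e using ModelBasic_cases <;>
    simp only [ModelBasic_pp_diag, ModelBasic_pp_last, ModelBasic_pp01, ModelBasic_pp02,
      ModelBasic_pp03, ModelBasic_pp12, ModelBasic_pp13, ModelBasic_pp23, map_one, map_sub]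

theorem ModelBasic_map_mon {C C' F : Type} [CommRing C] [CommRing C'] [FunLike F C C']
    [RingHomClass F C C'] (f : F) (w : Ed → C) (e : Ed → ℕ) :
    f (mon w e) = mon (fun x => f (w x)) e := by
  simp [mon, map_prod, map_pow]

/-- The signed bracket of two points. -/
def ModelBasic_br (i j : Fin 5) : C :=
  (![t 0, t 1, t 2, t 3, -1] : Fin 5 → C) i * (![1, 1, 1, 1, 0] : Fin 5 → C) j -
    (![t 0, t 1, t 2, t 3, -1] : Fin 5 → C) j * (![1, 1, 1, 1, 0] : Fin 5 → C) i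

theorem ModelBasic_br_lt {i j : Fin 5} (h : i < j) : ModelBasic_br t i j = pp t s(i, j) := by
  fin_cases i <;> fin_cases j <;>
    first
    | exact absurd h (by decide)
    | simp [ModelBasic_br, ModelBasic_pp_last, ModelBasic_pp01, ModelBasic_pp02,
        ModelBasic_pp03, ModelBasic_pp12, ModelBasic_pp13, ModelBasic_pp23]

theorem ModelBasic_br_sign {i j : Fin 5} (h : i ≠ j) :
    ∃ σ : ℤ, ModelBasic_br t i j = σ * pp t s(i, j) ∧ pp t s(i, j) = σ * ModelBasic_br t i j := by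
  rcases lt_or_gt_of_ne h with h | h
  · exact ⟨1, by simp [ModelBasic_br_lt t h]⟩
  · have : ModelBasic_br t i j = -pp t s(i, j) := by
      rw [Sym2.eq_swap, ← ModelBasic_br_lt t h, ModelBasic_br, ModelBasic_br]
      ring
    exact ⟨-1, by simp [this]⟩

/-- The Plücker relations. -/
theorem ModelBasic_pl (k : Type) [Field k] [Algebra k C] {a b c d : Fin 5} (hab : a ≠ b)
    (hac : a ≠ c) (had : a ≠ d) (hbc : b ≠ c) (hbd : b ≠ d) (hcd : c ≠ d) : ∃ ε₁ ε₂ : k,
    pp t s(a, b) * pp t s(c, d) =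
      ε₁ • (pp t s(a, c) * pp t s(b, d)) + ε₂ • (pp t s(a, d) * pp t s(b, c)) := by
  obtain ⟨σ1, -, h1⟩ := ModelBasic_br_sign t hab
  obtain ⟨σ2, -, h2⟩ := ModelBasic_br_sign t hcd
  obtain ⟨σ3, h3, -⟩ := ModelBasic_br_sign t hac
  obtain ⟨σ4, h4, -⟩ := ModelBasic_br_sign t hbd
  obtain ⟨σ5, h5, -⟩ := ModelBasic_br_sign t had
  obtain ⟨σ6, h6, -⟩ := ModelBasic_br_sign t hbc
  have h : ModelBasic_br t a b * ModelBasic_br t c d = ModelBasic_br t a c * ModelBasic_br t b d -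
      ModelBasic_br t a d * ModelBasic_br t b c := by
    simp only [ModelBasic_br]
    ring
  refine ⟨((σ1 * σ2 * σ3 * σ4 : ℤ) : k), ((-(σ1 * σ2 * σ5 * σ6) : ℤ) : k), ?_⟩
  rw [Int.cast_smul_eq_zsmul, Int.cast_smul_eq_zsmul, zsmul_eq_mul, zsmul_eq_mul, h1, h2,
    mul_mul_mul_comm, h, h3, h4, h5, h6]
  push_cast
  ring

end pp

/-- A two-factor given by a list of edges. -/
def ModelBasic_gen (l : List Ed) (h1 : ∀ i, ofList l s(i, i) = 0 := by decide)
    (h2 : ∀ i, deg (ofList l) i = 2 * 1 := by decide) : Gen := ⟨ofList l, ⟨h1, h2⟩⟩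

theorem ModelBasic_mon_gen {C : Type} [CommMonoid C] (w : Ed → C) (l : List Ed)
    (h1 : ∀ i, ofList l s(i, i) = 0) (h2 : ∀ i, deg (ofList l) i = 2 * 1) :
    mon w (ModelBasic_gen l h1 h2).1 = (l.map w).prod := mon_ofList w l

theorem ModelBasic_mon_ne {C : Type} [Field C] {w : Ed → C} (h : ∀ e, w e ≠ 0) (e : Ed → ℕ) :
    mon w e ≠ 0 :=
  Finset.prod_ne_zero_iff.2 fun x _ => pow_ne_zero _ (h x)

namespace Model
variable {k 𝕂 : Type} [Field k] [Field 𝕂] [Algebra k 𝕂] {n : ℕ} (M : Model k 𝕂 n)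

theorem ModelBasic_ne {F : MvPolynomial (Fin 2) k} (h : F ≠ 0) :
    MvPolynomial.aeval ![M.t 2, M.t 3] F ≠ 0 := fun h' =>
  h ((algebraicIndependent_iff.1 M.ind) F h')

theorem pp_ne (e : Ed) : pp M.t e ≠ 0 := by
  have hX : ∀ i : Fin 2, (-1 - MvPolynomial.X i : MvPolynomial (Fin 2) k) ≠ 0 := fun i h => by
    simpa using congrArg (MvPolynomial.eval 0) h
  induction e using ModelBasic_cases with
  | hd i => simp [ModelBasic_pp_diag]
  | h4 i => simp [ModelBasic_pp_last]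
  | h01 => simp [ModelBasic_pp01, M.t0, M.t1]
  | h02 => simpa [ModelBasic_pp02, M.t0] using M.ModelBasic_ne (MvPolynomial.X_ne_zero 0)
  | h03 => simpa [ModelBasic_pp03, M.t0] using M.ModelBasic_ne (MvPolynomial.X_ne_zero 1)
  | h12 => simpa [ModelBasic_pp12, M.t1] using M.ModelBasic_ne (hX 0)
  | h13 => simpa [ModelBasic_pp13, M.t1] using M.ModelBasic_ne (hX 1)
  | h23 =>
    have : (MvPolynomial.X 0 - MvPolynomial.X 1 : MvPolynomial (Fin 2) k) ≠ 0 :=
      sub_ne_zero.2 fun h => by simpa using MvPolynomial.X_injective h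
    simpa [ModelBasic_pp23] using M.ModelBasic_ne this

include M in
theorem n_pos : 0 < n := by
  rcases Nat.eq_zero_or_pos n with rfl | h
  · have h1 := M.w_pow s(0, 2)
    have h2 := M.w_pow s(1, 2)
    rw [pow_zero, ModelBasic_pp02, M.t0] at h1
    rw [pow_zero, ModelBasic_pp12, M.t1] at h2
    exact absurd (by linear_combination h2 - h1 : (1 : 𝕂) = 0) one_ne_zero
  · exact h

theorem ModelBasic_w_ne (e : Ed) : M.w e ≠ 0 := fun h =>
  M.pp_ne e (by rw [← M.w_pow, h, zero_pow M.n_pos.ne'])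

theorem symFam : SymFam k n M.w := by
  refine ⟨M.ModelBasic_w_ne, M.w_diag, fun a b c d hab hac had hbc hbd hcd => ?_⟩
  simp only [mul_pow, M.w_pow]
  exact ModelBasic_pl M.t k hab hac had hbc hbd hcd

theorem symFamB : SymFam k 1 (pp M.t) := by
  refine ⟨M.pp_ne, ModelBasic_pp_diag M.t, fun a b c d hab hac had hbc hbd hcd => ?_⟩
  simp only [pow_one]
  exact ModelBasic_pl M.t k hab hac had hbc hbd hcd

theorem x_ne : M.x ≠ 0 :=
  ModelBasic_mon_ne M.ModelBasic_w_ne _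

theorem mon_pow (e : Ed → ℕ) : mon M.w e ^ n = mon (pp M.t) e := by
  simp only [mon, ← Finset.prod_pow, ← M.w_pow]
  exact Finset.prod_congr rfl fun x _ => pow_right_comm _ _ _

theorem x_pow : M.x ^ n = mon (pp M.t) γ0.1 :=
  M.mon_pow _

theorem g_γ0 : M.g γ0 = 1 :=
  div_self M.x_ne

theorem g_mem (γ : Gen) : M.g γ ∈ M.Γ :=
  mem_Gam.2 ⟨γ, rfl⟩

theorem mem_Γ {a : 𝕂} : a ∈ M.Γ ↔ ∃ γ, M.g γ = a :=
  mem_Gam

theorem one_mem : (1 : 𝕂) ∈ M.Γ :=
  M.g_γ0 ▸ M.g_mem γ0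

theorem one_memB : (1 : 𝕂) ∈ M.ΓB :=
  mem_Gam.2 ⟨γ0, by rw [← M.x_pow, div_self (pow_ne_zero _ M.x_ne)]⟩

theorem pow_mem_ΓB {a : 𝕂} (h : a ∈ M.Γ) : a ^ n ∈ M.ΓB := by
  obtain ⟨γ, rfl⟩ := M.mem_Γ.1 h
  exact mem_Gam.2 ⟨γ, by rw [g, div_pow, M.mon_pow]⟩

theorem ModelBasic_mem_ΓB {a : 𝕂} (h : a ∈ M.ΓB) : ∃ γ, M.g γ ^ n = a := by
  obtain ⟨γ, rfl⟩ := mem_Gam.1 h
  exact ⟨γ, by rw [g, div_pow, M.mon_pow]⟩

theorem RgB_le (j : ℤ) : Rg k M.ΓB j ≤ Rg k M.Γ (n * j) := by
  rcases lt_or_ge j 0 with hj | hj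
  · rw [Rg_neg hj]
    exact bot_le
  lift j to ℕ using hj
  intro a ha
  refine Rg_induction (P := fun j a => a ∈ Rg k M.Γ (n * j)) (by simpa using one_mem_Rg_zero)
    (fun _ => zero_mem _) (fun _ _ _ => add_mem) (fun _ c _ => Submodule.smul_mem _ c) ?_ j a ha
  intro j a b hb ha
  obtain ⟨γ, rfl⟩ := M.ModelBasic_mem_ΓB hb
  have := mul_mem_Rg (pow_mem_Rg (mem_Rg_one (k := k) (M.g_mem γ)) n) ha
  rwa [show (n : ℤ) * 1 + n * j = n * (j + 1 : ℕ) by push_cast; ring] at this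

theorem gen_Γ : IntermediateField.adjoin k (M.Γ : Set 𝕂) = ⊤ := by
  have hg : ∀ γ γ' : Gen, mon M.w γ.1 / mon M.w γ'.1 ∈ IntermediateField.adjoin k (M.Γ : Set 𝕂) := by
    intro γ γ'
    rw [← div_div_div_cancel_right₀ M.x_ne]
    exact div_mem (subset_adjoin k _ (M.g_mem γ)) (subset_adjoin k _ (M.g_mem γ'))
  have hne := M.ModelBasic_w_ne
  have h02 : M.w s(0, 2) ∈ IntermediateField.adjoin k (M.Γ : Set 𝕂) := by
    have := hg (ModelBasic_gen [s(0, 2), s(1, 4), s(0, 3), s(1, 3), s(2, 4)])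
      (ModelBasic_gen [s(0, 1), s(2, 4), s(0, 3), s(1, 3), s(2, 4)])
    simp only [ModelBasic_mon_gen, List.map_cons, List.map_nil, List.prod_cons, List.prod_nil,
      M.w_last, M.w_01, one_mul, mul_one] at this
    rwa [mul_div_cancel_right₀ _ (mul_ne_zero (hne _) (hne _))] at this
  have h03 : M.w s(0, 3) ∈ IntermediateField.adjoin k (M.Γ : Set 𝕂) := by
    have := hg (ModelBasic_gen [s(0, 3), s(1, 4), s(0, 2), s(1, 2), s(3, 4)])
      (ModelBasic_gen [s(0, 1), s(3, 4), s(0, 2), s(1, 2), s(3, 4)])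
    simp only [ModelBasic_mon_gen, List.map_cons, List.map_nil, List.prod_cons, List.prod_nil,
      M.w_last, M.w_01, one_mul, mul_one] at this
    rwa [mul_div_cancel_right₀ _ (mul_ne_zero (hne _) (hne _))] at this
  have h12 : M.w s(1, 2) ∈ IntermediateField.adjoin k (M.Γ : Set 𝕂) := by
    have := hg (ModelBasic_gen [s(1, 2), s(0, 4), s(0, 3), s(1, 3), s(2, 4)])
      (ModelBasic_gen [s(0, 1), s(2, 4), s(0, 3), s(1, 3), s(2, 4)])
    simp only [ModelBasic_mon_gen, List.map_cons, List.map_nil, List.prod_cons, List.prod_nil,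
      M.w_last, M.w_01, one_mul, mul_one] at this
    rwa [mul_div_cancel_right₀ _ (mul_ne_zero (hne _) (hne _))] at this
  have h13 : M.w s(1, 3) ∈ IntermediateField.adjoin k (M.Γ : Set 𝕂) := by
    have := hg (ModelBasic_gen [s(1, 3), s(0, 4), s(0, 2), s(1, 2), s(3, 4)])
      (ModelBasic_gen [s(0, 1), s(3, 4), s(0, 2), s(1, 2), s(3, 4)])
    simp only [ModelBasic_mon_gen, List.map_cons, List.map_nil, List.prod_cons, List.prod_nil,
      M.w_last, M.w_01, one_mul, mul_one] at this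
    rwa [mul_div_cancel_right₀ _ (mul_ne_zero (hne _) (hne _))] at this
  have h23 : M.w s(2, 3) ∈ IntermediateField.adjoin k (M.Γ : Set 𝕂) := by
    have := hg (ModelBasic_gen [s(2, 3), s(0, 4), s(0, 1), s(1, 2), s(3, 4)])
      (ModelBasic_gen [s(0, 3), s(2, 4), s(0, 1), s(1, 2), s(3, 4)])
    simp only [ModelBasic_mon_gen, List.map_cons, List.map_nil, List.prod_cons, List.prod_nil,
      M.w_last, M.w_01, one_mul, mul_one] at this
    rw [mul_div_mul_right _ _ (hne _)] at this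
    simpa [hne] using mul_mem this h03
  rw [eq_top_iff, ← M.gen, adjoin_le_iff]
  rintro _ ⟨e, rfl⟩
  induction e using ModelBasic_cases with
  | hd i => rw [M.w_diag]; exact OneMemClass.one_mem _
  | h4 i => rw [M.w_last]; exact OneMemClass.one_mem _
  | h01 => rw [M.w_01]; exact OneMemClass.one_mem _
  | h02 => exact h02
  | h03 => exact h03
  | h12 => exact h12
  | h13 => exact h13
  | h23 => exact h23

theorem ModelBasic_t_mem (i : Fin 4) : M.t i ∈ k⟮M.t 2, M.t 3⟯ := by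
  fin_cases i
  · change M.t 0 ∈ _
    rw [M.t0]
    exact zero_mem _
  · change M.t 1 ∈ _
    rw [M.t1]
    exact neg_mem (OneMemClass.one_mem _)
  · exact subset_adjoin k _ (by simp)
  · exact subset_adjoin k _ (by simp)

theorem ModelBasic_pp_mem (e : Ed) : pp M.t e ∈ k⟮M.t 2, M.t 3⟯ := by
  induction e using ModelBasic_cases <;>
    simp only [ModelBasic_pp_diag, ModelBasic_pp_last, ModelBasic_pp01, ModelBasic_pp02,
      ModelBasic_pp03, ModelBasic_pp12, ModelBasic_pp13, ModelBasic_pp23] <;>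
    first
    | exact OneMemClass.one_mem _
    | exact sub_mem (M.ModelBasic_t_mem _) (M.ModelBasic_t_mem _)

theorem ΓB_subset : ∀ a ∈ M.ΓB, a ∈ k⟮M.t 2, M.t 3⟯ := by
  intro a ha
  obtain ⟨γ, rfl⟩ := mem_Gam.1 ha
  have h : ∀ e, mon (pp M.t) e ∈ k⟮M.t 2, M.t 3⟯ := fun e =>
    prod_mem fun x _ => pow_mem (M.ModelBasic_pp_mem x) _
  rw [M.x_pow]
  exact div_mem (h _) (h _)

theorem aeval_mem_Rg {F : MvPolynomial Gen ℤ} {j : ℕ} (hF : F.IsHomogeneous j) :
    MvPolynomial.aeval M.g F ∈ Rg k M.Γ j := by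
  classical
  rw [MvPolynomial.aeval_def, MvPolynomial.eval₂_eq']
  refine Submodule.sum_mem _ fun d hd => ?_
  rw [← Algebra.smul_def]
  refine zsmul_mem ?_ _
  have h1 : ∑ γ, d γ = j := by
    by_contra h
    refine MvPolynomial.mem_support_iff.1 hd (hF.coeff_eq_zero ?_)
    rwa [Finsupp.degree_eq_sum]
  have : ∀ s : Finset Gen, ∏ γ ∈ s, M.g γ ^ d γ ∈ Rg k M.Γ (∑ γ ∈ s, d γ : ℕ) := by
    intro s
    induction s using Finset.induction_on with
    | empty => simpa using one_mem_Rg_zero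
    | insert γ s hγ ih =>
      rw [Finset.prod_insert hγ, Finset.sum_insert hγ, Nat.cast_add]
      refine mul_mem_Rg ?_ ih
      simpa using pow_mem_Rg (mem_Rg_one (k := k) (M.g_mem γ)) (d γ)
  exact h1 ▸ this Finset.univ

theorem aeval_pp (e : Ed) :
    MvPolynomial.aeval M.t (pp (MvPolynomial.X : Fin 4 → MvPolynomial (Fin 4) k) e) = pp M.t e := by
  rw [ModelBasic_map_pp]
  simp

open MvPolynomial in
/-- Evaluation at `t` is injective on the forms of a fixed degree in the differences. -/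
theorem eq_zero_of_aeval {D di : ℕ} {i : Fin 5} {F : MvPolynomial (Fin 4) k} (hF : F ∈ Wi k D i di)
    (h : MvPolynomial.aeval M.t F = 0) : F = 0 := by
  let U : Fin 3 → MvPolynomial (Fin 4) k := ![X 0 - X 1, X 2 - X 0, X 3 - X 0]
  let T : Fin 4 → MvPolynomial (Fin 3) k := ![0, -X 0, X 1, X 2]
  have hU : ∀ e, aeval U (pp T e) = pp X e := by
    intro e
    rw [ModelBasic_map_pp]
    induction e using ModelBasic_cases <;>
      simp [ModelBasic_pp_diag, ModelBasic_pp_last, ModelBasic_pp01, ModelBasic_pp02,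
        ModelBasic_pp03, ModelBasic_pp12, ModelBasic_pp13, ModelBasic_pp23, U, T]
  have key : ∃ G : MvPolynomial (Fin 3) k, G.IsHomogeneous D ∧ aeval U G = F := by
    clear h
    induction hF using Submodule.span_induction with
    | mem F hF =>
      obtain ⟨f, h1, h2, h3, -, rfl⟩ := hF
      refine ⟨mon (pp T) f, ?_, by rw [ModelBasic_map_mon]; simp only [hU]⟩
      rw [← h3]
      refine IsHomogeneous.prod _ _ _ fun e _ => ?_
      have hT : ∀ i, (T i).IsHomogeneous 1 := by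
        intro i
        fin_cases i
        · exact isHomogeneous_zero _ _ _
        · exact (isHomogeneous_X k 0).neg
        · exact isHomogeneous_X k 1
        · exact isHomogeneous_X k 2
      have hp : ∀ (i j : Fin 4) (m : ℕ), ((T i - T j) ^ m).IsHomogeneous m := fun i j m => by
        simpa using ((hT i).sub (hT j)).pow m
      induction e using ModelBasic_cases with
      | hd i => rw [h1, pow_zero]; exact isHomogeneous_one _ _
      | h4 i => rw [h2, pow_zero]; exact isHomogeneous_one _ _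
      | h01 => rw [ModelBasic_pp01]; exact hp _ _ _
      | h02 => rw [ModelBasic_pp02]; exact hp _ _ _
      | h03 => rw [ModelBasic_pp03]; exact hp _ _ _
      | h12 => rw [ModelBasic_pp12]; exact hp _ _ _
      | h13 => rw [ModelBasic_pp13]; exact hp _ _ _
      | h23 => rw [ModelBasic_pp23]; exact hp _ _ _
    | zero => exact ⟨0, isHomogeneous_zero _ _ _, map_zero _⟩
    | add _ _ _ _ hF hF' =>
      obtain ⟨G, h1, rfl⟩ := hF
      obtain ⟨G', h1', rfl⟩ := hF'
      exact ⟨G + G', h1.add h1', map_add _ _ _⟩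
    | smul c _ _ hF =>
      obtain ⟨G, h1, rfl⟩ := hF
      exact ⟨c • G, (homogeneousSubmodule (Fin 3) k D).smul_mem c h1, map_smul _ _ _⟩
  obtain ⟨G, hG, rfl⟩ := key
  by_contra h0
  refine aeval_ne_zero_of_homog M.ind hG (fun h => h0 (by rw [h, map_zero])) ?_
  rw [← h, ← AlgHom.comp_apply, comp_aeval]
  congr 2
  funext i
  fin_cases i <;> simp [U, M.t0, M.t1]

theorem growthB (j : ℕ) : ((j : ℝ) + 1) * (j + 2) / 2 ≤ hf (Rg k M.ΓB) (2 * j : ℕ) := by
  have hg : ∀ γ : Gen, mon (pp M.t) γ.1 / M.x ^ n ∈ Rg k M.ΓB 1 := fun γ =>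
    mem_Rg_one (mem_Gam.2 ⟨γ, rfl⟩)
  set b : 𝕂 := pp M.t s(0, 2) * pp M.t s(1, 3) / M.x ^ n with hb
  have hb0 : b ≠ 0 := div_ne_zero (mul_ne_zero (M.pp_ne _) (M.pp_ne _)) (pow_ne_zero _ M.x_ne)
  have h0 : b ∈ Rg k M.ΓB 1 := by
    have := hg (ModelBasic_gen [s(0, 1), s(2, 4), s(3, 4), s(0, 2), s(1, 3)])
    simpa [ModelBasic_mon_gen, ModelBasic_pp_last, ModelBasic_pp01, M.t0, M.t1] using this
  have h1 : M.t 2 * b ∈ Rg k M.ΓB 1 := by
    have := neg_mem (hg (ModelBasic_gen [s(0, 2), s(1, 4), s(3, 4), s(0, 2), s(1, 3)]))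
    simp only [ModelBasic_mon_gen, List.map_cons, List.map_nil, List.prod_cons, List.prod_nil,
      ModelBasic_pp_last, one_mul, mul_one] at this
    convert this using 1
    rw [hb, ModelBasic_pp02, M.t0]
    ring
  have h2 : M.t 3 * b ∈ Rg k M.ΓB 1 := by
    have := neg_mem (hg (ModelBasic_gen [s(0, 3), s(1, 4), s(2, 4), s(0, 2), s(1, 3)]))
    simp only [ModelBasic_mon_gen, List.map_cons, List.map_nil, List.prod_cons, List.prod_nil,
      ModelBasic_pp_last, one_mul, mul_one] at this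
    convert this using 1
    rw [hb, ModelBasic_pp03, M.t0]
    ring
  have hle : cyc (Apol k (M.t 2) (M.t 3)) (b ^ j) 0 j ≤ Rg k M.ΓB (2 * j : ℕ) := by
    intro a ha
    obtain ⟨r, hr, rfl⟩ := mem_cyc.1 ha
    refine Rg_mono M.one_memB (i := j) (by omega) ?_
    refine Apol_induction (P := fun r => r • b ^ j ∈ Rg k M.ΓB j) ?_ (by simp)
      (fun _ _ h h' => by simpa [add_mul] using add_mem h h')
      (fun c _ h => by simpa using Submodule.smul_mem _ c h) hr
    intro p q hpq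
    obtain ⟨r, rfl⟩ : ∃ r, j = p + q + r := ⟨j - (p + q), by omega⟩
    have := mul_mem_Rg (mul_mem_Rg (pow_mem_Rg h1 p) (pow_mem_Rg h2 q)) (pow_mem_Rg h0 r)
    rw [show (p : ℤ) * 1 + q * 1 + r * 1 = (p + q + r : ℕ) by push_cast; ring] at this
    rw [show (M.t 2 ^ p * M.t 3 ^ q) • b ^ (p + q + r) =
      (M.t 2 * b) ^ p * (M.t 3 * b) ^ q * b ^ r by rw [smul_eq_mul]; ring]
    exact this
  have h3 : hf (cyc (Apol k (M.t 2) (M.t 3)) (b ^ j) 0) j ≤ hf (Rg k M.ΓB) (2 * j : ℕ) := by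
    unfold hf
    exact_mod_cast Submodule.finrank_mono hle
  rw [hf_cyc _ (pow_ne_zero _ hb0), sub_zero, hf_Apol M.ind, if_pos (Int.natCast_nonneg j),
    Int.cast_natCast] at h3
  exact h3

theorem growthB' (C : ℝ) : ∃ m : ℕ, C * (m + 1) < hf (Rg k M.ΓB) m := by
  obtain ⟨j, hj⟩ := exists_nat_ge (4 * |C|)
  refine ⟨2 * j, lt_of_lt_of_le ?_ (M.growthB j)⟩
  have h1 := le_abs_self C
  have h2 := abs_nonneg C
  have h3 : (0 : ℝ) ≤ j := Nat.cast_nonneg j
  push_cast
  nlinarith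

theorem growth (C : ℝ) : ∃ m : ℕ, C * (m + 1) < hf (Rg k M.Γ) m := by
  obtain ⟨m, hm⟩ := M.growthB' (|C| * n)
  refine ⟨n * m, lt_of_le_of_lt ?_ (hm.trans_le ?_)⟩
  · have h1 := le_abs_self C
    have h2 := abs_nonneg C
    have h3 : (0 : ℝ) ≤ m := Nat.cast_nonneg m
    have h4 : (1 : ℝ) ≤ n := by exact_mod_cast M.n_pos
    push_cast
    nlinarith [mul_nonneg (sub_nonneg.2 h1) (mul_nonneg (zero_le_one.trans h4) h3),
      mul_nonneg h2 (sub_nonneg.2 h4)]
  · unfold hf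
    have := Submodule.finrank_mono (M.RgB_le m)
    exact_mod_cast this

end Model

end Crest.Agent.R169
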