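import Crest.Agent.R169.P2Defs
import Crest.Agent.R169.LatBasic

/-! # task R169/P2Basic -/

set_option autoImplicit false
open Filter Module IntermediateField

namespace Crest.Agent.R169

open LaurentPolynomial

variable {k : Type} [Field k] {K : Type} [Field K] [Algebra k K] {y z : K} {N : ℕ}

theorem p2b_coeff_T_mul (a : ℤ) (f : K[T;T⁻¹]) (l : ℤ) : (T a * f).coeff l = f.coeff (l - a) := by
  rw [T, AddMonoidAlgebra.coeff_single_mul_apply, one_mul, neg_add_eq_sub]

theorem p2b_coeff_C_mul_T (c : K) (a l : ℤ) :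
    (C c * T a : K[T;T⁻¹]).coeff l = if a = l then c else 0 := by
  rw [← single_eq_C_mul_T, AddMonoidAlgebra.coeff_single, Finsupp.single_apply]

theorem coeff_Tsh (a : ℤ) (v : LM K N) (i : Fin N) (l : ℤ) :
    (Tsh K N a v i).coeff l = (v i).coeff (l - a) :=
  p2b_coeff_T_mul a (v i) l

theorem Tsh_Tsh (a b : ℤ) (v : LM K N) : Tsh K N a (Tsh K N b v) = Tsh K N (a + b) v := by
  funext i
  simp only [Tsh_apply, T_add, mul_assoc]

theorem Tsh_zero (v : LM K N) : Tsh K N 0 v = v := by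
  funext i
  simp only [Tsh_apply, T_zero, one_mul]

theorem Tsh_injective (a : ℤ) : Function.Injective (Tsh K N a) := by
  intro u v h
  have := congrArg (Tsh K N (-a)) h
  rwa [Tsh_Tsh, Tsh_Tsh, neg_add_cancel, Tsh_zero, Tsh_zero] at this

theorem Tsh_mem_L0 {a b : ℤ} {v : LM K N} : Tsh K N b v ∈ L0 K N (a + b) ↔ v ∈ L0 K N a := by
  simp only [mem_L0, coeff_Tsh]
  refine ⟨fun h i l hl => ?_, fun h i l hl => h i _ (by omega)⟩
  have := h i (l + b) (by omega)
  rwa [add_sub_cancel_right] at this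

theorem Tsh_mem_Mz {n b : ℤ} {v : LM K N} :
    Tsh K N b v ∈ Mz k y z N (n - b) ↔ v ∈ Mz k y z N n := by
  simp only [mem_Mz, coeff_Tsh]
  refine ⟨fun h i l => ?_, fun h i l => ?_⟩
  · have := h i (l + b)
    rwa [add_sub_cancel_right, show l + b + (n - b) = l + n by ring] at this
  · rw [show l + (n - b) = l - b + n by ring]
    exact h i _

theorem L0_anti {a b : ℤ} (h : a ≤ b) : L0 K N b ≤ L0 K N a :=
  fun _ hv i l hl => hv i l (hl.trans_le h)

theorem Tm_L0 (a : ℤ) : Tm (L0 K N a) = L0 K N (a + 1) := by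
  refine le_antisymm ?_ fun v hv => ⟨Tsh K N (-1) v, ?_, ?_⟩
  · rintro _ ⟨v, hv, rfl⟩
    exact Tsh_mem_L0.2 hv
  · have := (Tsh_mem_L0 (b := -1)).2 hv
    rwa [add_neg_cancel_right] at this
  · rw [Tsh_Tsh, add_neg_cancel, Tsh_zero]

theorem Tm_mono {Λ Λ' : Submodule K (LM K N)} (h : Λ ≤ Λ') : Tm Λ ≤ Tm Λ' :=
  Submodule.map_mono h

theorem Adm.L0_le_Tm {Λ : Submodule K (LM K N)} {a : ℤ} {w : ℕ} (h : Adm Λ a w) :
    L0 K N (a + w + 1) ≤ Tm Λ := by
  rw [← Tm_L0]
  exact Tm_mono h.lo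

theorem Adm.step {Λ Λ' : Submodule K (LM K N)} {a : ℤ} {w : ℕ} (h : Adm Λ a w) (h1 : Tm Λ ≤ Λ')
    (h2 : Λ' ≤ Λ) : Adm Λ' a (w + 1) := by
  refine ⟨(Tm_mono h2).trans h1, ?_, h2.trans h.hi⟩
  rw [Nat.cast_add, Nat.cast_one, ← add_assoc]
  exact h.L0_le_Tm.trans h1

/-- Truncation: an element of `L0 a` is a combination of the `T ^ l e_i`, `a ≤ l < b`, modulo
`L0 b`. -/
theorem p2b_trunc {a : ℤ} (b : ℤ) {v : LM K N} (hv : v ∈ L0 K N a) :
    v - ∑ i, ∑ l ∈ Finset.Ico a b, (v i).coeff l • (Pi.single i (T l) : LM K N) ∈ L0 K N b := by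
  intro i l hl
  have e : (∑ i, ∑ l ∈ Finset.Ico a b, (v i).coeff l • (Pi.single i (T l) : LM K N)) i =
      ∑ l ∈ Finset.Ico a b, (v i).coeff l • (T l : K[T;T⁻¹]) := by
    rw [Finset.sum_apply, Finset.sum_eq_single i]
    · simp [Finset.sum_apply]
    · intro j _ hj
      simp [Finset.sum_apply, Pi.single_eq_of_ne hj.symm]
    · simp
  rw [Pi.sub_apply, e, AddMonoidAlgebra.coeff_sub, AddMonoidAlgebra.coeff_sum, Finsupp.sub_apply,
    Finsupp.finsetSum_apply]
  simp only [AddMonoidAlgebra.coeff_smul_apply, T_apply, smul_eq_mul, mul_ite, mul_one, mul_zero,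
    Finset.sum_ite_eq', Finset.mem_Ico]
  split_ifs with h
  · exact sub_self _
  · rw [sub_zero]
    exact hv i l (by omega)

theorem Adm.fd {Λ : Submodule K (LM K N)} {a : ℤ} {w : ℕ} (h : Adm Λ a w) :
    FiniteDimensional K (Λ.map (Tm Λ).mkQ) := by
  classical
  set S : Finset (LM K N ⧸ Tm Λ) := (Finset.univ ×ˢ Finset.Ico a (a + w + 1)).image
    fun p : Fin N × ℤ => (Tm Λ).mkQ (Pi.single p.1 (LaurentPolynomial.T p.2)) with hS
  have : Λ.map (Tm Λ).mkQ ≤ Submodule.span K (S : Set (LM K N ⧸ Tm Λ)) := by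
    rintro _ ⟨v, hv, rfl⟩
    have h1 := h.L0_le_Tm (p2b_trunc (a + w + 1) (h.hi hv))
    rw [← Submodule.Quotient.eq, ← Submodule.mkQ_apply, ← Submodule.mkQ_apply] at h1
    rw [h1, map_sum]
    refine Submodule.sum_mem _ fun i _ => ?_
    rw [map_sum]
    refine Submodule.sum_mem _ fun l hl => ?_
    rw [map_smul]
    refine Submodule.smul_mem _ _ (Submodule.subset_span ?_)
    exact Finset.mem_coe.2 (Finset.mem_image.2
      ⟨(i, l), Finset.mem_product.2 ⟨Finset.mem_univ _, hl⟩, rfl⟩)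
  exact Submodule.finiteDimensional_of_le this

theorem stab_Mz : Stab (Apol k y z) (Mz k y z N) := by
  intro i j r v hr hv m l
  have := mul_mem_Apol hr (hv m l)
  rw [show i + (l + j) = l + (i + j) by ring] at this
  exact this

theorem Mz_le_L0 (n : ℤ) : ∀ v ∈ Mz k y z N n, v ∈ L0 K N (-n) := by
  intro v hv i l hl
  have := hv i l
  rwa [Apol_neg (by omega), Submodule.mem_bot] at this

theorem p2b_lau_monomial (d : Fin 3 →₀ ℕ) (c : k) :
    lau k y z (MvPolynomial.monomial d c) =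
      C (MvPolynomial.aeval ![1, y, z] (MvPolynomial.monomial d c)) * T (d.degree : ℕ) := by
  rw [lau, MvPolynomial.aeval_monomial, MvPolynomial.aeval_monomial,
    Finsupp.prod_fintype _ _ (fun _ => pow_zero _), Finsupp.prod_fintype _ _ (fun _ => pow_zero _),
    Fin.prod_univ_three, Fin.prod_univ_three, Finsupp.degree_eq_sum, Fin.sum_univ_three,
    LaurentPolynomial.algebraMap_apply]
  simp only [Matrix.cons_val_zero, Matrix.cons_val_one, Matrix.cons_val, mul_pow, T_pow, map_mul,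
    map_pow, one_pow, mul_one, map_one, Nat.cast_add, T_add]
  ring

theorem p2b_aeval_monomial_mem (d : Fin 3 →₀ ℕ) (c : k) :
    MvPolynomial.aeval ![1, y, z] (MvPolynomial.monomial d c) ∈ Apol k y z (d.degree : ℕ) :=
  mem_Apol_iff_homog.2 ⟨_, MvPolynomial.isHomogeneous_monomial c rfl, rfl⟩

theorem p2b_coeff_lau (f : MvPolynomial (Fin 3) k) (l : ℤ) :
    (lau k y z f).coeff l = ∑ d ∈ f.support, if ((d.degree : ℕ) : ℤ) = l then
      MvPolynomial.aeval ![1, y, z] (MvPolynomial.monomial d (f.coeff d)) else 0 := by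
  conv_lhs => rw [f.as_sum, map_sum, AddMonoidAlgebra.coeff_sum, Finsupp.finsetSum_apply]
  refine Finset.sum_congr rfl fun d _ => ?_
  rw [p2b_lau_monomial, p2b_coeff_C_mul_T]

theorem lau_homog {f : MvPolynomial (Fin 3) k} {j : ℕ} (hf : f.IsHomogeneous j) :
    lau k y z f = C (MvPolynomial.aeval ![1, y, z] f) * T j := by
  conv_lhs => rw [f.as_sum, map_sum]
  conv_rhs => rw [f.as_sum, map_sum, map_sum, Finset.sum_mul]
  refine Finset.sum_congr rfl fun d hd => ?_
  have : d.degree = j := by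
    by_contra hne
    exact MvPolynomial.mem_support_iff.1 hd (hf.coeff_eq_zero hne)
  rw [p2b_lau_monomial, this]

theorem coeff_lau_mem (f : MvPolynomial (Fin 3) k) (l : ℤ) :
    (lau k y z f).coeff l ∈ Apol k y z l := by
  rw [p2b_coeff_lau]
  refine Submodule.sum_mem _ fun d _ => ?_
  split_ifs with h
  · rw [← h]; exact p2b_aeval_monomial_mem _ _
  · exact Submodule.zero_mem _

theorem coeff_lau_eq_zero {f : MvPolynomial (Fin 3) k} {S : ℕ}
    (hf : f ∈ MvPolynomial.idealOfVars (Fin 3) k ^ S) {l : ℤ} (hl : l < S) :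
    (lau k y z f).coeff l = 0 := by
  rw [p2b_coeff_lau]
  refine Finset.sum_eq_zero fun d hd => if_neg ?_
  have := (MvPolynomial.mem_pow_idealOfVars_iff S f).1 hf d hd
  omega

variable (B B' : Matrix (Fin N) (Fin N) (MvPolynomial (Fin 3) k))

theorem p2b_coeff_op (d : ℤ) (v : LM K N) (i : Fin N) (l : ℤ) :
    (op y z B d v i).coeff l = ∑ j, ∑ h ∈ (lau k y z (B i j)).coeff.support,
      (lau k y z (B i j)).coeff h * (v j).coeff (-h + (l + d)) := by
  rw [op_apply, p2b_coeff_T_mul, AddMonoidAlgebra.coeff_sum, Finsupp.finsetSum_apply,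
    sub_neg_eq_add]
  refine Finset.sum_congr rfl fun j _ => ?_
  rw [AddMonoidAlgebra.coeff_mul_apply_left]
  rfl

theorem op_mem_Mz (d : ℤ) {n : ℤ} {v : LM K N} (hv : v ∈ Mz k y z N n) :
    op y z B d v ∈ Mz k y z N (n + d) := by
  intro i l
  rw [p2b_coeff_op]
  refine Submodule.sum_mem _ fun j _ => Submodule.sum_mem _ fun h _ => ?_
  have := mul_mem_Apol (coeff_lau_mem (B i j) h) (hv j (-h + (l + d)))
  rwa [show h + (-h + (l + d) + n) = l + (n + d) by ring] at this

theorem op_mem_L0 {S : ℕ} (hB : ∀ i j, B i j ∈ MvPolynomial.idealOfVars (Fin 3) k ^ S) (d : ℤ)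
    {a : ℤ} {v : LM K N} (hv : v ∈ L0 K N a) : op y z B d v ∈ L0 K N (a + S - d) := by
  intro i l hl
  rw [p2b_coeff_op]
  refine Finset.sum_eq_zero fun j _ => Finset.sum_eq_zero fun h _ => ?_
  rcases lt_or_ge h S with h1 | h1
  · rw [coeff_lau_eq_zero (hB i j) h1, zero_mul]
  · rw [hv j _ (by omega), mul_zero]

theorem op_mem_L0' (d : ℤ) {a : ℤ} {v : LM K N} (hv : v ∈ L0 K N a) :
    op y z B d v ∈ L0 K N (a - d) := by
  have := op_mem_L0 (y := y) (z := z) B (S := 0) (fun i j => by simp) d hv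
  simpa using this

theorem op_Tsh (d a : ℤ) (v : LM K N) : op y z B d (Tsh K N a v) = Tsh K N a (op y z B d v) := by
  funext i
  simp only [op_apply, Tsh_apply, Finset.mul_sum]
  exact Finset.sum_congr rfl fun j _ => by ring

theorem op_mul (d d' : ℤ) : op y z (B * B') (d + d') = op y z B d ∘ₗ op y z B' d' := by
  refine LinearMap.ext fun v => funext fun i => ?_
  simp only [LinearMap.comp_apply, op_apply, Matrix.mul_apply, map_sum, map_mul, Finset.mul_sum,
    Finset.sum_mul, neg_add, T_add]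
  rw [Finset.sum_comm]
  exact Finset.sum_congr rfl fun j _ => Finset.sum_congr rfl fun m _ => by ring

theorem op_one : op y z (1 : Matrix (Fin N) (Fin N) (MvPolynomial (Fin 3) k)) 0 = LinearMap.id := by
  refine LinearMap.ext fun v => funext fun i => ?_
  simp [op_apply, Matrix.one_apply, apply_ite (lau k y z)]

theorem op_pow (d : ℤ) (l : ℕ) : op y z (B ^ l) (d * l) = op y z B d ^ l := by
  induction l with
  | zero => rw [pow_zero, Nat.cast_zero, mul_zero, op_one, pow_zero]; rfl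
  | succ l ih => rw [pow_succ, Nat.cast_succ, mul_add, mul_one, op_mul, ih, pow_succ]; rfl

theorem op_sub (d : ℤ) : op y z (B - B') d = op y z B d - op y z B' d := by
  refine LinearMap.ext fun v => funext fun i => ?_
  simp only [LinearMap.sub_apply, Pi.sub_apply, op_apply, Matrix.sub_apply, map_sub, sub_mul,
    Finset.sum_sub_distrib, mul_sub]

theorem op_sum {ι : Type} (s : Finset ι) (C : ι → Matrix (Fin N) (Fin N) (MvPolynomial (Fin 3) k))
    (d : ℤ) : op y z (∑ i ∈ s, C i) d = ∑ i ∈ s, op y z (C i) d := by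
  refine LinearMap.ext fun v => funext fun i => ?_
  simp only [LinearMap.sum_apply, Finset.sum_apply, op_apply, Matrix.sum_apply, map_sum,
    Finset.sum_mul, Finset.mul_sum]
  exact Finset.sum_comm

theorem op_smul {f : MvPolynomial (Fin 3) k} {j : ℕ} (hf : f.IsHomogeneous j) (d : ℤ) :
    op y z (f • B) (d + j) = MvPolynomial.aeval ![1, y, z] f • op y z B d := by
  refine LinearMap.ext fun v => funext fun i => ?_
  have e : (T (-d) : K[T;T⁻¹]) = T (-(d + j)) * T j := by rw [← T_add]; congr 1; ring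
  rw [LinearMap.smul_apply, Pi.smul_apply, op_apply, op_apply,
    Algebra.smul_def (MvPolynomial.aeval ![1, y, z] f), ← C_eq_algebraMap, e]
  simp only [Matrix.smul_apply, smul_eq_mul, map_mul, lau_homog hf, Finset.mul_sum]
  exact Finset.sum_congr rfl fun m _ => by ring

/-- The initial lattice. -/
theorem exists_init {e D : ℕ} (he : 0 < e) (Θ : LM K N →ₗ[K] LM K N)
    (hT : ∀ v, Θ (Tsh K N 1 v) = Tsh K N 1 (Θ v))
    (hL : ∀ a, ∀ v ∈ L0 K N a, Θ v ∈ L0 K N (a - D))
    (hM : ∀ n, ∀ v ∈ Mz k y z N n, Θ v ∈ Mz k y z N (n + D))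
    (c : Fin e → K) (hrel : ∀ v ∈ L0 K N 0, (Θ ^ e) v - ∑ l, c l • (Θ ^ (l : ℕ)) v ∈ L0 K N 0) :
    ∃ Λ : Submodule K (LM K N), Adm Λ (-(D * e : ℕ)) (D * e) ∧ (∀ v ∈ Λ, Θ v ∈ Λ) ∧
      spanF K (grL k y z Λ) ≤ Submodule.span K (grL k y z Λ (D * e : ℕ) : Set (LM K N ⧸ Tm Λ)) := by
  have hTl : ∀ (l : ℕ) v, (Θ ^ l) (Tsh K N 1 v) = Tsh K N 1 ((Θ ^ l) v) := by
    intro l
    induction l with
    | zero => intro v; rfl
    | succ l ih => intro v; rw [pow_succ, Module.End.mul_apply, Module.End.mul_apply, hT, ih]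
  have hLl : ∀ (l : ℕ), ∀ v ∈ L0 K N 0, (Θ ^ l) v ∈ L0 K N (-(D * l : ℕ)) := by
    intro l v hv
    induction l with
    | zero => simpa using hv
    | succ l ih =>
      rw [pow_succ', Module.End.mul_apply]
      have := hL _ _ ih
      rwa [show -((D * l : ℕ) : ℤ) - D = -((D * (l + 1) : ℕ) : ℤ) by push_cast; ring] at this
  have hMl : ∀ (l : ℕ), ∀ v ∈ Mz k y z N 0, (Θ ^ l) v ∈ Mz k y z N (D * l : ℕ) := by
    intro l v hv
    induction l with
    | zero => simpa using hv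
    | succ l ih =>
      rw [pow_succ', Module.End.mul_apply]
      have := hM _ _ ih
      rwa [show ((D * l : ℕ) : ℤ) + D = ((D * (l + 1) : ℕ) : ℤ) by push_cast; ring] at this
  set Λ : Submodule K (LM K N) := ⨆ l : Fin e, (L0 K N 0).map (Θ ^ (l : ℕ)) with hΛ
  have hmem : ∀ l : ℕ, l < e → ∀ v ∈ L0 K N 0, (Θ ^ l) v ∈ Λ := fun l hl v hv =>
    (le_iSup (fun l : Fin e => (L0 K N 0).map (Θ ^ (l : ℕ))) ⟨l, hl⟩) ⟨v, hv, rfl⟩
  have hle : ∀ P : Submodule K (LM K N),
      (∀ l : ℕ, l < e → ∀ v ∈ L0 K N 0, (Θ ^ l) v ∈ P) → Λ ≤ P := fun P hP =>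
    iSup_le fun l => by rintro _ ⟨v, hv, rfl⟩; exact hP l l.2 v hv
  have h0 : L0 K N 0 ≤ Λ := fun v hv => hmem 0 he v hv
  have hDe : ∀ l : ℕ, l < e → ((D * l : ℕ) : ℤ) ≤ (D * e : ℕ) := fun l hl => by
    exact_mod_cast Nat.mul_le_mul_left D hl.le
  refine ⟨Λ, ⟨?_, ?_, ?_⟩, ?_, ?_⟩
  · refine Submodule.map_le_iff_le_comap.2 (hle _ fun l hl v hv => ?_)
    rw [Submodule.mem_comap, ← hTl]
    exact hmem l hl _ (L0_anti (by norm_num) ((Tsh_mem_L0 (b := 1)).2 hv))
  · rwa [neg_add_cancel]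
  · exact hle _ fun l hl v hv => L0_anti (neg_le_neg (hDe l hl)) (hLl l v hv)
  · refine hle (Λ.comap Θ) fun l hl v hv => ?_
    rw [Submodule.mem_comap, ← Module.End.mul_apply, ← pow_succ']
    rcases (Nat.succ_le_of_lt hl).lt_or_eq with h | h
    · exact hmem _ h v hv
    · rw [show l + 1 = e from h, ← sub_add_cancel ((Θ ^ e) v) (∑ l, c l • (Θ ^ (l : ℕ)) v)]
      exact Λ.add_mem (h0 (hrel v hv))
        (Λ.sum_mem fun i _ => Λ.smul_mem _ (hmem i i.2 v hv))
  · have key : Λ ≤ (Submodule.span K (grL k y z Λ (D * e : ℕ) : Set (LM K N ⧸ Tm Λ))).comap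
        (Tm Λ).mkQ := by
      refine hle _ fun l hl v hv => ?_
      have h1 := p2b_trunc 1 hv
      rw [← zero_add (1 : ℤ), ← Tm_L0] at h1
      obtain ⟨u, hu, e1⟩ := h1
      rw [eq_sub_iff_add_eq] at e1
      rw [← e1, map_add, map_sum]
      refine Submodule.add_mem _ ?_ (Submodule.sum_mem _ fun i _ => ?_)
      · rw [Submodule.mem_comap, hTl, Submodule.mkQ_apply,
          (Submodule.Quotient.mk_eq_zero (Tm Λ)).2 (Submodule.mem_map_of_mem (hmem l hl u hu))]
        exact Submodule.zero_mem _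
      · rw [map_sum]
        refine Submodule.sum_mem _ fun m hm => ?_
        rw [map_smul]
        refine Submodule.smul_mem _ _ (Submodule.mem_comap.2 (Submodule.subset_span ?_))
        have hm0 : m = 0 := by
          rw [Finset.mem_Ico] at hm
          omega
        subst hm0
        have h2 : (Pi.single i (T 0) : LM K N) ∈ Mz k y z N 0 := by
          intro j n
          by_cases hj : j = i
          · subst hj
            rw [Pi.single_eq_same, T_apply]
            split_ifs with h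
            · exact one_mem_Apol (by omega)
            · exact Submodule.zero_mem _
          · rw [Pi.single_eq_of_ne hj]
            exact Submodule.zero_mem _
        refine mem_mapF.2
          ⟨_, mem_cut.2 ⟨stab_Mz.mono_deg (hDe l hl) (hMl l _ h2), hmem l hl _ ?_⟩, rfl⟩
        simpa using Mz_le_L0 0 _ h2
    refine Submodule.span_le.2 ?_
    rintro _ ⟨_, ⟨m, rfl⟩, v, hv, rfl⟩
    exact key hv.2

end Crest.Agent.R169
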