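import Crest.Agent.R169.P2Basic
import Crest.Agent.R169.Rank

/-! # task R169/P2Count -/

set_option autoImplicit false
open Filter Module IntermediateField

namespace Crest.Agent.R169

section general
variable {k : Type} [Field k] {𝕃 : Type} [Field 𝕃] [Algebra k 𝕃]
  {E : Type} [AddCommGroup E] [Module k E] [Module 𝕃 E] [IsScalarTower k 𝕃 E]
  {E' : Type} [AddCommGroup E'] [Module k E'] [Module 𝕃 E'] [IsScalarTower k 𝕃 E']
  {E'' : Type} [AddCommGroup E''] [Module k E''] [Module 𝕃 E''] [IsScalarTower k 𝕃 E'']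

/-- Images under maps with the same kernel have the same dimension. -/
theorem P2Count_hf_congr (φ : E →ₗ[𝕃] E') (ψ : E →ₗ[𝕃] E'') (V : Fam k E) (m : ℤ)
    (h : ∀ v ∈ V m, φ v = 0 ↔ ψ v = 0) : hf (mapF φ V) m = hf (mapF ψ V) m := by
  have e1 := ((φ.restrictScalars k).domRestrict (V m)).quotKerEquivRange.finrank_eq
  have e2 := ((ψ.restrictScalars k).domRestrict (V m)).quotKerEquivRange.finrank_eq
  have e3 : LinearMap.ker ((φ.restrictScalars k).domRestrict (V m)) =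
      LinearMap.ker ((ψ.restrictScalars k).domRestrict (V m)) := by
    ext v
    exact h v v.2
  rw [LinearMap.range_domRestrict] at e1 e2
  rw [e3, e2] at e1
  exact congrArg (Nat.cast : ℕ → ℝ) e1.symm

theorem P2Count_cut_mkQ {P Q : Submodule 𝕃 E} (h : P ≤ Q) (V : Fam k E) :
    cut (mapF P.mkQ V) (Q.map P.mkQ) = mapF P.mkQ (cut V Q) := by
  funext m
  ext x
  rw [mem_cut, mem_mapF, mem_mapF]
  constructor
  · rintro ⟨⟨v, hv, rfl⟩, u, hu, e⟩
    refine ⟨v, ⟨hv, ?_⟩, rfl⟩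
    have h1 : u - v ∈ P := (Submodule.Quotient.eq P).1 e
    have h2 := Q.sub_mem hu (h h1)
    rwa [sub_sub_cancel] at h2
  · rintro ⟨v, hv, rfl⟩
    exact ⟨⟨v, hv.1, rfl⟩, v, hv.2, rfl⟩

/-- Additivity along a chain of subspaces. -/
theorem P2Count_hf_add {P Q : Submodule 𝕃 E} (h : P ≤ Q) (V : Fam k E) (m : ℤ)
    [FiniteDimensional k (mapF P.mkQ V m)] :
    hf (mapF P.mkQ V) m = hf (mapF Q.mkQ V) m + hf (mapF P.mkQ (cut V Q)) m := by
  have e := hf_mapF_add_cut (Submodule.factor h) (mapF P.mkQ V) m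
  have e1 : mapF (Submodule.factor h) (mapF P.mkQ V) = mapF Q.mkQ V := by
    funext l
    ext x
    constructor
    · rintro ⟨_, ⟨v, hv, rfl⟩, rfl⟩
      exact ⟨v, hv, rfl⟩
    · rintro ⟨v, hv, rfl⟩
      exact ⟨_, ⟨v, hv, rfl⟩, rfl⟩
  have e2 : LinearMap.ker (Submodule.factor h) = Q.map P.mkQ := by
    ext x
    obtain ⟨v, rfl⟩ := P.mkQ_surjective x
    rw [LinearMap.mem_ker, Submodule.factor_mk, Submodule.mkQ_apply, Submodule.Quotient.mk_eq_zero]
    constructor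
    · exact fun hv => ⟨v, hv, rfl⟩
    · rintro ⟨u, hu, e⟩
      have h1 : u - v ∈ P := (Submodule.Quotient.eq P).1 e
      have h2 := Q.sub_mem hu (h h1)
      rwa [sub_sub_cancel] at h2
  rwa [e1, e2, P2Count_cut_mkQ h] at e

theorem P2Count_cut_cut' (V : Fam k E) {Q R : Submodule 𝕃 E} (h : Q ≤ R) :
    cut (cut V R) Q = cut V Q := by
  funext m
  ext x
  simp only [mem_cut]
  exact ⟨fun hx => ⟨hx.1.1, hx.2⟩, fun hx => ⟨⟨hx.1, h hx.2⟩, hx.2⟩⟩

end general

open LaurentPolynomial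

variable {k : Type} [Field k] {K : Type} [Field K] [Algebra k K] {y z : K} {N : ℕ}
  {Λ : Submodule K (LM K N)} {a : ℤ} {w : ℕ}

/-- Truncation to the exponents in `[a, b)`. -/
noncomputable def P2Count_trunc (a b : ℤ) (v : LM K N) : LM K N :=
  ∑ p : Fin N × Finset.Ico a b, (v p.1).coeff p.2 • (Pi.single p.1 (T p.2) : LM K N)

theorem P2Count_coeff_trunc (a b : ℤ) (v : LM K N) (i : Fin N) (l : ℤ) :
    (P2Count_trunc a b v i).coeff l = if a ≤ l ∧ l < b then (v i).coeff l else 0 := by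
  classical
  rw [P2Count_trunc, Finset.sum_apply, AddMonoidAlgebra.coeff_sum, Finsupp.finsetSum_apply]
  have key : ∀ p : Fin N × Finset.Ico a b,
      (((v p.1).coeff p.2 • (Pi.single p.1 (T p.2) : LM K N)) i).coeff l =
        if p.1 = i ∧ (p.2 : ℤ) = l then (v i).coeff l else 0 := by
    rintro ⟨j, l'⟩
    by_cases hj : j = i
    · subst hj
      by_cases hl : (l' : ℤ) = l
      · simp [hl]
      · simp [hl]
    · simp [hj]
  simp only [key]
  split_ifs with hl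
  · rw [Finset.sum_eq_single (i, ⟨l, Finset.mem_Ico.2 hl⟩)]
    · simp
    · rintro ⟨j, l'⟩ - hne
      rw [if_neg]
      rintro ⟨rfl, rfl⟩
      exact hne rfl
    · simp
  · refine Finset.sum_eq_zero ?_
    rintro ⟨j, l'⟩ -
    rw [if_neg]
    rintro ⟨-, rfl⟩
    exact hl (Finset.mem_Ico.1 l'.2)

theorem P2Count_sub_trunc {a : ℤ} (b : ℤ) {v : LM K N} (hv : v ∈ L0 K N a) :
    v - P2Count_trunc a b v ∈ L0 K N b := by
  intro i l hl
  rw [Pi.sub_apply, AddMonoidAlgebra.coeff_sub, Finsupp.sub_apply, P2Count_coeff_trunc]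
  split_ifs with h
  · exact sub_self _
  · rw [hv i l (by omega), sub_zero]

/-- Subquotients of `Mz` are lattices. -/
theorem P2Count_isLat {R P : Submodule K (LM K N)} {a b : ℤ} (hR : R ≤ L0 K N a)
    (hP : L0 K N b ≤ P) : IsLat y z (mapF P.mkQ (cut (Mz k y z N) R)) := by
  refine ⟨(stab_Mz.cut R).mapF _, bdd_of_le_iSup (ι := Fin N × Finset.Ico a b)
    (fun p => P.mkQ (Pi.single p.1 (T p.2))) (fun p => -(p.2 : ℤ)) ?_⟩
  rintro n _ ⟨v, hv, rfl⟩
  rw [mem_iSup_cyc]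
  refine ⟨fun p => (v p.1).coeff p.2, fun p => ?_, ?_⟩
  · have := hv.1 p.1 p.2
    rwa [sub_neg_eq_add, add_comm]
  · have : P.mkQ v = P.mkQ (P2Count_trunc a b v) :=
      (Submodule.Quotient.eq P).2 (hP (P2Count_sub_trunc b (hR hv.2)))
    refine this.trans ?_
    simp only [P2Count_trunc, map_sum, map_smul]

theorem P2Count_hf_Tm (R P : Submodule K (LM K N)) (n : ℤ) :
    hf (mapF (Tm P).mkQ (cut (Mz k y z N) (Tm R))) n =
      hf (mapF P.mkQ (cut (Mz k y z N) R)) (n + 1) := by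
  have e : mapF (Tm P).mkQ (cut (Mz k y z N) (Tm R)) n =
      mapF ((Tm P).mkQ ∘ₗ Tsh K N 1) (cut (Mz k y z N) R) (n + 1) := by
    have h1 : ∀ v : LM K N, Tsh K N 1 v ∈ Mz k y z N n ↔ v ∈ Mz k y z N (n + 1) := fun v => by
      rw [← Tsh_mem_Mz (b := 1) (n := n + 1), add_sub_cancel_right]
    ext x
    constructor
    · rintro ⟨_, ⟨hv, v, hR, rfl⟩, rfl⟩
      exact ⟨v, ⟨(h1 v).1 hv, hR⟩, rfl⟩
    · rintro ⟨v, ⟨hv, hR⟩, rfl⟩
      exact ⟨Tsh K N 1 v, ⟨(h1 v).2 hv, v, hR, rfl⟩, rfl⟩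
  rw [hf, e]
  refine P2Count_hf_congr _ _ _ _ fun v _ => ?_
  rw [LinearMap.comp_apply, Submodule.mkQ_apply, Submodule.mkQ_apply,
    Submodule.Quotient.mk_eq_zero, Submodule.Quotient.mk_eq_zero]
  constructor
  · rintro ⟨u, hu, e⟩
    rwa [← Tsh_injective 1 e]
  · exact fun hv => ⟨v, hv, rfl⟩

/-- Additivity for subquotients of `Mz`. -/
theorem P2Count_hq_add {R Q P : Submodule K (LM K N)} {a b : ℤ} (hR : R ≤ L0 K N a)
    (hP : L0 K N b ≤ P) (h1 : P ≤ Q) (h2 : Q ≤ R) (n : ℤ) :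
    hf (mapF P.mkQ (cut (Mz k y z N) R)) n =
      hf (mapF Q.mkQ (cut (Mz k y z N) R)) n + hf (mapF P.mkQ (cut (Mz k y z N) Q)) n := by
  have := (P2Count_isLat (k := k) (y := y) (z := z) hR hP).bdd.fd n
  rw [P2Count_hf_add h1, P2Count_cut_cut' _ h2]

theorem Adm.isLat_grL (h : Adm Λ a w) : IsLat y z (grL k y z Λ) :=
  P2Count_isLat h.hi h.L0_le_Tm

theorem Adm.spanF_grL (hK : RatFn k y z) (h : Adm Λ a w) :
    spanF K (grL k y z Λ) = Λ.map (Tm Λ).mkQ := by
  apply le_antisymm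
  · rw [spanF, Submodule.span_le]
    intro x hx
    obtain ⟨n, v, hv, rfl⟩ := Set.mem_iUnion.1 hx
    exact ⟨v, hv.2, rfl⟩
  · rintro _ ⟨v, hv, rfl⟩
    set v' := P2Count_trunc a (a + w + 1) v with hv'
    have h1 : v - v' ∈ Tm Λ := h.L0_le_Tm (P2Count_sub_trunc _ (h.hi hv))
    have h2 : v' ∈ Λ := by
      have := Λ.sub_mem hv (h.T h1)
      rwa [sub_sub_cancel] at this
    rw [show (Tm Λ).mkQ v = (Tm Λ).mkQ v' from (Submodule.Quotient.eq _).2 h1]
    obtain ⟨j, g, hg, -, hgc⟩ := hK.exists_denom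
      fun p : Fin N × Finset.Ico a (a + w + 1) => (v p.1).coeff p.2
    have h3 : g • v' ∈ Mz k y z N (j - a) := by
      intro i l
      rw [Pi.smul_apply, AddMonoidAlgebra.coeff_smul_apply, hv', P2Count_coeff_trunc]
      split_ifs with hl
      · exact Apol_mono (by omega) (hgc (i, ⟨l, Finset.mem_Ico.2 hl⟩))
      · simp
    have h4 : (Tm Λ).mkQ (g • v') ∈ spanF K (grL k y z Λ) :=
      mem_spanF (m := j - a) ⟨g • v', ⟨h3, Λ.smul_mem g h2⟩, rfl⟩
    rw [map_smul] at h4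
    exact (Submodule.smul_mem_iff _ hg).1 h4

theorem P2Count_abel (w : ℕ) (κ : ℕ → ℝ) (hm : Monotone κ) (u : ℝ) (N : ℝ) (h0 : 0 ≤ N)
    (hN : ∀ j < w, κ j ≤ N) (hκ : ∀ j, 0 ≤ κ j) :
    -N / 8 ≤ N * ((u + w + 1) * (u + w + 2) / 2) - ∑ j ∈ Finset.range w, κ j * (u + j + 2) := by
  have hf : ∀ t : ℝ, -1 / 8 ≤ (t + 1) * (t + 2) / 2 := fun t => by nlinarith [sq_nonneg (t + 3 / 2)]
  induction w generalizing N with
  | zero =>
    have := mul_le_mul_of_nonneg_left (hf u) h0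
    simp only [Finset.range_zero, Finset.sum_empty, Nat.cast_zero, add_zero, sub_zero]
    linarith
  | succ w ih =>
    have h1 := ih (κ w) (hκ w) fun j hj => hm hj.le
    have h2 := mul_le_mul_of_nonneg_left (hf (u + w + 1)) (sub_nonneg.2 (hN w (Nat.lt_succ_self w)))
    rw [Finset.sum_range_succ]
    push_cast
    nlinarith

/-- The elementary inequality behind `c ≥ -N/8`. -/
theorem abel_bound (w : ℕ) (N : ℝ) (κ : ℕ → ℝ) (h0 : ∀ j, 0 ≤ κ j) (hm : Monotone κ)
    (hN : ∀ j, κ j ≤ N) (u : ℝ) :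
    -N / 8 ≤ N * ((u + w + 1) * (u + w + 2) / 2) - ∑ j ∈ Finset.range w, κ j * (u + j + 2) :=
  P2Count_abel w κ hm u N ((h0 0).trans (hN 0)) (fun j _ => hN j) h0

variable (K N) in
/-- The coefficient vector of `T ^ c`. -/
noncomputable def P2Count_cf (c : ℤ) : LM K N →ₗ[K] (Fin N → K) where
  toFun v i := (v i).coeff c
  map_add' u v := by funext i; simp
  map_smul' t v := by funext i; simp

variable (k y z) in
/-- The family of initial forms of order `c`. -/
noncomputable def P2Count_J (Λ : Submodule K (LM K N)) (c : ℤ) : Fam k (Fin N → K) :=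
  mapF (P2Count_cf K N c) (cut (Mz k y z N) (Λ ⊓ L0 K N c))

theorem P2Count_mem_free (c m : ℤ) (r : Fin N → K) :
    r ∈ (⨆ i, cyc (Apol k y z) (Pi.basisFun K (Fin N) i) c) m ↔ ∀ i, r i ∈ Apol k y z (m - c) := by
  rw [mem_iSup_cyc (a := fun _ => c)]
  have e : ∀ s : Fin N → K, ∑ i, s i • Pi.basisFun K (Fin N) i = s := fun s => by
    simpa using (Pi.basisFun K (Fin N)).sum_repr s
  constructor
  · rintro ⟨s, hs, rfl⟩
    rwa [e]
  · intro h
    exact ⟨r, h, (e r).symm⟩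

theorem P2Count_J_le (Λ : Submodule K (LM K N)) (c : ℤ) :
    P2Count_J k y z Λ c ≤ ⨆ i, cyc (Apol k y z) (Pi.basisFun K (Fin N) i) (-c) := by
  rintro n _ ⟨v, hv, rfl⟩
  rw [P2Count_mem_free]
  intro i
  have := hv.1 i c
  rwa [sub_neg_eq_add, add_comm]

theorem P2Count_J_isLat (Λ : Submodule K (LM K N)) (c : ℤ) : IsLat y z (P2Count_J k y z Λ c) :=
  (Rank_isLat_free _ fun _ => -c).of_le ((stab_Mz.cut _).mapF _) (P2Count_J_le Λ c)

theorem P2Count_J_eq {c : ℤ} (h : L0 K N c ≤ Λ) :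
    P2Count_J k y z Λ c = ⨆ i, cyc (Apol k y z) (Pi.basisFun K (Fin N) i) (-c) := by
  refine le_antisymm (P2Count_J_le Λ c) fun n r hr => ?_
  rw [P2Count_mem_free] at hr
  have hc : ∀ i (l : ℤ), (r i • (T c : K[T;T⁻¹])).coeff l = if c = l then r i else 0 := by
    intro i l
    rw [AddMonoidAlgebra.coeff_smul_apply, T_apply]
    split_ifs <;> simp
  have hL : (fun i => r i • (T c : K[T;T⁻¹])) ∈ L0 K N c := fun i l hl => by
    rw [hc, if_neg (by omega)]
  refine ⟨fun i => r i • T c, ⟨fun i l => ?_, h hL, hL⟩, funext fun i => ?_⟩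
  · rw [hc]
    split_ifs with hl
    · subst hl
      have := hr i
      rwa [sub_neg_eq_add, add_comm] at this
    · exact Submodule.zero_mem _
  · exact (hc i c).trans (if_pos rfl)

theorem P2Count_J_shift (hT : Tm Λ ≤ Λ) (c : ℤ) :
    shift (P2Count_J k y z Λ c) 1 ≤ P2Count_J k y z Λ (c + 1) := by
  rintro n _ ⟨v, hv, rfl⟩
  refine ⟨Tsh K N 1 v, ⟨?_, hT ⟨v, hv.2.1, rfl⟩, Tsh_mem_L0.2 hv.2.2⟩, funext fun i => ?_⟩
  · have := (Tsh_mem_Mz (b := 1)).2 hv.1
    rwa [add_sub_cancel_right] at this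
  · change (Tsh K N 1 v i).coeff (c + 1) = (v i).coeff c
    rw [coeff_Tsh, add_sub_cancel_right]

theorem P2Count_hf_J (Λ : Submodule K (LM K N)) (c n : ℤ) :
    hf (mapF (Λ ⊓ L0 K N (c + 1)).mkQ (cut (Mz k y z N) (Λ ⊓ L0 K N c))) n =
      hf (P2Count_J k y z Λ c) n := by
  refine P2Count_hf_congr _ _ _ _ fun v hv => ?_
  rw [Submodule.mkQ_apply, Submodule.Quotient.mk_eq_zero]
  constructor
  · intro h
    exact funext fun i => h.2 i c (by omega)
  · intro h
    refine ⟨hv.2.1, fun i l hl => ?_⟩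
    rcases (show l < c ∨ l = c by omega) with h' | rfl
    · exact hv.2.2 i l h'
    · exact congrFun h i

theorem P2Count_telescope (h : Adm Λ a w) (j : ℕ) (n : ℤ) :
    hf (mapF (Λ ⊓ L0 K N (a + j)).mkQ (cut (Mz k y z N) Λ)) n =
      ∑ i ∈ Finset.range j, hf (P2Count_J k y z Λ (a + i)) n := by
  induction j with
  | zero =>
    have : mapF (Λ ⊓ L0 K N (a + (0 : ℕ))).mkQ (cut (Mz k y z N) Λ) n = ⊥ := by
      rw [eq_bot_iff]
      rintro _ ⟨v, hv, rfl⟩
      exact (Submodule.Quotient.mk_eq_zero _).2 ⟨hv.2, by simpa using h.hi hv.2⟩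
    rw [hf, this]
    simp
  | succ j ih =>
    rw [Finset.sum_range_succ, ← ih, ← P2Count_hf_J, Nat.cast_succ, ← add_assoc]
    refine P2Count_hq_add (b := a + w + j + 1) h.hi
      (le_inf ((L0_anti (by omega)).trans h.lo) (L0_anti (by omega)))
      (inf_le_inf_left _ (L0_anti (by omega))) inf_le_left n

theorem P2Count_hf_grL (h : Adm Λ a w) (n : ℤ) :
    hf (grL k y z Λ) n = N * hf (Apol k y z) (n - -(a + w)) -
      ∑ i ∈ Finset.range w,
        (hf (P2Count_J k y z Λ (a + i)) (n + 1) - hf (P2Count_J k y z Λ (a + i)) n) := by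
  have e1 := P2Count_telescope (k := k) (y := y) (z := z) h (w + 1) n
  have e2 := P2Count_telescope (k := k) (y := y) (z := z) h w (n + 1)
  have hlo : L0 K N (a + w + 1) ≤ Λ := h.L0_le_Tm.trans h.T
  rw [Nat.cast_succ, ← add_assoc, inf_eq_right.2 hlo, Finset.sum_range_succ, P2Count_J_eq h.lo,
    hf_iSup_cyc _ fd_Apol (Pi.basisFun K (Fin N)).linearIndependent (fun _ => -(a + w)),
    P2Count_hq_add h.hi le_rfl h.L0_le_Tm h.T, ← Tm_L0, P2Count_hf_Tm] at e1
  rw [inf_eq_right.2 h.lo] at e2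
  rw [e2] at e1
  simp only [Finset.sum_const, Finset.card_univ, Fintype.card_fin, nsmul_eq_mul] at e1
  rw [Finset.sum_sub_distrib, grL]
  linarith

/-- Counting by initial forms. -/
theorem Adm.inv_grL (hK : RatFn k y z) (h : Adm Λ a w) :
    rk (grL k y z Λ) = N ∧ dg (grL k y z Λ) ≤ N * (a + w + 3 / 2) ∧
      ∀ m : ℝ, -(N : ℝ) / 8 ≤ HP (grL k y z Λ) m := by
  set J : ℕ → Fam k (Fin N → K) := fun i => P2Count_J k y z Λ (a + i) with hJ
  have hJl : ∀ i, IsLat y z (J i) := fun i => P2Count_J_isLat Λ _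
  have hb : ∀ i, rk (J i) ≤ Fintype.card (Fin N) ∧
      dg (J i) ≤ rk (J i) * (3 / 2 - ((-(a + i) : ℤ) : ℝ)) := fun i =>
    (hJl i).dg_le_of_le_free hK (Pi.basisFun K (Fin N)).linearIndependent (P2Count_J_le Λ _)
  have hmono : Monotone fun i => rk (J i) := by
    refine monotone_nat_of_le_succ fun i => ?_
    have h1 := (inv_mono ((hJl i).good.shift 1) (hJl (i + 1)).good (by
      have := P2Count_J_shift (k := k) (y := y) (z := z) h.T (a + i)
      simpa only [hJ, Nat.cast_succ, add_assoc] using this)).1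
    rwa [(inv_shift (hJl i).good 1).1] at h1
  have H := (((Rank_hasHP_Apol_sub hK.ind (-(a + w))).const_mul N).sub
    (HasHP.sum (Finset.range w) fun i _ =>
      ((hJl i).good.hasHP.shift 1).sub (hJl i).good.hasHP)).congr (h' := hf (grL k y z Λ))
      (Eventually.of_forall fun n => (P2Count_hf_grL h n).symm)
  obtain ⟨e1, e2, e3⟩ := H.eq_inv
  simp only [sub_self, Finset.sum_const_zero, mul_one, sub_zero, Int.cast_one,
    add_sub_cancel_left] at e1 e2 e3
  have hs : 0 ≤ ∑ i ∈ Finset.range w, rk (J i) := Finset.sum_nonneg fun i _ => rk_nonneg _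
  refine ⟨e1, ?_, fun m => ?_⟩
  · rw [e2]; push_cast; linarith
  · have h1 := abel_bound w N (fun i => rk (J i)) (fun i => rk_nonneg _) hmono
      (fun i => by simpa using (hb i).1) (m + a)
    have h2 : (∑ i ∈ Finset.range w, rk (J i)) * m +
        ∑ i ∈ Finset.range w, (rk (J i) * 1 ^ 2 / 2 + dg (J i) + ch (J i) - ch (J i)) ≤
        ∑ i ∈ Finset.range w, rk (J i) * (m + a + i + 2) := by
      rw [Finset.sum_mul, ← Finset.sum_add_distrib]
      refine Finset.sum_le_sum fun i _ => ?_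
      have := (hb i).2
      push_cast at this
      linarith
    rw [HP, e1, e2, e3]
    push_cast
    linarith

end Crest.Agent.R169
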