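import Crest.Agent.R169.Surf

/-! # task R169/P2Defs -/

set_option autoImplicit false
open Filter Module IntermediateField

namespace Crest.Agent.R169

open LaurentPolynomial

/-- The ambient space `K[T, T⁻¹] ^ N`; `k[x,y,z]` embeds by `x ↦ T, y ↦ y T, z ↦ z T`. -/
abbrev LM (K : Type) [Field K] (N : ℕ) : Type := Fin N → K[T;T⁻¹]

section defs
variable (k : Type) [Field k] {K : Type} [Field K] [Algebra k K]

/-- `Mz n = T ^ (-n) · k[x,y,z] ^ N`. -/
def Mz (y z : K) (N : ℕ) : Fam k (LM K N) := fun n =>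
  { carrier := {v | ∀ i (l : ℤ), (v i).coeff l ∈ Apol k y z (l + n)}
    add_mem' := fun {a b} ha hb i l => by
      simpa using Submodule.add_mem _ (ha i l) (hb i l)
    zero_mem' := fun i l => by simp
    smul_mem' := fun c a ha i l => by
      simpa using Submodule.smul_mem _ c (ha i l) }

variable (K) in
/-- The standard lattice `T ^ a K[T] ^ N`. -/
def L0 (N : ℕ) (a : ℤ) : Submodule K (LM K N) where
  carrier := {v | ∀ i (l : ℤ), l < a → (v i).coeff l = 0}
  add_mem' := fun {u v} hu hv i l hl => by simp [hu i l hl, hv i l hl]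
  zero_mem' := fun i l _ => by simp
  smul_mem' := fun c u hu i l hl => by simp [hu i l hl]

variable (K) in
/-- Multiplication by `T ^ a`. -/
noncomputable def Tsh (N : ℕ) (a : ℤ) : LM K N →ₗ[K] LM K N :=
  DistribSMul.toLinearMap K (LM K N) (T a : K[T;T⁻¹])

/-- `T Λ`. -/
noncomputable def Tm {N : ℕ} (Λ : Submodule K (LM K N)) : Submodule K (LM K N) :=
  Λ.map (Tsh K N 1)

/-- `K[T]`-lattices between `T ^ (a + w) K[T] ^ N` and `T ^ a K[T] ^ N`. -/
structure Adm {N : ℕ} (Λ : Submodule K (LM K N)) (a : ℤ) (w : ℕ) : Prop where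
  T : Tm Λ ≤ Λ
  lo : L0 K N (a + w) ≤ Λ
  hi : Λ ≤ L0 K N a

/-- The associated graded module of `k[x,y,z] ^ N` for the filtration by the `T ^ n Λ`. -/
noncomputable def grL (y z : K) {N : ℕ} (Λ : Submodule K (LM K N)) : Fam k (LM K N ⧸ Tm Λ) :=
  mapF (Tm Λ).mkQ (cut (Mz k y z N) Λ)

/-- The embedding of `k[x,y,z]`. -/
noncomputable def lau (y z : K) : MvPolynomial (Fin 3) k →ₐ[k] K[T;T⁻¹] :=
  MvPolynomial.aeval ![T 1, C y * T 1, C z * T 1]

variable {k} in
/-- The operator `T ^ (-d) B` of a matrix `B` over `k[x,y,z]`. -/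
noncomputable def op (y z : K) {N : ℕ} (B : Matrix (Fin N) (Fin N) (MvPolynomial (Fin 3) k))
    (d : ℤ) : LM K N →ₗ[K] LM K N :=
  Tsh K N (-d) ∘ₗ (B.map (lau k y z)).mulVecLin.restrictScalars K

variable {k}

theorem mem_Mz {y z : K} {N : ℕ} {n : ℤ} {v : LM K N} :
    v ∈ Mz k y z N n ↔ ∀ i (l : ℤ), (v i).coeff l ∈ Apol k y z (l + n) := Iff.rfl

theorem mem_L0 {N : ℕ} {a : ℤ} {v : LM K N} :
    v ∈ L0 K N a ↔ ∀ i (l : ℤ), l < a → (v i).coeff l = 0 := Iff.rfl

theorem Tsh_apply {N : ℕ} (a : ℤ) (v : LM K N) (i : Fin N) : Tsh K N a v i = T a * v i := rfl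

theorem op_apply (y z : K) {N : ℕ} (B : Matrix (Fin N) (Fin N) (MvPolynomial (Fin 3) k)) (d : ℤ)
    (v : LM K N) (i : Fin N) : op y z B d v i = T (-d) * ∑ j, lau k y z (B i j) * v j := rfl

end defs

end Crest.Agent.R169
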