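import Crest.Agent.R169.P2Count

/-! # task R169/P2Elem -/

set_option autoImplicit false
open Filter Module IntermediateField

namespace Crest.Agent.R169

variable {k : Type} [Field k] {K : Type} [Field K] [Algebra k K] {y z : K} {N : ℕ}
  {Λ Λ' : Submodule K (LM K N)} {a : ℤ} {w : ℕ}

/-- Elementary transformations. -/
theorem Adm.hf_elem (h : Adm Λ a w) (h1 : Tm Λ ≤ Λ') (h2 : Λ' ≤ Λ) (n : ℤ) :
    hf (grL k y z Λ') n = hf (cut (grL k y z Λ) (Λ'.map (Tm Λ).mkQ)) n + hf (grL k y z Λ) (n + 1) -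
      hf (cut (grL k y z Λ) (Λ'.map (Tm Λ).mkQ)) (n + 1) := by
  have hlo : L0 K N (a + (w + 1 : ℕ) + 1) ≤ Tm Λ' := (h.step h1 h2).L0_le_Tm
  have e1 := P2Count_hq_add (k := k) (y := y) (z := z) (h2.trans h.hi) hlo (Tm_mono h2) h1 n
  have e2 := P2Count_hq_add (k := k) (y := y) (z := z) h.hi h.L0_le_Tm h1 h2 (n + 1)
  rw [P2Count_hf_Tm] at e1
  simp only [grL]
  rw [P2Count_cut_mkQ h1, P2Count_cut_cut' _ h2]
  linarith

theorem Adm.cc_elem (hK : RatFn k y z) (hN : 0 < N) (h : Adm Λ a w) (h1 : Tm Λ ≤ Λ')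
    (h2 : Λ' ≤ Λ) :
    cc (grL k y z Λ') = cc (grL k y z Λ) +
      (dg (grL k y z Λ) - dg (cut (grL k y z Λ) (Λ'.map (Tm Λ).mkQ)) -
        (N - rk (cut (grL k y z Λ) (Λ'.map (Tm Λ).mkQ))) * (dg (grL k y z Λ) / N)) +
      (N - rk (cut (grL k y z Λ) (Λ'.map (Tm Λ).mkQ))) *
        rk (cut (grL k y z Λ) (Λ'.map (Tm Λ).mkQ)) / (2 * N) := by
  have hG := h.isLat_grL (k := k) (y := y) (z := z)
  have hF := hG.cut (Λ'.map (Tm Λ).mkQ)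
  have H := ((hF.good.hasHP.add (hG.good.hasHP.shift 1)).sub (hF.good.hasHP.shift 1)).congr
    (h' := hf (grL k y z Λ')) (Eventually.of_forall fun n => (h.hf_elem h1 h2 n).symm)
  obtain ⟨e1, e2, e3⟩ := H.eq_inv
  have hr := (h.inv_grL hK).1
  have hN' : (N : ℝ) ≠ 0 := by exact_mod_cast hN.ne'
  rw [cc, cc, e1, e2, e3, hr, add_sub_cancel_left]
  push_cast
  field_simp
  ring

/-- Langton's algorithm stops after boundedly many steps. -/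
theorem Adm.exists_terminal (hK : RatFn k y z) (hN : 0 < N) (Θ : LM K N →ₗ[K] LM K N) (s : ℕ)
    (h : Adm Λ a w) (hΘ : ∀ v ∈ Λ, Θ v ∈ Λ) (hc : cc (grL k y z Λ) + N ≤ s) :
    ∃ (Λ₁ : Submodule K (LM K N)) (w₁ : ℕ), w₁ ≤ w + s ∧ Adm Λ₁ a w₁ ∧ (∀ v ∈ Λ₁, Θ v ∈ Λ₁) ∧
      ∀ Λ' : Submodule K (LM K N), Tm Λ₁ ≤ Λ' → Λ' ≤ Λ₁ → (∀ v ∈ Λ', Θ v ∈ Λ') →
        cc (grL k y z Λ₁) - 1 ≤ cc (grL k y z Λ') := by
  have hN' : (0 : ℝ) < N := by exact_mod_cast hN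
  induction s generalizing Λ w with
  | zero =>
    exfalso
    obtain ⟨e1, -, e3⟩ := h.inv_grL hK
    rw [cc_eq_HP (by rw [e1]; exact hN')] at hc
    have := e3 (-dg (grL k y z Λ) / rk (grL k y z Λ))
    push_cast at hc
    linarith
  | succ s ih =>
    by_cases ht : ∀ Λ' : Submodule K (LM K N), Tm Λ ≤ Λ' → Λ' ≤ Λ → (∀ v ∈ Λ', Θ v ∈ Λ') →
        cc (grL k y z Λ) - 1 ≤ cc (grL k y z Λ')
    · exact ⟨Λ, w, Nat.le_add_right _ _, h, hΘ, ht⟩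
    · push Not at ht
      obtain ⟨Λ', h1, h2, h3, h4⟩ := ht
      obtain ⟨Λ₁, w₁, hw, hrest⟩ := ih (h.step h1 h2) h3 (by push_cast at hc; linarith)
      exact ⟨Λ₁, w₁, by omega, hrest⟩

end Crest.Agent.R169
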