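import Crest.Agent.R169.RBasic

/-! # task R169/RRank -/

set_option autoImplicit false
open Filter Module IntermediateField

namespace Crest.Agent.R169

variable {k 𝕂 : Type} [Field k] [Field 𝕂] [Algebra k 𝕂]
  {E : Type} [AddCommGroup E] [Module k E] [Module 𝕂 E] [IsScalarTower k 𝕂 E]

theorem RRank_fd {K : IntermediateField k 𝕂} {W : Fam k 𝕂} (hW : Full K W)
    (h : FiniteDimensional K (spanF K W)) : FiniteDimensional K 𝕂 := by
  rw [show spanF K W = ⊤ from hW] at h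
  exact Module.Finite.equiv (Submodule.topEquiv (R := K) (M := 𝕂))

omit [IsScalarTower k 𝕂 E] in
theorem RRank_smul_mem {K : IntermediateField k 𝕂} {W : Fam k 𝕂} {V : Fam k E} (hV : Stab W V)
    {a : 𝕂} (ha : a ∈ spanF K W) {v : E} (hv : v ∈ spanF K V) : a • v ∈ spanF K V := by
  induction ha using Submodule.span_induction with
  | mem r hr =>
    obtain ⟨i, hi⟩ := Set.mem_iUnion.1 hr
    induction hv using Submodule.span_induction with
    | mem w hw =>
      obtain ⟨j, hj⟩ := Set.mem_iUnion.1 hw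
      exact mem_spanF (hV i j r w hi hj)
    | zero => rw [smul_zero]; exact Submodule.zero_mem _
    | add x y _ _ hx hy => rw [smul_add]; exact Submodule.add_mem _ hx hy
    | smul c x _ hx =>
      have : r • c • x = c • r • x := smul_comm r (c : 𝕂) x
      rw [this]
      exact Submodule.smul_mem _ c hx
  | zero => rw [zero_smul]; exact Submodule.zero_mem _
  | add x y _ _ hx hy => rw [add_smul]; exact Submodule.add_mem _ hx hy
  | smul c x _ hx =>
    have : (c • x) • v = c • x • v := mul_smul (c : 𝕂) x v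
    rw [this]
    exact Submodule.smul_mem _ c hx

theorem RRank_restrict {K : IntermediateField k 𝕂} {W : Fam k 𝕂} {V : Fam k E} (hW : Full K W)
    (hV : Stab W V) : (spanF 𝕂 V).restrictScalars K = spanF K V := by
  refine le_antisymm (fun v hv => ?_) (Submodule.span_le_restrictScalars K 𝕂 _)
  change v ∈ spanF 𝕂 V at hv
  induction hv using Submodule.span_induction with
  | mem w hw => exact Submodule.subset_span hw
  | zero => exact Submodule.zero_mem _
  | add x y _ _ hx hy => exact Submodule.add_mem _ hx hy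
  | smul c x _ hx =>
    refine RRank_smul_mem hV ?_ hx
    rw [show spanF K W = ⊤ from hW]
    trivial

theorem RRank_le_vero {K : IntermediateField k 𝕂} {y z : 𝕂} {V : Fam k E}
    (hV : Stab (Apol k y z) V) {n : ℕ} (hn : 0 < n) (i : ℤ) :
    spanF K V ≤ spanF K (vero V n i) := by
  refine Submodule.span_le.2 (Set.iUnion_subset fun m v hv => ?_)
  refine mem_spanF (V := vero V n i) (m := |m - i|) (hV.mono_deg ?_ hv)
  have h1 : (1 : ℤ) ≤ n := by exact_mod_cast hn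
  have h2 := le_abs_self (m - i)
  have h3 := abs_nonneg (m - i)
  nlinarith

namespace Surf
variable (S : Surf k 𝕂) {U V : Fam k E}

theorem RRank_full (K : IntermediateField k 𝕂) (h : FiniteDimensional K (spanF K S.R)) :
    Full K S.R := by
  let A : Subalgebra K 𝕂 := (spanF K S.R).toSubalgebra (mem_spanF (m := 0) one_mem_Rg_zero)
    (fun a b ha hb => RRank_smul_mem stab_Rg ha hb)
  have : FiniteDimensional K A := h
  let B : IntermediateField k 𝕂 := (A.restrictScalars k).toIntermediateField fun x hx =>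
    A.inv_mem_of_algebraic (x := ⟨x, hx⟩)
      ((Algebra.IsAlgebraic.isAlgebraic (R := K) (⟨x, hx⟩ : A)).algHom A.val)
  have hB : IntermediateField.adjoin k (S.Γ : Set 𝕂) ≤ B :=
    IntermediateField.adjoin_le_iff.2 fun γ hγ => mem_spanF (𝕃 := K) (mem_Rg_one hγ)
  rw [S.gen] at hB
  exact eq_top_iff.2 fun a _ => hB (IntermediateField.mem_top (x := a))

theorem RRank_full_R : Full k⟮S.y, S.z⟯ S.R :=
  S.RRank_full _ (bdd_adjoin_iff.2 S.bdd).fd_spanF

theorem RRank_fd_dua (D : Dua S.toPreSurf) :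
    FiniteDimensional k⟮D.y, D.z⟯ (spanF k⟮D.y, D.z⟯ S.R) := by
  have := (bdd_adjoin_iff.2 (D.bdd 0)).fd_spanF
  exact Submodule.finiteDimensional_of_le (RRank_le_vero S.lat_R.isLat.stab D.n_pos 0)

theorem RRank_full_dua (D : Dua S.toPreSurf) : Full k⟮D.y, D.z⟯ S.R :=
  S.RRank_full _ (S.RRank_fd_dua D)

/-- Every element of the function field is a quotient of two elements of the same degree. -/
theorem exists_div (a : 𝕂) : ∃ (j : ℕ) (g : 𝕂), g ≠ 0 ∧ g ∈ Apol k S.y S.z j ∧ g * a ∈ S.R j := by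
  have hst : Stab (Apol k (yK k S.y S.z) (zK k S.y S.z)) S.R :=
    stab_adjoin_iff.2 S.lat_R.isLat.stab
  have ha : a ∈ spanF k⟮S.y, S.z⟯ S.R := by
    rw [show spanF k⟮S.y, S.z⟯ S.R = ⊤ from S.RRank_full_R]
    trivial
  obtain ⟨j, l, g, h0, h1, h2⟩ := (ratFn_adjoin S.ind).exists_smul_mem hst ha
  refine ⟨max j l.toNat, g, fun h => h0 (Subtype.ext h), Apol_mono (by omega)
    (mem_Apol_adjoin.1 h1), Rg_mono S.one_mem (by omega) h2⟩

theorem full_R : Full k⟮S.y, S.z⟯ S.R := by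
  exact S.RRank_full_R

theorem finiteDimensional : FiniteDimensional k⟮S.y, S.z⟯ 𝕂 := by
  exact RRank_fd S.full_R (bdd_adjoin_iff.2 S.bdd).fd_spanF

theorem e_eq : S.e = finrank k⟮S.y, S.z⟯ 𝕂 := by
  have h := (isLat_adjoin_iff.2 S.lat_R.isLat).rk_eq (ratFn_adjoin S.ind)
  rw [show spanF k⟮S.y, S.z⟯ S.R = ⊤ from S.full_R, finrank_top] at h
  exact h

theorem one_le_e : 1 ≤ S.e := by
  have := S.finiteDimensional
  rw [S.e_eq]
  exact_mod_cast finrank_pos

theorem spanF_restrictScalars (hV : Stab S.R V) :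
    (spanF 𝕂 V).restrictScalars k⟮S.y, S.z⟯ = spanF k⟮S.y, S.z⟯ V := by
  exact RRank_restrict S.full_R hV

theorem exists_smul_mem (hV : Stab S.R V) {v : E} (hv : v ∈ spanF 𝕂 V) :
    ∃ (j : ℕ) (l : ℤ) (g : 𝕂), g ≠ 0 ∧ g ∈ Apol k S.y S.z j ∧ g • v ∈ V l := by
  have hst : Stab (Apol k (yK k S.y S.z) (zK k S.y S.z)) V :=
    stab_adjoin_iff.2 (hV.of_le S.Apol_le)
  have ha : v ∈ spanF k⟮S.y, S.z⟯ V := by
    rw [← S.spanF_restrictScalars hV]
    exact hv
  obtain ⟨j, l, g, h0, h1, h2⟩ := (ratFn_adjoin S.ind).exists_smul_mem hst ha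
  exact ⟨j, l, g, fun h => h0 (Subtype.ext h), mem_Apol_adjoin.1 h1, h2⟩

theorem spanF_cut (hV : Stab S.R V) (F : Submodule 𝕂 E) : spanF 𝕂 (cut V F) = spanF 𝕂 V ⊓ F := by
  refine le_antisymm (le_inf (spanF_mono fun _ => inf_le_left)
    (Submodule.span_le.2 (Set.iUnion_subset fun m v hv => hv.2))) fun v hv => ?_
  obtain ⟨j, l, g, h0, -, h2⟩ := S.exists_smul_mem hV hv.1
  have := Submodule.smul_mem _ g⁻¹
    (mem_spanF (𝕃 := 𝕂) (V := cut V F) (m := l) ⟨h2, F.smul_mem g hv.2⟩)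
  rwa [inv_smul_smul₀ h0] at this

theorem rk_eq (hV : S.Lat V) : rk V = S.e * finrank 𝕂 (spanF 𝕂 V) := by
  rw [(isLat_adjoin_iff.2 hV.isLat).rk_eq (ratFn_adjoin S.ind), S.e_eq,
    ← S.spanF_restrictScalars hV.stab, ← Nat.cast_mul,
    finrank_mul_finrank k⟮S.y, S.z⟯ 𝕂 (spanF 𝕂 V)]
  rfl

theorem rk_cut (hV : S.Lat V) (hF : Full 𝕂 V) (F : Submodule 𝕂 E) :
    rk (cut V F) = S.e * finrank 𝕂 F := by
  rw [S.rk_eq (hV.cut F), S.spanF_cut hV.stab, show spanF 𝕂 V = ⊤ from hF, top_inf_eq]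

theorem rk_full {ι : Type} [Fintype ι] {V : Fam k (ι → 𝕂)} (hV : S.Lat V) (hF : Full 𝕂 V) :
    rk V = S.e * Fintype.card ι := by
  rw [S.rk_eq hV, show spanF 𝕂 V = ⊤ from hF, finrank_top, finrank_fintype_fun_eq_card]

theorem eq_bot_of_rk_eq_zero (hV : S.Lat V) (h : rk V = 0) : V = ⊥ := by
  exact (isLat_adjoin_iff.2 hV.isLat).eq_bot_of_rk_eq_zero (ratFn_adjoin S.ind) h

/-- A full lattice in `𝕂 ^ ι` contains a diagonal free lattice. -/
theorem exists_piF_le {ι : Type} [Fintype ι] {V : Fam k (ι → 𝕂)} (hV : S.Lat V) (hF : Full 𝕂 V) :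
    ∃ (c : 𝕂) (l : ℤ), c ≠ 0 ∧ piF ι (cyc S.R c l) ≤ V := by
  classical
  have hmono : ∀ {i j : ℤ}, i ≤ j → V i ≤ V j := fun h => hV.isLat.stab.mono_deg h
  have key : ∀ s : Finset ι, ∃ (J l : ℤ) (c : 𝕂), c ≠ 0 ∧ c ∈ S.R J ∧
      ∀ i ∈ s, c • (Pi.single i 1 : ι → 𝕂) ∈ V l := by
    intro s
    induction s using Finset.induction_on with
    | empty => exact ⟨0, 0, 1, one_ne_zero, one_mem_Rg_zero, by simp⟩
    | insert i s _ ih =>
      obtain ⟨J, l, c, h0, h1, h2⟩ := ih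
      obtain ⟨j, l', g, h0', h1', h2'⟩ := S.exists_smul_mem hV.stab
        (v := (Pi.single i 1 : ι → 𝕂)) (by rw [show spanF 𝕂 V = ⊤ from hF]; trivial)
      have hg : g ∈ S.R j := S.Apol_le j h1'
      refine ⟨j + J, max (j + l) (J + l'), g * c, mul_ne_zero h0' h0, mul_mem_Rg hg h1,
        fun i' hi' => ?_⟩
      rcases Finset.mem_insert.1 hi' with rfl | hi'
      · rw [mul_comm, mul_smul]
        exact hmono (le_max_right _ _) (hV.stab _ _ _ _ h1 h2')
      · rw [mul_smul]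
        exact hmono (le_max_left _ _) (hV.stab _ _ _ _ hg (h2 i' hi'))
  obtain ⟨J, l, c, h0, -, h2⟩ := key Finset.univ
  refine ⟨c, l, h0, fun m v hv => ?_⟩
  rw [← Finset.univ_sum_single v]
  refine Submodule.sum_mem _ fun i _ => ?_
  obtain ⟨r, hr, hrv⟩ := mem_cyc.1 (mem_piF.1 hv i)
  have h3 := hV.stab _ _ _ _ hr (h2 i (Finset.mem_univ i))
  rw [sub_add_cancel, smul_smul, ← Pi.single_smul, smul_eq_mul, mul_one] at h3
  rw [← hrv]
  exact h3

theorem full_piF {ι : Type} [Fintype ι] {c : 𝕂} (hc : c ≠ 0) (l : ℤ) :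
    Full 𝕂 (piF ι (cyc S.R c l)) := by
  classical
  refine eq_top_iff.2 fun v _ => ?_
  rw [← Finset.univ_sum_single v]
  refine Submodule.sum_mem _ fun i _ => ?_
  have h1 : (Pi.single i c : ι → 𝕂) ∈ piF ι (cyc S.R c l) l := by
    refine mem_piF.2 fun i' => ?_
    by_cases h : i' = i
    · subst h
      rw [Pi.single_eq_same]
      exact mem_cyc_self one_mem_Rg_zero c l
    · rw [Pi.single_eq_of_ne h]
      exact Submodule.zero_mem _
  have h2 := Submodule.smul_mem _ (v i * c⁻¹) (mem_spanF (𝕃 := 𝕂) h1)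
  rwa [← Pi.single_smul, smul_eq_mul, inv_mul_cancel_right₀ hc] at h2

/-- The same ring, seen through the Veronese over the second polynomial ring. -/
theorem full_vero (D : Dua S.toPreSurf) (hV : Stab S.R V) (hF : Full 𝕂 V) (i : ℤ) :
    Full k⟮D.y, D.z⟯ (vero V D.n i) := by
  refine eq_top_iff.2 (le_trans ?_ (RRank_le_vero (hV.of_le S.Apol_le) D.n_pos i))
  rw [← RRank_restrict (S.RRank_full_dua D) hV, show spanF 𝕂 V = ⊤ from hF]
  exact le_rfl

theorem finiteDimensional_dua (D : Dua S.toPreSurf) : FiniteDimensional k⟮D.y, D.z⟯ 𝕂 := by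
  exact RRank_fd (S.RRank_full_dua D) (S.RRank_fd_dua D)

theorem isLat_vero (D : Dua S.toPreSurf) (hV : S.Lat V) (i : ℤ) :
    IsLat D.y D.z (vero V D.n i) := by
  refine ⟨hV.stab.vero S.one_mem D.y_mem D.z_mem i, ?_⟩
  obtain ⟨s, c, h⟩ := hV.bdd
  refine (Bdd.iSup fun v : s =>
    (D.bdd (i - c)).mapF (LinearMap.toSpanSingleton 𝕂 E v.1)).of_le fun j => ?_
  refine (h (D.n * j + i)).trans ?_
  rw [Noeth.iSup_apply_finset, iSup_apply]
  refine iSup₂_le fun v hv => le_iSup_of_le ⟨v, hv⟩ fun w hw => ?_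
  obtain ⟨r, hr, rfl⟩ := mem_cyc.1 hw
  refine mem_mapF.2 ⟨r, ?_, rfl⟩
  have := S.Apol_le _ hr
  rwa [add_sub_assoc] at this

/-- Conversely, boundedness can be tested on the Veronese pieces. -/
theorem lat_of_vero (D : Dua S.toPreSurf) (hV : Stab S.R V)
    (h : Bdd D.y D.z (vero V D.n 0)) : S.Lat V := by
  refine ⟨hV, ?_⟩
  obtain ⟨s, c, h⟩ := h
  refine (Bdd.iSup fun v : s => S.bdd.cyc v.1 (D.n * c - D.n)).of_le fun m => ?_
  have hn : (0 : ℤ) < D.n := by exact_mod_cast D.n_pos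
  have h1 := Int.mul_ediv_add_emod m D.n
  have h2 := Int.emod_nonneg m hn.ne'
  have h3 := Int.emod_lt_of_pos m hn
  refine ((hV.of_le S.Apol_le).mono_deg (j := D.n * (m / D.n + 1) + 0) (by linarith)).trans ?_
  refine (h (m / D.n + 1)).trans ?_
  rw [Noeth.iSup_apply_finset, iSup_apply]
  refine iSup₂_le fun v hv => le_iSup_of_le ⟨v, hv⟩ fun w hw => ?_
  obtain ⟨r, hr, rfl⟩ := mem_cyc.1 hw
  refine mem_cyc.2 ⟨r, Rg_mono S.one_mem ?_ (Apol_le_Rg S.one_mem D.y_mem D.z_mem _ hr), rfl⟩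
  linarith

end Surf

end Crest.Agent.R169
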