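import Crest.Agent.R169.P2Basic
import Crest.Agent.R169.RRank

/-! # task R169/P2Mod -/

set_option autoImplicit false
open Filter Module IntermediateField

namespace Crest.Agent.R169

/-- Coordinates on a finite-dimensional space with an action of a larger field. -/
theorem P2Mod_coords {K L E : Type} [Field K] [Field L] [Algebra K L] [AddCommGroup E] [Module K E]
    [FiniteDimensional K E] (φ : L →ₐ[K] Module.End K E) :
    ∃ (r : ℕ) (ψ : E ≃ₗ[K] (Fin r → L)), ∀ x v, ψ (φ x v) = x • ψ v := by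
  let _ : Module L E := Module.compHom E φ.toRingHom
  have hs : ∀ (x : L) (v : E), x • v = φ x v := fun _ _ => rfl
  have : IsScalarTower K L E := ⟨fun c x v => by rw [hs, hs, map_smul]; rfl⟩
  have : Module.Finite L E := Module.Finite.of_restrictScalars_finite K L E
  refine ⟨finrank L E, (Module.finBasis L E).equivFun.restrictScalars K, fun x v => ?_⟩
  rw [← hs]
  exact map_smul (Module.finBasis L E).equivFun x v

/-- The polynomial `X ^ e - ∑ c l X ^ l`. -/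
noncomputable def P2Mod_pol {K : Type} [Field K] {e : ℕ} (c : Fin e → K) : Polynomial K :=
  Polynomial.X ^ e - ∑ l, Polynomial.C (c l) * Polynomial.X ^ (l : ℕ)

theorem P2Mod_pol_monic {K : Type} [Field K] {e : ℕ} (c : Fin e → K) : (P2Mod_pol c).Monic :=
  Polynomial.monic_X_pow_sub (Polynomial.degree_sum_fin_lt c)

theorem P2Mod_pol_natDegree {K : Type} [Field K] {e : ℕ} (c : Fin e → K) :
    (P2Mod_pol c).natDegree = e := by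
  refine Polynomial.natDegree_eq_of_degree_eq_some ?_
  rw [P2Mod_pol, Polynomial.degree_sub_eq_left_of_degree_lt, Polynomial.degree_X_pow]
  rw [Polynomial.degree_X_pow]
  exact Polynomial.degree_sum_fin_lt c

theorem P2Mod_pol_aeval {K A : Type} [Field K] [Ring A] [Algebra K A] {e : ℕ} (c : Fin e → K)
    (x : A) : Polynomial.aeval x (P2Mod_pol c) = x ^ e - ∑ l, c l • x ^ (l : ℕ) := by
  simp [P2Mod_pol, Algebra.smul_def]

variable {k 𝕂 : Type} [Field k] [Field 𝕂] [Algebra k 𝕂] {S : Surf k 𝕂} {e D dδ N Sp : ℕ}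
  (τ : PTable S.toPreSurf e D dδ N Sp)

variable (S) in
/-- Evaluation with values in `k(y, z)`. -/
noncomputable def P2Mod_ev (f : MvPolynomial (Fin 3) k) : k⟮S.y, S.z⟯ :=
  MvPolynomial.aeval ![1, yK k S.y S.z, zK k S.y S.z] f

theorem P2Mod_coe_ev (f : MvPolynomial (Fin 3) k) : (P2Mod_ev S f : 𝕂) = S.ev f := by
  have h : (k⟮S.y, S.z⟯).val.comp (MvPolynomial.aeval ![1, yK k S.y S.z, zK k S.y S.z]) = S.ev := by
    refine MvPolynomial.algHom_ext fun i => ?_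
    fin_cases i <;> simp [PreSurf.ev]
  exact congrArg (fun φ : MvPolynomial (Fin 3) k →ₐ[k] 𝕂 => φ f) h

theorem P2Mod_evδ_ne : S.ev τ.δ ≠ 0 := aeval_ne_zero_of_homog S.ind τ.hδ τ.δ_ne

theorem P2Mod_δ_ne : P2Mod_ev S τ.δ ≠ 0 := fun h =>
  P2Mod_evδ_ne τ (by rw [← P2Mod_coe_ev, h]; rfl)

theorem P2Mod_div {w : 𝕂} {a : Fin e → MvPolynomial (Fin 3) k}
    (h : S.ev τ.δ * w = ∑ l, S.ev (a l) * τ.θ ^ (l : ℕ)) :
    w = ∑ l, ((P2Mod_ev S τ.δ)⁻¹ * P2Mod_ev S (a l)) • τ.θ ^ (l : ℕ) := by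
  rw [← inv_mul_cancel_left₀ (P2Mod_evδ_ne τ) w, h, Finset.mul_sum]
  refine Finset.sum_congr rfl fun l _ => ?_
  rw [← P2Mod_coe_ev, ← P2Mod_coe_ev, ← mul_assoc]
  rfl

theorem P2Mod_op {B : Matrix (Fin N) (Fin N) (MvPolynomial (Fin 3) k)} {d : ℤ}
    {a' : Fin e → MvPolynomial (Fin 3) k} {m : Fin e → ℕ} (ha : ∀ l, (a' l).IsHomogeneous (m l))
    (hm : ∀ l : Fin e, d + dδ = D * (l : ℕ) + m l)
    (hB : ∀ i j, (τ.δ • B - ∑ l, a' l • τ.Bθ ^ (l : ℕ)) i j ∈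
      MvPolynomial.idealOfVars (Fin 3) k ^ Sp) {a : ℤ} {v : LM k⟮S.y, S.z⟯ N}
    (hv : v ∈ L0 k⟮S.y, S.z⟯ N a) :
    op (yK k S.y S.z) (zK k S.y S.z) B d v - ∑ l, ((P2Mod_ev S τ.δ)⁻¹ * P2Mod_ev S (a' l)) •
      (op (yK k S.y S.z) (zK k S.y S.z) τ.Bθ D ^ (l : ℕ)) v ∈
        L0 k⟮S.y, S.z⟯ N (a + Sp - (d + dδ)) := by
  have h1 := op_mem_L0 (y := yK k S.y S.z) (z := zK k S.y S.z) _ hB (d + dδ) hv
  have h2 : ∀ l : Fin e, op (yK k S.y S.z) (zK k S.y S.z) (a' l • τ.Bθ ^ (l : ℕ)) (d + dδ) =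
      P2Mod_ev S (a' l) • op (yK k S.y S.z) (zK k S.y S.z) τ.Bθ D ^ (l : ℕ) := fun l => by
    rw [hm l, op_smul _ (ha l), op_pow]
    rfl
  rw [op_sub, op_sum, op_smul _ τ.hδ, Finset.sum_congr rfl fun l _ => h2 l] at h1
  have h3 := Submodule.smul_mem _ (P2Mod_ev S τ.δ)⁻¹ h1
  simp only [LinearMap.sub_apply, LinearMap.smul_apply, LinearMap.sum_apply, smul_sub,
    Finset.smul_sum, smul_smul] at h3
  change ((P2Mod_ev S τ.δ)⁻¹ * P2Mod_ev S τ.δ) • _ - _ ∈ _ at h3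
  rwa [inv_mul_cancel₀ (P2Mod_δ_ne τ), one_smul] at h3

include τ in
theorem PTable.e_pos : 0 < e := by
  refine Nat.pos_of_ne_zero ?_
  rintro rfl
  obtain ⟨-, a', -, h, -⟩ := τ.gen 1 S.one_mem
  exact P2Mod_evδ_ne τ (by simpa using h)

/-- The powers of `θ` form a basis of the function field over `k(y, z)`. -/
theorem PTable.exists_powerBasis : ∃ pb : PowerBasis k⟮S.y, S.z⟯ 𝕂, pb.gen = τ.θ ∧ pb.dim = e := by
  have := S.finiteDimensional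
  have hθ : τ.θ ∈ Algebra.adjoin k⟮S.y, S.z⟯ {τ.θ} := Algebra.self_mem_adjoin_singleton _ _
  have hΓ : ∀ γ ∈ S.Γ, γ ∈ Algebra.adjoin k⟮S.y, S.z⟯ {τ.θ} := fun γ hγ => by
    obtain ⟨-, a', -, h, -⟩ := τ.gen γ hγ
    rw [P2Mod_div τ h]
    exact sum_mem fun l _ => Subalgebra.smul_mem _ (pow_mem hθ _) _
  have hR : ∀ (j : ℕ), ∀ w ∈ Rg k S.Γ j, w ∈ Algebra.adjoin k⟮S.y, S.z⟯ {τ.θ} :=
    Rg_induction (P := fun _ w => w ∈ Algebra.adjoin k⟮S.y, S.z⟯ {τ.θ}) (one_mem _)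
      (fun _ => zero_mem _) (fun _ _ _ => add_mem)
      (fun _ c w hw => by
        rw [← algebraMap_smul k⟮S.y, S.z⟯ c w]
        exact Subalgebra.smul_mem _ hw _)
      (fun _ _ γ hγ hw => mul_mem (hΓ γ hγ) hw)
  have htop : Algebra.adjoin k⟮S.y, S.z⟯ {τ.θ} = ⊤ := by
    have h1 : spanF k⟮S.y, S.z⟯ S.R ≤ (Algebra.adjoin k⟮S.y, S.z⟯ {τ.θ}).toSubmodule := by
      refine Submodule.span_le.2 (Set.iUnion_subset fun m w hw => ?_)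
      exact hR m.toNat w (Rg_mono S.one_mem (Int.self_le_toNat m) hw)
    rw [show spanF k⟮S.y, S.z⟯ S.R = ⊤ from S.full_R] at h1
    exact eq_top_iff.2 fun w _ => h1 Submodule.mem_top
  obtain ⟨pb, hpb⟩ : ∃ pb : PowerBasis k⟮S.y, S.z⟯ 𝕂, pb.gen = τ.θ :=
    ⟨(Algebra.adjoin.powerBasis (Algebra.IsIntegral.isIntegral τ.θ)).map
      ((Subalgebra.equivOfEq _ _ htop).trans Subalgebra.topEquiv), rfl⟩
  refine ⟨pb, hpb, le_antisymm ?_ ?_⟩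
  · refine (pb.dim_le_natDegree_of_root (P2Mod_pol_monic _).ne_zero ?_).trans_eq
      (P2Mod_pol_natDegree fun l => (P2Mod_ev S τ.δ)⁻¹ * P2Mod_ev S (τ.a l))
    rw [P2Mod_pol_aeval, hpb, ← P2Mod_div τ τ.relθ, sub_self]
  · have h1 := τ.he
    rw [S.e_eq, pb.finrank] at h1
    exact_mod_cast h1

/-- The equation of `θ` holds for the operator `Θ` up to high order. -/
theorem PTable.rel_op : ∃ c : Fin e → k⟮S.y, S.z⟯, τ.θ ^ e = ∑ l, c l • τ.θ ^ (l : ℕ) ∧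
    ∀ (a : ℤ), ∀ v ∈ L0 k⟮S.y, S.z⟯ N a,
      (op (yK k S.y S.z) (zK k S.y S.z) τ.Bθ D ^ e) v -
        ∑ l, c l • (op (yK k S.y S.z) (zK k S.y S.z) τ.Bθ D ^ (l : ℕ)) v ∈
          L0 k⟮S.y, S.z⟯ N (a + Sp - (dδ + D * e : ℕ)) := by
  refine ⟨_, P2Mod_div τ τ.relθ, fun a v hv => ?_⟩
  have h := P2Mod_op τ (d := D * e) τ.ha (fun l => by
    rw [Nat.cast_add, Nat.cast_mul, Nat.cast_sub l.2.le]; ring) τ.matθ hv
  rw [op_pow] at h
  rwa [Nat.cast_add, Nat.cast_mul, add_comm (dδ : ℤ)]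

/-- The special fibre `Λ / T Λ` is a vector space over the function field. -/
theorem PTable.exists_fibre {Λ : Submodule k⟮S.y, S.z⟯ (LM k⟮S.y, S.z⟯ N)} {a : ℤ} {w : ℕ}
    (h : Adm Λ a w) (hΘ : ∀ v ∈ Λ, op (yK k S.y S.z) (zK k S.y S.z) τ.Bθ D v ∈ Λ)
    (hS : dδ + D * e + w + 2 ≤ Sp) :
    ∃ (r : ℕ) (π : (LM k⟮S.y, S.z⟯ N ⧸ Tm Λ) →ₗ[k⟮S.y, S.z⟯] (Fin r → 𝕂)),
      (∀ v ∈ Λ, π ((Tm Λ).mkQ v) = 0 → v ∈ Tm Λ) ∧ (∀ u, ∃ v ∈ Λ, π ((Tm Λ).mkQ v) = u) ∧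
      (∀ v ∈ Λ, π ((Tm Λ).mkQ (op (yK k S.y S.z) (zK k S.y S.z) τ.Bθ D v)) =
        τ.θ • π ((Tm Λ).mkQ v)) ∧
      Stab S.R (mapF π (grL k (yK k S.y S.z) (zK k S.y S.z) Λ)) := by
  obtain ⟨pb, hgen, hdim⟩ := τ.exists_powerBasis
  obtain ⟨c, hc, hrel⟩ := τ.rel_op
  set Θ := op (yK k S.y S.z) (zK k S.y S.z) τ.Bθ D with hΘdef
  have hT : Tm Λ ≤ (Tm Λ).comap Θ := by
    rintro _ ⟨u, hu, rfl⟩
    exact ⟨Θ u, hΘ u hu, (op_Tsh _ _ _ _).symm⟩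
  have hpow : ∀ (n : ℕ), ∀ v ∈ Λ, (Θ ^ n) v ∈ Λ := fun n v hv =>
    Module.End.pow_apply_mem_of_forall_mem n hΘ v hv
  have hE : ∀ x ∈ Λ.map (Tm Λ).mkQ, (Tm Λ).mapQ (Tm Λ) Θ hT x ∈ Λ.map (Tm Λ).mkQ := by
    rintro _ ⟨v, hv, rfl⟩
    exact ⟨Θ v, hΘ v hv, rfl⟩
  set ΘE : Module.End k⟮S.y, S.z⟯ (Λ.map (Tm Λ).mkQ) := ((Tm Λ).mapQ (Tm Λ) Θ hT).restrict hE
    with hΘE
  have hΘEpow : ∀ (n : ℕ) (v) (hv : v ∈ Λ),
      ((ΘE ^ n) ⟨(Tm Λ).mkQ v, Submodule.mem_map_of_mem hv⟩ : LM k⟮S.y, S.z⟯ N ⧸ Tm Λ) =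
        (Tm Λ).mkQ ((Θ ^ n) v) := by
    intro n
    induction n with
    | zero => intro v hv; rfl
    | succ n ih => intro v hv; rw [pow_succ, pow_succ]; exact ih (Θ v) (hΘ v hv)
  have hmin : minpoly k⟮S.y, S.z⟯ pb.gen = P2Mod_pol c := by
    refine (Polynomial.eq_of_monic_of_dvd_of_natDegree_le (minpoly.monic pb.isIntegral_gen)
      (P2Mod_pol_monic c) (minpoly.dvd _ _ ?_) ?_).symm
    · rw [P2Mod_pol_aeval, hgen, ← hc, sub_self]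
    · rw [P2Mod_pol_natDegree, pb.natDegree_minpoly, hdim]
  have hroot : Polynomial.aeval ΘE (minpoly k⟮S.y, S.z⟯ pb.gen) = 0 := by
    rw [hmin]
    refine (P2Mod_pol_aeval c ΘE).trans (LinearMap.ext ?_)
    rintro ⟨_, v, hv, rfl⟩
    refine Subtype.ext ?_
    have h1 : (Θ ^ e) v - ∑ l, c l • (Θ ^ (l : ℕ)) v ∈ Tm Λ :=
      h.L0_le_Tm (L0_anti (by omega) (hrel a v (h.hi hv)))
    have h2 := (Submodule.Quotient.mk_eq_zero _).2 h1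
    rw [← Submodule.mkQ_apply, map_sub, map_sum] at h2
    simp only [LinearMap.sub_apply, LinearMap.sum_apply, LinearMap.smul_apply,
      LinearMap.zero_apply, Submodule.coe_sub, Submodule.coe_sum, Submodule.coe_smul,
      Submodule.coe_zero, hΘEpow _ v hv]
    simpa only [map_smul] using h2
  have := h.fd
  obtain ⟨r, ψ, hψ⟩ := P2Mod_coords (pb.lift ΘE hroot)
  obtain ⟨π, hπ⟩ := LinearMap.exists_extend ψ.toLinearMap
  have hπ' : ∀ v (hv : v ∈ Λ), π ((Tm Λ).mkQ v) = ψ ⟨_, Submodule.mem_map_of_mem hv⟩ :=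
    fun v hv => LinearMap.congr_fun hπ ⟨_, Submodule.mem_map_of_mem hv⟩
  have h3 : ∀ v ∈ Λ, π ((Tm Λ).mkQ (Θ v)) = τ.θ • π ((Tm Λ).mkQ v) := fun v hv => by
    rw [hπ' v hv, hπ' _ (hΘ v hv), ← hψ, ← hgen, pb.lift_gen]
    rfl
  have h4 : ∀ (n : ℕ), ∀ v ∈ Λ, π ((Tm Λ).mkQ ((Θ ^ n) v)) = τ.θ ^ n • π ((Tm Λ).mkQ v) := by
    intro n
    induction n with
    | zero => intro v _; rw [pow_zero, pow_zero, one_smul]; rfl
    | succ n ih =>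
      intro v hv
      rw [pow_succ, pow_succ, mul_smul, ← h3 v hv]
      exact ih (Θ v) (hΘ v hv)
  refine ⟨r, π, fun v hv h0 => ?_, fun u => ?_, h3, stab_Rg_iff.2 ?_⟩
  · rw [hπ' v hv, LinearEquiv.map_eq_zero_iff] at h0
    exact (Submodule.Quotient.mk_eq_zero _).1 (congrArg Subtype.val h0)
  · obtain ⟨⟨_, v, hv, rfl⟩, rfl⟩ := ψ.surjective u
    exact ⟨v, hv, hπ' v hv⟩
  · rintro γ hγ m _ ⟨_, ⟨v, ⟨hvM, hv⟩, rfl⟩, rfl⟩
    obtain ⟨B, a', ha', hγe, hB⟩ := τ.gen γ hγ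
    have h5 := P2Mod_op τ (d := 1) ha' (fun l => by
      have h1 : D * l ≤ D * e := Nat.mul_le_mul_left D l.2.le
      have h2 := τ.hD
      rw [Nat.cast_sub (by omega)]
      push_cast
      ring) hB (h.hi hv)
    have h6 := h.L0_le_Tm (L0_anti (by omega) h5)
    have h7 : op (yK k S.y S.z) (zK k S.y S.z) B 1 v ∈ Λ := by
      have := add_mem (h.T h6) (sum_mem fun (l : Fin e) (_ : l ∈ Finset.univ) =>
        Λ.smul_mem ((P2Mod_ev S τ.δ)⁻¹ * P2Mod_ev S (a' l)) (hpow l v hv))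
      rwa [sub_add_cancel] at this
    refine ⟨_, ⟨_, ⟨op_mem_Mz B 1 hvM, h7⟩, rfl⟩, ?_⟩
    have h8 := (Submodule.Quotient.eq _).2 h6
    change π (Submodule.Quotient.mk _) = γ • π ((Tm Λ).mkQ v)
    rw [h8, ← Submodule.mkQ_apply, map_sum, map_sum]
    conv_rhs => rw [P2Mod_div τ hγe, Finset.sum_smul]
    refine Finset.sum_congr rfl fun l _ => ?_
    rw [map_smul, map_smul, h4 _ v hv, smul_assoc]

end Crest.Agent.R169
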