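import Crest.Agent.R169.RRank

/-! # task R169/PInd -/

set_option autoImplicit false
set_option linter.unusedSectionVars false
open Filter Module IntermediateField

namespace Crest.Agent.R169

section aux
variable {𝕂 : Type} [Field 𝕂]

theorem PInd.span_top (φ : 𝕂 →+* 𝕂) {ι : Type} [Fintype ι] (c : ι → 𝕂)
    (hspan : ∀ w : 𝕂, ∃ f : ι → 𝕂, w = ∑ i, c i * φ (f i)) :
    ⊤ ≤ Submodule.span φ.fieldRange (Set.range c) := by
  intro w _
  obtain ⟨f, rfl⟩ := hspan w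
  refine Submodule.sum_mem _ fun i _ => ?_
  have : c i * φ (f i) = (⟨φ (f i), f i, rfl⟩ : φ.fieldRange) • c i := mul_comm _ _
  rw [this]
  exact Submodule.smul_mem _ _ (Submodule.subset_span ⟨i, rfl⟩)

theorem PInd.ind_iff (φ : 𝕂 →+* 𝕂) {ι : Type} [Fintype ι] (c : ι → 𝕂) :
    LinearIndependent φ.fieldRange c ↔ ∀ f : ι → 𝕂, ∑ i, c i * φ (f i) = 0 → f = 0 := by
  rw [Fintype.linearIndependent_iff]
  constructor
  · intro h f hf
    funext i
    have := h (fun i => ⟨φ (f i), f i, rfl⟩)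
      (by rw [← hf]; exact Finset.sum_congr rfl fun i _ => mul_comm _ _) i
    exact (map_eq_zero φ).1 (congrArg Subtype.val this)
  · intro h g hg i
    choose f hf using fun i => RingHom.mem_fieldRange.1 (g i).2
    have h1 := h f (by
      rw [← hg]
      refine Finset.sum_congr rfl fun i _ => ?_
      rw [hf, mul_comm]; rfl)
    apply Subtype.ext
    rw [← hf, h1]; simp

theorem PInd.card_le (φ : 𝕂 →+* 𝕂) (K0 : Subfield 𝕂) [FiniteDimensional K0 𝕂]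
    (hφ : K0.map φ ≤ K0) [FiniteDimensional φ.fieldRange 𝕂] {ι : Type} [Fintype ι] (v : ι → 𝕂)
    (hv : ∀ i, v i ∈ K0)
    (hind : ∀ r : ι → 𝕂, (∀ i, r i ∈ K0) → ∑ i, v i * φ (r i) = 0 → r = 0) :
    Fintype.card ι ≤ finrank φ.fieldRange 𝕂 := by
  have hB : K0.map φ ≤ φ.fieldRange := by
    rintro _ ⟨x, -, rfl⟩; exact ⟨x, rfl⟩
  have h1 := Subfield.relfinrank_mul_finrank_top hφ
  have h2 := Subfield.relfinrank_mul_finrank_top hB
  have h3 : Subfield.relfinrank (K0.map φ) φ.fieldRange = finrank K0 𝕂 := by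
    rw [RingHom.fieldRange_eq_map, Subfield.relfinrank_map_map, Subfield.relfinrank_top_right]
  have h4 : Subfield.relfinrank (K0.map φ) K0 = finrank φ.fieldRange 𝕂 := by
    rw [h3, ← h1, mul_comm] at h2
    exact (Nat.eq_of_mul_eq_mul_right finrank_pos h2).symm
  rw [Subfield.relfinrank_eq_finrank_of_le hφ] at h4
  have : Module.Finite (K0.map φ) (Subfield.extendScalars hφ) :=
    Module.finite_of_finrank_pos (by rw [h4]; exact finrank_pos)
  rw [← h4]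
  refine LinearIndependent.fintype_card_le_finrank
    (b := fun i => (⟨v i, hv i⟩ : Subfield.extendScalars hφ))
    (LinearIndependent.of_comp (Subfield.extendScalars hφ).val.toLinearMap ?_)
  rw [Fintype.linearIndependent_iff]
  intro g hg i
  choose r hr hr' using fun i => Subfield.mem_map.1 (g i).2
  have h5 := hind r hr (by
    rw [← hg]
    refine Finset.sum_congr rfl fun i _ => ?_
    rw [hr', mul_comm]; rfl)
  apply Subtype.ext
  rw [← hr', h5]; simp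

end aux

open MvPolynomial in
theorem PInd.poly_ind {k : Type} [Field k] (p : ℕ) [Fact p.Prime] [CharP k p] (m : ℕ)
    (P : Fin (p ^ m) × Fin (p ^ m) → MvPolynomial (Fin 2) k)
    (h : ∑ i : Fin (p ^ m) × Fin (p ^ m),
      X 0 ^ (i.1 : ℕ) * X 1 ^ (i.2 : ℕ) * P i ^ p ^ m = 0) : P = 0 := by
  classical
  obtain ⟨α, hα⟩ : ∃ α : Fin (p ^ m) × Fin (p ^ m) → Fin 2 →₀ ℕ,
      α = fun i => Finsupp.single 0 (i.1 : ℕ) + Finsupp.single 1 (i.2 : ℕ) := ⟨_, rfl⟩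
  have e : ∀ i : Fin (p ^ m) × Fin (p ^ m), X 0 ^ (i.1 : ℕ) * X 1 ^ (i.2 : ℕ) * P i ^ p ^ m =
      ∑ d ∈ (P i).support, monomial (α i + (p ^ m) • d) (coeff d (P i) ^ p ^ m) := by
    intro i
    conv_lhs => rw [(P i).as_sum, sum_pow_char_pow, Finset.mul_sum]
    refine Finset.sum_congr rfl fun d _ => ?_
    rw [X_pow_eq_monomial, X_pow_eq_monomial, monomial_mul, monomial_pow, monomial_mul, hα]
    simp
  have inj : ∀ i j d d', α i + (p ^ m) • d = α j + (p ^ m) • d' → i = j ∧ d = d' := by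
    intro i j d d' h
    have h0 := DFunLike.congr_fun h 0
    have h1 := DFunLike.congr_fun h 1
    simp only [hα, Finsupp.add_apply, Finsupp.single_eq_same, Finsupp.smul_apply, smul_eq_mul,
      ne_eq, zero_ne_one, one_ne_zero, not_false_eq_true, Finsupp.single_eq_of_ne, add_zero,
      zero_add] at h0 h1
    have key : ∀ (a b : Fin (p ^ m)) (x y : ℕ), (a : ℕ) + p ^ m * x = b + p ^ m * y → a = b := by
      intro a b x y h
      have := congrArg (· % p ^ m) h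
      simp only [Nat.add_mul_mod_self_left, Nat.mod_eq_of_lt a.2, Nat.mod_eq_of_lt b.2] at this
      exact Fin.ext this
    have hij : i = j := Prod.ext (key _ _ _ _ h0) (key _ _ _ _ h1)
    subst hij
    refine ⟨rfl, ?_⟩
    have hq : p ^ m ≠ 0 := pow_ne_zero _ (Fact.out : p.Prime).ne_zero
    exact smul_right_injective _ hq (add_left_cancel h)
  funext i
  ext d
  have h1 := congrArg (coeff (α i + (p ^ m) • d)) h
  simp only [e, coeff_sum, coeff_monomial, coeff_zero] at h1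
  rw [Finset.sum_eq_single i, Finset.sum_eq_single d] at h1
  · rw [if_pos rfl] at h1
    exact pow_eq_zero_iff (pow_ne_zero _ (Fact.out : p.Prime).ne_zero) |>.1 h1
  · intro d' _ hd
    rw [if_neg fun h => hd (inj _ _ _ _ h).2]
  · intro hd
    rw [if_pos rfl, notMem_support_iff.1 hd, zero_pow (pow_ne_zero _ (Fact.out : p.Prime).ne_zero)]
  · intro j _ hj
    exact Finset.sum_eq_zero fun d' _ => if_neg fun h => hj (inj _ _ _ _ h).1
  · simp

variable {k 𝕂 : Type} [Field k] [Field 𝕂] [Algebra k 𝕂] [IsAlgClosed k]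
  (p : ℕ) [Fact p.Prime] [CharP 𝕂 p]

omit [IsAlgClosed k] in
theorem PInd.mon_ind {y z : 𝕂} (hind : AlgebraicIndependent k ![y, z]) (m : ℕ)
    (r : Fin (p ^ m) × Fin (p ^ m) → 𝕂) (hr : ∀ i, r i ∈ k⟮y, z⟯)
    (h : ∑ i : Fin (p ^ m) × Fin (p ^ m), y ^ (i.1 : ℕ) * z ^ (i.2 : ℕ) * r i ^ p ^ m = 0) :
    r = 0 := by
  have : CharP k p := (Algebra.charP_iff k 𝕂 p).2 inferInstance
  obtain ⟨j, g, hg, -, h2⟩ := (ratFn_adjoin hind).exists_denom (fun i => (⟨r i, hr i⟩ : k⟮y, z⟯))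
  choose P _ hP using fun i => mem_Apol_iff.1 (mem_Apol_adjoin.1 (h2 i))
  have hP' : ∀ i, MvPolynomial.aeval ![y, z] (P i) = (g : 𝕂) * r i := hP
  have h3 : P = 0 := by
    apply PInd.poly_ind p m
    apply algebraicIndependent_iff.1 hind
    simp only [map_sum, map_mul, map_pow, MvPolynomial.aeval_X, hP', Matrix.cons_val_zero,
      Matrix.cons_val_one]
    have : ∑ i : Fin (p ^ m) × Fin (p ^ m), y ^ (i.1 : ℕ) * z ^ (i.2 : ℕ) * ((g : 𝕂) * r i) ^ p ^ m =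
        (g : 𝕂) ^ p ^ m *
          ∑ i : Fin (p ^ m) × Fin (p ^ m), y ^ (i.1 : ℕ) * z ^ (i.2 : ℕ) * r i ^ p ^ m := by
      rw [Finset.mul_sum]
      exact Finset.sum_congr rfl fun i _ => by ring
    rw [this, h, mul_zero]
  funext i
  have h4 := hP' i
  rw [h3, Pi.zero_apply, map_zero] at h4
  have hg' : (g : 𝕂) ≠ 0 := fun e => hg (Subtype.ext e)
  exact (mul_eq_zero.1 h4.symm).resolve_left hg'

/-- `[𝕂 : 𝕂 ^ q] ≥ q ^ 2`, so a spanning family of `q ^ 2` elements is independent. -/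
theorem Surf.pind (S : Surf k 𝕂) (m : ℕ) (c : Fin (p ^ m) × Fin (p ^ m) → 𝕂)
    (hspan : ∀ w : 𝕂, ∃ f : Fin (p ^ m) × Fin (p ^ m) → 𝕂, w = ∑ i, c i * f i ^ p ^ m)
    (f : Fin (p ^ m) × Fin (p ^ m) → 𝕂) (hf : ∑ i, c i * f i ^ p ^ m = 0) : f = 0 := by
  have hs := PInd.span_top (iterateFrobenius 𝕂 p m) c hspan
  have : FiniteDimensional (iterateFrobenius 𝕂 p m).fieldRange 𝕂 :=
    ⟨⟨(Set.finite_range c).toFinset, by simpa using hs⟩⟩
  have : FiniteDimensional k⟮S.y, S.z⟯.toSubfield 𝕂 := S.finiteDimensional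
  refine (PInd.ind_iff (iterateFrobenius 𝕂 p m) c).1
    (linearIndependent_of_top_le_span_of_card_le_finrank hs ?_) f hf
  refine PInd.card_le _ k⟮S.y, S.z⟯.toSubfield ?_
    (fun i : Fin (p ^ m) × Fin (p ^ m) => S.y ^ (i.1 : ℕ) * S.z ^ (i.2 : ℕ)) (fun i => ?_)
    fun r hr h => PInd.mon_ind p S.ind m r hr h
  · rintro _ ⟨x, hx, rfl⟩
    exact pow_mem hx _
  · exact mul_mem (pow_mem (yK k S.y S.z).2 _) (pow_mem (zK k S.y S.z).2 _)

/-- The chart ring as a subalgebra. -/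
def PInd.chart (k : Type) [Field k] [Algebra k 𝕂] {Γ : Finset 𝕂} {u u' : 𝕂} (hu : u ∈ Γ)
    (hu' : u' ∈ Γ) : Subalgebra k 𝕂 where
  carrier := loc u u' (Rg k Γ) 0
  mul_mem' ha hb := by simpa using loc_smul hu hu' stab_Rg ha hb
  add_mem' ha hb := loc_add hu hu' stab_Rg ha hb
  algebraMap_mem' c := by
    rw [Algebra.algebraMap_eq_smul_one]
    exact loc_ksmul c (loc_of_mem one_mem_Rg_zero)

omit [IsAlgClosed k] in
theorem PInd.mon_mem (O : Subalgebra k 𝕂) {s t : 𝕂} (hs : s ∈ O) (ht : t ∈ O) (m a b : ℕ)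
    {g : 𝕂} (hg : g ∈ O) : ∃ f : Fin (p ^ m) × Fin (p ^ m) → 𝕂, (∀ i, f i ∈ O) ∧
      s ^ a * t ^ b * g ^ p ^ m = ∑ i, s ^ (i.1 : ℕ) * t ^ (i.2 : ℕ) * f i ^ p ^ m := by
  classical
  have hq : 0 < p ^ m := pow_pos (Fact.out : p.Prime).pos _
  refine ⟨Pi.single (⟨a % p ^ m, Nat.mod_lt _ hq⟩, ⟨b % p ^ m, Nat.mod_lt _ hq⟩)
    (s ^ (a / p ^ m) * t ^ (b / p ^ m) * g), fun i => ?_, ?_⟩
  · rw [Pi.single_apply]
    split_ifs
    · exact mul_mem (mul_mem (pow_mem hs _) (pow_mem ht _)) hg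
    · exact zero_mem _
  · rw [Finset.sum_eq_single (⟨a % p ^ m, Nat.mod_lt _ hq⟩, ⟨b % p ^ m, Nat.mod_lt _ hq⟩)]
    · rw [Pi.single_eq_same]
      conv_lhs => rw [← Nat.div_add_mod a (p ^ m), ← Nat.div_add_mod b (p ^ m)]
      simp only
      generalize a / p ^ m = a1
      generalize b / p ^ m = b1
      generalize a % p ^ m = a0
      generalize b % p ^ m = b0
      generalize p ^ m = q
      ring
    · intro i _ hi
      rw [Pi.single_eq_of_ne hi, zero_pow hq.ne', mul_zero]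
    · simp

/-- The span of the monomials in `s, t` over the `q`-th powers of `O`. -/
def PInd.spanAlg (O : Subalgebra k 𝕂) {s t : 𝕂} (hs : s ∈ O) (ht : t ∈ O) (m : ℕ) :
    Subalgebra k 𝕂 :=
  let T : AddSubmonoid 𝕂 :=
    { carrier := {w | ∃ f : Fin (p ^ m) × Fin (p ^ m) → 𝕂, (∀ i, f i ∈ O) ∧
        w = ∑ i, s ^ (i.1 : ℕ) * t ^ (i.2 : ℕ) * f i ^ p ^ m}
      add_mem' := by
        rintro _ _ ⟨f, hf, rfl⟩ ⟨g, hg, rfl⟩
        refine ⟨f + g, fun i => add_mem (hf i) (hg i), ?_⟩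
        rw [← Finset.sum_add_distrib]
        exact Finset.sum_congr rfl fun i _ => by rw [Pi.add_apply, add_pow_char_pow, mul_add]
      zero_mem' := ⟨0, fun _ => zero_mem _, by simp [(Fact.out : p.Prime).ne_zero]⟩ }
  { carrier := T
    add_mem' := T.add_mem
    mul_mem' := by
      rintro _ _ ⟨f, hf, rfl⟩ ⟨g, hg, rfl⟩
      rw [Finset.sum_mul_sum]
      refine T.sum_mem fun i _ => T.sum_mem fun j _ => ?_
      obtain ⟨F, hF, e⟩ := PInd.mon_mem p O hs ht m (i.1 + j.1) (i.2 + j.2) (mul_mem (hf i) (hg j))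
      exact ⟨F, hF, e ▸ by ring⟩
    algebraMap_mem' := fun c => by
      obtain ⟨c', rfl⟩ := IsAlgClosed.exists_pow_nat_eq c (pow_pos (Fact.out : p.Prime).pos m)
      obtain ⟨F, hF, e⟩ := PInd.mon_mem p O hs ht m 0 0 (O.algebraMap_mem c')
      exact ⟨F, hF, e ▸ by simp⟩ }

theorem PInd.mem_spanAlg (O : Subalgebra k 𝕂) {s t : 𝕂} (hs : s ∈ O) (ht : t ∈ O) (m a b : ℕ)
    {g : 𝕂} (hg : g ∈ O) : s ^ a * t ^ b * g ^ p ^ m ∈ PInd.spanAlg p O hs ht m :=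
  PInd.mon_mem p O hs ht m a b hg

/-- The chart ring is generated over its `q`-th powers by the monomials in the coordinates. -/
theorem LogChart.span {Γ : Finset 𝕂} {n C : ℕ} {u u' : 𝕂} (L : LogChart k Γ n C u u')
    (hu : u ∈ Γ) (hu' : u' ∈ Γ) (h0 : u ≠ 0) (h0' : u' ≠ 0) (hn : ¬ p ∣ n) (m : ℕ) :
    ∀ w ∈ loc u u' (Rg k Γ) 0, ∃ f : Fin (p ^ m) × Fin (p ^ m) → 𝕂,
      (∀ i, f i ∈ loc u u' (Rg k Γ) 0) ∧
        w = ∑ i, L.σ 0 ^ (i.1 : ℕ) * L.σ 1 ^ (i.2 : ℕ) * f i ^ p ^ m := by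
  have hs : L.σ 0 ∈ PInd.chart k hu hu' := L.σ_mem 0
  have ht : L.σ 1 ∈ PInd.chart k hu hu' := L.σ_mem 1
  suffices H : ∀ w ∈ loc u u' (Rg k Γ) 0, w ∈ PInd.spanAlg p _ hs ht m from H
  obtain ⟨T, hT⟩ : ∃ T, T = PInd.spanAlg p _ hs ht m := ⟨_, rfl⟩
  have hmem : ∀ (a b : ℕ) (g : 𝕂), g ∈ PInd.chart k hu hu' →
      L.σ 0 ^ a * L.σ 1 ^ b * g ^ p ^ m ∈ T := fun a b g hg =>
    hT ▸ PInd.mem_spanAlg p _ hs ht m a b hg
  rw [← hT]
  have hpow : ∀ g ∈ PInd.chart k hu hu', g ^ p ^ m ∈ T := fun g hg => by simpa using hmem 0 0 g hg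
  have hσ : ∀ i, L.σ i ∈ T := by
    rw [Fin.forall_fin_two]
    exact ⟨by simpa using hmem 1 0 1 (one_mem _), by simpa using hmem 0 1 1 (one_mem _)⟩
  have hq : 0 < p ^ m := pow_pos (Fact.out : p.Prime).pos _
  have hn0 : 0 < n := Nat.pos_of_ne_zero fun e => hn (e ▸ dvd_zero p)
  have hv : ∀ j, L.v j ∈ T := by
    intro j
    have h1 : L.v j ^ n ∈ T := by
      rw [L.rel]
      exact add_mem (add_mem (T.algebraMap_mem _) (T.smul_mem (pow_mem (hσ 0) _) _))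
        (T.smul_mem (pow_mem (hσ 1) _) _)
    have hc : n.Coprime (p ^ m) :=
      (((Nat.Prime.coprime_iff_not_dvd Fact.out).2 hn).symm).pow_right m
    obtain ⟨t, ht⟩ := (Nat.modEq_iff_dvd' (Nat.one_le_pow _ _ hn0)).1 (Nat.ModEq.pow_totient hc).symm
    obtain ⟨s, hs⟩ : ∃ s, n ^ (p ^ m).totient = n * s :=
      dvd_pow_self n (Nat.totient_pos.2 hq).ne'
    have e : n * s = t * p ^ m + 1 := by
      have := Nat.one_le_pow (p ^ m).totient n hn0
      rw [mul_comm t]; omega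
    have e2 : L.v j = (L.v j ^ n) ^ s * ((L.v j)⁻¹ ^ t) ^ p ^ m := by
      rw [← pow_mul, ← pow_mul, e, pow_succ, inv_pow]
      have := L.v_ne j
      field_simp
    rw [e2]
    exact mul_mem (pow_mem h1 _) (hpow _ (pow_mem (L.vinv_mem j) _))
  have hvi : ∀ j, (L.v j)⁻¹ ∈ T := by
    intro j
    have e2 : (L.v j)⁻¹ = L.v j ^ (p ^ m - 1) * (L.v j)⁻¹ ^ p ^ m := by
      obtain ⟨q, hq'⟩ : ∃ q, p ^ m = q + 1 := ⟨p ^ m - 1, by omega⟩
      rw [hq', Nat.add_sub_cancel, pow_succ, inv_pow]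
      have := L.v_ne j
      field_simp
    rw [e2]
    exact mul_mem (pow_mem (hv j) _) (hpow _ (L.vinv_mem j))
  have hz : ∀ j (l : ℤ), L.v j ^ l ∈ T := by
    intro j l
    cases l with
    | ofNat l => simpa using pow_mem (hv j) l
    | negSucc l => rw [zpow_negSucc, ← inv_pow]; exact pow_mem (hvi j) _
  have hγ : ∀ γ ∈ Γ, γ / u ∈ T := by
    intro γ hγ
    obtain ⟨c, a, l, rfl⟩ := L.mono γ hγ
    rw [mul_div_cancel_left₀ _ h0]
    exact T.smul_mem (mul_mem (prod_mem fun i _ => pow_mem (hσ i) _) (prod_mem fun j _ => hz j _)) _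
  have huu : u / u' ∈ T := by
    obtain ⟨c, l, e⟩ := L.mono'
    have : u / u' = c⁻¹ • ∏ j, L.v j ^ (-l j) := by
      conv_lhs => rw [e]
      rw [div_mul_cancel_left₀ h0, Algebra.smul_def, Algebra.smul_def, mul_inv, map_inv₀,
        ← Finset.prod_inv_distrib]
      simp
    rw [this]
    exact T.smul_mem (prod_mem fun j _ => hz j _) _
  have hR : ∀ (j : ℕ) (r : 𝕂), r ∈ Rg k Γ j → r / u ^ j ∈ T := by
    refine Rg_induction (by simp) (fun j => by simp)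
      (fun j a b ha hb => by rw [add_div]; exact add_mem ha hb)
      (fun j c a ha => by rw [smul_div_assoc]; exact T.smul_mem ha c) fun j a γ hγ' ha => ?_
    rw [pow_succ', mul_div_mul_comm]
    exact mul_mem (hγ γ hγ') ha
  rintro w ⟨M, hM⟩
  have h1 := hR (2 * M) _ (by simpa using hM)
  have e : w = (u * u') ^ M * w / u ^ (2 * M) * (u / u') ^ M := by
    rw [pow_mul, mul_pow, div_pow]
    field_simp
    ring
  rw [e]
  exact mul_mem h1 (pow_mem huu _)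

omit [IsAlgClosed k] in
theorem PInd.div_mem_loc {Γ : Finset 𝕂} {u u' : 𝕂} (hu' : u' ∈ Γ) (h0 : u ≠ 0) {j : ℕ} {r : 𝕂}
    (hr : r ∈ Rg k Γ j) : r / u ^ j ∈ loc u u' (Rg k Γ) 0 := by
  refine ⟨j, ?_⟩
  have h1 := mul_mem_Rg (pow_mem_Rg (mem_Rg_one (k := k) hu') j) hr
  have e1 : (u * u') ^ j • (r / u ^ j) = u' ^ j * r := by
    rw [smul_eq_mul, mul_pow]; field_simp
  have e2 : (0 : ℤ) + 2 * j = j * 1 + j := by ring
  rw [e1, e2]; exact h1

theorem LogChart.span_top (S : Surf k 𝕂) {n C : ℕ} {u u' : 𝕂} (L : LogChart k S.Γ n C u u')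
    (hu : u ∈ S.Γ) (hu' : u' ∈ S.Γ) (h0 : u ≠ 0) (h0' : u' ≠ 0) (hn : ¬ p ∣ n) (m : ℕ) (w : 𝕂) :
    ∃ f : Fin (p ^ m) × Fin (p ^ m) → 𝕂,
      w = ∑ i, L.σ 0 ^ (i.1 : ℕ) * L.σ 1 ^ (i.2 : ℕ) * f i ^ p ^ m := by
  obtain ⟨j, g, hg, h1, h2⟩ := S.exists_div w
  have hG : g / u ^ j ∈ PInd.chart k hu hu' := PInd.div_mem_loc hu' h0 (S.Apol_le j h1)
  have hW : g * w / u ^ j ∈ PInd.chart k hu hu' := PInd.div_mem_loc hu' h0 h2
  obtain ⟨f, -, e⟩ := L.span p hu hu' h0 h0' hn m _ (mul_mem hW (pow_mem hG (p ^ m - 1)))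
  refine ⟨fun i => f i * (g / u ^ j)⁻¹, ?_⟩
  have hq : 0 < p ^ m := pow_pos (Fact.out : p.Prime).pos _
  have hG0 : g / u ^ j ≠ 0 := div_ne_zero hg (pow_ne_zero _ h0)
  have e2 : w = g * w / u ^ j * (g / u ^ j) ^ (p ^ m - 1) * (g / u ^ j)⁻¹ ^ p ^ m := by
    obtain ⟨q, hq'⟩ : ∃ q, p ^ m = q + 1 := ⟨p ^ m - 1, by omega⟩
    rw [hq', Nat.add_sub_cancel, mul_div_right_comm]
    generalize g / u ^ j = G at hG0
    rw [pow_succ, inv_pow]
    field_simp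
  rw [e2, e, Finset.sum_mul]
  exact Finset.sum_congr rfl fun i _ => by ring

theorem exists_pdata (S : Surf k 𝕂) (Cv : Cover k S.Γ) {n C : ℕ} (hn : ¬ p ∣ n)
    (L : ∀ c, LogChart k S.Γ n C (Cv.u c) (Cv.u' c)) : Nonempty (PData k S.Γ p) :=
  ⟨{ Cv with
      σ := fun c => (L c).σ
      σ_mem := fun c => (L c).σ_mem
      span := fun c m => (L c).span p (Cv.u_mem c) (Cv.u'_mem c) (Cv.u_ne c) (Cv.u'_ne c) hn m
      ind := fun c m => S.pind p m _
        ((L c).span_top p S (Cv.u_mem c) (Cv.u'_mem c) (Cv.u_ne c) (Cv.u'_ne c) hn m) }⟩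

end Crest.Agent.R169
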