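import Mathlib

/-! Completely integrally closed domains are closed under `R ↦ R⟦X⟧`. -/

set_option autoImplicit false

namespace Crest.Agent.R169

open PowerSeries

/-- completely integrally closed, in terms of divisibility -/
def PSNormalCIC (R : Type) [CommRing R] : Prop :=
  ∀ a b h : R, b ≠ 0 → h ≠ 0 → (∀ n : ℕ, b ^ n ∣ h * a ^ n) → b ∣ a

theorem psNormal_cic_field (K : Type) [Field K] : PSNormalCIC K :=
  fun _ _ _ hb _ _ => (IsUnit.mk0 _ hb).dvd

theorem psNormal_cic_equiv {R S : Type} [CommRing R] [CommRing S] (e : R ≃+* S)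
    (H : PSNormalCIC S) : PSNormalCIC R := by
  intro a b h hb hh hd
  have := H (e a) (e b) (e h) (by simpa using hb) (by simpa using hh) fun n => by
    simpa using map_dvd e (hd n)
  simpa using map_dvd e.symm this

theorem psNormal_isIntegrallyClosed {R : Type} [CommRing R] [IsDomain R] (H : PSNormalCIC R) :
    IsIntegrallyClosed R := by
  rw [isIntegrallyClosed_iff (FractionRing R)]
  intro x hx
  obtain ⟨r, hr, hr'⟩ := hx.isAlmostIntegral
  obtain ⟨a, b, hb, rfl⟩ := IsFractionRing.div_surjective (A := R) x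
  have hb0 : b ≠ 0 := nonZeroDivisors.ne_zero hb
  have hb' : algebraMap R (FractionRing R) b ≠ 0 := by simpa using hb0
  obtain ⟨c, rfl⟩ := H a b r hb0 (nonZeroDivisors.ne_zero hr) fun n => by
    obtain ⟨y, hy⟩ := hr' n
    refine ⟨y, IsFractionRing.injective R (FractionRing R) ?_⟩
    rw [map_mul, map_mul, map_pow, map_pow, hy, Algebra.smul_def, div_pow]
    field_simp
  exact ⟨c, by rw [map_mul]; field_simp⟩

variable {R : Type} [CommRing R] [IsDomain R]

theorem psNormal_cancel_X {g w : R⟦X⟧} (hg : constantCoeff g ≠ 0) (m : ℕ)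
    (h : g ∣ X ^ m * w) : g ∣ w := by
  obtain ⟨c, hc⟩ := h
  have hX : ¬ (X : R⟦X⟧) ∣ g := by rwa [X_dvd_iff]
  obtain ⟨c', rfl⟩ := X_prime.pow_dvd_of_dvd_mul_left m hX ⟨w, hc.symm⟩
  refine ⟨c', mul_left_cancel₀ (pow_ne_zero m (X_prime (R := R)).ne_zero) ?_⟩
  rw [hc]; ring

omit [IsDomain R] in
theorem psNormal_exists_fac {f : R⟦X⟧} (hf : f ≠ 0) :
    ∃ (k : ℕ) (f' : R⟦X⟧), constantCoeff f' ≠ 0 ∧ f = X ^ k * f' :=
  ⟨_, f.divXPowOrder, by rwa [Ne, constantCoeff_divXPowOrder_eq_zero_iff],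
    X_pow_order_mul_divXPowOrder.symm⟩

theorem psNormal_step (H : PSNormalCIC R) {g h : R⟦X⟧} (hg : constantCoeff g ≠ 0)
    (hh : constantCoeff h ≠ 0) (f : R⟦X⟧) (hf : ∀ n : ℕ, g ^ n ∣ h * f ^ n) :
    ∃ (c : R) (f₁ : R⟦X⟧), f = C c * g + X * f₁ ∧ ∀ n : ℕ, g ^ n ∣ h * f₁ ^ n := by
  obtain ⟨c, hc⟩ := H (constantCoeff f) (constantCoeff g) (constantCoeff h) hg hh fun n => by
    simpa using map_dvd (constantCoeff (R := R)) (hf n)
  obtain ⟨f₁, hf₁⟩ : (X : R⟦X⟧) ∣ f - C c * g := by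
    rw [X_dvd_iff]; simp [hc, mul_comm]
  refine ⟨c, f₁, by rw [← hf₁]; ring, fun n => ?_⟩
  refine psNormal_cancel_X (by simpa using fun h0 => absurd h0 hg) n ?_
  rw [mul_left_comm, ← mul_pow, ← hf₁, sub_eq_add_neg, add_pow, Finset.mul_sum]
  refine Finset.dvd_sum fun i hi => ?_
  have hi' : i ≤ n := Nat.lt_succ_iff.1 (Finset.mem_range.1 hi)
  have h1 : g ^ n = g ^ i * g ^ (n - i) := by rw [← pow_add, Nat.add_sub_cancel' hi']
  rw [h1, ← mul_assoc, ← mul_assoc]
  exact (mul_dvd_mul (hf i) (pow_dvd_pow_of_dvd ((dvd_mul_left g _).neg_right) _)).mul_right _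

theorem psNormal_unit_case (H : PSNormalCIC R) {g h : R⟦X⟧} (hg : constantCoeff g ≠ 0)
    (hh : constantCoeff h ≠ 0) (f : R⟦X⟧) (hf : ∀ n : ℕ, g ^ n ∣ h * f ^ n) : g ∣ f := by
  choose c F hF hP using psNormal_step H hg hh
  let S := {f : R⟦X⟧ // ∀ n : ℕ, g ^ n ∣ h * f ^ n}
  let nx : S → S := fun s => ⟨F s.1 s.2, hP s.1 s.2⟩
  let Q : S → R⟦X⟧ := fun s => mk fun n => c (nx^[n] s).1 (nx^[n] s).2
  have hQ : ∀ s : S, Q s = C (c s.1 s.2) + X * Q (nx s) := by
    intro s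
    ext n
    cases n with
    | zero => simp [Q]
    | succ n => simp [Q, coeff_succ_X_mul]
  have hN : ∀ (N : ℕ) (s : S), (X : R⟦X⟧) ^ N ∣ s.1 - g * Q s := by
    intro N
    induction N with
    | zero => intro s; simp
    | succ N ih =>
      intro s
      have : s.1 - g * Q s = X * ((nx s).1 - g * Q (nx s)) := by
        have h1 : s.1 = C (c s.1 s.2) * g + X * (nx s).1 := hF s.1 s.2
        rw [hQ s]
        linear_combination h1
      rw [this, pow_succ']
      exact mul_dvd_mul_left _ (ih _)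
  refine ⟨Q ⟨f, hf⟩, sub_eq_zero.1 ?_⟩
  ext n
  exact X_pow_dvd_iff.1 (hN (n + 1) ⟨f, hf⟩) n n.lt_succ_self

theorem psNormal_cic_powerSeries (H : PSNormalCIC R) : PSNormalCIC R⟦X⟧ := by
  intro f g h hg hh hd
  rcases eq_or_ne f 0 with rfl | hf
  · exact dvd_zero _
  obtain ⟨k, g', hg', rfl⟩ := psNormal_exists_fac hg
  obtain ⟨l, h', hh', rfl⟩ := psNormal_exists_fac hh
  obtain ⟨j, f', hf', rfl⟩ := psNormal_exists_fac hf
  have hkj : k ≤ j := by
    have h1 : (X : R⟦X⟧) ^ (k * (l + 1)) ∣ (h' * f' ^ (l + 1)) * X ^ (l + j * (l + 1)) := by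
      refine Dvd.dvd.trans ?_ ((hd (l + 1)).trans (dvd_of_eq (by ring)))
      rw [mul_pow, pow_mul]
      exact dvd_mul_right _ _
    have h2 := X_prime.pow_dvd_of_dvd_mul_left _
      (by rw [X_dvd_iff]; simp [hh', hf']) h1
    have h3 := (pow_dvd_pow_iff (X_prime (R := R)).ne_zero (X_prime (R := R)).not_isUnit).1 h2
    by_contra hlt
    have : j + 1 ≤ k := by omega
    nlinarith
  refine mul_dvd_mul (pow_dvd_pow _ hkj) (psNormal_unit_case H hg' hh' f' fun n => ?_)
  refine psNormal_cancel_X (by simpa using fun h0 => absurd h0 hg') (l + j * n) ?_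
  refine Dvd.dvd.trans ?_ ((hd n).trans (dvd_of_eq (by ring)))
  rw [mul_pow]
  exact dvd_mul_left _ _

theorem psNormal_isDomain (n : ℕ) : IsDomain (MvPowerSeries (Fin n) ℂ) :=
  NoZeroDivisors.to_isDomain _

theorem psNormal_cic_mv (n : ℕ) : PSNormalCIC (MvPowerSeries (Fin n) ℂ) := by
  induction n with
  | zero =>
    exact psNormal_cic_equiv (MvPowerSeries.isEmptyEquiv (Fin 0) ℂ).toRingEquiv
      (psNormal_cic_field ℂ)
  | succ n ih =>
    have := psNormal_isDomain n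
    exact psNormal_cic_equiv (MvPowerSeries.finSuccEquiv ℂ n).toRingEquiv
      (psNormal_cic_powerSeries ih)

theorem psNormal_le_ringKrullDim (n : ℕ) :
    (n : WithBot ℕ∞) ≤ ringKrullDim (MvPowerSeries (Fin n) ℂ) := by
  induction n with
  | zero => exact ringKrullDim_nonneg_of_nontrivial
  | succ n ih =>
    rw [ringKrullDim_eq_of_ringEquiv (MvPowerSeries.finSuccEquiv ℂ n).toRingEquiv]
    refine le_trans ?_ ringKrullDim_succ_le_ringKrullDim_powerseries
    push_cast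
    gcongr

theorem psNormal_mem_span {σ K : Type} [Fintype σ] [CommRing K] {f : MvPowerSeries σ K}
    (hf : MvPowerSeries.constantCoeff f = 0) :
    f ∈ Ideal.span (Set.range (MvPowerSeries.X : σ → MvPowerSeries σ K)) := by
  classical
  have hex : ∀ m : σ →₀ ℕ, m ≠ 0 → ∃ i, m i ≠ 0 := fun m hm => by
    by_contra h
    push Not at h
    exact hm (Finsupp.ext h)
  choose ι hι using hex
  let F : σ → MvPowerSeries σ K := fun i m =>
    if h : m ≠ 0 then (if ι m h = i then MvPowerSeries.coeff m f else 0) else 0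
  have hF : ∀ i m, MvPowerSeries.coeff m (F i) =
      if h : m ≠ 0 then (if ι m h = i then MvPowerSeries.coeff m f else 0) else 0 :=
    fun _ _ => rfl
  have hsum : f = ∑ i, F i := by
    ext m
    rw [map_sum]
    simp only [hF]
    by_cases hm : m = 0
    · subst hm; simpa using hf
    · simp [hm]
  rw [hsum]
  refine Ideal.sum_mem _ fun i _ => ?_
  refine Ideal.mem_of_dvd _ (MvPowerSeries.X_dvd_iff.2 fun m hm => ?_)
    (Ideal.subset_span ⟨i, rfl⟩)
  rw [hF]
  split_ifs with h1 h2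
  · exact absurd (h2 ▸ hm) (hι m h1)
  · rfl
  · rfl

end Crest.Agent.R169
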