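import Crest.Agent.R169.Lat
import Crest.Agent.R169.PSNormalAux

/-! # task R169/PSNormal -/

set_option autoImplicit false
open Filter Module IntermediateField

namespace Crest.Agent.R169

theorem isIntegrallyClosed_mvPowerSeries : IsIntegrallyClosed (MvPowerSeries (Fin 3) ℂ) := by
  have := psNormal_isDomain 3
  exact psNormal_isIntegrallyClosed (psNormal_cic_mv 3)

theorem psNormal_mem_maximalIdeal {f : MvPowerSeries (Fin 3) ℂ} :
    f ∈ IsLocalRing.maximalIdeal (MvPowerSeries (Fin 3) ℂ) ↔
      MvPowerSeries.constantCoeff f = 0 := by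
  rw [IsLocalRing.mem_maximalIdeal, mem_nonunits_iff, MvPowerSeries.isUnit_iff_constantCoeff,
    isUnit_iff_ne_zero, not_not]

theorem maximalIdeal_mvPowerSeries : IsLocalRing.maximalIdeal (MvPowerSeries (Fin 3) ℂ) =
    Ideal.span (Set.range MvPowerSeries.X) := by
  apply le_antisymm
  · intro f hf
    exact psNormal_mem_span (psNormal_mem_maximalIdeal.1 hf)
  · rw [Ideal.span_le]
    rintro _ ⟨i, rfl⟩
    exact psNormal_mem_maximalIdeal.2 (MvPowerSeries.constantCoeff_X i)

theorem ringKrullDim_mvPowerSeries : ringKrullDim (MvPowerSeries (Fin 3) ℂ) = 3 := by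
  refine le_antisymm ?_ (psNormal_le_ringKrullDim 3)
  refine (ringKrullDim_le_spanFinrank_maximalIdeal _).trans ?_
  rw [maximalIdeal_mvPowerSeries]
  have h1 := Submodule.spanFinrank_span_le_ncard_of_finite (R := MvPowerSeries (Fin 3) ℂ)
    (Set.finite_range (MvPowerSeries.X : Fin 3 → MvPowerSeries (Fin 3) ℂ))
  have h2 : (Set.range (MvPowerSeries.X : Fin 3 → MvPowerSeries (Fin 3) ℂ)).ncard ≤ 3 := by
    rw [← Set.image_univ]
    exact (Set.ncard_image_le Set.finite_univ).trans (by simp)
  exact_mod_cast h1.trans h2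

theorem isAdicComplete_mvPowerSeries :
    IsAdicComplete (IsLocalRing.maximalIdeal (MvPowerSeries (Fin 3) ℂ)) (MvPowerSeries (Fin 3) ℂ) := by
  rw [maximalIdeal_mvPowerSeries]
  infer_instance

theorem residue_mvPowerSeries :
    Function.Bijective (algebraMap ℂ (IsLocalRing.ResidueField (MvPowerSeries (Fin 3) ℂ))) := by
  refine ⟨RingHom.injective _, fun y => ?_⟩
  obtain ⟨f, rfl⟩ := IsLocalRing.residue_surjective y
  refine ⟨MvPowerSeries.constantCoeff f, ?_⟩
  rw [IsScalarTower.algebraMap_apply ℂ (MvPowerSeries (Fin 3) ℂ),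
    IsLocalRing.ResidueField.algebraMap_eq, ← sub_eq_zero, ← map_sub,
    IsLocalRing.residue_eq_zero_iff, psNormal_mem_maximalIdeal]
  simp [MvPowerSeries.algebraMap_apply]

end Crest.Agent.R169
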