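import Crest.Agent.R169.P2Elem
import Crest.Agent.R169.P2Mod
import Crest.Agent.R169.C0

/-! # From matrices to an almost semistable lattice -/

set_option autoImplicit false
open Filter Module IntermediateField

namespace Crest.Agent.R169

/-- The numerical end of the argument: a terminal lattice has a slope window of radius two. -/
theorem Part2_window {N κ dG dK : ℝ} (hN : 0 < N) (h0 : 0 ≤ κ) (h1 : κ ≤ N)
    (hκ : κ = 0 ∧ dK = 0 ∨ 1 ≤ κ) (hρ : κ = N ∧ dK ≤ dG ∨ κ + 1 ≤ N)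
    (h : -1 ≤ dG - dK - (N - κ) * (dG / N) + (N - κ) * κ / (2 * N)) :
    dK ≤ (dG / N + 2) * κ ∧ (dG / N - 2) * (N - κ) ≤ dG - dK := by
  have e1 : dG = N * (dG / N) := by field_simp
  have b1 : (N - κ) * κ / (2 * N) ≤ κ / 2 := by
    rw [div_le_div_iff₀ (by positivity) (by positivity)]
    nlinarith
  have b2 : (N - κ) * κ / (2 * N) ≤ (N - κ) / 2 := by
    rw [div_le_div_iff₀ (by positivity) (by positivity)]
    nlinarith
  constructor
  · rcases hκ with ⟨rfl, rfl⟩ | hκ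
    · simp
    · nlinarith
  · rcases hρ with ⟨rfl, h2⟩ | hρ
    · simpa using h2
    · nlinarith

/-- From matrices modulo a high power of `𝔪` to an almost semistable lattice with `c ≥ -N/8`. -/
theorem part2 (e D dδ N : ℕ) (hN : 0 < N) : ∃ Sp : ℕ, ∀ (k 𝕂 : Type) [Field k] [Field 𝕂]
    [Algebra k 𝕂] (S : Surf k 𝕂) (_ : PTable S.toPreSurf e D dδ N Sp),
    ∃ (r : ℕ) (G : Fam k (Fin r → 𝕂)), 0 < r ∧ r ≤ N ∧ S.Lat G ∧ Full 𝕂 G ∧ -rk G / 8 ≤ cc G ∧
      Window 𝕂 G (dg G / rk G - 2) (dg G / rk G + 2) := by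
  refine ⟨dδ + D * e + (D * e + (N * (N * (D * e) + 1) ^ 2 + N)) + 2, ?_⟩
  intro k 𝕂 _ _ _ S τ
  have hK : RatFn k (yK k S.y S.z) (zK k S.y S.z) := ratFn_adjoin S.ind
  have hN' : (0 : ℝ) < N := by exact_mod_cast hN
  obtain ⟨c, -, hrel⟩ := τ.rel_op
  obtain ⟨Λ₀, h₀, hΘ₀, hspan⟩ := exists_init (k := k) (y := yK k S.y S.z) (z := zK k S.y S.z)
    (D := D) τ.e_pos (op (yK k S.y S.z) (zK k S.y S.z) τ.Bθ D) (fun v => op_Tsh _ _ _ v)
    (fun a v hv => op_mem_L0' _ _ hv) (fun n v hv => op_mem_Mz _ _ hv) c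
    (fun v hv => L0_anti (by generalize N * (N * (D * e) + 1) ^ 2 = A; generalize D * e = B; omega)
      (hrel 0 v hv))
  obtain ⟨hrk₀, hdg₀, -⟩ := h₀.inv_grL hK
  have hc₀ := cc_le_of_span hK h₀.isLat_grL (D * e) N hN hspan hrk₀ (by
    refine hdg₀.trans (le_of_eq ?_)
    push_cast
    ring)
  obtain ⟨Λ, w, hw, h, hΘ, hterm⟩ := h₀.exists_terminal hK hN _
    (N * (N * (D * e) + 1) ^ 2 + N) hΘ₀ (by push_cast at hc₀ ⊢; linarith)
  obtain ⟨r, π, hinj, hsurj, hθ, hstab⟩ := τ.exists_fibre h hΘ (by omega)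
  obtain ⟨hrk, -, hHP⟩ := h.inv_grL hK
  set G₀ := grL k (yK k S.y S.z) (zK k S.y S.z) Λ with hG₀
  have hmem : ∀ m, ∀ v ∈ G₀ m, ∃ u ∈ Λ, (Tm Λ).mkQ u = v := by
    rintro m v ⟨u, hu, rfl⟩
    exact ⟨u, hu.2, rfl⟩
  have hinj' : ∀ (U : Fam k _), U ≤ G₀ → ∀ m, hf (mapF π U) m = hf U m := by
    intro U hU m
    refine hf_mapF_of_injOn π U m fun v hv h0 => ?_
    obtain ⟨u, hu, rfl⟩ := hmem m v (hU m hv)
    exact (Submodule.Quotient.mk_eq_zero _).2 (hinj u hu h0)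
  have hLat : S.Lat (mapF π G₀) := ⟨hstab, bdd_adjoin_iff.1 (h.isLat_grL.bdd.mapF π)⟩
  have hFull : Full 𝕂 (mapF π G₀) := by
    have h1 : spanF k⟮S.y, S.z⟯ (mapF π G₀) = ⊤ := by
      rw [spanF_mapF, h.spanF_grL hK, eq_top_iff]
      intro u _
      obtain ⟨v, hv, rfl⟩ := hsurj u
      exact ⟨_, ⟨v, hv, rfl⟩, rfl⟩
    rw [← S.spanF_restrictScalars hstab] at h1
    exact (Submodule.restrictScalars_eq_top_iff _ _ _).1 h1
  obtain ⟨e1, e2, e3⟩ := inv_congr (Eventually.of_forall (hinj' G₀ le_rfl))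
  have hr := S.rk_full hLat hFull
  rw [e1, hrk, Fintype.card_fin] at hr
  have he := S.one_le_e
  refine ⟨r, mapF π G₀, ?_, ?_, hLat, hFull, ?_, ?_⟩
  · rcases Nat.eq_zero_or_pos r with h0 | h0
    · rw [h0] at hr
      simp at hr
      omega
    · exact h0
  · have : (r : ℝ) ≤ N := by
      rw [hr]
      nlinarith [Nat.cast_nonneg (α := ℝ) r]
    exact_mod_cast this
  · have : cc (mapF π G₀) = cc G₀ := by simp only [cc, e1, e2, e3]
    rw [this, e1, hrk, cc_eq_HP (by rw [hrk]; exact hN')]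
    exact hHP _
  · intro F
    set Λ' : Submodule k⟮S.y, S.z⟯ (LM k⟮S.y, S.z⟯ N) :=
      Λ ⊓ (F.restrictScalars k⟮S.y, S.z⟯).comap (π ∘ₗ (Tm Λ).mkQ) with hΛ'
    have h1 : Tm Λ ≤ Λ' := fun v hv => ⟨h.T hv, by
      have : (Tm Λ).mkQ v = 0 := (Submodule.Quotient.mk_eq_zero _).2 hv
      change π ((Tm Λ).mkQ v) ∈ F
      rw [this, map_zero]
      exact F.zero_mem⟩
    have h2 : Λ' ≤ Λ := inf_le_left
    have h3 : ∀ v ∈ Λ', op (yK k S.y S.z) (zK k S.y S.z) τ.Bθ D v ∈ Λ' := fun v hv =>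
      ⟨hΘ v hv.1, by
        change π ((Tm Λ).mkQ _) ∈ F
        rw [hθ v hv.1]
        exact F.smul_mem _ hv.2⟩
    have hcut : mapF π (cut G₀ (Λ'.map (Tm Λ).mkQ)) = cut (mapF π G₀) F := by
      funext m
      apply le_antisymm
      · rintro _ ⟨v, ⟨hv, u, hu, rfl⟩, rfl⟩
        exact ⟨⟨_, hv, rfl⟩, hu.2⟩
      · rintro _ ⟨⟨v, hv, rfl⟩, hF⟩
        obtain ⟨u, hu, rfl⟩ := hmem m v hv
        exact ⟨_, ⟨hv, u, ⟨hu, hF⟩, rfl⟩, rfl⟩
    obtain ⟨f1, f2, -⟩ := inv_congr (Eventually.of_forall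
      (hinj' (cut G₀ (Λ'.map (Tm Λ).mkQ)) fun _ => inf_le_left))
    rw [hcut] at f1 f2
    have hcc := hterm Λ' h1 h2 h3
    rw [h.cc_elem hK hN h1 h2, ← hG₀, ← f1, ← f2, ← e2] at hcc
    have hLc := hLat.cut F
    have hmono := inv_mono hLc.good hLat.good fun _ => inf_le_left
    have hrc := S.rk_cut hLat hFull F
    have hfr : finrank 𝕂 F ≤ r := by simpa using Submodule.finrank_le F
    rw [e1, hrk] at hmono ⊢
    refine Part2_window hN' (rk_nonneg _) hmono.1 ?_ ?_ (by linarith)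
    · rcases Nat.eq_zero_or_pos (finrank 𝕂 F) with h0 | h0
      · left
        have : rk (cut (mapF π G₀) F) = 0 := by rw [hrc, h0]; simp
        refine ⟨this, ?_⟩
        rw [S.eq_bot_of_rk_eq_zero hLc this]
        exact inv_bot.2.1
      · right
        have : (1 : ℝ) ≤ finrank 𝕂 F := by exact_mod_cast h0
        rw [hrc]
        nlinarith
    · rcases hfr.eq_or_lt with h0 | h0
      · left
        have : rk (cut (mapF π G₀) F) = N := by rw [hrc, h0, hr]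
        exact ⟨this, (hmono.2 this).1⟩
      · right
        have : (finrank 𝕂 F : ℝ) + 1 ≤ r := by exact_mod_cast h0
        rw [hrc, hr]
        nlinarith

end Crest.Agent.R169
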