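import Mathlib

/-! # The arithmetic core of Petersen's two-factor theorem on five vertices -/

set_option autoImplicit false

namespace Crest.Agent.R169

theorem Petersen_core (a01 a02 a03 a04 a12 a13 a14 a23 a24 a34 r : ℕ)
    (d0 : a01 + a02 + a03 + a04 = 2 * (r + 1)) (d1 : a01 + a12 + a13 + a14 = 2 * (r + 1))
    (d2 : a02 + a12 + a23 + a24 = 2 * (r + 1)) (d3 : a03 + a13 + a23 + a34 = 2 * (r + 1))
    (d4 : a04 + a14 + a24 + a34 = 2 * (r + 1)) :
    ∃ b01 b02 b03 b04 b12 b13 b14 b23 b24 b34 : ℕ,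
      (b01 ≤ a01 ∧ b02 ≤ a02 ∧ b03 ≤ a03 ∧ b04 ≤ a04 ∧ b12 ≤ a12 ∧ b13 ≤ a13 ∧ b14 ≤ a14 ∧
        b23 ≤ a23 ∧ b24 ≤ a24 ∧ b34 ≤ a34) ∧
      b01 + b02 + b03 + b04 = 2 ∧ b01 + b12 + b13 + b14 = 2 ∧ b02 + b12 + b23 + b24 = 2 ∧
      b03 + b13 + b23 + b34 = 2 ∧ b04 + b14 + b24 + b34 = 2 := by
  rcases Nat.lt_or_ge a01 1 with h | h
  · rcases Nat.lt_or_ge a02 1 with h | h
    · rcases Nat.lt_or_ge a12 1 with h | h
      · exfalso; omega
      rcases Nat.lt_or_ge a03 1 with h | h
      · rcases Nat.lt_or_ge a04 2 with h | h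
        · exfalso; omega
        rcases Nat.lt_or_ge a13 1 with h | h
        · exfalso; omega
        rcases Nat.lt_or_ge a23 1 with h | h
        · exfalso; omega
        exact ⟨0, 0, 0, 2, 1, 1, 0, 1, 0, 0, by omega⟩
      rcases Nat.lt_or_ge a04 1 with h | h
      · rcases Nat.lt_or_ge a03 2 with h | h
        · exfalso; omega
        rcases Nat.lt_or_ge a14 1 with h | h
        · exfalso; omega
        rcases Nat.lt_or_ge a24 1 with h | h
        · exfalso; omega
        exact ⟨0, 0, 2, 0, 1, 0, 1, 0, 1, 0, by omega⟩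
      rcases Nat.lt_or_ge a13 1 with h | h
      · rcases Nat.lt_or_ge a14 1 with h | h
        · rcases Nat.lt_or_ge a12 2 with h | h
          · exfalso; omega
          rcases Nat.lt_or_ge a34 1 with h | h
          · exfalso; omega
          exact ⟨0, 0, 1, 1, 2, 0, 0, 0, 0, 1, by omega⟩
        rcases Nat.lt_or_ge a23 1 with h | h
        · rcases Nat.lt_or_ge a03 2 with h | h
          · exfalso; omega
          rcases Nat.lt_or_ge a24 1 with h | h
          · exfalso; omega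
          exact ⟨0, 0, 2, 0, 1, 0, 1, 0, 1, 0, by omega⟩
        exact ⟨0, 0, 1, 1, 1, 0, 1, 1, 0, 0, by omega⟩
      rcases Nat.lt_or_ge a24 1 with h | h
      · rcases Nat.lt_or_ge a23 1 with h | h
        · exfalso; omega
        rcases Nat.lt_or_ge a04 2 with h | h
        · exfalso; omega
        exact ⟨0, 0, 0, 2, 1, 1, 0, 1, 0, 0, by omega⟩
      exact ⟨0, 0, 1, 1, 1, 1, 0, 0, 1, 0, by omega⟩
    rcases Nat.lt_or_ge a13 1 with h | h
    · rcases Nat.lt_or_ge a03 1 with h | h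
      · exfalso; omega
      rcases Nat.lt_or_ge a23 1 with h | h
      · rcases Nat.lt_or_ge a12 1 with h | h
        · exfalso; omega
        rcases Nat.lt_or_ge a14 1 with h | h
        · exfalso; omega
        rcases Nat.lt_or_ge a34 1 with h | h
        · exfalso; omega
        exact ⟨0, 1, 1, 0, 1, 0, 1, 0, 0, 1, by omega⟩
      rcases Nat.lt_or_ge a14 1 with h | h
      · exfalso; omega
      rcases Nat.lt_or_ge a14 2 with h | h
      · exfalso; omega
      exact ⟨0, 1, 1, 0, 0, 0, 2, 1, 0, 0, by omega⟩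
    rcases Nat.lt_or_ge a04 1 with h | h
    · rcases Nat.lt_or_ge a34 1 with h | h
      · rcases Nat.lt_or_ge a03 1 with h | h
        · exfalso; omega
        rcases Nat.lt_or_ge a14 1 with h | h
        · exfalso; omega
        rcases Nat.lt_or_ge a24 1 with h | h
        · exfalso; omega
        exact ⟨0, 1, 1, 0, 0, 1, 1, 0, 1, 0, by omega⟩
      rcases Nat.lt_or_ge a14 1 with h | h
      · exfalso; omega
      rcases Nat.lt_or_ge a02 2 with h | h
      · exfalso; omega
      exact ⟨0, 2, 0, 0, 0, 1, 1, 0, 0, 1, by omega⟩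
    rcases Nat.lt_or_ge a24 1 with h | h
    · rcases Nat.lt_or_ge a12 1 with h | h
      · rcases Nat.lt_or_ge a14 1 with h | h
        · exfalso; omega
        rcases Nat.lt_or_ge a23 1 with h | h
        · exfalso; omega
        exact ⟨0, 1, 0, 1, 0, 1, 1, 1, 0, 0, by omega⟩
      rcases Nat.lt_or_ge a34 1 with h | h
      · rcases Nat.lt_or_ge a23 1 with h | h
        · exfalso; omega
        rcases Nat.lt_or_ge a14 1 with h | h
        · exfalso; omega
        exact ⟨0, 1, 0, 1, 0, 1, 1, 1, 0, 0, by omega⟩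
      exact ⟨0, 1, 0, 1, 1, 1, 0, 0, 0, 1, by omega⟩
    rcases Nat.lt_or_ge a13 2 with h | h
    · rcases Nat.lt_or_ge a12 1 with h | h
      · exfalso; omega
      rcases Nat.lt_or_ge a03 1 with h | h
      · exfalso; omega
      exact ⟨0, 0, 1, 1, 1, 1, 0, 0, 1, 0, by omega⟩
    exact ⟨0, 1, 0, 1, 0, 2, 0, 0, 1, 0, by omega⟩
  rcases Nat.lt_or_ge a23 1 with h | h
  · rcases Nat.lt_or_ge a24 1 with h | h
    · rcases Nat.lt_or_ge a02 1 with h | h
      · exfalso; omega
      rcases Nat.lt_or_ge a34 2 with h | h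
      · exfalso; omega
      rcases Nat.lt_or_ge a12 1 with h | h
      · exfalso; omega
      exact ⟨1, 1, 0, 0, 1, 0, 0, 0, 0, 2, by omega⟩
    rcases Nat.lt_or_ge a03 1 with h | h
    · rcases Nat.lt_or_ge a02 1 with h | h
      · exfalso; omega
      rcases Nat.lt_or_ge a13 1 with h | h
      · exfalso; omega
      rcases Nat.lt_or_ge a34 1 with h | h
      · exfalso; omega
      exact ⟨1, 1, 0, 0, 0, 1, 0, 0, 1, 1, by omega⟩
    rcases Nat.lt_or_ge a13 1 with h | h
    · rcases Nat.lt_or_ge a12 1 with h | h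
      · exfalso; omega
      rcases Nat.lt_or_ge a34 1 with h | h
      · exfalso; omega
      exact ⟨1, 0, 1, 0, 1, 0, 0, 0, 1, 1, by omega⟩
    rcases Nat.lt_or_ge a24 2 with h | h
    · rcases Nat.lt_or_ge a02 1 with h | h
      · exfalso; omega
      rcases Nat.lt_or_ge a34 1 with h | h
      · exfalso; omega
      exact ⟨1, 1, 0, 0, 0, 1, 0, 0, 1, 1, by omega⟩
    exact ⟨1, 0, 1, 0, 0, 1, 0, 0, 2, 0, by omega⟩
  rcases Nat.lt_or_ge a04 1 with h | h
  · rcases Nat.lt_or_ge a24 1 with h | h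
    · rcases Nat.lt_or_ge a02 1 with h | h
      · exfalso; omega
      rcases Nat.lt_or_ge a14 1 with h | h
      · exfalso; omega
      rcases Nat.lt_or_ge a34 1 with h | h
      · exfalso; omega
      exact ⟨1, 1, 0, 0, 0, 0, 1, 1, 0, 1, by omega⟩
    rcases Nat.lt_or_ge a34 1 with h | h
    · rcases Nat.lt_or_ge a03 1 with h | h
      · exfalso; omega
      rcases Nat.lt_or_ge a14 1 with h | h
      · exfalso; omega
      exact ⟨1, 0, 1, 0, 0, 0, 1, 1, 1, 0, by omega⟩
    rcases Nat.lt_or_ge a01 2 with h | h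
    · rcases Nat.lt_or_ge a02 1 with h | h
      · exfalso; omega
      rcases Nat.lt_or_ge a14 1 with h | h
      · exfalso; omega
      exact ⟨1, 1, 0, 0, 0, 0, 1, 1, 0, 1, by omega⟩
    exact ⟨2, 0, 0, 0, 0, 0, 0, 1, 1, 1, by omega⟩
  rcases Nat.lt_or_ge a14 1 with h | h
  · rcases Nat.lt_or_ge a12 1 with h | h
    · rcases Nat.lt_or_ge a24 1 with h | h
      · exfalso; omega
      rcases Nat.lt_or_ge a13 1 with h | h
      · exfalso; omega
      exact ⟨1, 0, 0, 1, 0, 1, 0, 1, 1, 0, by omega⟩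
    rcases Nat.lt_or_ge a34 1 with h | h
    · rcases Nat.lt_or_ge a13 1 with h | h
      · exfalso; omega
      rcases Nat.lt_or_ge a24 1 with h | h
      · exfalso; omega
      exact ⟨1, 0, 0, 1, 0, 1, 0, 1, 1, 0, by omega⟩
    exact ⟨1, 0, 0, 1, 1, 0, 0, 1, 0, 1, by omega⟩
  rcases Nat.lt_or_ge a23 2 with h | h
  · rcases Nat.lt_or_ge a02 1 with h | h
    · rcases Nat.lt_or_ge a12 1 with h | h
      · exfalso; omega
      rcases Nat.lt_or_ge a03 1 with h | h
      · exfalso; omega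
      exact ⟨0, 0, 1, 1, 1, 0, 1, 1, 0, 0, by omega⟩
    rcases Nat.lt_or_ge a13 1 with h | h
    · rcases Nat.lt_or_ge a34 1 with h | h
      · exfalso; omega
      exact ⟨1, 1, 0, 0, 0, 0, 1, 1, 0, 1, by omega⟩
    exact ⟨0, 1, 0, 1, 0, 1, 1, 1, 0, 0, by omega⟩
  exact ⟨1, 0, 0, 1, 0, 0, 1, 2, 0, 0, by omega⟩

end Crest.Agent.R169
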