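import Crest.Agent.R169.Model
import Crest.Agent.R169.LatBasic
import Crest.Agent.R169.HP
import Crest.Agent.R169.PetersenAux

/-! # task R169/Petersen -/

set_option autoImplicit false
open Filter Module IntermediateField

namespace Crest.Agent.R169

theorem Petersen_univ : (Finset.univ : Finset Ed) =
    {s(0, 0), s(1, 1), s(2, 2), s(3, 3), s(4, 4), s(0, 1), s(0, 2), s(0, 3), s(0, 4), s(1, 2),
      s(1, 3), s(1, 4), s(2, 3), s(2, 4), s(3, 4)} := by decide

/-- A statement about all edges and loops is a finite conjunction. -/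
theorem forall_Ed {P : Ed → Prop} : (∀ x, P x) ↔
    (P s(0, 0) ∧ P s(1, 1) ∧ P s(2, 2) ∧ P s(3, 3) ∧ P s(4, 4)) ∧
    P s(0, 1) ∧ P s(0, 2) ∧ P s(0, 3) ∧ P s(0, 4) ∧ P s(1, 2) ∧ P s(1, 3) ∧ P s(1, 4) ∧
      P s(2, 3) ∧ P s(2, 4) ∧ P s(3, 4) := by
  have : (∀ x, P x) ↔ ∀ x ∈ (Finset.univ : Finset Ed), P x := by simp
  rw [this, Petersen_univ]
  simp only [Finset.forall_mem_insert, Finset.mem_singleton, forall_eq, and_assoc]

/-- Explicit expansion of a product over all edges and loops. -/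
theorem prod_Ed {C : Type} [CommMonoid C] (f : Ed → C) : ∏ e, f e =
    (f s(0, 0) * f s(1, 1) * f s(2, 2) * f s(3, 3) * f s(4, 4)) *
    (f s(0, 1) * f s(0, 2) * f s(0, 3) * f s(0, 4) * f s(1, 2) * f s(1, 3) * f s(1, 4) *
      f s(2, 3) * f s(2, 4) * f s(3, 4)) := by
  rw [Petersen_univ]
  iterate 14 rw [Finset.prod_insert (by decide)]
  simp only [Finset.prod_singleton, mul_assoc]

theorem sum_Ed {C : Type} [AddCommMonoid C] (f : Ed → C) : ∑ e, f e =
    (f s(0, 0) + f s(1, 1) + f s(2, 2) + f s(3, 3) + f s(4, 4)) +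
    (f s(0, 1) + f s(0, 2) + f s(0, 3) + f s(0, 4) + f s(1, 2) + f s(1, 3) + f s(1, 4) +
      f s(2, 3) + f s(2, 4) + f s(3, 4)) := by
  rw [Petersen_univ]
  iterate 14 rw [Finset.sum_insert (by decide)]
  simp only [Finset.sum_singleton, add_assoc]

/-- Explicit expansion of the five degrees. -/
theorem deg_expand {C : Type} [AddCommMonoid C] (f : Ed → C) :
    deg f 0 = f s(0, 0) + f s(0, 1) + f s(0, 2) + f s(0, 3) + f s(0, 4) ∧
    deg f 1 = f s(0, 1) + f s(1, 1) + f s(1, 2) + f s(1, 3) + f s(1, 4) ∧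
    deg f 2 = f s(0, 2) + f s(1, 2) + f s(2, 2) + f s(2, 3) + f s(2, 4) ∧
    deg f 3 = f s(0, 3) + f s(1, 3) + f s(2, 3) + f s(3, 3) + f s(3, 4) ∧
    deg f 4 = f s(0, 4) + f s(1, 4) + f s(2, 4) + f s(3, 4) + f s(4, 4) := by
  simp only [deg, Fin.sum_univ_five]
  refine ⟨trivial, ?_, ?_, ?_, ?_⟩
  · rw [Sym2.eq_swap (a := 1) (b := 0)]
  · rw [Sym2.eq_swap (a := 2) (b := 0), Sym2.eq_swap (a := 2) (b := 1)]
  · rw [Sym2.eq_swap (a := 3) (b := 0), Sym2.eq_swap (a := 3) (b := 1),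
      Sym2.eq_swap (a := 3) (b := 2)]
  · rw [Sym2.eq_swap (a := 4) (b := 0), Sym2.eq_swap (a := 4) (b := 1),
      Sym2.eq_swap (a := 4) (b := 2), Sym2.eq_swap (a := 4) (b := 3)]

theorem deg_add {C : Type} [AddCommMonoid C] (e f : Ed → C) (i : Fin 5) :
    deg (e + f) i = deg e i + deg f i := by
  simp [deg, Finset.sum_add_distrib]

theorem Reg.add {e f : Ed → ℕ} {i j : ℕ} (he : Reg e i) (hf : Reg f j) : Reg (e + f) (i + j) :=
  ⟨fun a => by simp [he.diag a, hf.diag a], fun a => by rw [deg_add, he.deg, hf.deg]; ring⟩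

theorem Reg.eq_zero {e : Ed → ℕ} (he : Reg e 0) : e = 0 := by
  funext x
  induction x using Sym2.ind with
  | h a b =>
    have h1 := he.deg a
    have h2 : e s(a, b) ≤ Crest.Agent.R169.deg e a :=
      Finset.single_le_sum (f := fun j => e s(a, j)) (fun _ _ => Nat.zero_le _) (Finset.mem_univ b)
    change e s(a, b) = 0
    omega

theorem reg_zero : Reg 0 0 := ⟨fun _ => rfl, fun _ => by simp [deg]⟩

/-- The multigraph with prescribed multiplicities. -/
def Petersen_tab (b01 b02 b03 b04 b12 b13 b14 b23 b24 b34 : ℕ) : Ed → ℕ :=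
  Sym2.lift ⟨fun i j => ![![0, b01, b02, b03, b04], ![b01, 0, b12, b13, b14],
    ![b02, b12, 0, b23, b24], ![b03, b13, b23, 0, b34], ![b04, b14, b24, b34, 0]] i j,
    fun i j => by fin_cases i <;> fin_cases j <;> rfl⟩

/-- Petersen's two-factor theorem for multigraphs on five vertices. -/
theorem petersen {e : Ed → ℕ} {j : ℕ} (h : Reg e (j + 1)) :
    ∃ (γ : Gen) (e' : Ed → ℕ), Reg e' j ∧ e = γ.1 + e' := by
  obtain ⟨d0, d1, d2, d3, d4⟩ := deg_expand e
  rw [h.deg, h.diag] at d0 d1 d2 d3 d4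
  obtain ⟨b01, b02, b03, b04, b12, b13, b14, b23, b24, b34, hle, c0, c1, c2, c3, c4⟩ :=
    Petersen_core (e s(0, 1)) (e s(0, 2)) (e s(0, 3)) (e s(0, 4)) (e s(1, 2)) (e s(1, 3))
      (e s(1, 4)) (e s(2, 3)) (e s(2, 4)) (e s(3, 4)) j (by omega) (by omega) (by omega)
      (by omega) (by omega)
  set γ := Petersen_tab b01 b02 b03 b04 b12 b13 b14 b23 b24 b34 with hγ
  have hreg : Reg γ 1 := by
    refine ⟨fun i => by fin_cases i <;> rfl, fun i => ?_⟩
    obtain ⟨g0, g1, g2, g3, g4⟩ := deg_expand γ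
    fin_cases i
    · exact g0.trans (show 0 + b01 + b02 + b03 + b04 = 2 * 1 by omega)
    · exact g1.trans (show b01 + 0 + b12 + b13 + b14 = 2 * 1 by omega)
    · exact g2.trans (show b02 + b12 + 0 + b23 + b24 = 2 * 1 by omega)
    · exact g3.trans (show b03 + b13 + b23 + 0 + b34 = 2 * 1 by omega)
    · exact g4.trans (show b04 + b14 + b24 + b34 + 0 = 2 * 1 by omega)
  have hle' : ∀ x, γ x ≤ e x := forall_Ed.2
    ⟨⟨Nat.zero_le _, Nat.zero_le _, Nat.zero_le _, Nat.zero_le _, Nat.zero_le _⟩, hle⟩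
  have he : e = γ + (e - γ) := funext fun x => by
    have := hle' x
    simp only [Pi.add_apply, Pi.sub_apply]
    omega
  refine ⟨⟨γ, hreg⟩, e - γ, ⟨fun i => by simp [h.diag i], fun i => ?_⟩, he⟩
  have h1 := h.deg i
  rw [he, deg_add, hreg.deg] at h1
  omega

/-- Relabelling of the edges. -/
def edPerm (π : Equiv.Perm (Fin 5)) : Ed ≃ Ed where
  toFun := Sym2.map π
  invFun := Sym2.map π.symm
  left_inv := fun x => by simp [Sym2.map_map]
  right_inv := fun x => by simp [Sym2.map_map]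

theorem deg_perm {C : Type} [AddCommMonoid C] (e : Ed → C) (π : Equiv.Perm (Fin 5)) (i : Fin 5) :
    deg (fun x => e (x.map π)) i = deg e (π i) := by
  simp only [deg, Sym2.map_mk]
  exact Equiv.sum_comp π fun j => e s(π i, j)

theorem Reg.perm {e : Ed → ℕ} {j : ℕ} (h : Reg e j) (π : Equiv.Perm (Fin 5)) :
    Reg (fun x => e (x.map π)) j :=
  ⟨fun i => h.diag (π i), fun i => by rw [deg_perm, h.deg]⟩

theorem mon_perm {C : Type} [CommMonoid C] (w : Ed → C) (e : Ed → ℕ) (π : Equiv.Perm (Fin 5)) :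
    mon (fun x => w (x.map π)) (fun x => e (x.map π)) = mon w e :=
  Equiv.prod_comp (edPerm π) fun x => w x ^ e x

theorem zmon_perm {C : Type} [Field C] (w : Ed → C) (e : Ed → ℤ) (π : Equiv.Perm (Fin 5)) :
    zmon (fun x => w (x.map π)) (fun x => e (x.map π)) = zmon w e :=
  Equiv.prod_comp (edPerm π) fun x => w x ^ e x

section fam
variable {k : Type} [Field k] {𝕃 : Type} [Field 𝕃] [Algebra k 𝕃] {n : ℕ} {w : Ed → 𝕃} {x : 𝕃}

theorem Rg_Gam (j : ℕ) :
    Rg k (Gam w x) j = Submodule.span k {a | ∃ e, Reg e j ∧ a = mon w e / x ^ j} := by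
  induction j with
  | zero =>
    rw [Nat.cast_zero, Rg_zero]
    congr 1
    ext a
    constructor
    · rintro rfl
      exact ⟨0, reg_zero, by simp [mon]⟩
    · rintro ⟨e, he, rfl⟩
      simp [he.eq_zero, mon]
  | succ j ih =>
    rw [Rg_nat] at ih ⊢
    rw [pow_succ', ih, Submodule.span_mul_span]
    congr 1
    ext a
    constructor
    · rintro ⟨b, hb, c, ⟨e, he, rfl⟩, rfl⟩
      obtain ⟨γ, rfl⟩ := mem_Gam.1 hb
      refine ⟨γ.1 + e, add_comm 1 j ▸ γ.2.add he, ?_⟩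
      simp only
      rw [mon_add, div_mul_div_comm, pow_succ']
    · rintro ⟨e, he, rfl⟩
      obtain ⟨γ, e', he', rfl⟩ := petersen he
      refine ⟨_, mem_Gam.2 ⟨γ, rfl⟩, _, ⟨e', he', rfl⟩, ?_⟩
      simp only
      rw [mon_add, div_mul_div_comm, pow_succ']

theorem mon_div_mem_Rg {e : Ed → ℕ} {j : ℕ} (h : Reg e j) : mon w e / x ^ j ∈ Rg k (Gam w x) j := by
  rw [Rg_Gam]
  exact Submodule.subset_span ⟨e, h, rfl⟩

theorem Petersen_Gam_perm (π : Equiv.Perm (Fin 5)) :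
    Gam (fun e => w (e.map π)) x = Gam w x := by
  ext a
  rw [mem_Gam, mem_Gam]
  constructor
  · rintro ⟨γ, rfl⟩
    refine ⟨⟨_, γ.2.perm π.symm⟩, ?_⟩
    rw [← mon_perm w _ π]
    simp [Sym2.map_map]
  · rintro ⟨γ, rfl⟩
    exact ⟨⟨_, γ.2.perm π⟩, by rw [← mon_perm w γ.1 π]⟩

theorem cu_mem (π : Equiv.Perm (Fin 5)) : cu w x π ∈ Gam w x := by
  rw [← Petersen_Gam_perm π]
  refine mem_Gam.2 ⟨⟨ofList [s(4, 0), s(0, 2), s(2, 1), s(1, 3), s(3, 4)],
    ⟨by decide, by decide⟩⟩, ?_⟩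
  simp [mon_ofList, cu, mul_assoc]

theorem cu'_mem (π : Equiv.Perm (Fin 5)) : cu' w x π ∈ Gam w x := by
  rw [← Petersen_Gam_perm π]
  refine mem_Gam.2 ⟨⟨ofList [s(4, 1), s(1, 3), s(3, 0), s(0, 2), s(2, 4)],
    ⟨by decide, by decide⟩⟩, ?_⟩
  simp [mon_ofList, cu', mul_assoc]

theorem SymFam.cu_ne (h : SymFam k n w) (hx : x ≠ 0) (π : Equiv.Perm (Fin 5)) : cu w x π ≠ 0 := by
  simp [cu, h.ne, hx]

theorem SymFam.cu'_ne (h : SymFam k n w) (hx : x ≠ 0) (π : Equiv.Perm (Fin 5)) :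
    cu' w x π ≠ 0 := by
  simp [cu', h.ne, hx]

/-- Relabelling the vertices. -/
theorem SymFam.perm (h : SymFam k n w) (π : Equiv.Perm (Fin 5)) :
    SymFam k n fun e => w (e.map π) :=
  ⟨fun _ => h.ne _, fun i => h.diag (π i), fun a b c d h1 h2 h3 h4 h5 h6 =>
    h.pl (π a) (π b) (π c) (π d) (π.injective.ne h1) (π.injective.ne h2) (π.injective.ne h3)
      (π.injective.ne h4) (π.injective.ne h5) (π.injective.ne h6)⟩

theorem Gam_perm (π : Equiv.Perm (Fin 5)) : Gam (fun e => w (e.map π)) x = Gam w x :=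
  Petersen_Gam_perm π

theorem Petersen_loc_one (hw : ∀ e, w e ≠ 0) (hx : x ≠ 0)
    {e : Ed → ℤ} {m : ℤ} (hd : ∀ i, e s(i, i) = 0) (he : ∀ i, deg e i = 2 * m)
    (h1 : 0 ≤ e s(0, 1)) (h2 : 0 ≤ e s(2, 3)) :
    zmon w e / x ^ m ∈ loc (cu w x 1) (cu' w x 1) (Rg k (Gam w x)) m := by
  set c : Ed → ℕ := ofList [s(4, 0), s(0, 2), s(2, 1), s(1, 3), s(3, 4),
    s(4, 1), s(1, 3), s(3, 0), s(0, 2), s(2, 4)] with hc
  have hcreg : Reg c 2 := ⟨by decide, by decide⟩
  have hcu : cu w x 1 * cu' w x 1 = mon w c / x ^ 2 := by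
    rw [hc, mon_ofList, cu, cu', div_mul_div_comm, sq]
    simp [mul_assoc]
  have hcase : ∀ y : Ed, (y = s(0, 1) ∨ y = s(2, 3) ∨ ∃ i, y = s(i, i)) ∨ 1 ≤ c y := by decide
  clear_value c
  obtain ⟨M, hM⟩ : ∃ M : ℕ, ∀ y, (e y).natAbs ≤ M :=
    ⟨∑ y, (e y).natAbs, fun y => Finset.single_le_sum (f := fun y => (e y).natAbs)
      (fun _ _ => Nat.zero_le _) (Finset.mem_univ y)⟩
  have hpos : ∀ y, 0 ≤ e y + M * c y := by
    intro y
    rcases hcase y with h | h
    · have : 0 ≤ e y := by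
        rcases h with rfl | rfl | ⟨i, rfl⟩
        · exact h1
        · exact h2
        · exact (hd i).ge
      positivity
    · have h3 := hM y
      have h4 : (M : ℤ) * 1 ≤ M * c y :=
        mul_le_mul_of_nonneg_left (by exact_mod_cast h) (Int.natCast_nonneg M)
      omega
  obtain ⟨f, hfc⟩ : ∃ f : Ed → ℕ, ∀ y, (f y : ℤ) = e y + M * c y :=
    ⟨fun y => (e y + M * c y).toNat, fun y => Int.toNat_of_nonneg (hpos y)⟩
  have hdeg : ∀ i, ((deg f i : ℕ) : ℤ) = 2 * (m + 2 * M) := by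
    intro i
    have h3 := he i
    have h4 : ((deg c i : ℕ) : ℤ) = 4 := by rw [hcreg.deg]; rfl
    simp only [deg, Nat.cast_sum] at h3 h4 ⊢
    simp only [hfc, Finset.sum_add_distrib, ← Finset.mul_sum, h3, h4]
    ring
  obtain ⟨j, hj⟩ : ∃ j : ℕ, m + 2 * M = j := ⟨(m + 2 * M).toNat, by
    have := hdeg 0
    omega⟩
  have hfreg : Reg f j := ⟨fun i => by
    have := hfc s(i, i)
    rw [hd i, hcreg.diag i] at this
    omega, fun i => by
    have := hdeg i
    omega⟩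
  refine ⟨M, ?_⟩
  have e1 : mon w f = zmon w e * mon w c ^ M := by
    rw [mon, zmon, mon, ← Finset.prod_pow, ← Finset.prod_mul_distrib]
    refine Finset.prod_congr rfl fun y _ => ?_
    rw [← zpow_natCast, hfc, zpow_add₀ (hw y), ← pow_mul, ← zpow_natCast, mul_comm (c y)]
    norm_cast
  have e2 : x ^ j = x ^ m * (x ^ 2) ^ M := by
    rw [← zpow_natCast, ← hj, zpow_add₀ hx, ← pow_mul, ← zpow_natCast]
    norm_cast
  have e3 : (cu w x 1 * cu' w x 1) ^ M • (zmon w e / x ^ m) = mon w f / x ^ j := by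
    rw [hcu, e1, e2, smul_eq_mul, div_pow, div_mul_div_comm]
    congr 1 <;> exact mul_comm _ _
  rw [e3, hj]
  exact mon_div_mem_Rg hfreg

/-- Laurent monomials without poles along the two edges of a chart are regular on the chart. -/
theorem SymFam.zmon_mem_loc (h : SymFam k n w) (hx : x ≠ 0) (π : Equiv.Perm (Fin 5))
    {e : Ed → ℤ} {m : ℤ} (hd : ∀ i, e s(i, i) = 0) (he : ∀ i, deg e i = 2 * m)
    (h1 : 0 ≤ e s(π 0, π 1)) (h2 : 0 ≤ e s(π 2, π 3)) :
    zmon w e / x ^ m ∈ loc (cu w x π) (cu' w x π) (Rg k (Gam w x)) m := by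
  have := Petersen_loc_one (k := k) (w := fun y => w (y.map π)) (fun _ => h.ne _) hx
    (e := fun y => e (y.map π)) (m := m) (fun i => hd (π i)) (fun i => by rw [deg_perm, he]) h1 h2
  rw [zmon_perm, Gam_perm] at this
  exact this

end fam

end Crest.Agent.R169
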