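import Crest.Agent.R169.FrobPre

/-! # task R169/PrimeScale -/

set_option autoImplicit false
open Filter Module IntermediateField

namespace Crest.Agent.R169

variable {k 𝕂 : Type} [Field k] [Field 𝕂] [Algebra k 𝕂] [IsAlgClosed k] {S : PreSurf k 𝕂}
  {p : ℕ} [Fact p.Prime] [CharP 𝕂 p]

namespace PrimeScale

section psi
variable {ι : Type} [Fintype ι]

variable (p) in
/-- `w ↦ ∑ c i * w i ^ q`. -/
def psi (m : ℕ) (c : ι → 𝕂) : (ι → 𝕂) →+ 𝕂 where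
  toFun w := ∑ i, c i * w i ^ p ^ m
  map_zero' := by simp [(Fact.out : p.Prime).ne_zero]
  map_add' v w := by simp [add_pow_char_pow, mul_add, Finset.sum_add_distrib]

variable {m : ℕ} {c : ι → 𝕂}

theorem psi_apply (w : ι → 𝕂) : psi p m c w = ∑ i, c i * w i ^ p ^ m := rfl

theorem psi_smul (a : 𝕂) (w : ι → 𝕂) : psi p m c (a • w) = a ^ p ^ m * psi p m c w := by
  simp only [psi_apply, Pi.smul_apply, smul_eq_mul, mul_pow, Finset.mul_sum]
  exact Finset.sum_congr rfl fun i _ => by ring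

omit [IsAlgClosed k] in
theorem psi_ksmul (a : k) (w : ι → 𝕂) : psi p m c (a • w) = a ^ p ^ m • psi p m c w := by
  rw [← algebraMap_smul 𝕂 a w, psi_smul, ← map_pow, Algebra.smul_def]

variable (p m c) in
/-- The preimage of the Veronese of `T` under `psi`. -/
def pb (T : Fam k 𝕂) : Fam k (ι → 𝕂) := fun l =>
  { carrier := {w | psi p m c w ∈ T ((p ^ m : ℕ) * l)}
    add_mem' := fun {a b} ha hb => by
      rw [Set.mem_ofPred_eq, map_add]; exact Submodule.add_mem _ ha hb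
    zero_mem' := by
      rw [Set.mem_ofPred_eq, map_zero]; exact Submodule.zero_mem _
    smul_mem' := fun a w hw => by
      rw [Set.mem_ofPred_eq, psi_ksmul]; exact Submodule.smul_mem _ _ hw }

omit [IsAlgClosed k] in
theorem mem_pb {T : Fam k 𝕂} {l : ℤ} {w : ι → 𝕂} :
    w ∈ pb p m c T l ↔ psi p m c w ∈ T ((p ^ m : ℕ) * l) := Iff.rfl

omit [IsAlgClosed k] in
theorem stab_pb {T : Fam k 𝕂} (hT : Stab S.R T) : Stab S.R (pb p m c T) := by
  intro i j r w hr hw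
  rw [mem_pb, psi_smul, mul_add]
  exact hT _ _ _ _ (pow_mem_Rg hr _) hw

theorem hf_pb (hc : Function.Injective (psi p m c)) {T : Fam k 𝕂} {l : ℤ}
    (h : ∀ w ∈ T ((p ^ m : ℕ) * l), ∃ ξ, psi p m c ξ = w) :
    hf (pb p m c T) l = hf T ((p ^ m : ℕ) * l) := by
  have : CharP k p := (algebraMap k 𝕂).charP (algebraMap k 𝕂).injective p
  let j : pb p m c T l →+ T ((p ^ m : ℕ) * l) :=
    { toFun := fun w => ⟨psi p m c w.1, w.2⟩
      map_zero' := Subtype.ext (map_zero _)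
      map_add' := fun a b => Subtype.ext (map_add _ _ _) }
  have hj : Function.Bijective j := ⟨fun a b hab => Subtype.ext (hc (congrArg Subtype.val hab)),
    fun w => by
      obtain ⟨ξ, hξ⟩ := h w.1 w.2
      exact ⟨⟨ξ, by rw [mem_pb, hξ]; exact w.2⟩, Subtype.ext hξ⟩⟩
  have := rank_eq_of_equiv_equiv (fun a : k => a ^ p ^ m) (AddEquiv.ofBijective j hj)
    ⟨(iterateFrobenius k p m).injective,
      fun a => IsAlgClosed.exists_pow_nat_eq a (pow_pos (Fact.out : p.Prime).pos m)⟩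
    fun a w => Subtype.ext (psi_ksmul a w.1)
  simp only [hf, finrank, this]

omit [IsAlgClosed k] [Fact p.Prime] [CharP 𝕂 p] in
theorem prod_mem_Rg {Γ : Finset 𝕂} (s : Finset Γ) (d : Γ → ℕ) :
    ∏ γ ∈ s, (γ : 𝕂) ^ d γ ∈ Rg k Γ ((∑ γ ∈ s, d γ : ℕ) : ℤ) := by
  classical
  induction s using Finset.induction_on with
  | empty => simpa using one_mem_Rg_zero
  | insert a s ha ih =>
    rw [Finset.prod_insert ha, Finset.sum_insert ha, Nat.cast_add]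
    exact mul_mem_Rg (by simpa using pow_mem_Rg (mem_Rg_one (k := k) a.2) (d a)) ih

/-- The ring is finite over its `q`-th powers. -/
theorem bdd_pb (hc : Function.Injective (psi p m c))
    (h : ∀ l : ℤ, ∀ w ∈ S.R ((p ^ m : ℕ) * l), ∃ ξ, psi p m c ξ = w) :
    Bdd S.y S.z (pb p m c S.R) := by
  classical
  have hq : 0 < p ^ m := pow_pos (Fact.out : p.Prime).pos m
  have h1 : ∀ e : S.Γ → Fin (p ^ m), ∃ (ξ : ι → 𝕂) (a : ℕ),
      p ^ m ∣ ∑ γ, (e γ : ℕ) → p ^ m * a = ∑ γ, (e γ : ℕ) ∧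
        psi p m c ξ = ∏ γ : S.Γ, (γ : 𝕂) ^ (e γ : ℕ) := by
    intro e
    by_cases he : p ^ m ∣ ∑ γ, (e γ : ℕ)
    · obtain ⟨a, ha⟩ := he
      have := prod_mem_Rg (k := k) Finset.univ fun γ => (e γ : ℕ)
      rw [ha, Nat.cast_mul] at this
      obtain ⟨ξ, hξ⟩ := h a _ this
      exact ⟨ξ, a, fun _ => ⟨ha.symm, hξ⟩⟩
    · exact ⟨0, 0, fun h => absurd h he⟩
  choose ξ a hξ using h1
  refine (Bdd.iSup fun e => S.bdd.cyc (ξ e) (a e)).of_le fun l w hw => ?_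
  rw [mem_pb] at hw
  rcases lt_or_ge l 0 with hl | hl
  · rw [PreSurf.R, Rg_neg (mul_neg_of_pos_of_neg (by exact_mod_cast hq) hl), Submodule.mem_bot,
      ← map_zero (psi p m c)] at hw
    rw [hc hw]
    exact Submodule.zero_mem _
  lift l to ℕ using hl
  rw [← Nat.cast_mul, PreSurf.R, Rg_eq_span] at hw
  suffices H : ∀ x ∈ Submodule.span k {w | ∃ c : 𝕂 → ℕ, ∑ γ ∈ S.Γ, c γ = p ^ m * l ∧
      w = ∏ γ ∈ S.Γ, γ ^ c γ}, ∃ v ∈ (⨆ e, cyc S.R (ξ e) (a e) : Fam k (ι → 𝕂)) l,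
        psi p m c v = x by
    obtain ⟨v, hv, hvw⟩ := H _ hw
    rwa [← hc hvw]
  intro x hx
  induction hx using Submodule.span_induction with
  | mem x hx =>
    obtain ⟨d, hd, rfl⟩ := hx
    rw [← Finset.sum_coe_sort] at hd
    rw [← Finset.prod_coe_sort S.Γ fun γ => γ ^ d γ]
    let e : S.Γ → Fin (p ^ m) := fun γ => ⟨d γ % p ^ m, Nat.mod_lt _ hq⟩
    have hs : p ^ m * ∑ γ : S.Γ, d γ / p ^ m + ∑ γ, (e γ : ℕ) = p ^ m * l := by
      rw [← hd, Finset.mul_sum, ← Finset.sum_add_distrib]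
      exact Finset.sum_congr rfl fun γ _ => Nat.div_add_mod _ _
    obtain ⟨h2, h3⟩ := hξ e ((Nat.dvd_add_right (dvd_mul_right _ _)).1 (hs ▸ dvd_mul_right _ _))
    rw [← h2, ← mul_add] at hs
    have h4 := Nat.eq_of_mul_eq_mul_left hq hs
    refine ⟨(∏ γ : S.Γ, (γ : 𝕂) ^ (d γ / p ^ m)) • ξ e,
      le_iSup (fun e => cyc S.R (ξ e) (a e)) e l (mem_cyc.2 ⟨_, ?_, rfl⟩), ?_⟩
    · rw [← h4, Nat.cast_add, add_sub_cancel_right]
      exact prod_mem_Rg _ _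
    · rw [psi_smul, h3, ← Finset.prod_pow, ← Finset.prod_mul_distrib]
      refine Finset.prod_congr rfl fun γ _ => ?_
      rw [← pow_mul, ← pow_add, Nat.div_add_mod']
  | zero => exact ⟨0, Submodule.zero_mem _, map_zero _⟩
  | add x y _ _ hx hy =>
    obtain ⟨v, hv, rfl⟩ := hx
    obtain ⟨v', hv', rfl⟩ := hy
    exact ⟨v + v', Submodule.add_mem _ hv hv', map_add _ _ _⟩
  | smul b x _ hx =>
    obtain ⟨v, hv, rfl⟩ := hx
    obtain ⟨b', rfl⟩ := IsAlgClosed.exists_pow_nat_eq b hq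
    exact ⟨b' • v, Submodule.smul_mem _ _ hv, psi_ksmul _ _⟩

end psi

section step
variable {E : Type} [AddCommGroup E] [Module k E] [Module 𝕂 E] [IsScalarTower k 𝕂 E]

omit [IsAlgClosed k] in
/-- A quotient generated by elements killed by `I` is no bigger than a sum of copies of `R / I`. -/
theorem hf_le_of_killed {W : Fam k E} (hW : S.Lat W) {I : Fam k 𝕂} (hI : I ≤ S.R) {κ : Type}
    (ξ : κ → E) (a : κ → ℤ) (h : ∀ e j, ∀ r ∈ I j, r • ξ e ∈ W (j + a e)) (s : Finset κ) (l : ℤ) :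
    S.Lat (W ⊔ ⨆ e ∈ s, cyc S.R (ξ e) (a e)) ∧ hf (W ⊔ ⨆ e ∈ s, cyc S.R (ξ e) (a e)) l ≤
      hf W l + ∑ e ∈ s, (hf S.R (l - a e) - hf I (l - a e)) := by
  classical
  induction s using Finset.induction_on with
  | empty => simpa using hW
  | insert e s he ih =>
    rw [Finset.iSup_insert, sup_comm (cyc _ _ _), ← sup_assoc, Finset.sum_insert he,
      PreSurf.hf_step ih.1]
    refine ⟨ih.1.sup (PreSurf.lat_cyc _ _), ?_⟩
    have : FiniteDimensional k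
        (S.colon (W ⊔ ⨆ e ∈ s, cyc S.R (ξ e) (a e)) (ξ e) (a e) (l - a e)) :=
      (PreSurf.lat_colon ih.1.stab _ _).bdd.fd _
    have h1 : hf I (l - a e) ≤
        hf (S.colon (W ⊔ ⨆ e ∈ s, cyc S.R (ξ e) (a e)) (ξ e) (a e)) (l - a e) :=
      hf_mono fun r hr => S.mem_colon.2 ⟨hI _ hr, Submodule.mem_sup_left (h e _ r hr)⟩
    linarith [ih.2]

end step

omit [IsAlgClosed k] in
theorem pow_not_mem {P : Fam k 𝕂} (hP : S.PrimeF P) {g : 𝕂} (hg : g ∈ S.R 2) (hgP : g ∉ P 2)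
    (N : ℕ) : g ^ N ∉ P (N * 2) := by
  induction N with
  | zero => simpa using hP.one
  | succ N ih =>
    intro h
    rw [pow_succ, Nat.cast_succ, add_mul, one_mul] at h
    exact (hP.mul _ _ _ _ (pow_mem_Rg hg N) hg h).elim ih hgP

omit [IsAlgClosed k] in
theorem cancel {P : Fam k 𝕂} (hP : S.PrimeF P) {g : 𝕂} (hg : g ∈ S.R 2) (hgP : g ∉ P 2)
    (N : ℕ) {j : ℤ} {r : 𝕂} (hr : r ∈ S.R j) (h : r * g ^ N ∈ P (j + N * 2)) : r ∈ P j :=
  (hP.mul _ _ _ _ hr (pow_mem_Rg hg N) h).resolve_right (pow_not_mem hP hg hgP N)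

section chart
variable (Pd : PData k S.Γ p) (c : Pd.ι) (m : ℕ)

/-- The `p`-basis of a chart. -/
def bas (i : Fin (p ^ m) × Fin (p ^ m)) : 𝕂 := Pd.σ c 0 ^ (i.1 : ℕ) * Pd.σ c 1 ^ (i.2 : ℕ)

omit [IsAlgClosed k] in
theorem psi_inj : Function.Injective (psi p m (bas Pd c m)) :=
  (injective_iff_map_eq_zero _).2 (Pd.ind c m)

theorem exists_psi {V : Fam k 𝕂} (hV : Stab S.R V) {l : ℤ} {w : 𝕂}
    (hw : w ∈ S.fri p m V ((p ^ m : ℕ) * l)) :
    ∃ ξ, psi p m (bas Pd c m) ξ = w ∧ ∀ i, ξ i ∈ loc (Pd.u c) (Pd.u' c) V l := by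
  have h1 := (loc_zpow_smul (Pd.u_mem c) (Pd.u'_mem c) (stab_frobF (fr1 𝕂 p m) (p ^ m) V)
    (Pd.u_ne c) (Pd.u'_ne c) (-((p ^ m : ℕ) * l))).2 (loc_of_mem hw)
  rw [add_neg_cancel, mem_loc_frobF Pd c (isFrob_fr1 m).smul hV] at h1
  obtain ⟨f, hf, h2⟩ := h1
  refine ⟨Pd.u c ^ l • f, ?_, fun i => ?_⟩
  · have h3 : psi p m (bas Pd c m) f = Pd.u c ^ (-((p ^ m : ℕ) * l)) • w := h2.symm
    rw [psi_smul, h3, smul_eq_mul, ← zpow_natCast, ← zpow_mul, ← mul_assoc,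
      ← zpow_add₀ (Pd.u_ne c), mul_comm l, add_neg_cancel, zpow_zero, one_mul]
  · have := (loc_zpow_smul (Pd.u_mem c) (Pd.u'_mem c) hV (Pd.u_ne c) (Pd.u'_ne c) l).2 (hf i)
    rwa [zero_add] at this

theorem mem_loc_of_pb {V : Fam k 𝕂} (hV : Stab S.R V) {l : ℤ}
    {ξ : Fin (p ^ m) × Fin (p ^ m) → 𝕂} (h : ξ ∈ pb p m (bas Pd c m) (S.fri p m V) l)
    (i : Fin (p ^ m) × Fin (p ^ m)) : ξ i ∈ loc (Pd.u c) (Pd.u' c) V l := by
  obtain ⟨ξ', h1, h2⟩ := exists_psi Pd c m hV h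
  rw [← psi_inj Pd c m h1]
  exact h2 i

omit [IsAlgClosed k] in
theorem pow_mem_loc {u u' : 𝕂} (hu : u ∈ S.Γ) (hu' : u' ∈ S.Γ) {x : 𝕂} (hx : x ∈ loc u u' S.R 0)
    (n : ℕ) : x ^ n ∈ loc u u' S.R 0 := by
  induction n with
  | zero => exact loc_of_mem (by simpa using one_mem_Rg_zero)
  | succ n ih => simpa [pow_succ] using loc_smul hu hu' stab_Rg ih hx

omit [IsAlgClosed k] in
theorem exists_denom : ∃ M : ℕ, ∀ {V : Fam k 𝕂}, piF (Fin (p ^ m) × Fin (p ^ m))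
    (cyc V ((Pd.u c * Pd.u' c) ^ M) (M * 2)) ≤ pb p m (bas Pd c m) (S.fri p m V) := by
  obtain ⟨M, hM⟩ := loc_common (Pd.u_mem c) (Pd.u'_mem c) stab_Rg (m := fun _ => 0)
    (v := bas Pd c m) fun i => by
      simpa [bas] using loc_smul (Pd.u_mem c) (Pd.u'_mem c) stab_Rg
        (pow_mem_loc (Pd.u_mem c) (Pd.u'_mem c) (Pd.σ_mem c 0) i.1)
        (pow_mem_loc (Pd.u_mem c) (Pd.u'_mem c) (Pd.σ_mem c 1) i.2)
  refine ⟨M, fun {V} l w hw => ?_⟩
  rw [mem_pb, psi_apply]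
  refine Submodule.sum_mem _ fun i _ => ?_
  obtain ⟨r, hr, hw⟩ := mem_cyc.1 (mem_piF.1 hw i)
  have h1 := loc_pow_le (Pd.u_mem c) (Pd.u'_mem c) stab_Rg (hM i)
    (Nat.le_mul_of_pos_right M (pow_pos (Fact.out : p.Prime).pos m))
  have h2 := stab_frobF (S := S) (fr1 𝕂 p m) (p ^ m) V _ _ _ _ h1
    (mem_frobF (fr1 𝕂 p m) (p ^ m) hr)
  rw [← hw]
  convert h2 using 1
  · congr 1
    push_cast
    ring
  · simp only [smul_eq_mul, fr1_apply, mul_pow, pow_mul]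
    ring

end chart

omit [IsAlgClosed k] in
theorem fri_le {P : Fam k 𝕂} (hP : P ≤ S.R) (m : ℕ) : S.fri p m P ≤ S.R :=
  (frobF_mono _ _ hP).trans (PreSurf.fri_R m).le

/-- The main estimate. -/
theorem main (Pd : PData k S.Γ p) {P : Fam k 𝕂} (hP : S.PrimeF P) (c : Pd.ι)
    (hc : Pd.u c * Pd.u' c ∉ P 2) (m : ℕ) :
    ∃ (M M' n : ℕ) (a : Fin n → ℤ), ∀ l : ℤ,
      0 ≤ (hf S.R ((p ^ m : ℕ) * l) - hf (S.fri p m P) ((p ^ m : ℕ) * l)) -
        ((p : ℝ) ^ m) ^ 2 * (hf S.R (l - M * 2) - hf P (l - M * 2)) ∧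
      (hf S.R ((p ^ m : ℕ) * l) - hf (S.fri p m P) ((p ^ m : ℕ) * l)) -
        ((p : ℝ) ^ m) ^ 2 * (hf S.R (l - M * 2) - hf P (l - M * 2)) ≤
        ∑ e, ((hf S.R (l - a e) - hf P (l - a e)) -
          (hf S.R (l - a e - M' * 2) - hf P (l - a e - M' * 2))) := by
  set g := Pd.u c * Pd.u' c with hgdef
  have hg : g ∈ S.R 2 := mul_mem_Rg (mem_Rg_one (Pd.u_mem c)) (mem_Rg_one (Pd.u'_mem c))
  have hg0 : g ≠ 0 := mul_ne_zero (Pd.u_ne c) (Pd.u'_ne c)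
  obtain ⟨M, hM⟩ := exists_denom Pd c m
  set X := pb p m (bas Pd c m) S.R with hX
  set Y := pb p m (bas Pd c m) (S.fri p m P) with hY
  set U := piF (Fin (p ^ m) × Fin (p ^ m)) (cyc S.R (g ^ M) (M * 2)) with hU
  have hXs : ∀ l : ℤ, ∀ w ∈ S.R ((p ^ m : ℕ) * l), ∃ ξ, psi p m (bas Pd c m) ξ = w :=
    fun l w hw => (exists_psi Pd c m stab_Rg (by rwa [PreSurf.fri_R])).imp fun _ h => h.1
  have hXl : S.Lat X := ⟨stab_pb stab_Rg, bdd_pb (psi_inj Pd c m) hXs⟩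
  have hYX : Y ≤ X := fun l w hw => fri_le hP.le m _ hw
  have hUX : U ≤ X := by
    have := hM (V := S.R)
    rwa [PreSurf.fri_R] at this
  have hYl : S.Lat Y := hXl.of_le (stab_pb (stab_frobF _ _ _)) hYX
  have hUl : S.Lat U := (PreSurf.lat_cyc _ _).piF _
  have hUY : U ⊓ Y = piF (Fin (p ^ m) × Fin (p ^ m)) (cyc P (g ^ M) (M * 2)) := by
    refine le_antisymm (fun l w hw => mem_piF.2 fun i => ?_) (le_inf (fun l w hw => ?_) hM)
    · obtain ⟨r, hr, hrw⟩ := mem_cyc.1 (mem_piF.1 hw.1 i)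
      obtain ⟨N, hN⟩ := mem_loc_of_pb Pd c m hP.stab hw.2 i
      refine mem_cyc.2 ⟨r, cancel hP hg hc (M + N) hr ?_, hrw⟩
      rw [← hrw] at hN
      convert hN using 1
      · congr 1
        push_cast
        ring
      · simp only [smul_eq_mul, hgdef]
        ring
    · refine mem_piF.2 fun i => ?_
      obtain ⟨r, hr, hrw⟩ := mem_cyc.1 (mem_piF.1 hw i)
      exact mem_cyc.2 ⟨r, hP.le _ hr, hrw⟩
  obtain ⟨n, ξ, a, hξ, hgen⟩ := hXl.fg
  obtain ⟨N, hN⟩ := loc_common (Pd.u_mem c) (Pd.u'_mem c) stab_Rg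
    (ι := Fin n × (Fin (p ^ m) × Fin (p ^ m))) (m := fun e => a e.1) (v := fun e => ξ e.1 e.2)
    fun e => mem_loc_of_pb Pd c m stab_Rg (by rw [PreSurf.fri_R]; exact hξ e.1) e.2
  have hI : P ⊔ cyc S.R (g ^ (M + N)) ((M + N : ℕ) * 2) ≤ S.R :=
    sup_le hP.le (stab_Rg.cyc_le (pow_mem_Rg hg _))
  have hcol : S.colon P (g ^ (M + N)) ((M + N : ℕ) * 2) = P := by
    refine le_antisymm (fun j r hr => cancel hP hg hc (M + N) hr.1 (S.mem_colon.1 hr).2)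
      fun j r hr => S.mem_colon.2 ⟨hP.le _ hr, ?_⟩
    have := hP.stab _ _ _ _ (pow_mem_Rg hg (M + N)) hr
    rwa [smul_eq_mul, mul_comm _ r, add_comm _ j] at this
  have hkill : ∀ e j, ∀ r ∈ (P ⊔ cyc S.R (g ^ (M + N)) ((M + N : ℕ) * 2) : Fam k 𝕂) j,
      r • ξ e ∈ (U ⊔ Y) (j + a e) := by
    intro e j r hr
    obtain ⟨r₁, h₁, r₂, h₂, rfl⟩ := Submodule.mem_sup.1 hr
    rw [add_smul]
    refine Submodule.add_mem _ (Submodule.mem_sup_right ?_) (Submodule.mem_sup_left ?_)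
    · rw [hY, mem_pb, psi_smul, mul_comm (r₁ ^ _), mul_add, add_comm]
      exact stab_frobF (S := S) (fr1 𝕂 p m) (p ^ m) P _ _ _ _ (hξ e)
        (mem_frobF (fr1 𝕂 p m) (p ^ m) h₁)
    · obtain ⟨t, ht, rfl⟩ := mem_cyc.1 h₂
      refine mem_piF.2 fun i => mem_cyc.2 ⟨t * (g ^ N * ξ e i), ?_, ?_⟩
      · rw [show j + a e - M * 2 = j - (M + N : ℕ) * 2 + (a e + 2 * N) by push_cast; ring]
        exact mul_mem_Rg ht (hN (e, i))
      · simp only [smul_eq_mul, Pi.smul_apply]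
        ring
  refine ⟨M, M + N, n, a, fun l => ?_⟩
  have h1 := (hf_le_of_killed (hUl.sup hYl) hI ξ a hkill Finset.univ l).2
  simp only [Finset.mem_univ, iSup_pos, ← hgen, sup_eq_right.2 (sup_le hUX hYX),
    PreSurf.hf_step hP.lat, hcol] at h1
  have := hXl.bdd.fd l
  have := hUl.bdd.fd l
  have := hYl.bdd.fd l
  have := (PreSurf.lat_cyc (S := S) (g ^ M) (M * 2)).bdd.fd l
  have := (hP.lat.bdd.cyc (g ^ M) (M * 2)).fd l
  have h2 : hf (U ⊔ Y) l ≤ hf X l := hf_mono (sup_le hUX hYX l)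
  have h3 := hf_sup_add_inf U Y l
  rw [hUY, hf_piF, hf_cyc _ (pow_ne_zero M hg0)] at h3
  have h4 : hf U l = _ := hf_piF _ _ l
  rw [hf_cyc _ (pow_ne_zero M hg0)] at h4
  have h5 : hf X l = _ := hf_pb (psi_inj Pd c m) (hXs l)
  have h6 : hf Y l = _ := hf_pb (psi_inj Pd c m) fun w hw => hXs l w (fri_le hP.le m _ hw)
  have h7 : (Fintype.card (Fin (p ^ m) × Fin (p ^ m)) : ℝ) = ((p : ℝ) ^ m) ^ 2 := by
    simp [sq]
  rw [h7] at h3 h4
  refine ⟨by linarith, le_trans (b := hf X l - hf (U ⊔ Y) l) (by linarith) ?_⟩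
  rw [sub_le_iff_le_add']
  refine h1.trans (le_of_eq ?_)
  congr 1
  exact Finset.sum_congr rfl fun e _ => by ring

end PrimeScale

open PrimeScale in
/-- Curves scale by `q`, points by `q ^ 2`. -/
theorem PreSurf.PrimeF.scale (Pd : PData k S.Γ p) {P : Fam k 𝕂} (hP : S.PrimeF P) (hne : P ≠ ⊥)
    (m : ℕ) : rk (S.fri p m P) = S.e ∧
      dg S.R - dg (S.fri p m P) = (p : ℝ) ^ m * (dg S.R - dg P) ∧
      (dg P = dg S.R → ch S.R - ch (S.fri p m P) = ((p : ℝ) ^ m) ^ 2 * (ch S.R - ch P)) := by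
  have hq : 0 < p ^ m := pow_pos (Fact.out : p.Prime).pos m
  have hq' : (0 : ℝ) < (p : ℝ) ^ m := by exact_mod_cast hq
  by_cases hall : ∀ c, Pd.u c * Pd.u' c ∈ P 2
  · have h1 : ∀ᶠ j in atTop, P j = S.R j := by
      filter_upwards [hP.lat.glue Pd.toCover] with j hj
      refine le_antisymm (hP.le j) fun w hw => hj w fun c => ⟨1, ?_⟩
      simpa [mul_comm w] using hP.stab _ _ _ _ hw (hall c)
    have h2 : ∀ᶠ j in atTop, S.fri p m P j = S.R j := by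
      filter_upwards [(hP.lat.fri (p := p) m).glue Pd.toCover] with j hj
      refine le_antisymm (fri_le hP.le m j) fun w hw => hj w fun c => ⟨p ^ m, ?_⟩
      have := stab_frobF (S := S) (fr1 𝕂 p m) (p ^ m) P _ _ _ _ hw
        (mem_frobF (fr1 𝕂 p m) (p ^ m) (hall c))
      rwa [fr1_apply, smul_eq_mul, mul_comm w, mul_comm _ (2 : ℤ)] at this
    obtain ⟨-, a2, a3⟩ := inv_congr' h1
    obtain ⟨b1, b2, b3⟩ := inv_congr' h2
    rw [a2, a3, b1, b2, b3]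
    simp [PreSurf.e]
  push Not at hall
  obtain ⟨c, hc⟩ := hall
  obtain ⟨M, M', n, a, h⟩ := main Pd hP c hc m
  have hD := S.lat_R.good.hasHP.sub hP.lat.good.hasHP
  rw [PreSurf.rk_ideal hP.stab hP.le hne, PreSurf.e, sub_self] at hD
  have hE := (S.lat_R.good.hasHP.sub (hP.lat.fri (p := p) m).good.hasHP).vero hq 0
  have hD1 := (hD.shift (-(M * 2))).const_mul (((p : ℝ) ^ m) ^ 2)
  have hS := HasHP.sum Finset.univ fun e _ => (hD.shift (-a e)).sub (hD.shift (-a e - M' * 2))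
  simp only [add_zero, Int.cast_zero, mul_zero, zero_mul, zero_div, zero_add, sub_self,
    Finset.sum_const_zero, ← sub_eq_add_neg, ← add_sub_assoc, ne_eq, OfNat.ofNat_ne_zero,
    not_false_eq_true, zero_pow, Nat.cast_pow] at hE hD1 hS h
  have hS' := hS
  simp only [HasHP, zero_mul, zero_div, zero_add] at hS'
  obtain ⟨e1, e2⟩ := hE.eq_of_bounded hD1 _ (by
    filter_upwards [hS'] with l hl
    rw [abs_of_nonneg (h l).1]
    exact hl ▸ (h l).2)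
  refine ⟨(sub_eq_zero.1 ((mul_eq_zero.1 e1).resolve_left (by positivity))).symm,
    mul_left_cancel₀ hq'.ne' (by rw [e2]; ring), fun hd => ?_⟩
  simp only [hd, sub_self, zero_mul, zero_add, Finset.sum_const_zero] at hS' hD1
  refine (hE.unique (hD1.congr ?_)).2.2
  filter_upwards [hS'] with l hl
  have h1 := (h l).1
  have h2 := (h l).2
  rw [hl] at h2
  linarith

end Crest.Agent.R169
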