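import Crest.Agent.R169.Rank

/-! # Auxiliary lemmas for `Sat.lean` -/

set_option autoImplicit false
open Filter Module

namespace Crest.Agent.R169

variable {k : Type} [Field k] {𝕃 : Type} [Field 𝕃] [Algebra k 𝕃] {y z : 𝕃}
  {E : Type} [AddCommGroup E] [Module k E] [Module 𝕃 E] [IsScalarTower k 𝕃 E] {V : Fam k E}

/-- Total degree is additive: cancel a power of `y`. -/
theorem sat_mem_Apol_of_pow_mul (hind : AlgebraicIndependent k ![y, z]) {j : ℤ} {M : ℕ} {f : 𝕃}
    (h1 : f ∈ Apol k y z (j + M)) (h2 : y ^ M * f ∈ Apol k y z (j + M)) : f ∈ Apol k y z j := by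
  obtain ⟨F, -, rfl⟩ := mem_Apol_iff.1 h1
  obtain ⟨G, hG, hGe⟩ := mem_Apol_iff.1 h2
  have e : G = MvPolynomial.X 0 ^ M * F := by
    apply hind
    change MvPolynomial.aeval ![y, z] G = MvPolynomial.aeval ![y, z] (MvPolynomial.X 0 ^ M * F)
    rw [hGe]; simp
  by_cases hF : F = 0
  · exact mem_Apol_iff.2 ⟨F, Or.inl hF, rfl⟩
  have hX : (MvPolynomial.X 0 ^ M : MvPolynomial (Fin 2) k) ≠ 0 :=
    pow_ne_zero _ (MvPolynomial.X_ne_zero _)
  refine mem_Apol_iff.2 ⟨F, Or.inr ?_, rfl⟩
  rcases hG with hG | hG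
  · exact absurd (e ▸ hG) (mul_ne_zero hX hF)
  · rw [e, MvPolynomial.totalDegree_mul_of_isDomain hX hF, MvPolynomial.totalDegree_X_pow] at hG
    push_cast at hG
    omega

/-- If all polynomials of degree `M` push `w` into `V`, so do those of degree `M + 1`. -/
theorem sat_succ (hV : Stab (Apol k y z) V) {m : ℤ} {w : E} {M : ℕ}
    (h : ∀ r ∈ Apol k y z M, r • w ∈ V (m + M)) :
    ∀ r ∈ Apol k y z (M + 1 : ℕ), r • w ∈ V (m + (M + 1 : ℕ)) := by
  intro r hr
  have hr' : r ∈ Apol k y z ((M : ℤ) + 1) := by simpa using hr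
  obtain ⟨a, ha, b, hb, c, hc, rfl⟩ := (Apol_succ (Int.natCast_nonneg M)).1 hr'
  have e : m + ((M + 1 : ℕ) : ℤ) = 1 + (m + M) := by push_cast; ring
  rw [e, add_smul, add_smul, mul_smul, mul_smul]
  refine Submodule.add_mem _ (Submodule.add_mem _ ?_ ?_) ?_
  · exact hV.mono_deg (by omega) (h a ha)
  · exact hV _ _ _ _ y_mem_Apol (h b hb)
  · exact hV _ _ _ _ z_mem_Apol (h c hc)

theorem sat_mono (hV : Stab (Apol k y z) V) {m : ℤ} {w : E} {M M' : ℕ} (hM : M ≤ M')
    (h : ∀ r ∈ Apol k y z M, r • w ∈ V (m + M)) :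
    ∀ r ∈ Apol k y z M', r • w ∈ V (m + M') := by
  induction M', hM using Nat.le_induction with
  | base => exact h
  | succ n _ ih => exact sat_succ hV ih

/-- The saturation of a stable family. -/
def satF (hV : Stab (Apol k y z) V) : Fam k E := fun m =>
  { carrier := {w | ∃ M : ℕ, ∀ r ∈ Apol k y z M, r • w ∈ V (m + M)}
    add_mem' := by
      rintro a b ⟨M, hM⟩ ⟨N, hN⟩
      refine ⟨max M N, fun r hr => ?_⟩
      rw [smul_add]
      exact Submodule.add_mem _ (sat_mono hV (le_max_left M N) hM r hr)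
        (sat_mono hV (le_max_right M N) hN r hr)
    zero_mem' := ⟨0, fun r _ => by rw [smul_zero]; exact Submodule.zero_mem _⟩
    smul_mem' := by
      rintro c a ⟨M, hM⟩
      refine ⟨M, fun r hr => ?_⟩
      have : r • c • a = c • r • a := by
        rw [← algebraMap_smul 𝕃 c a, ← algebraMap_smul 𝕃 c (r • a), smul_smul, smul_smul, mul_comm]
      rw [this]
      exact Submodule.smul_mem _ c (hM r hr) }

theorem mem_satF (hV : Stab (Apol k y z) V) {m : ℤ} {w : E} :
    w ∈ satF hV m ↔ ∃ M : ℕ, ∀ r ∈ Apol k y z M, r • w ∈ V (m + M) := Iff.rfl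

theorem stab_satF (hV : Stab (Apol k y z) V) : Stab (Apol k y z) (satF hV) := by
  rintro i j s w hs ⟨M, hM⟩
  refine ⟨M, fun r hr => ?_⟩
  rw [smul_smul, mul_comm, mul_smul, add_assoc]
  exact hV _ _ _ _ hs (hM r hr)

theorem sat_ratFn (hK : RatFn k y z) (hV : IsLat y z V) :
    ∀ᶠ m : ℤ in atTop, ∀ w : E, (∃ M : ℕ, ∀ r ∈ Apol k y z M, r • w ∈ V (m + M)) → w ∈ V m := by
  obtain ⟨n, v, l, c, g, hv, hg, -, hle⟩ := hV.exists_free hK
  have hb : satF hV.stab ≤ ⨆ i, cyc (Apol k y z) (g • v i) c := by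
    rintro m w ⟨M, hM⟩
    have h1 := hle _ (hM 1 (one_mem_Apol (Int.natCast_nonneg M)))
    have hy : y ^ M ∈ Apol k y z M := by
      have := mon_mem_Apol (k := k) (y := y) (z := z) (a := M) (b := 0) (j := M) (by simp)
      simpa using this
    have h2 := hle _ (hM _ hy)
    rw [one_smul] at h1
    obtain ⟨r, hr, e1⟩ := (mem_iSup_cyc _ _ (fun _ => c) _ _).1 h1
    obtain ⟨r', hr', e2⟩ := (mem_iSup_cyc _ _ (fun _ => c) _ _).1 h2
    have e : ∀ i, y ^ M * r i = r' i := by
      have h0 : ∑ i, ((y ^ M * r i - r' i) * g) • v i = 0 := by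
        have : ∑ i, ((y ^ M * r i - r' i) * g) • v i =
            y ^ M • ∑ i, r i • g • v i - ∑ i, r' i • g • v i := by
          rw [Finset.smul_sum, ← Finset.sum_sub_distrib]
          refine Finset.sum_congr rfl fun i _ => ?_
          rw [sub_mul, sub_smul, mul_smul, mul_smul, mul_smul]
        rw [this, ← e1, ← e2, sub_self]
      intro i
      have := Fintype.linearIndependent_iff.1 hv _ h0 i
      exact sub_eq_zero.1 ((mul_eq_zero.1 this).resolve_right hg)
    refine (mem_iSup_cyc _ _ (fun _ => c) _ _).2 ⟨r, fun i => ?_, e1⟩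
    have em : m + M - c = m - c + M := by ring
    refine sat_mem_Apol_of_pow_mul hK.ind (M := M) ?_ ?_
    · rw [← em]; exact hr i
    · rw [← em, e i]; exact hr' i
  have hL : IsLat y z (satF hV.stab) :=
    ⟨stab_satF _, bdd_of_le_iSup (fun i => g • v i) (fun _ => c) hb⟩
  have := hL.eventually_le hV.stab fun l w hw => hw
  filter_upwards [this] with m hm w hw using hm hw

/-- If `y, z` are algebraically dependent, `Apol j` has dimension `O(j)`. -/
theorem sat_finrank_Apol_le (hdep : ¬ AlgebraicIndependent k ![y, z]) :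
    ∃ D : ℕ, ∀ j : ℕ, finrank k (Apol k y z j) ≤ D * (j + 1) := by
  classical
  rw [algebraicIndependent_iff] at hdep
  push Not at hdep
  obtain ⟨F, hF0, hF⟩ := hdep
  set d : Fin 2 →₀ ℕ := MonomialOrder.degLex.degree F with hd
  refine ⟨d 0 + d 1, fun j => ?_⟩
  set T : Finset (ℕ × ℕ) :=
    Finset.range (d 0) ×ˢ Finset.range (j + 1) ∪ Finset.range (j + 1) ×ˢ Finset.range (d 1) with hT
  have hle : Apol k y z j ≤
      Submodule.span k ((T.image fun p : ℕ × ℕ => y ^ p.1 * z ^ p.2 : Finset 𝕃) : Set 𝕃) := by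
    intro w hw
    obtain ⟨f, hf, rfl⟩ := mem_Apol_iff.1 hw
    have hfj : f.totalDegree ≤ j := by
      rcases hf with rfl | hf
      · simp
      · exact_mod_cast hf
    have hu : IsUnit (MonomialOrder.degLex.leadingCoeff F) :=
      (MonomialOrder.leadingCoeff_ne_zero_iff.2 hF).isUnit
    obtain ⟨g, r, e, h1, h2⟩ := MonomialOrder.div_single hu f
    have h3 := MvPolynomial.degLex_totalDegree_monotone h1
    have hr : r.totalDegree ≤ j := by
      have : r = f - F * g := by rw [e]; ring
      rw [this]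
      exact (MvPolynomial.totalDegree_sub _ _).trans (max_le hfj (h3.trans hfj))
    have e2 : MvPolynomial.aeval ![y, z] f = MvPolynomial.aeval ![y, z] r := by
      rw [e, map_add, map_mul, hF0, mul_zero, zero_add]
    rw [e2, r.as_sum, map_sum]
    refine Submodule.sum_mem _ fun c hc => ?_
    rw [MvPolynomial.aeval_monomial, ← Algebra.smul_def]
    refine Submodule.smul_mem _ _ (Submodule.subset_span ?_)
    have hc1 : c 0 + c 1 ≤ j := by
      have := (MvPolynomial.le_totalDegree hc).trans hr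
      rwa [Finsupp.sum_fintype _ _ (fun _ => rfl), Fin.sum_univ_two] at this
    have hc2 : c 0 < d 0 ∨ c 1 < d 1 := by
      by_contra hcon
      push Not at hcon
      refine h2 c hc fun i => ?_
      fin_cases i
      · exact hcon.1
      · exact hcon.2
    rw [Finset.coe_image]
    refine ⟨(c 0, c 1), ?_, ?_⟩
    · simp only [hT, Finset.coe_union, Finset.coe_product, Finset.coe_range, Set.mem_union,
        Set.mem_prod, Set.mem_Iio]
      omega
    · rw [Finsupp.prod_fintype _ _ (fun _ => pow_zero _), Fin.prod_univ_two]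
      rfl
  calc finrank k (Apol k y z j) ≤ _ := Submodule.finrank_mono hle
    _ ≤ (T.image fun p : ℕ × ℕ => y ^ p.1 * z ^ p.2).card := finrank_span_finset_le_card _
    _ ≤ T.card := Finset.card_image_le
    _ ≤ (d 0 + d 1) * (j + 1) := by
      refine (Finset.card_union_le _ _).trans ?_
      simp only [Finset.card_product, Finset.card_range]
      exact le_of_eq (by ring)

theorem sat_finrank_biSup_le {ι : Type} (s : Finset ι) (U : ι → Submodule k E) (B : ℕ)
    (hfd : ∀ i, FiniteDimensional k (U i)) (h : ∀ i, finrank k (U i) ≤ B) :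
    finrank k (⨆ i ∈ s, U i : Submodule k E) ≤ s.card * B := by
  classical
  rw [← Finset.sup_eq_iSup]
  induction s using Finset.induction_on with
  | empty => simp
  | insert a s ha ih =>
    rw [Finset.sup_insert, Finset.card_insert_of_notMem ha]
    have := Submodule.finrank_add_le_finrank_add_finrank (U a) (s.sup U)
    have := h a
    nlinarith

/-- Products of elements of `Rg`. -/
theorem sat_prod_mem_Rg {Γ : Finset 𝕃} {ι : Type} (s : Finset ι) (a : ι → 𝕃) (d : ι → ℤ)
    (h : ∀ i ∈ s, a i ∈ Rg k Γ (d i)) : ∏ i ∈ s, a i ∈ Rg k Γ (∑ i ∈ s, d i) := by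
  classical
  induction s using Finset.induction_on with
  | empty => simpa using one_mem_Rg_zero
  | insert b s hb ih =>
    rw [Finset.prod_insert hb, Finset.sum_insert hb]
    exact mul_mem_Rg (h b (Finset.mem_insert_self _ _))
      (ih fun i hi => h i (Finset.mem_insert_of_mem hi))

end Crest.Agent.R169
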