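import Crest.Agent.R169.Lat

/-!
# Row 169: abstract polarised surfaces, Frobenius pull-back, duality (definitions)

`S.R j` is the (dehomogenised) degree `j` part of a three-dimensional graded domain generated in
degree one by `Γ` and finite over `k[x,y,z]`.
-/

set_option autoImplicit false
open Filter Module IntermediateField

namespace Crest.Agent.R169

/-- A graded domain generated by `Γ ∋ 1` in degree one, finite over `k[1, y, z]`. -/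
structure PreSurf (k 𝕃 : Type) [Field k] [Field 𝕃] [Algebra k 𝕃] where
  Γ : Finset 𝕃
  y : 𝕃
  z : 𝕃
  one_mem : (1 : 𝕃) ∈ Γ
  y_mem : y ∈ Rg k Γ 1
  z_mem : z ∈ Rg k Γ 1
  ind : AlgebraicIndependent k ![y, z]
  bdd : Bdd y z (Rg k Γ)

/-- A `PreSurf` inside its function field. -/
structure Surf (k 𝕂 : Type) [Field k] [Field 𝕂] [Algebra k 𝕂] extends PreSurf k 𝕂 where
  gen : IntermediateField.adjoin k (Γ : Set 𝕂) = ⊤

section basic
variable {k 𝕃 : Type} [Field k] [Field 𝕃] [Algebra k 𝕃]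
  {E : Type} [AddCommGroup E] [Module k E] [Module 𝕃 E] [IsScalarTower k 𝕃 E]
  {E' : Type} [AddCommGroup E'] [Module k E'] [Module 𝕃 E'] [IsScalarTower k 𝕃 E']

namespace PreSurf
variable (S : PreSurf k 𝕃)

/-- The graded ring. -/
abbrev R : Fam k 𝕃 := Rg k S.Γ

/-- Finitely generated graded torsion-free `R`-modules. -/
structure Lat (V : Fam k E) : Prop where
  stab : Stab S.R V
  bdd : Bdd S.y S.z V

/-- The degree `H²` of the polarisation. -/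
noncomputable def e : ℝ := rk S.R
/-- The centre of symmetry `K·H / (2 H²)` of the Hilbert polynomial of `R`. -/
noncomputable def ctr : ℝ := -dg S.R / S.e
/-- Minus the minimum of the Hilbert polynomial of `R`, divided by `H²`. -/
noncomputable def κ : ℝ := -HP S.R S.ctr / S.e
/-- The normalised degree `c₁·H`. -/
noncomputable def DD (V : Fam k E) : ℝ := dg V + S.ctr * rk V
/-- The normalised constant term (`ch₂` when `K` is proportional to `H`). -/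
noncomputable def SS (V : Fam k E) : ℝ := HP V S.ctr + S.κ * rk V
/-- Minus the discriminant plus Hodge index defect. -/
noncomputable def Δ (V : Fam k E) : ℝ := S.SS V - S.DD V ^ 2 / (2 * rk V)

/-- Slope window in terms of the normalised degree. -/
def DWin (V : Fam k E) (α β : ℝ) : Prop :=
  ∀ F : Submodule 𝕃 E, S.DD (cut V F) ≤ β * rk (cut V F) ∧
    α * (rk V - rk (cut V F)) ≤ S.DD V - S.DD (cut V F)

/-- The colon ideal `(U : v)` for `v` placed in degree `l`. -/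
def colon (U : Fam k E) (v : E) (l : ℤ) : Fam k 𝕃 := fun j =>
  S.R j ⊓ (U (j + l)).comap ((LinearMap.toSpanSingleton 𝕃 E v).restrictScalars k)

theorem mem_colon {U : Fam k E} {v : E} {l j : ℤ} {r : 𝕃} :
    r ∈ S.colon U v l j ↔ r ∈ S.R j ∧ r • v ∈ U (j + l) := Iff.rfl

/-- Homogeneous prime ideals. -/
structure PrimeF (P : Fam k 𝕃) : Prop where
  le : P ≤ S.R
  stab : Stab S.R P
  one : (1 : 𝕃) ∉ P 0
  mul : ∀ (i j : ℤ) (a b : 𝕃), a ∈ S.R i → b ∈ S.R j → a * b ∈ P (i + j) → a ∈ P i ∨ b ∈ P j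

end PreSurf

/-- Frobenius pull-back along a `q`-semilinear map `φ`: the `R`-module generated by the `φ v`,
with `φ v` in degree `q l` for `v` in degree `l`. -/
def frobF (Γ : Finset 𝕃) (φ : E →+ E') (q : ℕ) (V : Fam k E) : Fam k E' := fun m =>
  Submodule.span k {w | ∃ (l : ℤ) (v : E) (r : 𝕃), v ∈ V l ∧ r ∈ Rg k Γ (m - q * l) ∧ w = r • φ v}

variable (𝕃) in
/-- `φ` is `q`-semilinear and induces an injection `𝕃 ⊗_{Frob} E → E'`. -/
structure IsFrob (q : ℕ) (φ : E →+ E') : Prop where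
  smul : ∀ (a : 𝕃) (v : E), φ (a • v) = a ^ q • φ v
  ind : ∀ {ι : Type} [Fintype ι] (c : ι → 𝕃), (∀ a : ι → 𝕃, ∑ i, c i * a i ^ q = 0 → a = 0) →
    ∀ w : ι → E, ∑ i, c i • φ (w i) = 0 → w = 0

variable (k) in
/-- A finite cover of `Proj R` by the charts `u c * u' c ≠ 0`. -/
structure Cover (Γ : Finset 𝕃) where
  ι : Type
  [fin : Fintype ι]
  u : ι → 𝕃
  u' : ι → 𝕃
  u_mem : ∀ c, u c ∈ Γ
  u'_mem : ∀ c, u' c ∈ Γ
  u_ne : ∀ c, u c ≠ 0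
  u'_ne : ∀ c, u' c ≠ 0
  cover : ∀ γ ∈ Γ, ∀ M : ℕ, ∃ (K : ℕ) (r : ι → 𝕃), (∀ c, r c ∈ Rg k Γ ((K : ℤ) - 2 * M)) ∧
    γ ^ K = ∑ c, r c * (u c * u' c) ^ M

attribute [instance] Cover.fin

variable (k) in
/-- Logarithmic coordinates on the chart `u * u' ≠ 0`: the chart ring is spanned by monomials in
two coordinates `σ 0, σ 1` and three units `v j` whose `n`-th powers are affine in the `σ i ^ n`. -/
structure LogChart (Γ : Finset 𝕃) (n C : ℕ) (u u' : 𝕃) where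
  σ : Fin 2 → 𝕃
  v : Fin 3 → 𝕃
  co : Fin 3 → Fin 3 → k
  h : 𝕃
  σ_ne : ∀ i, σ i ≠ 0
  v_ne : ∀ j, v j ≠ 0
  h_ne : h ≠ 0
  σ_mem : ∀ i, σ i ∈ loc u u' (Rg k Γ) 0
  v_mem : ∀ j, v j ∈ loc u u' (Rg k Γ) 0
  vinv_mem : ∀ j, (v j)⁻¹ ∈ loc u u' (Rg k Γ) 0
  rel : ∀ j, v j ^ n = algebraMap k 𝕃 (co j 0) + co j 1 • σ 0 ^ n + co j 2 • σ 1 ^ n
  mono : ∀ γ ∈ Γ, ∃ (c : k) (a : Fin 2 → ℕ) (m : Fin 3 → ℤ),
    γ = u * c • ((∏ i, σ i ^ a i) * ∏ j, v j ^ m j)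
  mono' : ∃ (c : k) (m : Fin 3 → ℤ), u' = u * c • ∏ j, v j ^ m j
  h_mem : h ∈ Rg k Γ C
  hσ_mem : ∀ i j, h * σ i ^ n / v j ^ n ∈ Rg k Γ C

variable (k) in
/-- A cover by charts with `p`-bases. -/
structure PData (Γ : Finset 𝕃) (p : ℕ) extends Cover k Γ where
  σ : ι → Fin 2 → 𝕃
  σ_mem : ∀ c i, σ c i ∈ loc (u c) (u' c) (Rg k Γ) 0
  span : ∀ c (m : ℕ), ∀ w ∈ loc (u c) (u' c) (Rg k Γ) 0,
    ∃ f : Fin (p ^ m) × Fin (p ^ m) → 𝕃, (∀ i, f i ∈ loc (u c) (u' c) (Rg k Γ) 0) ∧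
      w = ∑ i, σ c 0 ^ (i.1 : ℕ) * σ c 1 ^ (i.2 : ℕ) * f i ^ p ^ m
  ind : ∀ c (m : ℕ) (f : Fin (p ^ m) × Fin (p ^ m) → 𝕃),
    ∑ i, σ c 0 ^ (i.1 : ℕ) * σ c 1 ^ (i.2 : ℕ) * f i ^ p ^ m = 0 → f = 0

variable (k) in
/-- Two derivations of bounded degree whose common kernel consists of `p`-th powers. -/
structure Derivs (Γ : Finset 𝕃) (p C : ℕ) where
  θ : Fin 2 → Derivation k 𝕃 𝕃
  mem : ∀ i (j : ℤ) (r : 𝕃), r ∈ Rg k Γ j → θ i r ∈ Rg k Γ (j + C)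
  ker : ∀ x : 𝕃, (∀ i, θ i x = 0) → ∃ y : 𝕃, y ^ p = x

end basic

section frob
variable {k 𝕂 : Type} [Field k] [Field 𝕂] [Algebra k 𝕂] (p : ℕ) [Fact p.Prime] [CharP 𝕂 p]

variable (𝕂) in
/-- The `p ^ m`-th power map on `𝕂`. -/
def fr1 (m : ℕ) : 𝕂 →+ 𝕂 := (iterateFrobenius 𝕂 p m).toAddMonoidHom

variable (𝕂) in
/-- The coordinatewise `p ^ m`-th power map. -/
def frv (ι : Type) (m : ℕ) : (ι → 𝕂) →+ (ι → 𝕂) where
  toFun v i := v i ^ p ^ m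
  map_zero' := by ext i; simp [(Fact.out : p.Prime).ne_zero]
  map_add' v w := by ext i; simp [add_pow_char_pow]

@[simp] theorem fr1_apply (m : ℕ) (a : 𝕂) : fr1 𝕂 p m a = a ^ p ^ m := rfl
@[simp] theorem frv_apply {ι : Type} (m : ℕ) (v : ι → 𝕂) (i : ι) :
    frv 𝕂 p ι m v i = v i ^ p ^ m := rfl

/-- Frobenius pull-back of a subspace. -/
def frS {ι : Type} (m : ℕ) (F : Submodule 𝕂 (ι → 𝕂)) : Submodule 𝕂 (ι → 𝕂) :=
  Submodule.span 𝕂 (frv 𝕂 p ι m '' F)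

namespace PreSurf
variable (S : PreSurf k 𝕂)

/-- Frobenius pull-back of a lattice in `𝕂 ^ ι`. -/
def fr {ι : Type} (m : ℕ) (V : Fam k (ι → 𝕂)) : Fam k (ι → 𝕂) :=
  frobF S.Γ (frv 𝕂 p ι m) (p ^ m) V

/-- Frobenius power of an ideal. -/
def fri (m : ℕ) (P : Fam k 𝕂) : Fam k 𝕂 := frobF S.Γ (fr1 𝕂 p m) (p ^ m) P

/-- Defect of the scaling of `SS` under Frobenius. -/
noncomputable def Phi {ι : Type} (m : ℕ) (V : Fam k (ι → 𝕂)) : ℝ :=
  S.SS (S.fr p m V) - ((p : ℝ) ^ m) ^ 2 * S.SS V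

/-- The same for ideals. -/
noncomputable def Phi1 (m : ℕ) (P : Fam k 𝕂) : ℝ :=
  S.SS (S.fri p m P) - ((p : ℝ) ^ m) ^ 2 * S.SS P

/-- Slope window for all Frobenius pull-backs. -/
def AWin {ι : Type} (V : Fam k (ι → 𝕂)) (α β : ℝ) : Prop :=
  ∀ m : ℕ, S.DWin (S.fr p m V) ((p : ℝ) ^ m * α) ((p : ℝ) ^ m * β)

end PreSurf
end frob

section dua
variable {k 𝕂 : Type} [Field k] [Field 𝕂] [Algebra k 𝕂]

/-- Duality data: a polynomial subring on elements `1, y, z` of degree `n` over which `R` is finite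
and a trace-like functional exhibiting `R(a) ⊆ ω`, where `a = 2 ctr`. -/
structure Dua (S : PreSurf k 𝕂) where
  n : ℕ
  y : 𝕂
  z : 𝕂
  a : ℤ
  lam : 𝕂 →ₗ[k⟮y, z⟯] k⟮y, z⟯
  n_pos : 0 < n
  y_mem : y ∈ S.R n
  z_mem : z ∈ S.R n
  ind : AlgebraicIndependent k ![y, z]
  bdd : ∀ i : ℤ, Bdd y z (vero S.R n i)
  lam_ne : lam ≠ 0
  lam_R : ∀ j : ℤ, ∀ r ∈ S.R (n * j + a), (lam r : 𝕂) ∈ Apol k y z (j - 3)
  a_eq : (a : ℝ) = 2 * S.ctr

namespace Dua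
variable {S : PreSurf k 𝕂} (D : Dua S)

theorem lam_smul (c : k) (r : 𝕂) : (D.lam (c • r) : 𝕂) = c • (D.lam r : 𝕂) := by
  rw [← algebraMap_smul k⟮D.y, D.z⟯ c r, map_smul, algebraMap_smul]; rfl

/-- The dualising module `ω`. -/
def om : Fam k 𝕂 := fun m =>
  { carrier := {φ | ∀ (l j : ℤ), ∀ r ∈ S.R l, l + m = D.n * j →
      (D.lam (φ * r) : 𝕂) ∈ Apol k D.y D.z (j - 3)}
    add_mem' := fun {a b} ha hb l j r hr h => by
      rw [add_mul, map_add]; exact Submodule.add_mem _ (ha l j r hr h) (hb l j r hr h)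
    zero_mem' := fun l j r _ _ => by rw [zero_mul, map_zero]; exact Submodule.zero_mem _
    smul_mem' := fun c a ha l j r hr h => by
      rw [smul_mul_assoc, D.lam_smul]; exact Submodule.smul_mem _ c (ha l j r hr h) }

/-- The dual lattice `Hom_R(V, ω)` inside `𝕂 ^ ι` (dot product pairing). -/
def rdual {ι : Type} [Fintype ι] (V : Fam k (ι → 𝕂)) : Fam k (ι → 𝕂) := fun m =>
  { carrier := {φ | ∀ (l j : ℤ), ∀ v ∈ V l, l + m = D.n * j →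
      (D.lam (φ ⬝ᵥ v) : 𝕂) ∈ Apol k D.y D.z (j - 3)}
    add_mem' := fun {a b} ha hb l j r hr h => by
      rw [add_dotProduct, map_add]; exact Submodule.add_mem _ (ha l j r hr h) (hb l j r hr h)
    zero_mem' := fun l j r _ _ => by rw [zero_dotProduct, map_zero]; exact Submodule.zero_mem _
    smul_mem' := fun c a ha l j r hr h => by
      rw [smul_dotProduct, D.lam_smul]; exact Submodule.smul_mem _ c (ha l j r hr h) }

theorem mem_om {m : ℤ} {φ : 𝕂} : φ ∈ D.om m ↔ ∀ (l j : ℤ), ∀ r ∈ S.R l, l + m = D.n * j →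
    (D.lam (φ * r) : 𝕂) ∈ Apol k D.y D.z (j - 3) := Iff.rfl

theorem mem_rdual {ι : Type} [Fintype ι] {V : Fam k (ι → 𝕂)} {m : ℤ} {φ : ι → 𝕂} :
    φ ∈ D.rdual V m ↔ ∀ (l j : ℤ), ∀ v ∈ V l, l + m = D.n * j →
      (D.lam (φ ⬝ᵥ v) : 𝕂) ∈ Apol k D.y D.z (j - 3) := Iff.rfl

end Dua

/-- The orthogonal complement for the dot product. -/
def dperp {ι : Type} [Fintype ι] (F : Submodule 𝕂 (ι → 𝕂)) : Submodule 𝕂 (ι → 𝕂) where
  carrier := {v | ∀ φ ∈ F, φ ⬝ᵥ v = 0}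
  add_mem' := fun {a b} ha hb φ hφ => by rw [dotProduct_add, ha φ hφ, hb φ hφ, add_zero]
  zero_mem' := fun φ _ => dotProduct_zero _
  smul_mem' := fun c a ha φ hφ => by rw [dotProduct_smul, ha φ hφ, smul_zero]

theorem mem_dperp {ι : Type} [Fintype ι] {F : Submodule 𝕂 (ι → 𝕂)} {v : ι → 𝕂} :
    v ∈ dperp F ↔ ∀ φ ∈ F, φ ⬝ᵥ v = 0 := Iff.rfl

end dua

section table
variable {k 𝕂 : Type} [Field k] [Field 𝕂] [Algebra k 𝕂]

/-- Dehomogenised evaluation of forms in `x, y, z`. -/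
noncomputable def PreSurf.ev (S : PreSurf k 𝕂) : MvPolynomial (Fin 3) k →ₐ[k] 𝕂 :=
  MvPolynomial.aeval ![1, S.y, S.z]

/-- A primitive element `θ` of degree `D` with its equations, and `N × N` matrices over
`k[x,y,z]` satisfying the same equations modulo `𝔪 ^ Sp`. -/
structure PTable (S : PreSurf k 𝕂) (e D dδ N Sp : ℕ) where
  θ : 𝕂
  δ : MvPolynomial (Fin 3) k
  a : Fin e → MvPolynomial (Fin 3) k
  Bθ : Matrix (Fin N) (Fin N) (MvPolynomial (Fin 3) k)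
  he : (e : ℝ) ≤ S.e
  hδ : δ.IsHomogeneous dδ
  δ_ne : δ ≠ 0
  hD : D * e ≤ dδ
  ha : ∀ l, (a l).IsHomogeneous (dδ + D * (e - l))
  relθ : S.ev δ * θ ^ e = ∑ l, S.ev (a l) * θ ^ (l : ℕ)
  matθ : ∀ i j, (δ • Bθ ^ e - ∑ l, a l • Bθ ^ (l : ℕ)) i j ∈ MvPolynomial.idealOfVars (Fin 3) k ^ Sp
  gen : ∀ γ ∈ S.Γ, ∃ (B : Matrix (Fin N) (Fin N) (MvPolynomial (Fin 3) k))
    (a' : Fin e → MvPolynomial (Fin 3) k), (∀ l, (a' l).IsHomogeneous (dδ + 1 - D * l)) ∧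
      S.ev δ * γ = ∑ l, S.ev (a' l) * θ ^ (l : ℕ) ∧
      ∀ i j, (δ • B - ∑ l, a' l • Bθ ^ (l : ℕ)) i j ∈ MvPolynomial.idealOfVars (Fin 3) k ^ Sp

end table

end Crest.Agent.R169
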