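import Crest.Agent.R169.RRank

/-! # task R169/TabA -/

set_option autoImplicit false
open Filter Module IntermediateField

namespace Crest.Agent.R169

variable {k 𝕂 : Type} [Field k] [Field 𝕂] [Algebra k 𝕂] (S : Surf k 𝕂)

theorem Surf.exists_primitive [CharZero k] :
    ∃ (D : ℕ) (θ : 𝕂), θ ∈ S.R D ∧ (k⟮S.y, S.z⟯)⟮θ⟯ = ⊤ := by
  have := S.finiteDimensional
  have : CharZero k⟮S.y, S.z⟯ := charZero_of_injective_algebraMap (algebraMap k _).injective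
  obtain ⟨α, hα⟩ := Field.exists_primitive_element k⟮S.y, S.z⟯ 𝕂
  obtain ⟨j, g, hg0, hg, hR⟩ := S.exists_div α
  obtain ⟨g', -, rfl⟩ := exists_adjoin_of_mem_Apol hg
  refine ⟨j, g' * α, hR, eq_top_iff.2 (hα.ge.trans (adjoin_simple_le_iff.2 ?_))⟩
  have h1 : (g' : 𝕂) ∈ (k⟮S.y, S.z⟯)⟮(g' : 𝕂) * α⟯ := IntermediateField.algebraMap_mem _ g'
  have h2 := mul_mem (inv_mem h1) (mem_adjoin_simple_self k⟮S.y, S.z⟯ ((g' : 𝕂) * α))
  rwa [inv_mul_cancel_left₀ hg0] at h2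

theorem Surf.exists_equations (D : ℕ) (θ : 𝕂) (hθ : (k⟮S.y, S.z⟯)⟮θ⟯ = ⊤) :
    ∃ (e dδ : ℕ) (δ : MvPolynomial (Fin 3) k) (a : Fin e → MvPolynomial (Fin 3) k)
      (a' : 𝕂 → Fin e → MvPolynomial (Fin 3) k), (e : ℝ) = S.e ∧ δ.IsHomogeneous dδ ∧ δ ≠ 0 ∧
      D * e ≤ dδ ∧ (∀ l, (a l).IsHomogeneous (dδ + D * (e - l))) ∧
      (∀ γ l, (a' γ l).IsHomogeneous (dδ + 1 - D * l)) ∧
      S.ev δ * θ ^ e = ∑ l, S.ev (a l) * θ ^ (l : ℕ) ∧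
      ∀ γ ∈ S.Γ, S.ev δ * γ = ∑ l, S.ev (a' γ l) * θ ^ (l : ℕ) := by
  have := S.finiteDimensional
  obtain ⟨pb, hpb⟩ : ∃ pb : PowerBasis k⟮S.y, S.z⟯ 𝕂, pb.gen = θ :=
    ⟨(adjoin.powerBasis (Algebra.IsIntegral.isIntegral θ)).map
      ((equivOfEq hθ).trans topEquiv), rfl⟩
  have hrep : ∀ w : 𝕂, w = ∑ l, (pb.basis.repr w l : 𝕂) * θ ^ (l : ℕ) := fun w => by
    conv_lhs => rw [← pb.basis.sum_repr w]
    refine Finset.sum_congr rfl fun l _ => ?_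
    rw [pb.basis_eq_pow, hpb]
    rfl
  obtain ⟨j, g, hg0, hg, hc⟩ := (ratFn_adjoin S.ind).exists_denom
    (ι := Option S.Γ × Fin pb.dim)
    (fun p => pb.basis.repr (p.1.elim (θ ^ pb.dim) Subtype.val) p.2)
  have hom : ∀ (w : k⟮S.y, S.z⟯) (d : ℕ), j ≤ d → w ∈ Apol k (yK k S.y S.z) (zK k S.y S.z) j →
      ∃ f : MvPolynomial (Fin 3) k, f.IsHomogeneous d ∧ S.ev f = w := fun w d hd hw =>
    mem_Apol_iff_homog.1 (Apol_mono (by exact_mod_cast hd) (mem_Apol_adjoin.1 hw))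
  obtain ⟨δ, hδ, hδe⟩ := hom g (j + D * pb.dim) (Nat.le_add_right _ _) hg
  choose a ha hae using fun l : Fin pb.dim =>
    hom _ (j + D * pb.dim + D * (pb.dim - l)) (by omega) (hc (none, l))
  have h' : ∀ (γ : 𝕂) (l : Fin pb.dim), ∃ f : MvPolynomial (Fin 3) k,
      f.IsHomogeneous (j + D * pb.dim + 1 - D * l) ∧
        (γ ∈ S.Γ → S.ev f = (g * pb.basis.repr γ l : k⟮S.y, S.z⟯)) := by
    intro γ l
    by_cases hγ : γ ∈ S.Γ
    · have h1 : D * l ≤ D * pb.dim := Nat.mul_le_mul_left D l.2.le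
      obtain ⟨f, h2, h3⟩ := hom _ (j + D * pb.dim + 1 - D * l) (by omega) (hc (some ⟨γ, hγ⟩, l))
      exact ⟨f, h2, fun _ => h3⟩
    · exact ⟨0, MvPolynomial.isHomogeneous_zero _ _ _, fun h => absurd h hγ⟩
  choose a' ha' hae' using h'
  refine ⟨pb.dim, j + D * pb.dim, δ, a, a', by rw [S.e_eq, pb.finrank], hδ, ?_,
    Nat.le_add_left _ _, ha, ha', ?_, fun γ hγ => ?_⟩
  · rintro rfl
    rw [map_zero] at hδe
    exact hg0 (Subtype.ext hδe.symm)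
  · rw [hδe, hrep (θ ^ pb.dim), Finset.mul_sum]
    refine Finset.sum_congr rfl fun l _ => ?_
    rw [hae, ← mul_assoc]
    rfl
  · rw [hδe]
    conv_lhs => rw [hrep γ, Finset.mul_sum]
    refine Finset.sum_congr rfl fun l _ => ?_
    rw [hae' γ l hγ, ← mul_assoc]
    rfl

end Crest.Agent.R169
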